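import Vale.Agent.Lib.P062.Part3.K_0

set_option maxRecDepth 100000
set_option linter.all false

namespace Vale.Agent.Lib.P062.Part3
open Vale.Agent.Lib.P062 Vale.Agent.Lib.P062.V2

noncomputable def s22 : Cert := .r (nat_lit 3773962426139582502986631646264793844340548718132172006003720938849361146555773143298476687185190218548467649586404736686934909373052214328507029863446909475543486300160) (.p (nat_lit 529) (.a (.p (nat_lit 530) (.a (.d (nat_lit 559) (nat_lit 531) (nat_lit 1551) (nat_lit 558) (nat_lit 1550)) (.a (.f (nat_lit 559) (nat_lit 558) (nat_lit 1550) (.f (nat_lit 495) (nat_lit 494) (nat_lit 3566) (.d (nat_lit 463) (nat_lit 431) (nat_lit 4527) (nat_lit 592) (nat_lit 4559)))) (.f (nat_lit 495) (nat_lit 494) (nat_lit 3566) (.f (nat_lit 496) (nat_lit 531) (nat_lit 3567) (.d (nat_lit 463) (nat_lit 431) (nat_lit 4527) (nat_lit 592) (nat_lit 7631))))))) (.a (.p (nat_lit 530) (.a (.d (nat_lit 559) (nat_lit 531) (nat_lit 1551) (nat_lit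 558) (nat_lit 1550)) (.a (.f (nat_lit 559) (nat_lit 558) (nat_lit 1550) (.f (nat_lit 495) (nat_lit 494) (nat_lit 3566) (.d (nat_lit 463) (nat_lit 431) (nat_lit 4527) (nat_lit 592) (nat_lit 4559)))) (.f (nat_lit 562) (nat_lit 563) (nat_lit 527) (.f (nat_lit 561) (nat_lit 526) (nat_lit 526) (.f (nat_lit 498) (nat_lit 499) (nat_lit 2543) (.d (nat_lit 466) (nat_lit 434) (nat_lit 5553) (nat_lit 593) (nat_lit 5585)))))))) (.a (.p (nat_lit 526) (.a (.d (nat_lit 561) (nat_lit 525) (nat_lit 525) (nat_lit 562) (nat_lit 526)) (.a (.f (nat_lit 497) (nat_lit 498) (nat_lit 2542) (.f (nat_lit 496) (nat_lit 525) (nat_lit 2541) (.d (nat_lit 465) (nat_lit 433) (nat_lit 5552) (nat_lit 592) (nat_lit 6608)))) (.f (nat_lit 561) (nat_lit 562) (nat_lit 526) (.f (nat_lit 497) (nat_lit 498) (nat_lit 2542) (.d (nat_lit 465) (nat_lit 433) (nat_lit 5552) (nat_lit 592) (nat_lit 5584))))))) (.p (nat_lit 530) (.a (.d (nat_lit 559) (nat_lit 531) (nat_lit 1551) (nat_lit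 558) (nat_lit 1550)) (.f (nat_lit 562) (nat_lit 563) (nat_lit 527) (.f (nat_lit 561) (nat_lit 526) (nat_lit 526) (.f (nat_lit 498) (nat_lit 499) (nat_lit 2543) (.d (nat_lit 466) (nat_lit 434) (nat_lit 5553) (nat_lit 593) (nat_lit 5585)))))))))))
noncomputable def s45 : Cert := .r (nat_lit 3773962427896970703980067733300160448905385381753147442840407123654343792107272198248276636528565486557800015660592592403154009030555443256434490679465860718068940931072) (.p (nat_lit 530) (.a (.f (nat_lit 562) (nat_lit 563) (nat_lit 527) (.f (nat_lit 561) (nat_lit 526) (nat_lit 526) (.f (nat_lit 498) (nat_lit 499) (nat_lit 2543) (.d (nat_lit 466) (nat_lit 434) (nat_lit 5553) (nat_lit 593) (nat_lit 5585))))) (.a (.f (nat_lit 498) (nat_lit 499) (nat_lit 2543) (.f (nat_lit 497) (nat_lit 526) (nat_lit 2542) (.f (nat_lit 562) (nat_lit 563) (nat_lit 527) (.d (nat_lit 465) (nat_lit 433) (nat_lit 4529) (nat_lit 594) (nat_lit 7633))))) (.a (.f (nat_lit 563)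 (nat_lit 562) (nat_lit 527) (.f (nat_lit 531) (nat_lit 564) (nat_lit 528) (.d (nat_lit 499) (nat_lit 498) (nat_lit 2543) (nat_lit 500) (nat_lit 2544)))) (.a (.f (nat_lit 562) (nat_lit 563) (nat_lit 527) (.f (nat_lit 526) (nat_lit 561) (nat_lit 526) (.d (nat_lit 494) (nat_lit 493) (nat_lit 3565) (nat_lit 495) (nat_lit 3566)))) (.f (nat_lit 498) (nat_lit 499) (nat_lit 2543) (.f (nat_lit 497) (nat_lit 526) (nat_lit 2542) (.f (nat_lit 592) (nat_lit 624) (nat_lit 6640) (.d (nat_lit 465) (nat_lit 433) (nat_lit 5552) (nat_lit 561) (nat_lit 5584))))))))))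
noncomputable def s46 : Cert := .r (nat_lit 3773962426139582502986631646264793844340548718132172006003720938849361146555773143298476687185190218548467649586404736686934909373052214328507029863446909475543486300160) (.p (nat_lit 529) (.a (.p (nat_lit 530) (.a (.d (nat_lit 559) (nat_lit 531) (nat_lit 1551) (nat_lit 558) (nat_lit 1550)) (.a (.f (nat_lit 559) (nat_lit 558) (nat_lit 1550) (.f (nat_lit 495) (nat_lit 494) (nat_lit 3566) (.d (nat_lit 463) (nat_lit 431) (nat_lit 4527) (nat_lit 592) (nat_lit 4559)))) (.f (nat_lit 562) (nat_lit 563) (nat_lit 527) (.f (nat_lit 561) (nat_lit 526) (nat_lit 526) (.f (nat_lit 498) (nat_lit 499) (nat_lit 2543) (.d (nat_lit 466) (nat_lit 434) (nat_lit 5553) (nat_lit 593) (nat_lit 5585)))))))) (.a (.p (nat_lit 526) (.a (.d (nat_lit 561) (nat_lit 525) (nat_lit 525) (nat_lit 562) (nat_lit 526)) (.a (.f (nat_lit 557) (nat_lit 558) (nat_lit 1549) (.f (nat_lit 525) (nat_lit 556) (nat_lit 1548) (.d (nat_lit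 493) (nat_lit 492) (nat_lit 3564) (nat_lit 494) (nat_lit 3565)))) (.f (nat_lit 561) (nat_lit 562) (nat_lit 526) (.f (nat_lit 497) (nat_lit 498) (nat_lit 2542) (.d (nat_lit 465) (nat_lit 433) (nat_lit 5552) (nat_lit 592) (nat_lit 5584))))))) (.a (.p (nat_lit 530) (.a (.d (nat_lit 559) (nat_lit 531) (nat_lit 1551) (nat_lit 558) (nat_lit 1550)) (.a (.f (nat_lit 559) (nat_lit 558) (nat_lit 1550) (.f (nat_lit 495) (nat_lit 494) (nat_lit 3566) (.d (nat_lit 463) (nat_lit 431) (nat_lit 4527) (nat_lit 592) (nat_lit 4559)))) (.f (nat_lit 498) (nat_lit 499) (nat_lit 2543) (.f (nat_lit 497) (nat_lit 526) (nat_lit 2542) (.f (nat_lit 562) (nat_lit 563) (nat_lit 527) (.d (nat_lit 465) (nat_lit 433) (nat_lit 4529) (nat_lit 594) (nat_lit 7633)))))))) (.a (.p (nat_lit 530) (.a (.d (nat_lit 559) (nat_lit 531) (nat_lit 1551) (nat_lit 558) (nat_lit 1550)) (.a (.f (nat_lit 559) (nat_lit 558) (nat_lit 1550) (.f (nat_lit 495) (nat_lit 494) (nat_lit 3566) (.d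 (nat_lit 463) (nat_lit 431) (nat_lit 4527) (nat_lit 592) (nat_lit 4559)))) (.f (nat_lit 563) (nat_lit 562) (nat_lit 527) (.f (nat_lit 531) (nat_lit 564) (nat_lit 528) (.d (nat_lit 499) (nat_lit 498) (nat_lit 2543) (nat_lit 500) (nat_lit 2544))))))) (.a (.p (nat_lit 530) (.a (.d (nat_lit 559) (nat_lit 531) (nat_lit 1551) (nat_lit 558) (nat_lit 1550)) (.f (nat_lit 562) (nat_lit 563) (nat_lit 527) (.f (nat_lit 561) (nat_lit 526) (nat_lit 526) (.f (nat_lit 498) (nat_lit 499) (nat_lit 2543) (.d (nat_lit 466) (nat_lit 434) (nat_lit 5553) (nat_lit 593) (nat_lit 5585))))))) (.a (.p (nat_lit 530) (.a (.d (nat_lit 559) (nat_lit 531) (nat_lit 1551) (nat_lit 558) (nat_lit 1550)) (.a (.f (nat_lit 559) (nat_lit 558) (nat_lit 1550) (.f (nat_lit 495) (nat_lit 494) (nat_lit 3566) (.d (nat_lit 463) (nat_lit 431) (nat_lit 4527) (nat_lit 592) (nat_lit 4559)))) (.f (nat_lit 562) (nat_lit 563) (nat_lit 527) (.f (nat_lit 526) (nat_lit 561) (nat_lit 526) (.d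 (nat_lit 494) (nat_lit 493) (nat_lit 3565) (nat_lit 495) (nat_lit 3566))))))) (.a (.p (nat_lit 530) (.a (.d (nat_lit 559) (nat_lit 531) (nat_lit 1551) (nat_lit 558) (nat_lit 1550)) (.a (.f (nat_lit 559) (nat_lit 558) (nat_lit 1550) (.f (nat_lit 495) (nat_lit 494) (nat_lit 3566) (.d (nat_lit 463) (nat_lit 431) (nat_lit 4527) (nat_lit 592) (nat_lit 4559)))) (.f (nat_lit 498) (nat_lit 499) (nat_lit 2543) (.f (nat_lit 497) (nat_lit 526) (nat_lit 2542) (.f (nat_lit 592) (nat_lit 624) (nat_lit 6640) (.d (nat_lit 465) (nat_lit 433) (nat_lit 5552) (nat_lit 561) (nat_lit 5584)))))))) s45))))))))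
noncomputable def s70 : Cert := .r (nat_lit 3773962426139582502986631646264793844340548718132172006003720938849361146555773143298476687185190218548467649586404736686934909373052214328507029863446909475543486300160) (.p (nat_lit 496) (.a (.p (nat_lit 561) (.a (.f (nat_lit 464) (nat_lit 593) (nat_lit 4560) (.d (nat_lit 432) (nat_lit 529) (nat_lit 4528) (nat_lit 559) (nat_lit 5551))) (.a (.f (nat_lit 464) (nat_lit 593) (nat_lit 4560) (.d (nat_lit 559) (nat_lit 432) (nat_lit 5551) (nat_lit 591) (nat_lit 5583))) (.a (.f (nat_lit 526) (nat_lit 525) (nat_lit 525) (.d (nat_lit 562) (nat_lit 529) (nat_lit 526) (nat_lit 559) (nat_lit 3598))) (.f (nat_lit 464) (nat_lit 593) (nat_lit 4560) (.f (nat_lit 529) (nat_lit 432) (nat_lit 4528) (.d (nat_lit 526) (nat_lit 525) (nat_lit 525) (nat_lit 562) (nat_lit 526)))))))) (.a (.p (nat_lit 464) (.a (.d (nat_lit 559) (nat_lit 432) (nat_lit 5551) (nat_lit 591) (nat_lit 5583)) (.f (nat_lit 463) (nat_lit 431)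 (nat_lit 7599) (.f (nat_lit 495) (nat_lit 592) (nat_lit 7631) (.f (nat_lit 465) (nat_lit 433) (nat_lit 6576) (.d (nat_lit 466) (nat_lit 467) (nat_lit 1487) (nat_lit 494) (nat_lit 1486))))))) (.p (nat_lit 497) (.a (.f (nat_lit 592) (nat_lit 465) (nat_lit 6608) (.d (nat_lit 495) (nat_lit 463) (nat_lit 7631) (nat_lit 624) (nat_lit 7663))) (.a (.f (nat_lit 526) (nat_lit 525) (nat_lit 2541) (.d (nat_lit 498) (nat_lit 495) (nat_lit 1518) (nat_lit 499) (nat_lit 1519))) (.f (nat_lit 526) (nat_lit 525) (nat_lit 2541) (.d (nat_lit 498) (nat_lit 499) (nat_lit 1519) (nat_lit 529) (nat_lit 2542)))))))))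
noncomputable def s94 : Cert := .r (nat_lit 3773962427896970703980067733300160448905385381753147442840407123654343792107272198248276636528565486557800015660592592403154009030555443256434490679465860718068940931072) (.p (nat_lit 496) (.a (.p (nat_lit 561) (.a (.d (nat_lit 464) (nat_lit 432) (nat_lit 4528) (nat_lit 593) (nat_lit 4560)) (.d (nat_lit 526) (nat_lit 525) (nat_lit 525) (nat_lit 562) (nat_lit 526)))) (.a (.p (nat_lit 464) (.a (.d (nat_lit 559) (nat_lit 432) (nat_lit 5551) (nat_lit 591) (nat_lit 5583)) (.a (.f (nat_lit 431) (nat_lit 463) (nat_lit 7599) (.f (nat_lit 432) (nat_lit 399) (nat_lit 7567) (.d (nat_lit 433) (nat_lit 401) (nat_lit 6544) (nat_lit 465) (nat_lit 6576)))) (.f (nat_lit 559) (nat_lit 591) (nat_lit 5583) (.f (nat_lit 463) (nat_lit 431) (nat_lit 7599) (.f (nat_lit 495) (nat_lit 592) (nat_lit 7631) (.d (nat_lit 558) (nat_lit 557) (nat_lit 2573) (nat_lit 590) (nat_lit 5582)))))))) (.p (nat_lit 526) (.a (.d (nat_lit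 561) (nat_lit 525) (nat_lit 525) (nat_lit 562) (nat_lit 526)) (.a (.f (nat_lit 493) (nat_lit 494) (nat_lit 3565) (.f (nat_lit 525) (nat_lit 492) (nat_lit 3564) (.d (nat_lit 524) (nat_lit 495) (nat_lit 2540) (nat_lit 559) (nat_lit 524)))) (.f (nat_lit 561) (nat_lit 562) (nat_lit 526) (.f (nat_lit 593) (nat_lit 625) (nat_lit 7664) (.f (nat_lit 558) (nat_lit 557) (nat_lit 1549) (.f (nat_lit 559) (nat_lit 594) (nat_lit 558) (.f (nat_lit 591) (nat_lit 623) (nat_lit 6639) (.d (nat_lit 494) (nat_lit 462) (nat_lit 4558) (nat_lit 493) (nat_lit 3565)))))))))))))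
noncomputable def s96 : Cert := .r (nat_lit 3773962426139582502986631646264793844340548718132172006003720938849361146555773143298476687185190218548467649586404736686934909373052214328507029863446909475543486300160) (.p (nat_lit 529) (.a (.p (nat_lit 530) (.a (.d (nat_lit 559) (nat_lit 531) (nat_lit 1551) (nat_lit 558) (nat_lit 1550)) (.a (.f (nat_lit 559) (nat_lit 558) (nat_lit 1550) (.f (nat_lit 495) (nat_lit 494) (nat_lit 3566) (.d (nat_lit 463) (nat_lit 431) (nat_lit 4527) (nat_lit 592) (nat_lit 4559)))) (.f (nat_lit 495) (nat_lit 494) (nat_lit 3566) (.f (nat_lit 496) (nat_lit 531) (nat_lit 3567) (.d (nat_lit 463) (nat_lit 431) (nat_lit 4527) (nat_lit 592) (nat_lit 7631))))))) (.a (.p (nat_lit 530) (.a (.d (nat_lit 559) (nat_lit 531) (nat_lit 1551) (nat_lit 558) (nat_lit 1550)) (.a (.f (nat_lit 559) (nat_lit 558) (nat_lit 1550) (.f (nat_lit 495) (nat_lit 494) (nat_lit 3566) (.d (nat_lit 463) (nat_lit 431) (nat_lit 4527) (nat_lit 592)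 (nat_lit 4559)))) (.f (nat_lit 562) (nat_lit 563) (nat_lit 527) (.f (nat_lit 561) (nat_lit 526) (nat_lit 526) (.f (nat_lit 498) (nat_lit 499) (nat_lit 2543) (.d (nat_lit 466) (nat_lit 434) (nat_lit 5553) (nat_lit 593) (nat_lit 5585)))))))) (.a s94 (.a (.p (nat_lit 530) (.a (.d (nat_lit 559) (nat_lit 531) (nat_lit 1551) (nat_lit 558) (nat_lit 1550)) (.f (nat_lit 562) (nat_lit 563) (nat_lit 527) (.f (nat_lit 561) (nat_lit 526) (nat_lit 526) (.f (nat_lit 498) (nat_lit 499) (nat_lit 2543) (.d (nat_lit 466) (nat_lit 434) (nat_lit 5553) (nat_lit 593) (nat_lit 5585))))))) (.p (nat_lit 530) (.a (.f (nat_lit 495) (nat_lit 494) (nat_lit 3566) (.f (nat_lit 496) (nat_lit 531) (nat_lit 3567) (.d (nat_lit 463) (nat_lit 431) (nat_lit 4527) (nat_lit 592) (nat_lit 7631)))) (.f (nat_lit 562) (nat_lit 563) (nat_lit 527) (.f (nat_lit 561) (nat_lit 526) (nat_lit 526) (.f (nat_lit 498) (nat_lit 499) (nat_lit 2543) (.d (nat_lit 466) (nat_lit 434) (nat_lit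 5553) (nat_lit 593) (nat_lit 5585))))))))))))
noncomputable def s103 : Cert := .r (nat_lit 3773962426139582502986631646264793844340548718132172006003720938849361146555773143298476687185190218548467649586404736686934909373052214328507029863446909475543486300160) (.p (nat_lit 529) (.a (.p (nat_lit 530) (.a (.d (nat_lit 559) (nat_lit 531) (nat_lit 1551) (nat_lit 558) (nat_lit 1550)) (.a (.f (nat_lit 559) (nat_lit 558) (nat_lit 1550) (.f (nat_lit 495) (nat_lit 494) (nat_lit 3566) (.d (nat_lit 463) (nat_lit 431) (nat_lit 4527) (nat_lit 592) (nat_lit 4559)))) (.f (nat_lit 495) (nat_lit 494) (nat_lit 3566) (.f (nat_lit 496) (nat_lit 531) (nat_lit 3567) (.d (nat_lit 463) (nat_lit 431) (nat_lit 4527) (nat_lit 592) (nat_lit 7631))))))) (.a (.p (nat_lit 530) (.a (.d (nat_lit 559) (nat_lit 531) (nat_lit 1551) (nat_lit 558) (nat_lit 1550)) (.a (.f (nat_lit 559) (nat_lit 558) (nat_lit 1550) (.f (nat_lit 495) (nat_lit 494) (nat_lit 3566) (.d (nat_lit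 463) (nat_lit 431) (nat_lit 4527) (nat_lit 592) (nat_lit 4559)))) (.f (nat_lit 498) (nat_lit 499) (nat_lit 2543) (.f (nat_lit 497) (nat_lit 526) (nat_lit 2542) (.f (nat_lit 562) (nat_lit 563) (nat_lit 527) (.d (nat_lit 465) (nat_lit 433) (nat_lit 4529) (nat_lit 594) (nat_lit 7633)))))))) (.a (.p (nat_lit 526) (.a (.f (nat_lit 497) (nat_lit 498) (nat_lit 2542) (.f (nat_lit 496) (nat_lit 525) (nat_lit 2541) (.d (nat_lit 465) (nat_lit 433) (nat_lit 5552) (nat_lit 592) (nat_lit 6608)))) (.a (.f (nat_lit 557) (nat_lit 558) (nat_lit 1549) (.f (nat_lit 525) (nat_lit 556) (nat_lit 1548) (.d (nat_lit 493) (nat_lit 492) (nat_lit 3564) (nat_lit 494) (nat_lit 3565)))) (.f (nat_lit 497) (nat_lit 498) (nat_lit 2542) (.f (nat_lit 592) (nat_lit 624) (nat_lit 6640) (.d (nat_lit 465) (nat_lit 433) (nat_lit 5552) (nat_lit 496) (nat_lit 6608))))))) (.a (.p (nat_lit 530) (.a (.d (nat_lit 559) (nat_lit 531) (nat_lit 1551) (nat_lit 558) (nat_lit 1550)) (.f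 (nat_lit 498) (nat_lit 499) (nat_lit 2543) (.f (nat_lit 497) (nat_lit 526) (nat_lit 2542) (.f (nat_lit 562) (nat_lit 563) (nat_lit 527) (.d (nat_lit 465) (nat_lit 433) (nat_lit 4529) (nat_lit 594) (nat_lit 7633))))))) (.p (nat_lit 530) (.a (.f (nat_lit 495) (nat_lit 494) (nat_lit 3566) (.f (nat_lit 496) (nat_lit 531) (nat_lit 3567) (.d (nat_lit 463) (nat_lit 431) (nat_lit 4527) (nat_lit 592) (nat_lit 7631)))) (.f (nat_lit 498) (nat_lit 499) (nat_lit 2543) (.f (nat_lit 497) (nat_lit 526) (nat_lit 2542) (.f (nat_lit 562) (nat_lit 563) (nat_lit 527) (.d (nat_lit 465) (nat_lit 433) (nat_lit 4529) (nat_lit 594) (nat_lit 7633))))))))))))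
noncomputable def s138 : Cert := .r (nat_lit 3773962426139582502986631646264793844340548718132172006003720938849361146555773143298476687185190218548467649586404736686934909373052214328507029863446909475543486300160) (.p (nat_lit 496) (.a (.p (nat_lit 464) (.a (.d (nat_lit 559) (nat_lit 432) (nat_lit 5551) (nat_lit 591) (nat_lit 5583)) (.f (nat_lit 463) (nat_lit 431) (nat_lit 7599) (.f (nat_lit 495) (nat_lit 592) (nat_lit 7631) (.f (nat_lit 465) (nat_lit 433) (nat_lit 6576) (.d (nat_lit 466) (nat_lit 467) (nat_lit 1487) (nat_lit 494) (nat_lit 1486))))))) (.a s114 (.a s126 (.a (.p (nat_lit 464) (.a (.d (nat_lit 559) (nat_lit 432) (nat_lit 5551) (nat_lit 591) (nat_lit 5583)) (.a (.f (nat_lit 561) (nat_lit 593) (nat_lit 4560) (.f (nat_lit 432) (nat_lit 529) (nat_lit 4528) (.d (nat_lit 431) (nat_lit 399) (nat_lit 7567) (nat_lit 463) (nat_lit 7599)))) (.f (nat_lit 559) (nat_lit 591) (nat_lit 5583) (.f (nat_lit 463) (nat_lit 431) (nat_lit 7599)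 (.f (nat_lit 495) (nat_lit 592) (nat_lit 7631) (.f (nat_lit 558) (nat_lit 590) (nat_lit 5582) (.d (nat_lit 529) (nat_lit 530) (nat_lit 1550) (nat_lit 557) (nat_lit 2573))))))))) (.a s136 (.p (nat_lit 464) (.a (.f (nat_lit 463) (nat_lit 431) (nat_lit 7599) (.f (nat_lit 495) (nat_lit 592) (nat_lit 7631) (.f (nat_lit 465) (nat_lit 433) (nat_lit 6576) (.d (nat_lit 466) (nat_lit 467) (nat_lit 1487) (nat_lit 494) (nat_lit 1486))))) (.a (.f (nat_lit 561) (nat_lit 593) (nat_lit 4560) (.f (nat_lit 432) (nat_lit 529) (nat_lit 4528) (.d (nat_lit 431) (nat_lit 399) (nat_lit 7567) (nat_lit 463) (nat_lit 7599)))) (.f (nat_lit 561) (nat_lit 593) (nat_lit 4560) (.f (nat_lit 432) (nat_lit 529) (nat_lit 4528) (.d (nat_lit 433) (nat_lit 401) (nat_lit 6544) (nat_lit 465) (nat_lit 6576)))))))))))))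
noncomputable def s157 : Cert := .r (nat_lit 3773962426139582502986631646264793844340548718132172006003720938849361146555773143298476687185190218548467649586404736686934909373052214328507029863446909475543486300160) (.p (nat_lit 496) (.a (.p (nat_lit 464) (.a (.d (nat_lit 559) (nat_lit 432) (nat_lit 5551) (nat_lit 591) (nat_lit 5583)) (.f (nat_lit 463) (nat_lit 431) (nat_lit 7599) (.f (nat_lit 495) (nat_lit 592) (nat_lit 7631) (.f (nat_lit 465) (nat_lit 433) (nat_lit 6576) (.d (nat_lit 466) (nat_lit 467) (nat_lit 1487) (nat_lit 494) (nat_lit 1486))))))) (.a (.p (nat_lit 561) (.a (.f (nat_lit 464) (nat_lit 593) (nat_lit 4560) (.d (nat_lit 559) (nat_lit 432) (nat_lit 5551) (nat_lit 591) (nat_lit 5583))) (.a (.f (nat_lit 526) (nat_lit 525) (nat_lit 525) (.d (nat_lit 562) (nat_lit 559) (nat_lit 3598) (nat_lit 563) (nat_lit 3599))) (.f (nat_lit 464) (nat_lit 593) (nat_lit 4560) (.f (nat_lit 431) (nat_lit 463) (nat_lit 7599) (.f (nat_lit 432)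 (nat_lit 399) (nat_lit 7567) (.d (nat_lit 433) (nat_lit 401) (nat_lit 6544) (nat_lit 465) (nat_lit 6576)))))))) (.a (.p (nat_lit 497) (.a (.f (nat_lit 592) (nat_lit 465) (nat_lit 6608) (.d (nat_lit 495) (nat_lit 463) (nat_lit 7631) (nat_lit 624) (nat_lit 7663))) (.a (.f (nat_lit 526) (nat_lit 525) (nat_lit 2541) (.d (nat_lit 498) (nat_lit 495) (nat_lit 1518) (nat_lit 499) (nat_lit 1519))) (.f (nat_lit 592) (nat_lit 465) (nat_lit 6608) (.f (nat_lit 623) (nat_lit 591) (nat_lit 5615) (.f (nat_lit 624) (nat_lit 655) (nat_lit 5647) (.d (nat_lit 625) (nat_lit 593) (nat_lit 4592) (nat_lit 657) (nat_lit 4624)))))))) (.a (.p (nat_lit 561) (.a (.f (nat_lit 464) (nat_lit 593) (nat_lit 4560) (.d (nat_lit 559) (nat_lit 432) (nat_lit 5551) (nat_lit 591) (nat_lit 5583))) (.a (.f (nat_lit 526) (nat_lit 525) (nat_lit 525) (.d (nat_lit 562) (nat_lit 559) (nat_lit 3598) (nat_lit 563) (nat_lit 3599))) (.f (nat_lit 593) (nat_lit 464) (nat_lit 4560) (.d (nat_lit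 625) (nat_lit 592) (nat_lit 4592) (nat_lit 657) (nat_lit 7696)))))) (.p (nat_lit 561) (.a (.f (nat_lit 464) (nat_lit 593) (nat_lit 4560) (.f (nat_lit 432) (nat_lit 559) (nat_lit 5551) (.d (nat_lit 431) (nat_lit 399) (nat_lit 7567) (nat_lit 463) (nat_lit 7599)))) (.a (.f (nat_lit 526) (nat_lit 525) (nat_lit 525) (.d (nat_lit 562) (nat_lit 559) (nat_lit 3598) (nat_lit 563) (nat_lit 3599))) (.f (nat_lit 464) (nat_lit 593) (nat_lit 4560) (.f (nat_lit 431) (nat_lit 463) (nat_lit 7599) (.f (nat_lit 432) (nat_lit 399) (nat_lit 7567) (.d (nat_lit 433) (nat_lit 401) (nat_lit 6544) (nat_lit 465) (nat_lit 6576)))))))))))))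
noncomputable def s165 : Cert := .r (nat_lit 3773962427896970703980067733300160448905385381753147442840407123654343792107272198248276636528565486557800015660592592403154009030555443256434490679465860718068940931072) (.p (nat_lit 526) (.a (.d (nat_lit 561) (nat_lit 525) (nat_lit 525) (nat_lit 562) (nat_lit 526)) (.a (.f (nat_lit 557) (nat_lit 558) (nat_lit 1549) (.f (nat_lit 525) (nat_lit 556) (nat_lit 1548) (.d (nat_lit 493) (nat_lit 492) (nat_lit 3564) (nat_lit 494) (nat_lit 3565)))) (.f (nat_lit 561) (nat_lit 562) (nat_lit 526) (.f (nat_lit 497) (nat_lit 498) (nat_lit 2542) (.f (nat_lit 465) (nat_lit 433) (nat_lit 5552) (.f (nat_lit 464) (nat_lit 432) (nat_lit 7600) (.f (nat_lit 496) (nat_lit 593) (nat_lit 4560) (.f (nat_lit 494) (nat_lit 493) (nat_lit 3565) (.d (nat_lit 466) (nat_lit 434) (nat_lit 6577) (nat_lit 495) (nat_lit 2510)))))))))))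
noncomputable def s181 : Cert := .r (nat_lit 3773962427896970703980067733300160448905385381753147442840407123654343792107272198248276636528565486557800015660592592403154009030555443256434490679465860718068940931072) (.p (nat_lit 530) (.a (.f (nat_lit 562) (nat_lit 563) (nat_lit 527) (.f (nat_lit 561) (nat_lit 526) (nat_lit 526) (.f (nat_lit 498) (nat_lit 499) (nat_lit 2543) (.d (nat_lit 466) (nat_lit 434) (nat_lit 5553) (nat_lit 593) (nat_lit 5585))))) (.a (.f (nat_lit 498) (nat_lit 499) (nat_lit 2543) (.f (nat_lit 497) (nat_lit 526) (nat_lit 2542) (.f (nat_lit 562) (nat_lit 563) (nat_lit 527) (.d (nat_lit 465) (nat_lit 433) (nat_lit 4529) (nat_lit 594) (nat_lit 7633))))) (.a (.f (nat_lit 563) (nat_lit 562) (nat_lit 527) (.f (nat_lit 531) (nat_lit 564) (nat_lit 528) (.d (nat_lit 499) (nat_lit 498) (nat_lit 2543) (nat_lit 500) (nat_lit 2544)))) (.a (.f (nat_lit 562) (nat_lit 563) (nat_lit 527) (.f (nat_lit 526) (nat_lit 561) (nat_lit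 526) (.d (nat_lit 494) (nat_lit 493) (nat_lit 3565) (nat_lit 495) (nat_lit 3566)))) (.f (nat_lit 495) (nat_lit 494) (nat_lit 3566) (.f (nat_lit 496) (nat_lit 531) (nat_lit 3567) (.f (nat_lit 498) (nat_lit 499) (nat_lit 2543) (.f (nat_lit 497) (nat_lit 526) (nat_lit 2542) (.d (nat_lit 463) (nat_lit 431) (nat_lit 4527) (nat_lit 462) (nat_lit 3534)))))))))))
noncomputable def s182 : Cert := .r (nat_lit 3773962426139582502986631646264793844340548718132172006003720938849361146555773143298476687185190218548467649586404736686934909373052214328507029863446909475543486300160) (.p (nat_lit 529) (.a (.p (nat_lit 530) (.a (.d (nat_lit 559) (nat_lit 531) (nat_lit 1551) (nat_lit 558) (nat_lit 1550)) (.f (nat_lit 562) (nat_lit 563) (nat_lit 527) (.f (nat_lit 561) (nat_lit 526) (nat_lit 526) (.f (nat_lit 498) (nat_lit 499) (nat_lit 2543) (.d (nat_lit 466) (nat_lit 434) (nat_lit 5553) (nat_lit 593) (nat_lit 5585))))))) (.a s165 (.a (.p (nat_lit 530)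 (.a (.d (nat_lit 559) (nat_lit 531) (nat_lit 1551) (nat_lit 558) (nat_lit 1550)) (.f (nat_lit 498) (nat_lit 499) (nat_lit 2543) (.f (nat_lit 497) (nat_lit 526) (nat_lit 2542) (.f (nat_lit 562) (nat_lit 563) (nat_lit 527) (.d (nat_lit 465) (nat_lit 433) (nat_lit 4529) (nat_lit 594) (nat_lit 7633))))))) (.a s173 (.a (.p (nat_lit 530) (.a (.d (nat_lit 559) (nat_lit 531) (nat_lit 1551) (nat_lit 558) (nat_lit 1550)) (.f (nat_lit 562) (nat_lit 563) (nat_lit 527) (.f (nat_lit 526) (nat_lit 561) (nat_lit 526) (.d (nat_lit 494) (nat_lit 493) (nat_lit 3565) (nat_lit 495) (nat_lit 3566)))))) (.a s180 s181)))))))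
noncomputable def s198 : Cert := .r (nat_lit 3773962426139582502986631646264793844340548718132172006003720938849361146555773143298476687185190218548467649586404736686934909373052214328507029863446909475543486300160) (.p (nat_lit 529) (.a (.p (nat_lit 526) (.a (.d (nat_lit 561) (nat_lit 525) (nat_lit 525) (nat_lit 562) (nat_lit 526)) (.a (.f (nat_lit 497) (nat_lit 498) (nat_lit 2542) (.f (nat_lit 496) (nat_lit 525) (nat_lit 2541) (.d (nat_lit 465) (nat_lit 433) (nat_lit 5552) (nat_lit 592) (nat_lit 6608)))) (.f (nat_lit 561) (nat_lit 562) (nat_lit 526) (.f (nat_lit 497) (nat_lit 498) (nat_lit 2542) (.d (nat_lit 465) (nat_lit 433) (nat_lit 5552) (nat_lit 592) (nat_lit 5584))))))) (.a (.p (nat_lit 526) (.a (.d (nat_lit 561) (nat_lit 525) (nat_lit 525) (nat_lit 562) (nat_lit 526)) (.a (.f (nat_lit 557) (nat_lit 558) (nat_lit 1549) (.f (nat_lit 525) (nat_lit 556) (nat_lit 1548) (.d (nat_lit 493) (nat_lit 492) (nat_lit 3564) (nat_lit 494)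 (nat_lit 3565)))) (.f (nat_lit 561) (nat_lit 562) (nat_lit 526) (.f (nat_lit 497) (nat_lit 498) (nat_lit 2542) (.d (nat_lit 465) (nat_lit 433) (nat_lit 5552) (nat_lit 592) (nat_lit 5584))))))) (.a (.p (nat_lit 530) (.a (.f (nat_lit 495) (nat_lit 494) (nat_lit 3566) (.f (nat_lit 496) (nat_lit 531) (nat_lit 3567) (.d (nat_lit 463) (nat_lit 431) (nat_lit 4527) (nat_lit 592) (nat_lit 7631)))) (.f (nat_lit 562) (nat_lit 563) (nat_lit 527) (.f (nat_lit 561) (nat_lit 526) (nat_lit 526) (.f (nat_lit 498) (nat_lit 499) (nat_lit 2543) (.d (nat_lit 466) (nat_lit 434) (nat_lit 5553) (nat_lit 593) (nat_lit 5585))))))) (.a (.p (nat_lit 526) (.a (.f (nat_lit 497) (nat_lit 498) (nat_lit 2542) (.f (nat_lit 496) (nat_lit 525) (nat_lit 2541) (.d (nat_lit 465) (nat_lit 433) (nat_lit 5552) (nat_lit 592) (nat_lit 6608)))) (.a (.f (nat_lit 557) (nat_lit 558) (nat_lit 1549) (.f (nat_lit 525) (nat_lit 556) (nat_lit 1548) (.d (nat_lit 493) (nat_lit 492) (nat_lit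 3564) (nat_lit 494) (nat_lit 3565)))) (.f (nat_lit 497) (nat_lit 498) (nat_lit 2542) (.f (nat_lit 592) (nat_lit 624) (nat_lit 6640) (.d (nat_lit 465) (nat_lit 433) (nat_lit 5552) (nat_lit 496) (nat_lit 6608))))))) (.a (.p (nat_lit 530) (.a (.f (nat_lit 495) (nat_lit 494) (nat_lit 3566) (.f (nat_lit 496) (nat_lit 531) (nat_lit 3567) (.d (nat_lit 463) (nat_lit 431) (nat_lit 4527) (nat_lit 592) (nat_lit 7631)))) (.a (.f (nat_lit 563) (nat_lit 562) (nat_lit 527) (.f (nat_lit 531) (nat_lit 564) (nat_lit 528) (.d (nat_lit 499) (nat_lit 498) (nat_lit 2543) (nat_lit 500) (nat_lit 2544)))) (.f (nat_lit 495) (nat_lit 494) (nat_lit 3566) (.f (nat_lit 592) (nat_lit 624) (nat_lit 7663) (.d (nat_lit 463) (nat_lit 431) (nat_lit 4527) (nat_lit 496) (nat_lit 7631))))))) (.a s165 s197)))))))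
noncomputable def s208 : Cert := .r (nat_lit 3773962426139582502986631646264793844340548718132172006003720938849361146555773143298476687185190218548467649586404736686934909373052214328507029863446909475543486300160) (.p (nat_lit 496) (.a (.p (nat_lit 561) (.a (.f (nat_lit 464) (nat_lit 593) (nat_lit 4560) (.d (nat_lit 432) (nat_lit 529) (nat_lit 4528) (nat_lit 559) (nat_lit 5551))) (.a (.f (nat_lit 464) (nat_lit 593) (nat_lit 4560) (.d (nat_lit 559) (nat_lit 432) (nat_lit 5551) (nat_lit 591) (nat_lit 5583))) (.a (.f (nat_lit 526) (nat_lit 525) (nat_lit 525) (.d (nat_lit 562) (nat_lit 529) (nat_lit 526) (nat_lit 559) (nat_lit 3598))) (.f (nat_lit 464) (nat_lit 593) (nat_lit 4560) (.f (nat_lit 529) (nat_lit 432) (nat_lit 4528) (.d (nat_lit 526) (nat_lit 525) (nat_lit 525) (nat_lit 562) (nat_lit 526)))))))) (.a (.p (nat_lit 464) (.a (.d (nat_lit 559) (nat_lit 432) (nat_lit 5551) (nat_lit 591) (nat_lit 5583)) (.a (.f (nat_lit 433) (nat_lit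 465) (nat_lit 6576) (.f (nat_lit 432) (nat_lit 401) (nat_lit 6544) (.d (nat_lit 431) (nat_lit 399) (nat_lit 7567) (nat_lit 463) (nat_lit 7599)))) (.f (nat_lit 465) (nat_lit 433) (nat_lit 6576) (.f (nat_lit 497) (nat_lit 592) (nat_lit 6608) (.f (nat_lit 498) (nat_lit 499) (nat_lit 1519) (.d (nat_lit 463) (nat_lit 431) (nat_lit 7599) (nat_lit 462) (nat_lit 462)))))))) (.a (.p (nat_lit 497) (.a (.f (nat_lit 526) (nat_lit 525) (nat_lit 2541) (.d (nat_lit 498) (nat_lit 499) (nat_lit 1519) (nat_lit 529) (nat_lit 2542))) (.f (nat_lit 592) (nat_lit 465) (nat_lit 6608) (.f (nat_lit 623) (nat_lit 591) (nat_lit 5615) (.f (nat_lit 624) (nat_lit 655) (nat_lit 5647) (.d (nat_lit 625) (nat_lit 593) (nat_lit 4592) (nat_lit 657) (nat_lit 4624))))))) (.p (nat_lit 561) (.a (.f (nat_lit 464) (nat_lit 593) (nat_lit 4560) (.f (nat_lit 432) (nat_lit 559) (nat_lit 5551) (.d (nat_lit 431) (nat_lit 399) (nat_lit 7567) (nat_lit 463) (nat_lit 7599)))) (.a (.f (nat_lit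 526) (nat_lit 525) (nat_lit 525) (.d (nat_lit 562) (nat_lit 559) (nat_lit 3598) (nat_lit 563) (nat_lit 3599))) (.f (nat_lit 464) (nat_lit 593) (nat_lit 4560) (.f (nat_lit 431) (nat_lit 463) (nat_lit 7599) (.f (nat_lit 432) (nat_lit 399) (nat_lit 7567) (.d (nat_lit 433) (nat_lit 401) (nat_lit 6544) (nat_lit 465) (nat_lit 6576))))))))))))
noncomputable def s221 : Cert := .r (nat_lit 3773962427896970703980067733300160448905385381753147442840407123654343792107272198248276636528565486557800015660592592403154009030555443256434490679465860718068940931072) (.p (nat_lit 496) (.a (.p (nat_lit 561) (.a (.d (nat_lit 464) (nat_lit 432) (nat_lit 4528) (nat_lit 593) (nat_lit 4560)) (.d (nat_lit 526) (nat_lit 525) (nat_lit 525) (nat_lit 562) (nat_lit 526)))) (.a (.p (nat_lit 464) (.a (.d (nat_lit 559) (nat_lit 432) (nat_lit 5551) (nat_lit 591) (nat_lit 5583)) (.a (.f (nat_lit 463) (nat_lit 431) (nat_lit 7599) (.f (nat_lit 495) (nat_lit 592) (nat_lit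 7631) (.f (nat_lit 494) (nat_lit 493) (nat_lit 493) (.f (nat_lit 432) (nat_lit 400) (nat_lit 5519) (.f (nat_lit 433) (nat_lit 401) (nat_lit 6544) (.f (nat_lit 462) (nat_lit 461) (nat_lit 2477) (.f (nat_lit 497) (nat_lit 498) (nat_lit 3534) (.f (nat_lit 526) (nat_lit 525) (nat_lit 2541) (.d (nat_lit 558) (nat_lit 557) (nat_lit 1549) (nat_lit 590) (nat_lit 6606)))))))))) (.f (nat_lit 559) (nat_lit 591) (nat_lit 5583) (.f (nat_lit 463) (nat_lit 431) (nat_lit 7599) (.f (nat_lit 495) (nat_lit 592) (nat_lit 7631) (.d (nat_lit 558) (nat_lit 557) (nat_lit 2573) (nat_lit 590) (nat_lit 5582)))))))) (.a (.p (nat_lit 464) (.a (.d (nat_lit 559) (nat_lit 432) (nat_lit 5551) (nat_lit 591) (nat_lit 5583)) (.a (.d (nat_lit 561) (nat_lit 432) (nat_lit 4528) (nat_lit 593) (nat_lit 4560)) (.f (nat_lit 559) (nat_lit 591) (nat_lit 5583) (.f (nat_lit 463) (nat_lit 431) (nat_lit 7599) (.f (nat_lit 495) (nat_lit 592) (nat_lit 7631) (.d (nat_lit 558) (nat_lit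 557) (nat_lit 2573) (nat_lit 590) (nat_lit 5582)))))))) (.p (nat_lit 526) (.a (.d (nat_lit 561) (nat_lit 525) (nat_lit 525) (nat_lit 562) (nat_lit 526)) (.a (.f (nat_lit 493) (nat_lit 494) (nat_lit 3565) (.f (nat_lit 525) (nat_lit 492) (nat_lit 3564) (.d (nat_lit 524) (nat_lit 495) (nat_lit 2540) (nat_lit 559) (nat_lit 524)))) (.f (nat_lit 561) (nat_lit 562) (nat_lit 526) (.f (nat_lit 593) (nat_lit 625) (nat_lit 7664) (.f (nat_lit 558) (nat_lit 557) (nat_lit 1549) (.f (nat_lit 559) (nat_lit 594) (nat_lit 558) (.f (nat_lit 591) (nat_lit 623) (nat_lit 6639) (.d (nat_lit 494) (nat_lit 462) (nat_lit 4558) (nat_lit 493) (nat_lit 3565))))))))))))))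
noncomputable def s222 : Cert := .r (nat_lit 3773962426139582502986631646264793844340548718132172006003720938849361146555773143298476687185190218548467649586404736686934909373052214328507029863446909475543486300160) (.p (nat_lit 529) (.a (.p (nat_lit 530) (.a (.d (nat_lit 559) (nat_lit 531) (nat_lit 1551) (nat_lit 558) (nat_lit 1550)) (.a (.f (nat_lit 559) (nat_lit 558) (nat_lit 1550) (.f (nat_lit 495) (nat_lit 494) (nat_lit 3566) (.d (nat_lit 463) (nat_lit 431) (nat_lit 4527) (nat_lit 592) (nat_lit 4559)))) (.f (nat_lit 495) (nat_lit 494) (nat_lit 3566) (.f (nat_lit 496) (nat_lit 531) (nat_lit 3567) (.d (nat_lit 463) (nat_lit 431) (nat_lit 4527) (nat_lit 592) (nat_lit 7631))))))) (.a (.p (nat_lit 530) (.a (.d (nat_lit 559) (nat_lit 531) (nat_lit 1551) (nat_lit 558) (nat_lit 1550)) (.a (.f (nat_lit 559) (nat_lit 558) (nat_lit 1550) (.f (nat_lit 495) (nat_lit 494) (nat_lit 3566) (.d (nat_lit 463) (nat_lit 431) (nat_lit 4527) (nat_lit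 592) (nat_lit 4559)))) (.f (nat_lit 562) (nat_lit 563) (nat_lit 527) (.f (nat_lit 561) (nat_lit 526) (nat_lit 526) (.f (nat_lit 498) (nat_lit 499) (nat_lit 2543) (.d (nat_lit 466) (nat_lit 434) (nat_lit 5553) (nat_lit 593) (nat_lit 5585)))))))) (.a s221 (.a (.p (nat_lit 530) (.a (.d (nat_lit 559) (nat_lit 531) (nat_lit 1551) (nat_lit 558) (nat_lit 1550)) (.f (nat_lit 562) (nat_lit 563) (nat_lit 527) (.f (nat_lit 561) (nat_lit 526) (nat_lit 526) (.f (nat_lit 498) (nat_lit 499) (nat_lit 2543) (.d (nat_lit 466) (nat_lit 434) (nat_lit 5553) (nat_lit 593) (nat_lit 5585))))))) (.p (nat_lit 530) (.a (.f (nat_lit 495) (nat_lit 494) (nat_lit 3566) (.f (nat_lit 496) (nat_lit 531) (nat_lit 3567) (.d (nat_lit 463) (nat_lit 431) (nat_lit 4527) (nat_lit 592) (nat_lit 7631)))) (.f (nat_lit 562) (nat_lit 563) (nat_lit 527) (.f (nat_lit 561) (nat_lit 526) (nat_lit 526) (.f (nat_lit 498) (nat_lit 499) (nat_lit 2543) (.d (nat_lit 466) (nat_lit 434) (nat_lit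 5553) (nat_lit 593) (nat_lit 5585))))))))))))
noncomputable def s232 : Cert := .r (nat_lit 3773962427896970703980067733300160448905385381753147442840407123654343792107272198248276636528565486557800015660592592403154009030555443256434490679465860718068940931072) (.p (nat_lit 530) (.a (.d (nat_lit 559) (nat_lit 531) (nat_lit 1551) (nat_lit 558) (nat_lit 1550)) (.a (.f (nat_lit 559) (nat_lit 558) (nat_lit 1550) (.f (nat_lit 562) (nat_lit 563) (nat_lit 527) (.f (nat_lit 561) (nat_lit 526) (nat_lit 526) (.f (nat_lit 591) (nat_lit 590) (nat_lit 1582) (.d (nat_lit 496) (nat_lit 464) (nat_lit 5583) (nat_lit 623) (nat_lit 6639)))))) (.f (nat_lit 562) (nat_lit 563) (nat_lit 527) (.f (nat_lit 561) (nat_lit 526) (nat_lit 526) (.f (nat_lit 531) (nat_lit 532) (nat_lit 1552) (.f (nat_lit 496) (nat_lit 495) (nat_lit 3567) (.d (nat_lit 464) (nat_lit 432) (nat_lit 4528) (nat_lit 593) (nat_lit 4560)))))))))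
noncomputable def s233 : Cert := .r (nat_lit 3773962426139582502986631646264793844340548718132172006003720938849361146555773143298476687185190218548467649586404736686934909373052214328507029863446909475543486300160) (.p (nat_lit 529) (.a (.p (nat_lit 530) (.a (.d (nat_lit 559) (nat_lit 531) (nat_lit 1551) (nat_lit 558) (nat_lit 1550)) (.a (.f (nat_lit 559) (nat_lit 558) (nat_lit 1550) (.f (nat_lit 495) (nat_lit 494) (nat_lit 3566) (.d (nat_lit 463) (nat_lit 431) (nat_lit 4527) (nat_lit 592) (nat_lit 4559)))) (.f (nat_lit 495) (nat_lit 494) (nat_lit 3566) (.f (nat_lit 496) (nat_lit 531) (nat_lit 3567) (.d (nat_lit 463) (nat_lit 431) (nat_lit 4527) (nat_lit 592) (nat_lit 7631))))))) (.a (.p (nat_lit 530) (.a (.d (nat_lit 559) (nat_lit 531) (nat_lit 1551) (nat_lit 558) (nat_lit 1550)) (.a (.f (nat_lit 559) (nat_lit 558) (nat_lit 1550) (.f (nat_lit 495) (nat_lit 494) (nat_lit 3566) (.d (nat_lit 463) (nat_lit 431) (nat_lit 4527) (nat_lit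 592) (nat_lit 4559)))) (.f (nat_lit 562) (nat_lit 563) (nat_lit 527) (.f (nat_lit 526) (nat_lit 561) (nat_lit 526) (.d (nat_lit 494) (nat_lit 493) (nat_lit 3565) (nat_lit 495) (nat_lit 3566))))))) (.a s94 (.a (.p (nat_lit 530) (.a (.d (nat_lit 559) (nat_lit 531) (nat_lit 1551) (nat_lit 558) (nat_lit 1550)) (.f (nat_lit 562) (nat_lit 563) (nat_lit 527) (.f (nat_lit 526) (nat_lit 561) (nat_lit 526) (.d (nat_lit 494) (nat_lit 493) (nat_lit 3565) (nat_lit 495) (nat_lit 3566)))))) (.a s197 (.a (.p (nat_lit 530) (.a (.d (nat_lit 559) (nat_lit 531) (nat_lit 1551) (nat_lit 558) (nat_lit 1550)) (.a (.f (nat_lit 562) (nat_lit 563) (nat_lit 527) (.f (nat_lit 526) (nat_lit 561) (nat_lit 526) (.f (nat_lit 493) (nat_lit 494) (nat_lit 3565) (.f (nat_lit 525) (nat_lit 492) (nat_lit 3564) (.d (nat_lit 557) (nat_lit 556) (nat_lit 1548) (nat_lit 558) (nat_lit 1549)))))) (.f (nat_lit 531) (nat_lit 559) (nat_lit 1551) (.d (nat_lit 563) (nat_lit 562) (nat_lit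 527) (nat_lit 564) (nat_lit 528)))))) (.a (.p (nat_lit 530) (.a (.f (nat_lit 495) (nat_lit 494) (nat_lit 3566) (.f (nat_lit 496) (nat_lit 531) (nat_lit 3567) (.d (nat_lit 463) (nat_lit 431) (nat_lit 4527) (nat_lit 592) (nat_lit 7631)))) (.a (.f (nat_lit 562) (nat_lit 563) (nat_lit 527) (.f (nat_lit 526) (nat_lit 561) (nat_lit 526) (.d (nat_lit 494) (nat_lit 493) (nat_lit 3565) (nat_lit 495) (nat_lit 3566)))) (.f (nat_lit 531) (nat_lit 559) (nat_lit 1551) (.d (nat_lit 563) (nat_lit 562) (nat_lit 527) (nat_lit 564) (nat_lit 528)))))) s232))))))))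
noncomputable def s236 : Cert := .r (nat_lit 3773962426139582502986631646264793844340548718132172006003720938849361146555773143298476687185190218548467649586404736686934909373052214328507029863446909475543486300160) (.p (nat_lit 529) (.a (.p (nat_lit 530) (.a (.d (nat_lit 559) (nat_lit 531) (nat_lit 1551) (nat_lit 558) (nat_lit 1550)) (.a (.f (nat_lit 559) (nat_lit 558) (nat_lit 1550) (.f (nat_lit 495) (nat_lit 494) (nat_lit 3566) (.d (nat_lit 463) (nat_lit 431) (nat_lit 4527) (nat_lit 592) (nat_lit 4559)))) (.f (nat_lit 495) (nat_lit 494) (nat_lit 3566) (.f (nat_lit 496) (nat_lit 531) (nat_lit 3567) (.d (nat_lit 463) (nat_lit 431) (nat_lit 4527) (nat_lit 592) (nat_lit 7631))))))) (.a (.p (nat_lit 530) (.a (.d (nat_lit 559) (nat_lit 531) (nat_lit 1551) (nat_lit 558) (nat_lit 1550)) (.a (.f (nat_lit 559) (nat_lit 558) (nat_lit 1550) (.f (nat_lit 495) (nat_lit 494) (nat_lit 3566) (.d (nat_lit 463) (nat_lit 431) (nat_lit 4527) (nat_lit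 592) (nat_lit 4559)))) (.f (nat_lit 498) (nat_lit 499) (nat_lit 2543) (.f (nat_lit 497) (nat_lit 526) (nat_lit 2542) (.f (nat_lit 592) (nat_lit 624) (nat_lit 6640) (.d (nat_lit 465) (nat_lit 433) (nat_lit 5552) (nat_lit 561) (nat_lit 5584)))))))) (.a (.p (nat_lit 526) (.a (.f (nat_lit 497) (nat_lit 498) (nat_lit 2542) (.f (nat_lit 496) (nat_lit 525) (nat_lit 2541) (.d (nat_lit 465) (nat_lit 433) (nat_lit 5552) (nat_lit 592) (nat_lit 6608)))) (.a (.f (nat_lit 557) (nat_lit 558) (nat_lit 1549) (.f (nat_lit 525) (nat_lit 556) (nat_lit 1548) (.d (nat_lit 493) (nat_lit 492) (nat_lit 3564) (nat_lit 494) (nat_lit 3565)))) (.f (nat_lit 497) (nat_lit 498) (nat_lit 2542) (.f (nat_lit 592) (nat_lit 624) (nat_lit 6640) (.d (nat_lit 465) (nat_lit 433) (nat_lit 5552) (nat_lit 496) (nat_lit 6608))))))) (.a s180 (.a s234 (.p (nat_lit 530) (.a (.d (nat_lit 559) (nat_lit 531) (nat_lit 1551) (nat_lit 558) (nat_lit 1550)) (.f (nat_lit 498) (nat_lit 499)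 (nat_lit 2543) (.f (nat_lit 497) (nat_lit 526) (nat_lit 2542) (.f (nat_lit 592) (nat_lit 624) (nat_lit 6640) (.d (nat_lit 465) (nat_lit 433) (nat_lit 5552) (nat_lit 561) (nat_lit 5584)))))))))))))
noncomputable def s241 : Cert := .r (nat_lit 3773962426139582502986631646264793844340548718132172006003720938849361146555773143298476687185190218548467649586404736686934909373052214328507029863446909475543486300160) (.p (nat_lit 529) (.a (.p (nat_lit 530) (.a (.d (nat_lit 559) (nat_lit 531) (nat_lit 1551) (nat_lit 558) (nat_lit 1550)) (.a (.f (nat_lit 559) (nat_lit 558) (nat_lit 1550) (.f (nat_lit 495) (nat_lit 494) (nat_lit 3566) (.d (nat_lit 463) (nat_lit 431) (nat_lit 4527) (nat_lit 592) (nat_lit 4559)))) (.f (nat_lit 495) (nat_lit 494) (nat_lit 3566) (.f (nat_lit 496) (nat_lit 531) (nat_lit 3567) (.d (nat_lit 463) (nat_lit 431) (nat_lit 4527) (nat_lit 592) (nat_lit 7631))))))) (.a (.p (nat_lit 530) (.a (.d (nat_lit 559) (nat_lit 531) (nat_lit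 1551) (nat_lit 558) (nat_lit 1550)) (.a (.f (nat_lit 559) (nat_lit 558) (nat_lit 1550) (.f (nat_lit 495) (nat_lit 494) (nat_lit 3566) (.d (nat_lit 463) (nat_lit 431) (nat_lit 4527) (nat_lit 592) (nat_lit 4559)))) (.f (nat_lit 562) (nat_lit 563) (nat_lit 527) (.f (nat_lit 561) (nat_lit 526) (nat_lit 526) (.f (nat_lit 498) (nat_lit 499) (nat_lit 2543) (.d (nat_lit 466) (nat_lit 434) (nat_lit 5553) (nat_lit 593) (nat_lit 5585)))))))) (.a (.p (nat_lit 526) (.a (.d (nat_lit 561) (nat_lit 525) (nat_lit 525) (nat_lit 562) (nat_lit 526)) (.a (.f (nat_lit 557) (nat_lit 558) (nat_lit 1549) (.f (nat_lit 525) (nat_lit 556) (nat_lit 1548) (.d (nat_lit 493) (nat_lit 492) (nat_lit 3564) (nat_lit 494) (nat_lit 3565)))) (.f (nat_lit 561) (nat_lit 562) (nat_lit 526) (.f (nat_lit 497) (nat_lit 498) (nat_lit 2542) (.d (nat_lit 592) (nat_lit 465) (nat_lit 5584) (nat_lit 624) (nat_lit 6640))))))) (.a (.p (nat_lit 530) (.a (.d (nat_lit 559) (nat_lit 531) (nat_lit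 1551) (nat_lit 558) (nat_lit 1550)) (.f (nat_lit 562) (nat_lit 563) (nat_lit 527) (.f (nat_lit 561) (nat_lit 526) (nat_lit 526) (.f (nat_lit 498) (nat_lit 499) (nat_lit 2543) (.d (nat_lit 466) (nat_lit 434) (nat_lit 5553) (nat_lit 593) (nat_lit 5585))))))) (.p (nat_lit 530) (.a (.f (nat_lit 495) (nat_lit 494) (nat_lit 3566) (.f (nat_lit 496) (nat_lit 531) (nat_lit 3567) (.d (nat_lit 463) (nat_lit 431) (nat_lit 4527) (nat_lit 592) (nat_lit 7631)))) (.f (nat_lit 562) (nat_lit 563) (nat_lit 527) (.f (nat_lit 561) (nat_lit 526) (nat_lit 526) (.f (nat_lit 498) (nat_lit 499) (nat_lit 2543) (.d (nat_lit 466) (nat_lit 434) (nat_lit 5553) (nat_lit 593) (nat_lit 5585))))))))))))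
noncomputable def s248 : Cert := .r (nat_lit 3773962426139582502986631646264793844340548718132172006003720938849361146555773143298476687185190218548467649586404736686934909373052214328507029863446909475543486300160) (.p (nat_lit 496) (.a (.p (nat_lit 561) (.a (.f (nat_lit 464) (nat_lit 593) (nat_lit 4560) (.d (nat_lit 432) (nat_lit 529) (nat_lit 4528) (nat_lit 559) (nat_lit 5551))) (.a (.f (nat_lit 464) (nat_lit 593) (nat_lit 4560) (.d (nat_lit 559) (nat_lit 432) (nat_lit 5551) (nat_lit 591) (nat_lit 5583))) (.a (.f (nat_lit 526) (nat_lit 525) (nat_lit 525) (.d (nat_lit 562) (nat_lit 529) (nat_lit 526) (nat_lit 559) (nat_lit 3598))) (.f (nat_lit 464) (nat_lit 593) (nat_lit 4560) (.f (nat_lit 529) (nat_lit 432) (nat_lit 4528) (.d (nat_lit 526) (nat_lit 525) (nat_lit 525) (nat_lit 562) (nat_lit 526)))))))) (.a (.p (nat_lit 497) (.a (.f (nat_lit 526) (nat_lit 525) (nat_lit 2541) (.d (nat_lit 498) (nat_lit 499) (nat_lit 1519) (nat_lit 529)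 (nat_lit 2542))) (.f (nat_lit 592) (nat_lit 465) (nat_lit 6608) (.f (nat_lit 623) (nat_lit 591) (nat_lit 5615) (.f (nat_lit 624) (nat_lit 655) (nat_lit 5647) (.d (nat_lit 625) (nat_lit 593) (nat_lit 4592) (nat_lit 657) (nat_lit 4624))))))) (.a s136 (.a (.p (nat_lit 561) (.a (.f (nat_lit 464) (nat_lit 593) (nat_lit 4560) (.d (nat_lit 559) (nat_lit 432) (nat_lit 5551) (nat_lit 591) (nat_lit 5583))) (.a (.f (nat_lit 526) (nat_lit 525) (nat_lit 525) (.d (nat_lit 562) (nat_lit 559) (nat_lit 3598) (nat_lit 563) (nat_lit 3599))) (.f (nat_lit 593) (nat_lit 464) (nat_lit 4560) (.d (nat_lit 625) (nat_lit 592) (nat_lit 4592) (nat_lit 657) (nat_lit 7696)))))) (.a (.p (nat_lit 464) (.a (.d (nat_lit 559) (nat_lit 432) (nat_lit 5551) (nat_lit 591) (nat_lit 5583)) (.f (nat_lit 465) (nat_lit 433) (nat_lit 6576) (.f (nat_lit 497) (nat_lit 592) (nat_lit 6608) (.f (nat_lit 498) (nat_lit 499) (nat_lit 1519) (.d (nat_lit 526) (nat_lit 495) (nat_lit 1518)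 (nat_lit 525) (nat_lit 2541))))))) (.p (nat_lit 561) (.a (.f (nat_lit 464) (nat_lit 593) (nat_lit 4560) (.d (nat_lit 432) (nat_lit 529) (nat_lit 4528) (nat_lit 559) (nat_lit 5551))) (.a (.f (nat_lit 526) (nat_lit 525) (nat_lit 525) (.d (nat_lit 562) (nat_lit 559) (nat_lit 3598) (nat_lit 563) (nat_lit 3599))) (.f (nat_lit 464) (nat_lit 593) (nat_lit 4560) (.f (nat_lit 529) (nat_lit 432) (nat_lit 4528) (.d (nat_lit 526) (nat_lit 525) (nat_lit 525) (nat_lit 562) (nat_lit 526)))))))))))))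
noncomputable def s317 : Cert := .r (nat_lit 3773962431411747105966939907370893658035058708995098316513779493264309083210270308147876535215316022576464747808968303835592208345561901112289412311503763203119850192896) (.p (nat_lit 497) (.a (.f (nat_lit 498) (nat_lit 499) (nat_lit 2543) (.f (nat_lit 562) (nat_lit 563) (nat_lit 527) (.d (nat_lit 465) (nat_lit 433) (nat_lit 4529) (nat_lit 594) (nat_lit 7633)))) (.a (.f (nat_lit 498) (nat_lit 499) (nat_lit 2543) (.f (nat_lit 562) (nat_lit 563) (nat_lit 527) (.f (nat_lit 594) (nat_lit 626) (nat_lit 7665) (.f (nat_lit 593) (nat_lit 625) (nat_lit 5617) (.f (nat_lit 466) (nat_lit 561) (nat_lit 5585) (.f (nat_lit 434) (nat_lit 402) (nat_lit 5521) (.d (nat_lit 435) (nat_lit 403) (nat_lit 6546) (nat_lit 467) (nat_lit 6578)))))))) (.a (.f (nat_lit 562) (nat_lit 563) (nat_lit 527) (.f (nat_lit 465) (nat_lit 433) (nat_lit 5552) (.d (nat_lit 561) (nat_lit 592) (nat_lit 5584) (nat_lit 594) (nat_lit 4561))))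 (.f (nat_lit 592) (nat_lit 624) (nat_lit 6640) (.d (nat_lit 465) (nat_lit 433) (nat_lit 5552) (nat_lit 561) (nat_lit 5584)))))))
noncomputable def s329 : Cert := .r (nat_lit 3075429351738513152311891557988464161336707014464200823408719629715123346162149911350906719016331640629828747503383424400630650623873056428033164674419545604096) (.p (nat_lit 530) (.a (.f (nat_lit 562) (nat_lit 563) (nat_lit 527) (.f (nat_lit 498) (nat_lit 499) (nat_lit 2543) (.d (nat_lit 526) (nat_lit 497) (nat_lit 2542) (nat_lit 561) (nat_lit 526)))) (.a (.f (nat_lit 499) (nat_lit 498) (nat_lit 2543) (.f (nat_lit 531) (nat_lit 500) (nat_lit 2544) (.d (nat_lit 563) (nat_lit 562) (nat_lit 527) (nat_lit 564) (nat_lit 528)))) (.a (.f (nat_lit 498) (nat_lit 499) (nat_lit 2543) (.f (nat_lit 526) (nat_lit 497) (nat_lit 2542) (.d (nat_lit 494) (nat_lit 493) (nat_lit 3565) (nat_lit 495) (nat_lit 3566)))) (.f (nat_lit 562) (nat_lit 563) (nat_lit 527) (.f (nat_lit 526) (nat_lit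 561) (nat_lit 526) (.d (nat_lit 494) (nat_lit 493) (nat_lit 3565) (nat_lit 495) (nat_lit 3566))))))))
noncomputable def s402 : Cert := .r (nat_lit 3773962426139582502986631646264793844340548718132172006003720938849361146555773143298476687185190218548467649586404736686934909373052214328507029863446909475543486300160) (.p (nat_lit 561) (.a (.f (nat_lit 526) (nat_lit 525) (nat_lit 525) (.d (nat_lit 562) (nat_lit 529) (nat_lit 526) (nat_lit 559) (nat_lit 3598))) (.a (.p (nat_lit 559) (.a (.f (nat_lit 562) (nat_lit 563) (nat_lit 3599) (.f (nat_lit 591) (nat_lit 590) (nat_lit 1582) (.f (nat_lit 623) (nat_lit 655) (nat_lit 6671) (.f (nat_lit 624) (nat_lit 656) (nat_lit 4623) (.f (nat_lit 592) (nat_lit 495) (nat_lit 7663) (.f (nat_lit 594) (nat_lit 595) (nat_lit 559) (.d (nat_lit 593) (nat_lit 558) (nat_lit 3630) (nat_lit 622) (nat_lit 1614)))))))) (.a (.f (nat_lit 562) (nat_lit 563) (nat_lit 3599) (.f (nat_lit 594) (nat_lit 595) (nat_lit 559)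 (.f (nat_lit 558) (nat_lit 593) (nat_lit 558) (.d (nat_lit 557) (nat_lit 529) (nat_lit 2573) (nat_lit 556) (nat_lit 2572))))) (.a (.f (nat_lit 562) (nat_lit 563) (nat_lit 3599) (.f (nat_lit 591) (nat_lit 590) (nat_lit 1582) (.f (nat_lit 623) (nat_lit 655) (nat_lit 6671) (.f (nat_lit 624) (nat_lit 656) (nat_lit 4623) (.f (nat_lit 592) (nat_lit 495) (nat_lit 7663) (.f (nat_lit 529) (nat_lit 497) (nat_lit 6640) (.f (nat_lit 625) (nat_lit 657) (nat_lit 4624) (.f (nat_lit 626) (nat_lit 627) (nat_lit 3663) (.d (nat_lit 594) (nat_lit 595) (nat_lit 2639) (nat_lit 658) (nat_lit 7697)))))))))) (.p (nat_lit 558) (.a (.d (nat_lit 557) (nat_lit 529) (nat_lit 2573) (nat_lit 556) (nat_lit 2572)) (.a (.f (nat_lit 557) (nat_lit 556) (nat_lit 2572) (.d (nat_lit 589) (nat_lit 588) (nat_lit 1580) (nat_lit 590) (nat_lit 1581))) (.f (nat_lit 590) (nat_lit 589) (nat_lit 1581) (.f (nat_lit 495) (nat_lit 463) (nat_lit 5582) (.d (nat_lit 622) (nat_lit 591) (nat_lit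 5614) (nat_lit 654) (nat_lit 6670))))))))))) (.a (.f (nat_lit 562) (nat_lit 563) (nat_lit 3599) (.d (nat_lit 526) (nat_lit 525) (nat_lit 525) (nat_lit 559) (nat_lit 3598))) (.a (.f (nat_lit 526) (nat_lit 525) (nat_lit 525) (.d (nat_lit 562) (nat_lit 529) (nat_lit 526) (nat_lit 563) (nat_lit 3599))) (.p (nat_lit 558) (.a (.f (nat_lit 526) (nat_lit 525) (nat_lit 525) (.f (nat_lit 529) (nat_lit 557) (nat_lit 1549) (.f (nat_lit 497) (nat_lit 498) (nat_lit 2542) (.d (nat_lit 465) (nat_lit 433) (nat_lit 5552) (nat_lit 592) (nat_lit 5584))))) (.a (.f (nat_lit 526) (nat_lit 525) (nat_lit 525) (.f (nat_lit 557) (nat_lit 529) (nat_lit 1549) (.d (nat_lit 556) (nat_lit 555) (nat_lit 2571) (nat_lit 559) (nat_lit 2572)))) (.a (.p (nat_lit 559) (.a (.d (nat_lit 557) (nat_lit 529) (nat_lit 2573) (nat_lit 556) (nat_lit 2572)) (.a (.f (nat_lit 557) (nat_lit 556) (nat_lit 2572) (.d (nat_lit 589) (nat_lit 588) (nat_lit 1580) (nat_lit 590) (nat_lit 1581)))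 (.f (nat_lit 590) (nat_lit 589) (nat_lit 1581) (.f (nat_lit 495) (nat_lit 463) (nat_lit 5582) (.d (nat_lit 622) (nat_lit 591) (nat_lit 5614) (nat_lit 654) (nat_lit 6670))))))) (.a (.p (nat_lit 495) (.a (.f (nat_lit 526) (nat_lit 525) (nat_lit 525) (.f (nat_lit 463) (nat_lit 431) (nat_lit 4527) (.d (nat_lit 590) (nat_lit 494) (nat_lit 6606) (nat_lit 559) (nat_lit 5582)))) (.a (.f (nat_lit 463) (nat_lit 431) (nat_lit 4527) (.d (nat_lit 559) (nat_lit 590) (nat_lit 5582) (nat_lit 592) (nat_lit 4559))) (.a (.f (nat_lit 526) (nat_lit 525) (nat_lit 525) (.f (nat_lit 463) (nat_lit 431) (nat_lit 4527) (.d (nat_lit 590) (nat_lit 494) (nat_lit 6606) (nat_lit 622) (nat_lit 6638)))) (.a (.f (nat_lit 526) (nat_lit 525) (nat_lit 525) (.f (nat_lit 590) (nat_lit 622) (nat_lit 6638) (.f (nat_lit 559) (nat_lit 589) (nat_lit 1581) (.f (nat_lit 592) (nat_lit 624) (nat_lit 7663) (.d (nat_lit 557) (nat_lit 556) (nat_lit 2572) (nat_lit 593) (nat_lit 557))))))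 (.f (nat_lit 463) (nat_lit 431) (nat_lit 4527) (.d (nat_lit 592) (nat_lit 559) (nat_lit 4559) (nat_lit 624) (nat_lit 7663)))))))) (.p (nat_lit 495) (.a (.f (nat_lit 526) (nat_lit 525) (nat_lit 525) (.f (nat_lit 463) (nat_lit 431) (nat_lit 4527) (.d (nat_lit 590) (nat_lit 494) (nat_lit 6606) (nat_lit 559) (nat_lit 5582)))) (.a (.f (nat_lit 463) (nat_lit 431) (nat_lit 4527) (.d (nat_lit 559) (nat_lit 590) (nat_lit 5582) (nat_lit 592) (nat_lit 4559))) (.a (.f (nat_lit 526) (nat_lit 525) (nat_lit 525) (.f (nat_lit 463) (nat_lit 431) (nat_lit 4527) (.d (nat_lit 590) (nat_lit 494) (nat_lit 6606) (nat_lit 622) (nat_lit 6638)))) (.a (.f (nat_lit 526) (nat_lit 525) (nat_lit 525) (.f (nat_lit 590) (nat_lit 622) (nat_lit 6638) (.f (nat_lit 559) (nat_lit 589) (nat_lit 1581) (.f (nat_lit 592) (nat_lit 624) (nat_lit 7663) (.f (nat_lit 593) (nat_lit 594) (nat_lit 558) (.f (nat_lit 625) (nat_lit 657) (nat_lit 7696) (.f (nat_lit 591) (nat_lit 626) (nat_lit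 590) (.d (nat_lit 494) (nat_lit 462) (nat_lit 4558) (nat_lit 623) (nat_lit 7662))))))))) (.f (nat_lit 463) (nat_lit 431) (nat_lit 4527) (.d (nat_lit 592) (nat_lit 559) (nat_lit 4559) (nat_lit 624) (nat_lit 7663))))))))))))))))))
noncomputable def s476 : Cert := .r (nat_lit 3773962427896970703980067733300160448905385381753147442840407123654343792107272198248276636528565486557800015660592592403154009030555443256434490679465860718068940931072) (.p (nat_lit 526) (.a (.f (nat_lit 557) (nat_lit 558) (nat_lit 1549) (.f (nat_lit 525) (nat_lit 556) (nat_lit 1548) (.d (nat_lit 493) (nat_lit 492) (nat_lit 3564) (nat_lit 494) (nat_lit 3565)))) (.a s275 (.a (.f (nat_lit 493) (nat_lit 494) (nat_lit 3565) (.f (nat_lit 525) (nat_lit 492) (nat_lit 3564) (.f (nat_lit 524) (nat_lit 559) (nat_lit 524) (.d (nat_lit 556) (nat_lit 555) (nat_lit 1547) (nat_lit 557) (nat_lit 1548))))) (.a (.f (nat_lit 557) (nat_lit 558) (nat_lit 1549) (.f (nat_lit 525) (nat_lit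 556) (nat_lit 1548) (.f (nat_lit 492) (nat_lit 493) (nat_lit 3564) (.d (nat_lit 524) (nat_lit 491) (nat_lit 3563) (nat_lit 559) (nat_lit 524))))) (.a s463 s475))))))
noncomputable def s510 : Cert := .r (nat_lit 3773962427896970703980067733300160448905385381753147442840407123654343792107272198248276636528565486557800015660592592403154009030555443256434490679465860718068940931072) (.p (nat_lit 496) (.a (.p (nat_lit 464) (.a (.d (nat_lit 559) (nat_lit 432) (nat_lit 5551) (nat_lit 591) (nat_lit 5583)) (.a (.f (nat_lit 431) (nat_lit 463) (nat_lit 7599) (.f (nat_lit 432) (nat_lit 399) (nat_lit 7567) (.d (nat_lit 433) (nat_lit 401) (nat_lit 6544) (nat_lit 465) (nat_lit 6576)))) (.f (nat_lit 559) (nat_lit 591) (nat_lit 5583) (.f (nat_lit 463) (nat_lit 431) (nat_lit 7599) (.f (nat_lit 495) (nat_lit 592) (nat_lit 7631) (.d (nat_lit 558) (nat_lit 557) (nat_lit 2573) (nat_lit 590) (nat_lit 5582)))))))) (.a (.p (nat_lit 464) (.a (.d (nat_lit 559)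 (nat_lit 432) (nat_lit 5551) (nat_lit 591) (nat_lit 5583)) (.a (.f (nat_lit 431) (nat_lit 463) (nat_lit 7599) (.f (nat_lit 432) (nat_lit 399) (nat_lit 7567) (.d (nat_lit 433) (nat_lit 401) (nat_lit 6544) (nat_lit 465) (nat_lit 6576)))) (.f (nat_lit 559) (nat_lit 591) (nat_lit 5583) (.f (nat_lit 561) (nat_lit 593) (nat_lit 4560) (.f (nat_lit 558) (nat_lit 557) (nat_lit 2573) (.f (nat_lit 463) (nat_lit 431) (nat_lit 7599) (.d (nat_lit 590) (nat_lit 495) (nat_lit 5582) (nat_lit 589) (nat_lit 1581))))))))) (.a (.p (nat_lit 464) (.a (.f (nat_lit 431) (nat_lit 463) (nat_lit 7599) (.f (nat_lit 432) (nat_lit 399) (nat_lit 7567) (.d (nat_lit 433) (nat_lit 401) (nat_lit 6544) (nat_lit 465) (nat_lit 6576)))) (.a (.d (nat_lit 561) (nat_lit 432) (nat_lit 4528) (nat_lit 593) (nat_lit 4560)) (.f (nat_lit 561) (nat_lit 593) (nat_lit 4560) (.f (nat_lit 463) (nat_lit 431) (nat_lit 7599) (.f (nat_lit 592) (nat_lit 495) (nat_lit 7631) (.f (nat_lit 624)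 (nat_lit 656) (nat_lit 6672) (.d (nat_lit 623) (nat_lit 591) (nat_lit 5615) (nat_lit 655) (nat_lit 5647))))))))) (.a (.p (nat_lit 464) (.a (.d (nat_lit 559) (nat_lit 432) (nat_lit 5551) (nat_lit 591) (nat_lit 5583)) (.a (.f (nat_lit 431) (nat_lit 463) (nat_lit 7599) (.f (nat_lit 432) (nat_lit 399) (nat_lit 7567) (.d (nat_lit 433) (nat_lit 401) (nat_lit 6544) (nat_lit 465) (nat_lit 6576)))) (.f (nat_lit 591) (nat_lit 559) (nat_lit 5583) (.f (nat_lit 592) (nat_lit 623) (nat_lit 5615) (.d (nat_lit 593) (nat_lit 561) (nat_lit 4560) (nat_lit 625) (nat_lit 4592))))))) (.a (.p (nat_lit 592) (.a (.d (nat_lit 495) (nat_lit 463) (nat_lit 7631) (nat_lit 624) (nat_lit 7663)) (.a (.f (nat_lit 623) (nat_lit 591) (nat_lit 5615) (.f (nat_lit 624) (nat_lit 655) (nat_lit 5647) (.d (nat_lit 625) (nat_lit 593) (nat_lit 4592) (nat_lit 657) (nat_lit 4624)))) (.f (nat_lit 495) (nat_lit 463) (nat_lit 7631) (.f (nat_lit 591) (nat_lit 623) (nat_lit 5615) (.f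 (nat_lit 593) (nat_lit 625) (nat_lit 4592) (.f (nat_lit 494) (nat_lit 493) (nat_lit 493) (.f (nat_lit 559) (nat_lit 462) (nat_lit 7630) (.d (nat_lit 558) (nat_lit 557) (nat_lit 557) (nat_lit 594) (nat_lit 3630)))))))))) (.a (.p (nat_lit 464) (.a (.d (nat_lit 559) (nat_lit 432) (nat_lit 5551) (nat_lit 591) (nat_lit 5583)) (.a (.d (nat_lit 561) (nat_lit 432) (nat_lit 4528) (nat_lit 593) (nat_lit 4560)) (.f (nat_lit 591) (nat_lit 559) (nat_lit 5583) (.f (nat_lit 592) (nat_lit 623) (nat_lit 5615) (.d (nat_lit 593) (nat_lit 561) (nat_lit 4560) (nat_lit 625) (nat_lit 4592))))))) (.p (nat_lit 464) (.a (.f (nat_lit 431) (nat_lit 463) (nat_lit 7599) (.f (nat_lit 432) (nat_lit 399) (nat_lit 7567) (.d (nat_lit 433) (nat_lit 401) (nat_lit 6544) (nat_lit 465) (nat_lit 6576)))) (.a (.d (nat_lit 561) (nat_lit 432) (nat_lit 4528) (nat_lit 593) (nat_lit 4560)) (.f (nat_lit 463) (nat_lit 431) (nat_lit 7599) (.f (nat_lit 495) (nat_lit 592) (nat_lit 7631)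 (.f (nat_lit 494) (nat_lit 493) (nat_lit 493) (.d (nat_lit 465) (nat_lit 433) (nat_lit 6576) (nat_lit 466) (nat_lit 1486)))))))))))))))
noncomputable def s518 : Cert := .r (nat_lit 3773962427896970703980067733300160448905385381753147442840407123654343792107272198248276636528565486557800015660592592403154009030555443256434490679465860718068940931072) (.p (nat_lit 496) (.a (.p (nat_lit 561) (.a (.d (nat_lit 464) (nat_lit 432) (nat_lit 4528) (nat_lit 593) (nat_lit 4560)) (.d (nat_lit 526) (nat_lit 525) (nat_lit 525) (nat_lit 562) (nat_lit 526)))) (.a (.p (nat_lit 464) (.a (.d (nat_lit 559) (nat_lit 432) (nat_lit 5551) (nat_lit 591) (nat_lit 5583)) (.a (.f (nat_lit 431) (nat_lit 463) (nat_lit 7599) (.f (nat_lit 432) (nat_lit 399) (nat_lit 7567) (.d (nat_lit 433) (nat_lit 401) (nat_lit 6544) (nat_lit 465) (nat_lit 6576)))) (.f (nat_lit 559) (nat_lit 591) (nat_lit 5583) (.f (nat_lit 558) (nat_lit 557) (nat_lit 2573) (.f (nat_lit 463) (nat_lit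 431) (nat_lit 7599) (.f (nat_lit 495) (nat_lit 590) (nat_lit 5582) (.f (nat_lit 494) (nat_lit 493) (nat_lit 493) (.d (nat_lit 465) (nat_lit 433) (nat_lit 6576) (nat_lit 466) (nat_lit 1486)))))))))) (.p (nat_lit 526) (.a (.d (nat_lit 561) (nat_lit 525) (nat_lit 525) (nat_lit 562) (nat_lit 526)) (.a (.f (nat_lit 493) (nat_lit 494) (nat_lit 3565) (.f (nat_lit 525) (nat_lit 492) (nat_lit 3564) (.d (nat_lit 524) (nat_lit 495) (nat_lit 2540) (nat_lit 559) (nat_lit 524)))) (.f (nat_lit 561) (nat_lit 562) (nat_lit 526) (.f (nat_lit 593) (nat_lit 625) (nat_lit 7664) (.f (nat_lit 558) (nat_lit 557) (nat_lit 1549) (.f (nat_lit 559) (nat_lit 594) (nat_lit 558) (.f (nat_lit 591) (nat_lit 623) (nat_lit 6639) (.d (nat_lit 494) (nat_lit 462) (nat_lit 4558) (nat_lit 493) (nat_lit 3565)))))))))))))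
noncomputable def s546 : Cert := .r (nat_lit 3773962427896970704184654646293669315781209737804872389853947251532035341449977908754284998803857646238004396430961602225084426788527947694510569213583697783901973905408) (.p (nat_lit 592) (.a (.f (nat_lit 623) (nat_lit 591) (nat_lit 5615) (.f (nat_lit 624) (nat_lit 655) (nat_lit 5647) (.d (nat_lit 625) (nat_lit 593) (nat_lit 4592) (nat_lit 657) (nat_lit 4624)))) (.a (.f (nat_lit 591) (nat_lit 623) (nat_lit 5615) (.f (nat_lit 559) (nat_lit 464) (nat_lit 5583) (.f (nat_lit 558) (nat_lit 557) (nat_lit 2573) (.d (nat_lit 593) (nat_lit 594) (nat_lit 3630) (nat_lit 625) (nat_lit 4592))))) (.a (.f (nat_lit 591) (nat_lit 623) (nat_lit 5615) (.f (nat_lit 464) (nat_lit 559) (nat_lit 5583) (.f (nat_lit 431) (nat_lit 463) (nat_lit 7599) (.f (nat_lit 432) (nat_lit 399) (nat_lit 7567) (.d (nat_lit 433) (nat_lit 401) (nat_lit 6544) (nat_lit 465) (nat_lit 6576)))))) (.a (.f (nat_lit 625) (nat_lit 593) (nat_lit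 4592) (.f (nat_lit 624) (nat_lit 657) (nat_lit 4624) (.f (nat_lit 655) (nat_lit 623) (nat_lit 5647) (.d (nat_lit 656) (nat_lit 559) (nat_lit 7695) (nat_lit 687) (nat_lit 5679))))) (.f (nat_lit 625) (nat_lit 593) (nat_lit 4592) (.f (nat_lit 624) (nat_lit 657) (nat_lit 4624) (.f (nat_lit 559) (nat_lit 656) (nat_lit 7695) (.d (nat_lit 464) (nat_lit 432) (nat_lit 5551) (nat_lit 591) (nat_lit 5583))))))))))
noncomputable def s558 : Cert := .r (nat_lit 3773962427896970703980067733300160448905385381753147442840407123654343792107272198248276636528565486557800015660592592403154009030555443256434490679465860718068940931072) (.p (nat_lit 496) (.a (.p (nat_lit 561) (.a (.d (nat_lit 464) (nat_lit 432) (nat_lit 4528) (nat_lit 593) (nat_lit 4560)) (.d (nat_lit 526) (nat_lit 525) (nat_lit 525) (nat_lit 562) (nat_lit 526)))) (.a s546 (.a (.p (nat_lit 526) (.a (.d (nat_lit 561) (nat_lit 525) (nat_lit 525) (nat_lit 562) (nat_lit 526)) (.a (.f (nat_lit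 493) (nat_lit 494) (nat_lit 3565) (.f (nat_lit 525) (nat_lit 492) (nat_lit 3564) (.d (nat_lit 557) (nat_lit 556) (nat_lit 1548) (nat_lit 558) (nat_lit 1549)))) (.f (nat_lit 561) (nat_lit 562) (nat_lit 526) (.f (nat_lit 593) (nat_lit 625) (nat_lit 7664) (.f (nat_lit 558) (nat_lit 557) (nat_lit 1549) (.f (nat_lit 559) (nat_lit 594) (nat_lit 558) (.f (nat_lit 591) (nat_lit 623) (nat_lit 6639) (.d (nat_lit 494) (nat_lit 462) (nat_lit 4558) (nat_lit 493) (nat_lit 3565)))))))))) (.p (nat_lit 526) (.a (.d (nat_lit 561) (nat_lit 525) (nat_lit 525) (nat_lit 562) (nat_lit 526)) (.a (.f (nat_lit 493) (nat_lit 494) (nat_lit 3565) (.f (nat_lit 525) (nat_lit 492) (nat_lit 3564) (.d (nat_lit 557) (nat_lit 556) (nat_lit 1548) (nat_lit 558) (nat_lit 1549)))) (.f (nat_lit 561) (nat_lit 562) (nat_lit 526) (.f (nat_lit 464) (nat_lit 432) (nat_lit 4528) (.f (nat_lit 591) (nat_lit 559) (nat_lit 5583) (.f (nat_lit 623) (nat_lit 592) (nat_lit 5615) (.f (nat_lit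 558) (nat_lit 557) (nat_lit 1549) (.d (nat_lit 494) (nat_lit 493) (nat_lit 3565) (nat_lit 590) (nat_lit 4590))))))))))))))
noncomputable def s576 : Cert := .r (nat_lit 3773962427896970704184654646293669315781209737804872389853947251532035341449977908754284998803857646238004396430961602225084426788527947694510569213583697783901973905408) (.p (nat_lit 464) (.a (.f (nat_lit 431) (nat_lit 463) (nat_lit 7599) (.f (nat_lit 432) (nat_lit 399) (nat_lit 7567) (.d (nat_lit 433) (nat_lit 401) (nat_lit 6544) (nat_lit 465) (nat_lit 6576)))) (.a (.f (nat_lit 431) (nat_lit 463) (nat_lit 7599) (.f (nat_lit 432) (nat_lit 399) (nat_lit 7567) (.f (nat_lit 400) (nat_lit 495) (nat_lit 5519) (.d (nat_lit 401) (nat_lit 369) (nat_lit 6512) (nat_lit 433) (nat_lit 6544))))) (.a (.f (nat_lit 463) (nat_lit 431) (nat_lit 7599) (.f (nat_lit 495) (nat_lit 592) (nat_lit 7631) (.f (nat_lit 494) (nat_lit 493) (nat_lit 493) (.d (nat_lit 465) (nat_lit 433) (nat_lit 6576)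 (nat_lit 466) (nat_lit 1486))))) (.a (.f (nat_lit 433) (nat_lit 465) (nat_lit 6576) (.f (nat_lit 432) (nat_lit 401) (nat_lit 6544) (.f (nat_lit 399) (nat_lit 431) (nat_lit 7567) (.d (nat_lit 400) (nat_lit 367) (nat_lit 7535) (nat_lit 495) (nat_lit 5519))))) (.a (.f (nat_lit 463) (nat_lit 431) (nat_lit 7599) (.f (nat_lit 592) (nat_lit 495) (nat_lit 7631) (.f (nat_lit 623) (nat_lit 591) (nat_lit 5615) (.f (nat_lit 624) (nat_lit 655) (nat_lit 5647) (.d (nat_lit 625) (nat_lit 593) (nat_lit 4592) (nat_lit 657) (nat_lit 4624)))))) (.f (nat_lit 433) (nat_lit 465) (nat_lit 6576) (.f (nat_lit 432) (nat_lit 401) (nat_lit 6544) (.f (nat_lit 495) (nat_lit 400) (nat_lit 5519) (.d (nat_lit 592) (nat_lit 463) (nat_lit 7631) (nat_lit 624) (nat_lit 7663)))))))))))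
noncomputable def s590 : Cert := .r (nat_lit 3773962427896970703980067733300160448905385381753147442840407123654343792107272198248276636528565486557800015660592592403154009030555443256434490679465860718068940931072) (.p (nat_lit 496) (.a (.p (nat_lit 561) (.a (.d (nat_lit 464) (nat_lit 432) (nat_lit 4528) (nat_lit 593) (nat_lit 4560)) (.d (nat_lit 526) (nat_lit 525) (nat_lit 525) (nat_lit 562) (nat_lit 526)))) (.a s576 (.a s584 (.p (nat_lit 561) (.a (.d (nat_lit 526) (nat_lit 525) (nat_lit 525) (nat_lit 562) (nat_lit 526)) (.f (nat_lit 464) (nat_lit 432) (nat_lit 4528) (.f (nat_lit 591) (nat_lit 559) (nat_lit 5583) (.f (nat_lit 592) (nat_lit 623) (nat_lit 5615) (.d (nat_lit 463) (nat_lit 431) (nat_lit 7599) (nat_lit 495) (nat_lit 7631)))))))))))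
noncomputable def s607 : Cert := .r (nat_lit 3773962427896970703980067733300160448905385381753147442840407123654343792107272198248276636528565486557800015660592592403154009030555443256434490679465860718068940931072) (.p (nat_lit 496) (.a (.p (nat_lit 561) (.a (.d (nat_lit 464) (nat_lit 432) (nat_lit 4528) (nat_lit 593) (nat_lit 4560)) (.d (nat_lit 526) (nat_lit 525) (nat_lit 525) (nat_lit 562) (nat_lit 526)))) (.a (.p (nat_lit 464) (.a (.d (nat_lit 559) (nat_lit 432) (nat_lit 5551) (nat_lit 591) (nat_lit 5583)) (.a (.f (nat_lit 433) (nat_lit 465) (nat_lit 6576) (.f (nat_lit 432) (nat_lit 401) (nat_lit 6544) (.f (nat_lit 399) (nat_lit 431) (nat_lit 7567) (.d (nat_lit 400) (nat_lit 367) (nat_lit 7535) (nat_lit 495) (nat_lit 5519))))) (.f (nat_lit 591) (nat_lit 559) (nat_lit 5583) (.f (nat_lit 592) (nat_lit 623) (nat_lit 5615) (.f (nat_lit 624) (nat_lit 495) (nat_lit 7663) (.d (nat_lit 625) (nat_lit 593) (nat_lit 4592) (nat_lit 657) (nat_lit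 4624)))))))) (.a (.p (nat_lit 526) (.a (.d (nat_lit 561) (nat_lit 525) (nat_lit 525) (nat_lit 562) (nat_lit 526)) (.a (.f (nat_lit 493) (nat_lit 494) (nat_lit 3565) (.f (nat_lit 525) (nat_lit 492) (nat_lit 3564) (.d (nat_lit 524) (nat_lit 495) (nat_lit 2540) (nat_lit 559) (nat_lit 524)))) (.f (nat_lit 561) (nat_lit 562) (nat_lit 526) (.f (nat_lit 593) (nat_lit 625) (nat_lit 7664) (.f (nat_lit 558) (nat_lit 557) (nat_lit 1549) (.f (nat_lit 559) (nat_lit 594) (nat_lit 558) (.f (nat_lit 591) (nat_lit 623) (nat_lit 6639) (.d (nat_lit 494) (nat_lit 462) (nat_lit 4558) (nat_lit 493) (nat_lit 3565)))))))))) (.p (nat_lit 526) (.a (.d (nat_lit 561) (nat_lit 525) (nat_lit 525) (nat_lit 562) (nat_lit 526)) (.a (.f (nat_lit 493) (nat_lit 494) (nat_lit 3565) (.f (nat_lit 525) (nat_lit 492) (nat_lit 3564) (.d (nat_lit 557) (nat_lit 556) (nat_lit 1548) (nat_lit 558) (nat_lit 1549)))) (.f (nat_lit 561) (nat_lit 562) (nat_lit 526) (.f (nat_lit 464) (nat_lit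 432) (nat_lit 4528) (.f (nat_lit 591) (nat_lit 559) (nat_lit 5583) (.f (nat_lit 623) (nat_lit 592) (nat_lit 5615) (.f (nat_lit 558) (nat_lit 557) (nat_lit 1549) (.d (nat_lit 494) (nat_lit 493) (nat_lit 3565) (nat_lit 590) (nat_lit 4590))))))))))))))
noncomputable def s612 : Cert := .r (nat_lit 3773962427896970703980067733300160448905385381753147442840407123654343792107272198248276636528565486557800015660592592403154009030555443256434490679465860718068940931072) (.p (nat_lit 496) (.a (.p (nat_lit 561) (.a (.d (nat_lit 464) (nat_lit 432) (nat_lit 4528) (nat_lit 593) (nat_lit 4560)) (.d (nat_lit 526) (nat_lit 525) (nat_lit 525) (nat_lit 562) (nat_lit 526)))) (.a (.p (nat_lit 464) (.a (.f (nat_lit 431) (nat_lit 463) (nat_lit 7599) (.f (nat_lit 432) (nat_lit 399) (nat_lit 7567) (.d (nat_lit 433) (nat_lit 401) (nat_lit 6544) (nat_lit 465) (nat_lit 6576)))) (.a (.f (nat_lit 431) (nat_lit 463) (nat_lit 7599) (.f (nat_lit 432) (nat_lit 399) (nat_lit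 7567) (.f (nat_lit 400) (nat_lit 495) (nat_lit 5519) (.d (nat_lit 401) (nat_lit 369) (nat_lit 6512) (nat_lit 433) (nat_lit 6544))))) (.a (.f (nat_lit 463) (nat_lit 431) (nat_lit 7599) (.f (nat_lit 495) (nat_lit 592) (nat_lit 7631) (.f (nat_lit 494) (nat_lit 493) (nat_lit 493) (.d (nat_lit 465) (nat_lit 433) (nat_lit 6576) (nat_lit 466) (nat_lit 1486))))) (.a (.f (nat_lit 433) (nat_lit 465) (nat_lit 6576) (.f (nat_lit 432) (nat_lit 401) (nat_lit 6544) (.f (nat_lit 399) (nat_lit 431) (nat_lit 7567) (.d (nat_lit 400) (nat_lit 367) (nat_lit 7535) (nat_lit 495) (nat_lit 5519))))) (.a (.f (nat_lit 463) (nat_lit 431) (nat_lit 7599) (.f (nat_lit 495) (nat_lit 592) (nat_lit 7631) (.d (nat_lit 432) (nat_lit 400) (nat_lit 5519) (nat_lit 559) (nat_lit 5551)))) (.f (nat_lit 433) (nat_lit 465) (nat_lit 6576) (.f (nat_lit 432) (nat_lit 401) (nat_lit 6544) (.f (nat_lit 495) (nat_lit 400) (nat_lit 5519) (.d (nat_lit 592) (nat_lit 463) (nat_lit 7631)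 (nat_lit 624) (nat_lit 7663))))))))))) (.p (nat_lit 526) (.a (.d (nat_lit 561) (nat_lit 525) (nat_lit 525) (nat_lit 562) (nat_lit 526)) (.a (.f (nat_lit 557) (nat_lit 558) (nat_lit 1549) (.f (nat_lit 525) (nat_lit 556) (nat_lit 1548) (.d (nat_lit 524) (nat_lit 495) (nat_lit 2540) (nat_lit 559) (nat_lit 524)))) (.f (nat_lit 561) (nat_lit 562) (nat_lit 526) (.f (nat_lit 593) (nat_lit 625) (nat_lit 7664) (.f (nat_lit 558) (nat_lit 557) (nat_lit 1549) (.f (nat_lit 559) (nat_lit 594) (nat_lit 558) (.f (nat_lit 590) (nat_lit 589) (nat_lit 1581) (.d (nat_lit 495) (nat_lit 463) (nat_lit 5582) (nat_lit 622) (nat_lit 6638)))))))))))))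
noncomputable def s613 : Cert := .r (nat_lit 3773962427896970703980067733300160448905385381753147442840407123654343792107272198248276636528565486557800015660592592403154009030555443256434490679465860718068940931072) (.p (nat_lit 496) (.a (.p (nat_lit 561) (.a (.d (nat_lit 464) (nat_lit 432) (nat_lit 4528) (nat_lit 593) (nat_lit 4560)) (.d (nat_lit 526) (nat_lit 525) (nat_lit 525) (nat_lit 562) (nat_lit 526)))) (.a (.p (nat_lit 592) (.a (.d (nat_lit 495) (nat_lit 463) (nat_lit 7631) (nat_lit 624) (nat_lit 7663)) (.a (.f (nat_lit 623) (nat_lit 591) (nat_lit 5615) (.f (nat_lit 624) (nat_lit 655) (nat_lit 5647) (.d (nat_lit 625) (nat_lit 593) (nat_lit 4592) (nat_lit 657) (nat_lit 4624)))) (.f (nat_lit 495) (nat_lit 463) (nat_lit 7631) (.f (nat_lit 591) (nat_lit 623) (nat_lit 5615) (.f (nat_lit 593) (nat_lit 625) (nat_lit 4592) (.f (nat_lit 494) (nat_lit 493) (nat_lit 493) (.f (nat_lit 559) (nat_lit 462) (nat_lit 7630) (.d (nat_lit 558) (nat_lit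 557) (nat_lit 557) (nat_lit 594) (nat_lit 3630)))))))))) (.p (nat_lit 526) (.a (.d (nat_lit 561) (nat_lit 525) (nat_lit 525) (nat_lit 562) (nat_lit 526)) (.a (.f (nat_lit 493) (nat_lit 494) (nat_lit 3565) (.f (nat_lit 525) (nat_lit 492) (nat_lit 3564) (.d (nat_lit 557) (nat_lit 556) (nat_lit 1548) (nat_lit 558) (nat_lit 1549)))) (.f (nat_lit 561) (nat_lit 562) (nat_lit 526) (.f (nat_lit 464) (nat_lit 432) (nat_lit 4528) (.f (nat_lit 591) (nat_lit 559) (nat_lit 5583) (.f (nat_lit 623) (nat_lit 592) (nat_lit 5615) (.f (nat_lit 558) (nat_lit 557) (nat_lit 1549) (.d (nat_lit 494) (nat_lit 493) (nat_lit 3565) (nat_lit 590) (nat_lit 4590)))))))))))))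
noncomputable def s614 : Cert := .r (nat_lit 3773962427896970703980067733300160448905385381753147442840407123654343792107272198248276636528565486557800015660592592403154009030555443256434490679465860718068940931072) (.p (nat_lit 496) (.a (.p (nat_lit 561) (.a (.d (nat_lit 464) (nat_lit 432) (nat_lit 4528) (nat_lit 593) (nat_lit 4560)) (.d (nat_lit 526) (nat_lit 525) (nat_lit 525) (nat_lit 562) (nat_lit 526)))) (.a (.p (nat_lit 592) (.a (.d (nat_lit 495) (nat_lit 463) (nat_lit 7631) (nat_lit 624) (nat_lit 7663)) (.a (.f (nat_lit 623) (nat_lit 591) (nat_lit 5615) (.f (nat_lit 624) (nat_lit 655) (nat_lit 5647) (.d (nat_lit 625) (nat_lit 593) (nat_lit 4592) (nat_lit 657) (nat_lit 4624)))) (.f (nat_lit 495) (nat_lit 463) (nat_lit 7631) (.f (nat_lit 591) (nat_lit 623) (nat_lit 5615) (.f (nat_lit 593) (nat_lit 625) (nat_lit 4592) (.f (nat_lit 494) (nat_lit 493) (nat_lit 493) (.f (nat_lit 559) (nat_lit 462) (nat_lit 7630) (.d (nat_lit 558) (nat_lit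 557) (nat_lit 557) (nat_lit 594) (nat_lit 3630)))))))))) (.p (nat_lit 561) (.a (.d (nat_lit 526) (nat_lit 525) (nat_lit 525) (nat_lit 562) (nat_lit 526)) (.f (nat_lit 464) (nat_lit 432) (nat_lit 4528) (.f (nat_lit 591) (nat_lit 559) (nat_lit 5583) (.f (nat_lit 592) (nat_lit 623) (nat_lit 5615) (.d (nat_lit 463) (nat_lit 431) (nat_lit 7599) (nat_lit 495) (nat_lit 7631))))))))))
noncomputable def s615 : Cert := .r (nat_lit 3773962426139582502986631646264793844340548718132172006003720938849361146555773143298476687185190218548467649586404736686934909373052214328507029863446909475543486300160) (.p (nat_lit 529) (.a s94 (.a s443 (.a s476 (.a s510 (.a s518 (.a s528 (.a s558 (.a s590 (.a s601 (.a s607 (.a s612 (.a s613 s614)))))))))))))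
noncomputable def s634 : Cert := .r (nat_lit 16209045194715341170328675720530229892407161939037567858740208450107833483431033593429628803248100883623463213123861357330135795575262156669485319149264700516029650895080632877056) (.p (nat_lit 496) (.a (.f (nat_lit 497) (nat_lit 465) (nat_lit 6608) (.f (nat_lit 624) (nat_lit 529) (nat_lit 6640) (.d (nat_lit 623) (nat_lit 591) (nat_lit 5615) (nat_lit 655) (nat_lit 5647)))) (.a (.f (nat_lit 623) (nat_lit 591) (nat_lit 5615) (.f (nat_lit 624) (nat_lit 655) (nat_lit 5647) (.d (nat_lit 625) (nat_lit 593) (nat_lit 4592) (nat_lit 657) (nat_lit 4624)))) (.a (.f (nat_lit 591) (nat_lit 623) (nat_lit 5615) (.f (nat_lit 559) (nat_lit 464) (nat_lit 5583) (.f (nat_lit 593) (nat_lit 625) (nat_lit 4592) (.d (nat_lit 558) (nat_lit 557) (nat_lit 557) (nat_lit 594) (nat_lit 3630))))) (.f (nat_lit 497) (nat_lit 465) (nat_lit 6608) (.f (nat_lit 624) (nat_lit 529) (nat_lit 6640) (.d (nat_lit 625) (nat_lit 593)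 (nat_lit 4592) (nat_lit 657) (nat_lit 4624))))))))
noncomputable def s642 : Cert := .r (nat_lit 3773962426139582502986631646264793844340548718132172006003720938849361146555773143298476687185190218548467649586404736686934909373052214328507029863446909475543486300160) (.p (nat_lit 592) (.a (.f (nat_lit 624) (nat_lit 495) (nat_lit 7663) (.f (nat_lit 656) (nat_lit 559) (nat_lit 7695) (.d (nat_lit 655) (nat_lit 623) (nat_lit 5647) (nat_lit 687) (nat_lit 5679)))) (.a (.f (nat_lit 624) (nat_lit 495) (nat_lit 7663) (.f (nat_lit 625) (nat_lit 657) (nat_lit 4624) (.f (nat_lit 593) (nat_lit 496) (nat_lit 4592) (.f (nat_lit 623) (nat_lit 655) (nat_lit 5647) (.d (nat_lit 594) (nat_lit 595) (nat_lit 1615) (nat_lit 622) (nat_lit 2638)))))) (.a s634 (.a (.p (nat_lit 496) (.a (.f (nat_lit 591) (nat_lit 623) (nat_lit 5615) (.f (nat_lit 559) (nat_lit 464) (nat_lit 5583) (.f (nat_lit 593) (nat_lit 625) (nat_lit 4592) (.d (nat_lit 558) (nat_lit 557) (nat_lit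 557) (nat_lit 594) (nat_lit 3630))))) (.f (nat_lit 497) (nat_lit 465) (nat_lit 6608) (.f (nat_lit 526) (nat_lit 525) (nat_lit 2541) (.d (nat_lit 495) (nat_lit 463) (nat_lit 7631) (nat_lit 498) (nat_lit 1518)))))) (.f (nat_lit 624) (nat_lit 495) (nat_lit 7663) (.f (nat_lit 656) (nat_lit 559) (nat_lit 7695) (.d (nat_lit 657) (nat_lit 625) (nat_lit 4624) (nat_lit 689) (nat_lit 4656)))))))))
noncomputable def s674 : Cert := .r (nat_lit 3773962426139582502986631646264793844340548718132172006003720938849361146555773143298476687185190218548467649586404736686934909373052214328507029863446909475543486300160) (.p (nat_lit 496) (.a (.p (nat_lit 464) (.a (.d (nat_lit 559) (nat_lit 432) (nat_lit 5551) (nat_lit 591) (nat_lit 5583)) (.f (nat_lit 463) (nat_lit 431) (nat_lit 7599) (.f (nat_lit 495) (nat_lit 592) (nat_lit 7631) (.f (nat_lit 465) (nat_lit 433) (nat_lit 6576) (.d (nat_lit 466) (nat_lit 467) (nat_lit 1487) (nat_lit 494) (nat_lit 1486)))))))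 (.a s651 (.a (.p (nat_lit 464) (.a (.f (nat_lit 463) (nat_lit 431) (nat_lit 7599) (.f (nat_lit 495) (nat_lit 592) (nat_lit 7631) (.f (nat_lit 465) (nat_lit 433) (nat_lit 6576) (.d (nat_lit 466) (nat_lit 467) (nat_lit 1487) (nat_lit 494) (nat_lit 1486))))) (.a (.f (nat_lit 561) (nat_lit 593) (nat_lit 4560) (.f (nat_lit 432) (nat_lit 529) (nat_lit 4528) (.d (nat_lit 431) (nat_lit 399) (nat_lit 7567) (nat_lit 463) (nat_lit 7599)))) (.f (nat_lit 561) (nat_lit 593) (nat_lit 4560) (.f (nat_lit 432) (nat_lit 529) (nat_lit 4528) (.d (nat_lit 433) (nat_lit 401) (nat_lit 6544) (nat_lit 465) (nat_lit 6576))))))) (.a s660 (.a (.p (nat_lit 464) (.a (.d (nat_lit 559) (nat_lit 432) (nat_lit 5551) (nat_lit 591) (nat_lit 5583)) (.a (.f (nat_lit 463) (nat_lit 431) (nat_lit 7599) (.f (nat_lit 592) (nat_lit 495) (nat_lit 7631) (.f (nat_lit 623) (nat_lit 591) (nat_lit 5615) (.f (nat_lit 624) (nat_lit 655) (nat_lit 5647) (.d (nat_lit 625) (nat_lit 593) (nat_lit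 4592) (nat_lit 657) (nat_lit 4624)))))) (.f (nat_lit 432) (nat_lit 559) (nat_lit 5551) (.d (nat_lit 431) (nat_lit 399) (nat_lit 7567) (nat_lit 463) (nat_lit 7599)))))) (.p (nat_lit 464) (.a (.d (nat_lit 559) (nat_lit 432) (nat_lit 5551) (nat_lit 591) (nat_lit 5583)) (.a (.f (nat_lit 561) (nat_lit 593) (nat_lit 4560) (.f (nat_lit 432) (nat_lit 529) (nat_lit 4528) (.d (nat_lit 433) (nat_lit 401) (nat_lit 6544) (nat_lit 465) (nat_lit 6576)))) (.f (nat_lit 559) (nat_lit 591) (nat_lit 5583) (.f (nat_lit 465) (nat_lit 433) (nat_lit 6576) (.f (nat_lit 592) (nat_lit 497) (nat_lit 6608) (.d (nat_lit 624) (nat_lit 495) (nat_lit 7663) (nat_lit 656) (nat_lit 7695))))))))))))))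
noncomputable def s707 : Cert := .r (nat_lit 3773962426139582502986631646264793844340548718132172006003720938849361146555773143298476687185190218548467649586404736686934909373052214328507029863446909475543486300160) (.p (nat_lit 496) (.a (.p (nat_lit 561) (.a (.f (nat_lit 464) (nat_lit 593) (nat_lit 4560) (.d (nat_lit 432) (nat_lit 529) (nat_lit 4528) (nat_lit 559) (nat_lit 5551))) (.a (.f (nat_lit 464) (nat_lit 593) (nat_lit 4560) (.d (nat_lit 559) (nat_lit 432) (nat_lit 5551) (nat_lit 591) (nat_lit 5583))) (.a (.f (nat_lit 526) (nat_lit 525) (nat_lit 525) (.d (nat_lit 562) (nat_lit 529) (nat_lit 526) (nat_lit 559) (nat_lit 3598))) (.f (nat_lit 464) (nat_lit 593) (nat_lit 4560) (.f (nat_lit 529) (nat_lit 432) (nat_lit 4528) (.d (nat_lit 526) (nat_lit 525) (nat_lit 525) (nat_lit 562) (nat_lit 526)))))))) (.a (.p (nat_lit 464) (.a (.d (nat_lit 559) (nat_lit 432) (nat_lit 5551) (nat_lit 591) (nat_lit 5583)) (.a (.f (nat_lit 433) (nat_lit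 465) (nat_lit 6576) (.f (nat_lit 432) (nat_lit 401) (nat_lit 6544) (.d (nat_lit 431) (nat_lit 399) (nat_lit 7567) (nat_lit 463) (nat_lit 7599)))) (.p (nat_lit 497) (.a (.f (nat_lit 498) (nat_lit 499) (nat_lit 1519) (.d (nat_lit 526) (nat_lit 495) (nat_lit 1518) (nat_lit 525) (nat_lit 2541))) (.a (.f (nat_lit 463) (nat_lit 431) (nat_lit 7599) (.f (nat_lit 498) (nat_lit 499) (nat_lit 1519) (.d (nat_lit 462) (nat_lit 461) (nat_lit 461) (nat_lit 465) (nat_lit 462)))) (.f (nat_lit 465) (nat_lit 433) (nat_lit 6576) (.f (nat_lit 463) (nat_lit 431) (nat_lit 7599) (.f (nat_lit 559) (nat_lit 591) (nat_lit 5583) (.f (nat_lit 462) (nat_lit 461) (nat_lit 461) (.d (nat_lit 430) (nat_lit 429) (nat_lit 3501) (nat_lit 495) (nat_lit 7598)))))))))))) (.a s651 (.a (.p (nat_lit 561) (.a (.f (nat_lit 464) (nat_lit 593) (nat_lit 4560) (.f (nat_lit 529) (nat_lit 432) (nat_lit 4528) (.d (nat_lit 526) (nat_lit 525) (nat_lit 525) (nat_lit 562) (nat_lit 526))))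 (.a (.f (nat_lit 464) (nat_lit 593) (nat_lit 4560) (.f (nat_lit 431) (nat_lit 463) (nat_lit 7599) (.f (nat_lit 432) (nat_lit 399) (nat_lit 7567) (.d (nat_lit 433) (nat_lit 401) (nat_lit 6544) (nat_lit 465) (nat_lit 6576))))) (.f (nat_lit 526) (nat_lit 525) (nat_lit 525) (.d (nat_lit 562) (nat_lit 529) (nat_lit 526) (nat_lit 563) (nat_lit 3599)))))) (.p (nat_lit 526) (.a (.d (nat_lit 525) (nat_lit 497) (nat_lit 2541) (nat_lit 561) (nat_lit 525)) (.a (.f (nat_lit 525) (nat_lit 561) (nat_lit 525) (.d (nat_lit 524) (nat_lit 495) (nat_lit 2540) (nat_lit 559) (nat_lit 524))) (.a (.f (nat_lit 497) (nat_lit 525) (nat_lit 2541) (.d (nat_lit 498) (nat_lit 495) (nat_lit 1518) (nat_lit 499) (nat_lit 1519))) (.p (nat_lit 529) (.a (.f (nat_lit 561) (nat_lit 562) (nat_lit 526) (.f (nat_lit 593) (nat_lit 625) (nat_lit 7664) (.f (nat_lit 558) (nat_lit 557) (nat_lit 1549) (.f (nat_lit 559) (nat_lit 594) (nat_lit 558) (.f (nat_lit 591) (nat_lit 623) (nat_lit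 6639) (.d (nat_lit 494) (nat_lit 462) (nat_lit 4558) (nat_lit 493) (nat_lit 3565))))))) (.a (.f (nat_lit 497) (nat_lit 498) (nat_lit 2542) (.f (nat_lit 465) (nat_lit 433) (nat_lit 5552) (.f (nat_lit 494) (nat_lit 493) (nat_lit 3565) (.f (nat_lit 495) (nat_lit 466) (nat_lit 2510) (.f (nat_lit 463) (nat_lit 431) (nat_lit 4527) (.d (nat_lit 558) (nat_lit 557) (nat_lit 1549) (nat_lit 590) (nat_lit 6606))))))) (.a (.f (nat_lit 497) (nat_lit 498) (nat_lit 2542) (.f (nat_lit 561) (nat_lit 562) (nat_lit 526) (.f (nat_lit 465) (nat_lit 433) (nat_lit 5552) (.f (nat_lit 494) (nat_lit 493) (nat_lit 3565) (.d (nat_lit 466) (nat_lit 434) (nat_lit 6577) (nat_lit 495) (nat_lit 2510)))))) (.f (nat_lit 561) (nat_lit 562) (nat_lit 526) (.f (nat_lit 593) (nat_lit 625) (nat_lit 7664) (.f (nat_lit 558) (nat_lit 557) (nat_lit 1549) (.f (nat_lit 559) (nat_lit 594) (nat_lit 558) (.f (nat_lit 590) (nat_lit 589) (nat_lit 1581) (.d (nat_lit 495) (nat_lit 463) (nat_lit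 5582) (nat_lit 622) (nat_lit 6638))))))))))))))))))))
noncomputable def s709 : Cert := .r (nat_lit 3773962426139582502986631646264793844340548718132172006003720938849361146555773143298476687185190218548467649586404736686934909373052214328507029863446909475543486300160) (.p (nat_lit 496) (.a (.p (nat_lit 497) (.a (.f (nat_lit 592) (nat_lit 465) (nat_lit 6608) (.d (nat_lit 495) (nat_lit 463) (nat_lit 7631) (nat_lit 624) (nat_lit 7663))) (.a (.f (nat_lit 526) (nat_lit 525) (nat_lit 2541) (.d (nat_lit 498) (nat_lit 495) (nat_lit 1518) (nat_lit 499) (nat_lit 1519))) (.f (nat_lit 526) (nat_lit 525) (nat_lit 2541) (.d (nat_lit 498) (nat_lit 499) (nat_lit 1519) (nat_lit 529) (nat_lit 2542)))))) (.a (.p (nat_lit 464) (.a (.f (nat_lit 463) (nat_lit 431) (nat_lit 7599) (.f (nat_lit 495) (nat_lit 592) (nat_lit 7631) (.f (nat_lit 465) (nat_lit 433) (nat_lit 6576) (.d (nat_lit 466) (nat_lit 467) (nat_lit 1487) (nat_lit 494) (nat_lit 1486))))) (.a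 (.f (nat_lit 561) (nat_lit 593) (nat_lit 4560) (.f (nat_lit 432) (nat_lit 529) (nat_lit 4528) (.d (nat_lit 431) (nat_lit 399) (nat_lit 7567) (nat_lit 463) (nat_lit 7599)))) (.f (nat_lit 561) (nat_lit 593) (nat_lit 4560) (.f (nat_lit 432) (nat_lit 529) (nat_lit 4528) (.d (nat_lit 433) (nat_lit 401) (nat_lit 6544) (nat_lit 465) (nat_lit 6576))))))) (.a (.p (nat_lit 561) (.a (.f (nat_lit 464) (nat_lit 593) (nat_lit 4560) (.f (nat_lit 529) (nat_lit 432) (nat_lit 4528) (.d (nat_lit 526) (nat_lit 525) (nat_lit 525) (nat_lit 562) (nat_lit 526)))) (.a (.f (nat_lit 464) (nat_lit 593) (nat_lit 4560) (.f (nat_lit 431) (nat_lit 463) (nat_lit 7599) (.f (nat_lit 432) (nat_lit 399) (nat_lit 7567) (.d (nat_lit 433) (nat_lit 401) (nat_lit 6544) (nat_lit 465) (nat_lit 6576))))) (.f (nat_lit 526) (nat_lit 525) (nat_lit 525) (.d (nat_lit 562) (nat_lit 529) (nat_lit 526) (nat_lit 563) (nat_lit 3599)))))) (.a (.p (nat_lit 497) (.a (.f (nat_lit 592) (nat_lit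 465) (nat_lit 6608) (.d (nat_lit 495) (nat_lit 463) (nat_lit 7631) (nat_lit 624) (nat_lit 7663))) (.a (.f (nat_lit 526) (nat_lit 525) (nat_lit 2541) (.d (nat_lit 498) (nat_lit 495) (nat_lit 1518) (nat_lit 499) (nat_lit 1519))) (.f (nat_lit 592) (nat_lit 465) (nat_lit 6608) (.f (nat_lit 623) (nat_lit 591) (nat_lit 5615) (.f (nat_lit 624) (nat_lit 655) (nat_lit 5647) (.d (nat_lit 625) (nat_lit 593) (nat_lit 4592) (nat_lit 657) (nat_lit 4624)))))))) (.p (nat_lit 561) (.a (.f (nat_lit 464) (nat_lit 593) (nat_lit 4560) (.f (nat_lit 529) (nat_lit 432) (nat_lit 4528) (.d (nat_lit 526) (nat_lit 525) (nat_lit 525) (nat_lit 562) (nat_lit 526)))) (.a (.f (nat_lit 593) (nat_lit 464) (nat_lit 4560) (.d (nat_lit 625) (nat_lit 592) (nat_lit 4592) (nat_lit 657) (nat_lit 7696))) (.f (nat_lit 526) (nat_lit 525) (nat_lit 525) (.d (nat_lit 562) (nat_lit 529) (nat_lit 526) (nat_lit 563) (nat_lit 3599)))))))))))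
noncomputable def s718 : Cert := .r (nat_lit 3773962427896970703980067733300160448905385381753147442840407123654343792107272198248276636528565486557800015660592592403154009030555443256434490679465860718068940931072) (.p (nat_lit 496) (.a (.p (nat_lit 464) (.a (.d (nat_lit 559) (nat_lit 432) (nat_lit 5551) (nat_lit 591) (nat_lit 5583)) (.a (.d (nat_lit 561) (nat_lit 432) (nat_lit 4528) (nat_lit 593) (nat_lit 4560)) (.f (nat_lit 559) (nat_lit 591) (nat_lit 5583) (.f (nat_lit 463) (nat_lit 431) (nat_lit 7599) (.f (nat_lit 495) (nat_lit 592) (nat_lit 7631) (.d (nat_lit 558) (nat_lit 557) (nat_lit 2573) (nat_lit 590) (nat_lit 5582)))))))) (.a (.p (nat_lit 592) (.a (.d (nat_lit 495) (nat_lit 463) (nat_lit 7631) (nat_lit 624) (nat_lit 7663)) (.a (.f (nat_lit 623) (nat_lit 591) (nat_lit 5615) (.f (nat_lit 624) (nat_lit 655) (nat_lit 5647) (.d (nat_lit 625) (nat_lit 593) (nat_lit 4592) (nat_lit 657) (nat_lit 4624)))) (.f (nat_lit 495) (nat_lit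 463) (nat_lit 7631) (.f (nat_lit 591) (nat_lit 623) (nat_lit 5615) (.f (nat_lit 593) (nat_lit 625) (nat_lit 4592) (.f (nat_lit 494) (nat_lit 493) (nat_lit 493) (.f (nat_lit 559) (nat_lit 462) (nat_lit 7630) (.d (nat_lit 558) (nat_lit 557) (nat_lit 557) (nat_lit 594) (nat_lit 3630)))))))))) (.a (.p (nat_lit 464) (.a (.d (nat_lit 559) (nat_lit 432) (nat_lit 5551) (nat_lit 591) (nat_lit 5583)) (.a (.d (nat_lit 561) (nat_lit 432) (nat_lit 4528) (nat_lit 593) (nat_lit 4560)) (.f (nat_lit 559) (nat_lit 591) (nat_lit 5583) (.f (nat_lit 561) (nat_lit 593) (nat_lit 4560) (.f (nat_lit 558) (nat_lit 557) (nat_lit 2573) (.f (nat_lit 463) (nat_lit 431) (nat_lit 7599) (.d (nat_lit 590) (nat_lit 495) (nat_lit 5582) (nat_lit 589) (nat_lit 1581))))))))) (.a (.p (nat_lit 464) (.a (.d (nat_lit 561) (nat_lit 432) (nat_lit 4528) (nat_lit 593) (nat_lit 4560)) (.a (.f (nat_lit 431) (nat_lit 463) (nat_lit 7599) (.f (nat_lit 432) (nat_lit 399) (nat_lit 7567)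 (.f (nat_lit 400) (nat_lit 495) (nat_lit 5519) (.d (nat_lit 401) (nat_lit 369) (nat_lit 6512) (nat_lit 433) (nat_lit 6544))))) (.f (nat_lit 561) (nat_lit 593) (nat_lit 4560) (.f (nat_lit 463) (nat_lit 431) (nat_lit 7599) (.f (nat_lit 592) (nat_lit 495) (nat_lit 7631) (.f (nat_lit 624) (nat_lit 656) (nat_lit 6672) (.d (nat_lit 623) (nat_lit 591) (nat_lit 5615) (nat_lit 655) (nat_lit 5647))))))))) (.a (.p (nat_lit 464) (.a (.d (nat_lit 559) (nat_lit 432) (nat_lit 5551) (nat_lit 591) (nat_lit 5583)) (.a (.d (nat_lit 561) (nat_lit 432) (nat_lit 4528) (nat_lit 593) (nat_lit 4560)) (.f (nat_lit 591) (nat_lit 559) (nat_lit 5583) (.f (nat_lit 592) (nat_lit 623) (nat_lit 5615) (.d (nat_lit 593) (nat_lit 561) (nat_lit 4560) (nat_lit 625) (nat_lit 4592))))))) (.a (.p (nat_lit 464) (.a (.d (nat_lit 559) (nat_lit 432) (nat_lit 5551) (nat_lit 591) (nat_lit 5583)) (.a (.f (nat_lit 431) (nat_lit 463) (nat_lit 7599) (.f (nat_lit 432) (nat_lit 399) (nat_lit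 7567) (.f (nat_lit 400) (nat_lit 495) (nat_lit 5519) (.d (nat_lit 401) (nat_lit 369) (nat_lit 6512) (nat_lit 433) (nat_lit 6544))))) (.f (nat_lit 559) (nat_lit 591) (nat_lit 5583) (.f (nat_lit 463) (nat_lit 431) (nat_lit 7599) (.f (nat_lit 495) (nat_lit 592) (nat_lit 7631) (.d (nat_lit 558) (nat_lit 557) (nat_lit 2573) (nat_lit 590) (nat_lit 5582)))))))) (.p (nat_lit 464) (.a (.d (nat_lit 561) (nat_lit 432) (nat_lit 4528) (nat_lit 593) (nat_lit 4560)) (.a (.f (nat_lit 431) (nat_lit 463) (nat_lit 7599) (.f (nat_lit 432) (nat_lit 399) (nat_lit 7567) (.f (nat_lit 400) (nat_lit 495) (nat_lit 5519) (.d (nat_lit 401) (nat_lit 369) (nat_lit 6512) (nat_lit 433) (nat_lit 6544))))) (.f (nat_lit 561) (nat_lit 593) (nat_lit 4560) (.f (nat_lit 463) (nat_lit 431) (nat_lit 7599) (.f (nat_lit 592) (nat_lit 495) (nat_lit 7631) (.d (nat_lit 624) (nat_lit 497) (nat_lit 6640) (nat_lit 656) (nat_lit 6672)))))))))))))))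
noncomputable def s726 : Cert := .r (nat_lit 3773962427896970703980067733300160448905385381753147442840407123654343792107272198248276636528565486557800015660592592403154009030555443256434490679465860718068940931072) (.p (nat_lit 496) (.a (.p (nat_lit 561) (.a (.d (nat_lit 464) (nat_lit 432) (nat_lit 4528) (nat_lit 593) (nat_lit 4560)) (.d (nat_lit 526) (nat_lit 525) (nat_lit 525) (nat_lit 562) (nat_lit 526)))) (.a s725 (.p (nat_lit 526) (.a (.d (nat_lit 561) (nat_lit 525) (nat_lit 525) (nat_lit 562) (nat_lit 526)) (.a (.f (nat_lit 493) (nat_lit 494) (nat_lit 3565) (.f (nat_lit 525) (nat_lit 492) (nat_lit 3564) (.d (nat_lit 524) (nat_lit 495) (nat_lit 2540) (nat_lit 559) (nat_lit 524)))) (.f (nat_lit 561) (nat_lit 562) (nat_lit 526) (.f (nat_lit 593) (nat_lit 625) (nat_lit 7664) (.f (nat_lit 558) (nat_lit 557) (nat_lit 1549) (.f (nat_lit 559) (nat_lit 594) (nat_lit 558) (.f (nat_lit 591) (nat_lit 623) (nat_lit 6639) (.d (nat_lit 494)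 (nat_lit 462) (nat_lit 4558) (nat_lit 493) (nat_lit 3565)))))))))))))
noncomputable def s735 : Cert := .r (nat_lit 3773962427896970703980067733300160448905385381753147442840407123654343792107272198248276636528565486557800015660592592403154009030555443256434490679465860718068940931072) (.p (nat_lit 496) (.a (.p (nat_lit 561) (.a (.d (nat_lit 464) (nat_lit 432) (nat_lit 4528) (nat_lit 593) (nat_lit 4560)) (.d (nat_lit 526) (nat_lit 525) (nat_lit 525) (nat_lit 562) (nat_lit 526)))) (.a (.p (nat_lit 526) (.a (.f (nat_lit 493) (nat_lit 494) (nat_lit 3565) (.f (nat_lit 525) (nat_lit 492) (nat_lit 3564) (.d (nat_lit 557) (nat_lit 556) (nat_lit 1548) (nat_lit 558) (nat_lit 1549)))) (.a (.f (nat_lit 497) (nat_lit 498) (nat_lit 2542) (.f (nat_lit 592) (nat_lit 624) (nat_lit 6640) (.f (nat_lit 591) (nat_lit 623) (nat_lit 5615) (.f (nat_lit 559) (nat_lit 464) (nat_lit 5583) (.f (nat_lit 558) (nat_lit 557) (nat_lit 1549) (.d (nat_lit 494) (nat_lit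 462) (nat_lit 4558) (nat_lit 493) (nat_lit 3565))))))) (.d (nat_lit 497) (nat_lit 498) (nat_lit 2542) (nat_lit 525) (nat_lit 2541))))) (.a (.p (nat_lit 464) (.a (.d (nat_lit 559) (nat_lit 432) (nat_lit 5551) (nat_lit 591) (nat_lit 5583)) (.a (.d (nat_lit 561) (nat_lit 432) (nat_lit 4528) (nat_lit 593) (nat_lit 4560)) (.f (nat_lit 591) (nat_lit 559) (nat_lit 5583) (.f (nat_lit 592) (nat_lit 623) (nat_lit 5615) (.d (nat_lit 593) (nat_lit 561) (nat_lit 4560) (nat_lit 625) (nat_lit 4592))))))) (.p (nat_lit 526) (.a (.d (nat_lit 561) (nat_lit 525) (nat_lit 525) (nat_lit 562) (nat_lit 526)) (.a (.f (nat_lit 493) (nat_lit 494) (nat_lit 3565) (.f (nat_lit 525) (nat_lit 492) (nat_lit 3564) (.d (nat_lit 557) (nat_lit 556) (nat_lit 1548) (nat_lit 558) (nat_lit 1549)))) (.f (nat_lit 561) (nat_lit 562) (nat_lit 526) (.f (nat_lit 593) (nat_lit 625) (nat_lit 7664) (.f (nat_lit 558) (nat_lit 557) (nat_lit 1549) (.f (nat_lit 559) (nat_lit 594) (nat_lit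 558) (.f (nat_lit 591) (nat_lit 623) (nat_lit 6639) (.d (nat_lit 494) (nat_lit 462) (nat_lit 4558) (nat_lit 493) (nat_lit 3565))))))))))))))
noncomputable def s743 : Cert := .r (nat_lit 3773962427896970703980067733300160448905385381753147442840407123654343792107272198248276636528565486557800015660592592403154009030555443256434490679465860718068940931072) (.p (nat_lit 496) (.a (.p (nat_lit 561) (.a (.d (nat_lit 464) (nat_lit 432) (nat_lit 4528) (nat_lit 593) (nat_lit 4560)) (.d (nat_lit 526) (nat_lit 525) (nat_lit 525) (nat_lit 562) (nat_lit 526)))) (.a (.p (nat_lit 526) (.a (.f (nat_lit 493) (nat_lit 494) (nat_lit 3565) (.f (nat_lit 525) (nat_lit 492) (nat_lit 3564) (.d (nat_lit 524) (nat_lit 495) (nat_lit 2540) (nat_lit 559) (nat_lit 524)))) (.a (.d (nat_lit 497) (nat_lit 498) (nat_lit 2542) (nat_lit 525) (nat_lit 2541)) (.f (nat_lit 497) (nat_lit 498) (nat_lit 2542) (.f (nat_lit 592) (nat_lit 624) (nat_lit 6640) (.f (nat_lit 495) (nat_lit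 463) (nat_lit 7631) (.f (nat_lit 494) (nat_lit 493) (nat_lit 493) (.f (nat_lit 591) (nat_lit 623) (nat_lit 5615) (.d (nat_lit 462) (nat_lit 461) (nat_lit 3533) (nat_lit 559) (nat_lit 7630)))))))))) (.p (nat_lit 464) (.a (.d (nat_lit 559) (nat_lit 432) (nat_lit 5551) (nat_lit 591) (nat_lit 5583)) (.a (.d (nat_lit 561) (nat_lit 432) (nat_lit 4528) (nat_lit 593) (nat_lit 4560)) (.f (nat_lit 591) (nat_lit 559) (nat_lit 5583) (.f (nat_lit 592) (nat_lit 623) (nat_lit 5615) (.d (nat_lit 593) (nat_lit 561) (nat_lit 4560) (nat_lit 625) (nat_lit 4592))))))))))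
noncomputable def s744 : Cert := .r (nat_lit 3773962427896970703980067733300160448905385381753147442840407123654343792107272198248276636528565486557800015660592592403154009030555443256434490679465860718068940931072) (.p (nat_lit 496) (.a (.p (nat_lit 561) (.a (.d (nat_lit 464) (nat_lit 432) (nat_lit 4528) (nat_lit 593) (nat_lit 4560)) (.d (nat_lit 526) (nat_lit 525) (nat_lit 525) (nat_lit 562) (nat_lit 526)))) (.a (.p (nat_lit 464) (.a (.d (nat_lit 559) (nat_lit 432) (nat_lit 5551) (nat_lit 591) (nat_lit 5583)) (.a (.f (nat_lit 431) (nat_lit 463) (nat_lit 7599) (.f (nat_lit 432) (nat_lit 399) (nat_lit 7567) (.f (nat_lit 400) (nat_lit 495) (nat_lit 5519) (.d (nat_lit 401) (nat_lit 369) (nat_lit 6512) (nat_lit 433) (nat_lit 6544))))) (.f (nat_lit 559) (nat_lit 591) (nat_lit 5583) (.f (nat_lit 463) (nat_lit 431) (nat_lit 7599) (.f (nat_lit 495) (nat_lit 592) (nat_lit 7631) (.d (nat_lit 558) (nat_lit 557) (nat_lit 2573) (nat_lit 590) (nat_lit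 5582)))))))) (.p (nat_lit 526) (.a (.d (nat_lit 561) (nat_lit 525) (nat_lit 525) (nat_lit 562) (nat_lit 526)) (.a (.f (nat_lit 557) (nat_lit 558) (nat_lit 1549) (.f (nat_lit 525) (nat_lit 556) (nat_lit 1548) (.d (nat_lit 524) (nat_lit 495) (nat_lit 2540) (nat_lit 559) (nat_lit 524)))) (.f (nat_lit 561) (nat_lit 562) (nat_lit 526) (.f (nat_lit 593) (nat_lit 625) (nat_lit 7664) (.f (nat_lit 558) (nat_lit 557) (nat_lit 1549) (.f (nat_lit 559) (nat_lit 594) (nat_lit 558) (.f (nat_lit 590) (nat_lit 589) (nat_lit 1581) (.d (nat_lit 495) (nat_lit 463) (nat_lit 5582) (nat_lit 622) (nat_lit 6638)))))))))))))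
noncomputable def s752 : Cert := .r (nat_lit 3773962427896970703980067733300160448905385381753147442840407123654343792107272198248276636528565486557800015660592592403154009030555443256434490679465860718068940931072) (.p (nat_lit 496) (.a (.p (nat_lit 561) (.a (.d (nat_lit 464) (nat_lit 432) (nat_lit 4528) (nat_lit 593) (nat_lit 4560)) (.d (nat_lit 526) (nat_lit 525) (nat_lit 525) (nat_lit 562) (nat_lit 526)))) (.a (.p (nat_lit 526) (.a (.f (nat_lit 493) (nat_lit 494) (nat_lit 3565) (.f (nat_lit 525) (nat_lit 492) (nat_lit 3564) (.d (nat_lit 524) (nat_lit 495) (nat_lit 2540) (nat_lit 559) (nat_lit 524)))) (.a (.f (nat_lit 493) (nat_lit 494) (nat_lit 3565) (.f (nat_lit 525) (nat_lit 492) (nat_lit 3564) (.d (nat_lit 557) (nat_lit 556) (nat_lit 1548) (nat_lit 558) (nat_lit 1549)))) (.a (.f (nat_lit 497) (nat_lit 498) (nat_lit 2542) (.f (nat_lit 592) (nat_lit 624) (nat_lit 6640) (.f (nat_lit 495) (nat_lit 463) (nat_lit 7631) (.f (nat_lit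 494) (nat_lit 493) (nat_lit 493) (.f (nat_lit 462) (nat_lit 461) (nat_lit 3533) (.d (nat_lit 430) (nat_lit 398) (nat_lit 4494) (nat_lit 559) (nat_lit 4526))))))) (.f (nat_lit 557) (nat_lit 558) (nat_lit 1549) (.f (nat_lit 525) (nat_lit 556) (nat_lit 1548) (.d (nat_lit 524) (nat_lit 495) (nat_lit 2540) (nat_lit 559) (nat_lit 524)))))))) (.p (nat_lit 464) (.a (.d (nat_lit 561) (nat_lit 432) (nat_lit 4528) (nat_lit 593) (nat_lit 4560)) (.a (.f (nat_lit 431) (nat_lit 463) (nat_lit 7599) (.f (nat_lit 432) (nat_lit 399) (nat_lit 7567) (.f (nat_lit 400) (nat_lit 495) (nat_lit 5519) (.d (nat_lit 401) (nat_lit 369) (nat_lit 6512) (nat_lit 433) (nat_lit 6544))))) (.f (nat_lit 561) (nat_lit 593) (nat_lit 4560) (.f (nat_lit 463) (nat_lit 431) (nat_lit 7599) (.f (nat_lit 592) (nat_lit 495) (nat_lit 7631) (.d (nat_lit 624) (nat_lit 497) (nat_lit 6640) (nat_lit 656) (nat_lit 6672)))))))))))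
noncomputable def s753 : Cert := .r (nat_lit 3773962426139582502986631646264793844340548718132172006003720938849361146555773143298476687185190218548467649586404736686934909373052214328507029863446909475543486300160) (.p (nat_lit 529) (.a s221 (.a s443 (.a s476 (.a s718 (.a s726 (.a s528 (.a s735 (.a s743 (.a s744 s752))))))))))
noncomputable def s783 : Cert := .r (nat_lit 3773962426139582502986631646264793844340548718132172006003720938849361146555773143298476687185190218548467649586404736686934909373052214328507029863446909475543486300160) (.p (nat_lit 497) (.a (.p (nat_lit 526) (.a (.f (nat_lit 498) (nat_lit 529) (nat_lit 2542) (.d (nat_lit 496) (nat_lit 495) (nat_lit 1518) (nat_lit 499) (nat_lit 1519))) (.a (.f (nat_lit 529) (nat_lit 498) (nat_lit 2542) (.d (nat_lit 561) (nat_lit 525) (nat_lit 525) (nat_lit 562) (nat_lit 526))) (.d (nat_lit 525) (nat_lit 496) (nat_lit 2541) (nat_lit 561) (nat_lit 525))))) (.a (.p (nat_lit 529) (.a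 (.f (nat_lit 526) (nat_lit 498) (nat_lit 2542) (.d (nat_lit 561) (nat_lit 525) (nat_lit 525) (nat_lit 562) (nat_lit 526))) (.a (.f (nat_lit 526) (nat_lit 498) (nat_lit 2542) (.f (nat_lit 557) (nat_lit 558) (nat_lit 1549) (.f (nat_lit 525) (nat_lit 556) (nat_lit 1548) (.d (nat_lit 493) (nat_lit 492) (nat_lit 3564) (nat_lit 494) (nat_lit 3565))))) (.f (nat_lit 592) (nat_lit 624) (nat_lit 6640) (.d (nat_lit 465) (nat_lit 433) (nat_lit 5552) (nat_lit 561) (nat_lit 5584)))))) (.a (.p (nat_lit 592) (.a (.d (nat_lit 624) (nat_lit 495) (nat_lit 7663) (nat_lit 529) (nat_lit 6640)) (.a (.f (nat_lit 624) (nat_lit 495) (nat_lit 7663) (.f (nat_lit 656) (nat_lit 559) (nat_lit 7695) (.d (nat_lit 655) (nat_lit 623) (nat_lit 5647) (nat_lit 687) (nat_lit 5679)))) (.a (.f (nat_lit 624) (nat_lit 529) (nat_lit 6640) (.f (nat_lit 656) (nat_lit 559) (nat_lit 7695) (.d (nat_lit 655) (nat_lit 623) (nat_lit 5647) (nat_lit 687) (nat_lit 5679)))) (.f (nat_lit 496)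 (nat_lit 465) (nat_lit 6608) (.f (nat_lit 495) (nat_lit 463) (nat_lit 7631) (.f (nat_lit 591) (nat_lit 623) (nat_lit 5615) (.f (nat_lit 559) (nat_lit 464) (nat_lit 5583) (.f (nat_lit 494) (nat_lit 462) (nat_lit 7630) (.d (nat_lit 493) (nat_lit 492) (nat_lit 492) (nat_lit 529) (nat_lit 493))))))))))) (.p (nat_lit 496) (.a (.f (nat_lit 592) (nat_lit 465) (nat_lit 6608) (.d (nat_lit 495) (nat_lit 463) (nat_lit 7631) (nat_lit 624) (nat_lit 7663))) (.a (.f (nat_lit 526) (nat_lit 525) (nat_lit 2541) (.d (nat_lit 498) (nat_lit 495) (nat_lit 1518) (nat_lit 499) (nat_lit 1519))) (.f (nat_lit 465) (nat_lit 592) (nat_lit 6608) (.d (nat_lit 433) (nat_lit 401) (nat_lit 5520) (nat_lit 464) (nat_lit 6576))))))))))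
noncomputable def s784 : Cert := .r (nat_lit 3773962426139582502986631646264793844340548718132172006003720938849361146555773143298476687185190218548467649586404736686934909373052214328507029863446909475543486300160) (.p (nat_lit 496) (.a (.p (nat_lit 561) (.a (.f (nat_lit 464) (nat_lit 593) (nat_lit 4560) (.d (nat_lit 432) (nat_lit 529) (nat_lit 4528) (nat_lit 559) (nat_lit 5551))) (.a (.f (nat_lit 464) (nat_lit 593) (nat_lit 4560) (.d (nat_lit 559) (nat_lit 432) (nat_lit 5551) (nat_lit 591) (nat_lit 5583))) (.a (.f (nat_lit 526) (nat_lit 525) (nat_lit 525) (.d (nat_lit 562) (nat_lit 529) (nat_lit 526) (nat_lit 559) (nat_lit 3598))) (.f (nat_lit 464) (nat_lit 593) (nat_lit 4560) (.f (nat_lit 529) (nat_lit 432) (nat_lit 4528) (.d (nat_lit 526) (nat_lit 525) (nat_lit 525) (nat_lit 562) (nat_lit 526)))))))) (.a (.p (nat_lit 497) (.a (.f (nat_lit 526) (nat_lit 525) (nat_lit 2541) (.d (nat_lit 498) (nat_lit 499) (nat_lit 1519) (nat_lit 529)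 (nat_lit 2542))) (.f (nat_lit 592) (nat_lit 465) (nat_lit 6608) (.f (nat_lit 623) (nat_lit 591) (nat_lit 5615) (.f (nat_lit 624) (nat_lit 655) (nat_lit 5647) (.d (nat_lit 625) (nat_lit 593) (nat_lit 4592) (nat_lit 657) (nat_lit 4624))))))) (.a (.p (nat_lit 464) (.a (.d (nat_lit 559) (nat_lit 432) (nat_lit 5551) (nat_lit 591) (nat_lit 5583)) (.a (.f (nat_lit 561) (nat_lit 593) (nat_lit 4560) (.f (nat_lit 432) (nat_lit 529) (nat_lit 4528) (.d (nat_lit 433) (nat_lit 401) (nat_lit 6544) (nat_lit 465) (nat_lit 6576)))) (.f (nat_lit 559) (nat_lit 591) (nat_lit 5583) (.f (nat_lit 465) (nat_lit 433) (nat_lit 6576) (.f (nat_lit 592) (nat_lit 497) (nat_lit 6608) (.d (nat_lit 624) (nat_lit 495) (nat_lit 7663) (nat_lit 656) (nat_lit 7695)))))))) (.a (.p (nat_lit 561) (.a (.f (nat_lit 464) (nat_lit 593) (nat_lit 4560) (.d (nat_lit 559) (nat_lit 432) (nat_lit 5551) (nat_lit 591) (nat_lit 5583))) (.a (.f (nat_lit 526) (nat_lit 525) (nat_lit 525) (.d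 (nat_lit 562) (nat_lit 559) (nat_lit 3598) (nat_lit 563) (nat_lit 3599))) (.f (nat_lit 593) (nat_lit 464) (nat_lit 4560) (.d (nat_lit 625) (nat_lit 592) (nat_lit 4592) (nat_lit 657) (nat_lit 7696)))))) (.a (.p (nat_lit 464) (.a (.d (nat_lit 559) (nat_lit 432) (nat_lit 5551) (nat_lit 591) (nat_lit 5583)) (.f (nat_lit 465) (nat_lit 433) (nat_lit 6576) (.f (nat_lit 497) (nat_lit 592) (nat_lit 6608) (.f (nat_lit 498) (nat_lit 499) (nat_lit 1519) (.d (nat_lit 526) (nat_lit 495) (nat_lit 1518) (nat_lit 525) (nat_lit 2541))))))) (.p (nat_lit 561) (.a (.f (nat_lit 464) (nat_lit 593) (nat_lit 4560) (.d (nat_lit 432) (nat_lit 529) (nat_lit 4528) (nat_lit 559) (nat_lit 5551))) (.a (.f (nat_lit 526) (nat_lit 525) (nat_lit 525) (.d (nat_lit 562) (nat_lit 559) (nat_lit 3598) (nat_lit 563) (nat_lit 3599))) (.f (nat_lit 464) (nat_lit 593) (nat_lit 4560) (.f (nat_lit 529) (nat_lit 432) (nat_lit 4528) (.d (nat_lit 526) (nat_lit 525) (nat_lit 525) (nat_lit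 562) (nat_lit 526)))))))))))))
noncomputable def s785 : Cert := .r (nat_lit 3773962426139582502986631646264793844340548718132172006003720938849361146555773143298476687185190218548467649586404736686934909373052214328507029863446909475543486300160) (.p (nat_lit 496) (.a (.p (nat_lit 497) (.a (.f (nat_lit 592) (nat_lit 465) (nat_lit 6608) (.d (nat_lit 495) (nat_lit 463) (nat_lit 7631) (nat_lit 624) (nat_lit 7663))) (.a (.f (nat_lit 526) (nat_lit 525) (nat_lit 2541) (.d (nat_lit 498) (nat_lit 495) (nat_lit 1518) (nat_lit 499) (nat_lit 1519))) (.f (nat_lit 526) (nat_lit 525) (nat_lit 2541) (.d (nat_lit 498) (nat_lit 499) (nat_lit 1519) (nat_lit 529) (nat_lit 2542)))))) (.a (.p (nat_lit 464) (.a (.f (nat_lit 463) (nat_lit 431) (nat_lit 7599) (.f (nat_lit 495) (nat_lit 592) (nat_lit 7631) (.f (nat_lit 465) (nat_lit 433) (nat_lit 6576) (.d (nat_lit 466) (nat_lit 467) (nat_lit 1487) (nat_lit 494) (nat_lit 1486))))) (.a (.f (nat_lit 561) (nat_lit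 593) (nat_lit 4560) (.f (nat_lit 432) (nat_lit 529) (nat_lit 4528) (.d (nat_lit 431) (nat_lit 399) (nat_lit 7567) (nat_lit 463) (nat_lit 7599)))) (.f (nat_lit 561) (nat_lit 593) (nat_lit 4560) (.f (nat_lit 432) (nat_lit 529) (nat_lit 4528) (.d (nat_lit 433) (nat_lit 401) (nat_lit 6544) (nat_lit 465) (nat_lit 6576))))))) (.a (.p (nat_lit 561) (.a (.f (nat_lit 464) (nat_lit 593) (nat_lit 4560) (.f (nat_lit 432) (nat_lit 559) (nat_lit 5551) (.d (nat_lit 431) (nat_lit 399) (nat_lit 7567) (nat_lit 463) (nat_lit 7599)))) (.a (.f (nat_lit 526) (nat_lit 525) (nat_lit 525) (.d (nat_lit 562) (nat_lit 559) (nat_lit 3598) (nat_lit 563) (nat_lit 3599))) (.f (nat_lit 464) (nat_lit 593) (nat_lit 4560) (.f (nat_lit 431) (nat_lit 463) (nat_lit 7599) (.f (nat_lit 432) (nat_lit 399) (nat_lit 7567) (.d (nat_lit 433) (nat_lit 401) (nat_lit 6544) (nat_lit 465) (nat_lit 6576)))))))) (.p (nat_lit 561) (.a (.f (nat_lit 464) (nat_lit 593) (nat_lit 4560) (.d (nat_lit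 432) (nat_lit 529) (nat_lit 4528) (nat_lit 559) (nat_lit 5551))) (.a (.f (nat_lit 526) (nat_lit 525) (nat_lit 525) (.d (nat_lit 562) (nat_lit 559) (nat_lit 3598) (nat_lit 563) (nat_lit 3599))) (.f (nat_lit 464) (nat_lit 593) (nat_lit 4560) (.f (nat_lit 529) (nat_lit 432) (nat_lit 4528) (.d (nat_lit 526) (nat_lit 525) (nat_lit 525) (nat_lit 562) (nat_lit 526)))))))))))
noncomputable def s875 : Cert := .r (nat_lit 3773962427896970703980067733300160448905385381753147442840407123654343792107272198248276636528565486557800015660592592403154009030555443256434490679465860718068940931072) (.p (nat_lit 530) (.a (.f (nat_lit 562) (nat_lit 563) (nat_lit 527) (.f (nat_lit 561) (nat_lit 526) (nat_lit 526) (.f (nat_lit 498) (nat_lit 499) (nat_lit 2543) (.d (nat_lit 466) (nat_lit 434) (nat_lit 5553) (nat_lit 593) (nat_lit 5585))))) (.a (.f (nat_lit 563) (nat_lit 562) (nat_lit 527) (.f (nat_lit 531) (nat_lit 564) (nat_lit 528) (.d (nat_lit 499) (nat_lit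 498) (nat_lit 2543) (nat_lit 500) (nat_lit 2544)))) (.a (.f (nat_lit 499) (nat_lit 498) (nat_lit 2543) (.f (nat_lit 531) (nat_lit 500) (nat_lit 2544) (.f (nat_lit 532) (nat_lit 561) (nat_lit 1552) (.d (nat_lit 564) (nat_lit 563) (nat_lit 528) (nat_lit 565) (nat_lit 529))))) (.a (.f (nat_lit 562) (nat_lit 563) (nat_lit 527) (.f (nat_lit 526) (nat_lit 561) (nat_lit 526) (.d (nat_lit 494) (nat_lit 493) (nat_lit 3565) (nat_lit 495) (nat_lit 3566)))) (.f (nat_lit 499) (nat_lit 498) (nat_lit 2543) (.f (nat_lit 531) (nat_lit 500) (nat_lit 2544) (.f (nat_lit 561) (nat_lit 532) (nat_lit 1552) (.d (nat_lit 526) (nat_lit 525) (nat_lit 525) (nat_lit 562) (nat_lit 526))))))))))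
noncomputable def s876 : Cert := .r (nat_lit 3773962426139582502986631646264793844340548718132172006003720938849361146555773143298476687185190218548467649586404736686934909373052214328507029863446909475543486300160) (.p (nat_lit 529) (.a (.p (nat_lit 530) (.a (.d (nat_lit 559) (nat_lit 531) (nat_lit 1551) (nat_lit 558) (nat_lit 1550)) (.a (.f (nat_lit 559) (nat_lit 558) (nat_lit 1550) (.f (nat_lit 495) (nat_lit 494) (nat_lit 3566) (.d (nat_lit 463) (nat_lit 431) (nat_lit 4527) (nat_lit 592) (nat_lit 4559)))) (.f (nat_lit 562) (nat_lit 563) (nat_lit 527) (.f (nat_lit 561) (nat_lit 526) (nat_lit 526) (.f (nat_lit 498) (nat_lit 499) (nat_lit 2543) (.d (nat_lit 466) (nat_lit 434) (nat_lit 5553) (nat_lit 593) (nat_lit 5585)))))))) (.a s443 (.a (.p (nat_lit 530) (.a (.d (nat_lit 559) (nat_lit 531) (nat_lit 1551) (nat_lit 558) (nat_lit 1550)) (.a (.f (nat_lit 559) (nat_lit 558) (nat_lit 1550) (.f (nat_lit 495) (nat_lit 494) (nat_lit 3566) (.d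 (nat_lit 463) (nat_lit 431) (nat_lit 4527) (nat_lit 592) (nat_lit 4559)))) (.f (nat_lit 563) (nat_lit 562) (nat_lit 527) (.f (nat_lit 531) (nat_lit 564) (nat_lit 528) (.d (nat_lit 499) (nat_lit 498) (nat_lit 2543) (nat_lit 500) (nat_lit 2544))))))) (.a (.p (nat_lit 530) (.a (.d (nat_lit 559) (nat_lit 531) (nat_lit 1551) (nat_lit 558) (nat_lit 1550)) (.f (nat_lit 562) (nat_lit 563) (nat_lit 527) (.f (nat_lit 561) (nat_lit 526) (nat_lit 526) (.f (nat_lit 498) (nat_lit 499) (nat_lit 2543) (.d (nat_lit 466) (nat_lit 434) (nat_lit 5553) (nat_lit 593) (nat_lit 5585))))))) (.a s875 s476))))))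
noncomputable def s894 : Cert := .r (nat_lit 3773962427896970703980067733300160448905385381753147442840407123654343792107272198248276636528565486557800015660592592403154009030555443256434490679465860718068940931072) (.p (nat_lit 526) (.a (.f (nat_lit 557) (nat_lit 558) (nat_lit 1549) (.f (nat_lit 525) (nat_lit 556) (nat_lit 1548) (.d (nat_lit 493) (nat_lit 492) (nat_lit 3564) (nat_lit 494) (nat_lit 3565)))) (.a (.f (nat_lit 558) (nat_lit 557) (nat_lit 1549) (.f (nat_lit 559) (nat_lit 530) (nat_lit 1550) (.f (nat_lit 494) (nat_lit 493) (nat_lit 3565) (.d (nat_lit 462) (nat_lit 430) (nat_lit 4526) (nat_lit 591) (nat_lit 4558))))) (.a (.f (nat_lit 493) (nat_lit 494) (nat_lit 3565) (.f (nat_lit 525) (nat_lit 492) (nat_lit 3564) (.f (nat_lit 524) (nat_lit 559) (nat_lit 524) (.d (nat_lit 556) (nat_lit 555) (nat_lit 1547) (nat_lit 557) (nat_lit 1548))))) (.a (.f (nat_lit 557) (nat_lit 558) (nat_lit 1549) (.f (nat_lit 525) (nat_lit 556) (nat_lit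 1548) (.f (nat_lit 492) (nat_lit 493) (nat_lit 3564) (.d (nat_lit 524) (nat_lit 491) (nat_lit 3563) (nat_lit 559) (nat_lit 524))))) (.a (.f (nat_lit 493) (nat_lit 494) (nat_lit 3565) (.f (nat_lit 525) (nat_lit 492) (nat_lit 3564) (.f (nat_lit 559) (nat_lit 524) (nat_lit 524) (.d (nat_lit 530) (nat_lit 531) (nat_lit 1551) (nat_lit 558) (nat_lit 1550))))) (.f (nat_lit 558) (nat_lit 557) (nat_lit 1549) (.f (nat_lit 530) (nat_lit 559) (nat_lit 1550) (.f (nat_lit 499) (nat_lit 498) (nat_lit 2543) (.f (nat_lit 531) (nat_lit 500) (nat_lit 2544) (.d (nat_lit 563) (nat_lit 562) (nat_lit 527) (nat_lit 564) (nat_lit 528))))))))))))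
noncomputable def s900 : Cert := .r (nat_lit 3773962427896970704184654646293669315781209737804872389853947251532035341449977908754284998803857646238004396430961602225084426788527947694510569213583697783901973905408) (.p (nat_lit 464) (.a (.f (nat_lit 431) (nat_lit 463) (nat_lit 7599) (.f (nat_lit 432) (nat_lit 399) (nat_lit 7567) (.d (nat_lit 433) (nat_lit 401) (nat_lit 6544) (nat_lit 465) (nat_lit 6576)))) (.a (.f (nat_lit 431) (nat_lit 463) (nat_lit 7599) (.f (nat_lit 432) (nat_lit 399) (nat_lit 7567) (.f (nat_lit 400) (nat_lit 495) (nat_lit 5519) (.d (nat_lit 401) (nat_lit 369) (nat_lit 6512) (nat_lit 433) (nat_lit 6544))))) (.a (.f (nat_lit 463) (nat_lit 431) (nat_lit 7599) (.f (nat_lit 592) (nat_lit 495) (nat_lit 7631) (.f (nat_lit 623) (nat_lit 591) (nat_lit 5615) (.f (nat_lit 624) (nat_lit 655) (nat_lit 5647) (.d (nat_lit 625) (nat_lit 593) (nat_lit 4592) (nat_lit 657) (nat_lit 4624)))))) (.a (.f (nat_lit 433) (nat_lit 465) (nat_lit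 6576) (.f (nat_lit 432) (nat_lit 401) (nat_lit 6544) (.f (nat_lit 399) (nat_lit 431) (nat_lit 7567) (.d (nat_lit 400) (nat_lit 367) (nat_lit 7535) (nat_lit 495) (nat_lit 5519))))) (.f (nat_lit 433) (nat_lit 465) (nat_lit 6576) (.f (nat_lit 432) (nat_lit 401) (nat_lit 6544) (.f (nat_lit 495) (nat_lit 400) (nat_lit 5519) (.d (nat_lit 592) (nat_lit 463) (nat_lit 7631) (nat_lit 624) (nat_lit 7663))))))))))
noncomputable def s916 : Cert := .r (nat_lit 3773962427896970703980067733300160448905385381753147442840407123654343792107272198248276636528565486557800015660592592403154009030555443256434490679465860718068940931072) (.p (nat_lit 496) (.a (.p (nat_lit 464) (.a (.d (nat_lit 559) (nat_lit 432) (nat_lit 5551) (nat_lit 591) (nat_lit 5583)) (.a (.f (nat_lit 431) (nat_lit 463) (nat_lit 7599) (.f (nat_lit 432) (nat_lit 399) (nat_lit 7567) (.d (nat_lit 433) (nat_lit 401) (nat_lit 6544) (nat_lit 465) (nat_lit 6576)))) (.f (nat_lit 559) (nat_lit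 591) (nat_lit 5583) (.f (nat_lit 463) (nat_lit 431) (nat_lit 7599) (.f (nat_lit 495) (nat_lit 592) (nat_lit 7631) (.d (nat_lit 558) (nat_lit 557) (nat_lit 2573) (nat_lit 590) (nat_lit 5582)))))))) (.a (.p (nat_lit 530) (.a (.f (nat_lit 559) (nat_lit 558) (nat_lit 1550) (.d (nat_lit 464) (nat_lit 432) (nat_lit 5551) (nat_lit 591) (nat_lit 5583))) (.f (nat_lit 531) (nat_lit 495) (nat_lit 3567) (.d (nat_lit 499) (nat_lit 498) (nat_lit 2543) (nat_lit 500) (nat_lit 2544))))) (.a s900 (.a s546 (.a (.p (nat_lit 592) (.a (.d (nat_lit 495) (nat_lit 463) (nat_lit 7631) (nat_lit 624) (nat_lit 7663)) (.a (.f (nat_lit 623) (nat_lit 591) (nat_lit 5615) (.f (nat_lit 624) (nat_lit 655) (nat_lit 5647) (.d (nat_lit 625) (nat_lit 593) (nat_lit 4592) (nat_lit 657) (nat_lit 4624)))) (.f (nat_lit 495) (nat_lit 463) (nat_lit 7631) (.f (nat_lit 530) (nat_lit 531) (nat_lit 3567) (.f (nat_lit 558) (nat_lit 559) (nat_lit 1550) (.f (nat_lit 557) (nat_lit 526) (nat_lit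 1549) (.f (nat_lit 591) (nat_lit 623) (nat_lit 5615) (.d (nat_lit 593) (nat_lit 590) (nat_lit 3629) (nat_lit 625) (nat_lit 4592)))))))))) (.p (nat_lit 530) (.a (.f (nat_lit 531) (nat_lit 495) (nat_lit 3567) (.d (nat_lit 499) (nat_lit 498) (nat_lit 2543) (nat_lit 500) (nat_lit 2544))) (.a (.f (nat_lit 559) (nat_lit 558) (nat_lit 1550) (.f (nat_lit 464) (nat_lit 432) (nat_lit 5551) (.f (nat_lit 463) (nat_lit 431) (nat_lit 7599) (.f (nat_lit 592) (nat_lit 495) (nat_lit 7631) (.f (nat_lit 624) (nat_lit 656) (nat_lit 7695) (.d (nat_lit 625) (nat_lit 593) (nat_lit 4592) (nat_lit 657) (nat_lit 4624))))))) (.d (nat_lit 559) (nat_lit 531) (nat_lit 1551) (nat_lit 558) (nat_lit 1550)))))))))))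
noncomputable def s917 : Cert := .r (nat_lit 3773962426139582502986631646264793844340548718132172006003720938849361146555773143298476687185190218548467649586404736686934909373052214328507029863446909475543486300160) (.p (nat_lit 529) (.a (.p (nat_lit 530) (.a (.d (nat_lit 559) (nat_lit 531) (nat_lit 1551) (nat_lit 558) (nat_lit 1550)) (.a (.f (nat_lit 559) (nat_lit 558) (nat_lit 1550) (.f (nat_lit 495) (nat_lit 494) (nat_lit 3566) (.d (nat_lit 463) (nat_lit 431) (nat_lit 4527) (nat_lit 592) (nat_lit 4559)))) (.f (nat_lit 495) (nat_lit 494) (nat_lit 3566) (.f (nat_lit 496) (nat_lit 531) (nat_lit 3567) (.d (nat_lit 463) (nat_lit 431) (nat_lit 4527) (nat_lit 592) (nat_lit 7631))))))) (.a (.p (nat_lit 530) (.a (.d (nat_lit 559) (nat_lit 531) (nat_lit 1551) (nat_lit 558) (nat_lit 1550)) (.a (.f (nat_lit 559) (nat_lit 558) (nat_lit 1550) (.f (nat_lit 495) (nat_lit 494) (nat_lit 3566) (.d (nat_lit 463) (nat_lit 431) (nat_lit 4527) (nat_lit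 592) (nat_lit 4559)))) (.f (nat_lit 563) (nat_lit 562) (nat_lit 527) (.f (nat_lit 531) (nat_lit 564) (nat_lit 528) (.d (nat_lit 499) (nat_lit 498) (nat_lit 2543) (nat_lit 500) (nat_lit 2544))))))) (.a s476 (.a (.p (nat_lit 530) (.a (.d (nat_lit 559) (nat_lit 531) (nat_lit 1551) (nat_lit 558) (nat_lit 1550)) (.a (.f (nat_lit 558) (nat_lit 559) (nat_lit 1550) (.f (nat_lit 526) (nat_lit 557) (nat_lit 1549) (.d (nat_lit 494) (nat_lit 493) (nat_lit 3565) (nat_lit 495) (nat_lit 3566)))) (.f (nat_lit 563) (nat_lit 562) (nat_lit 527) (.f (nat_lit 531) (nat_lit 564) (nat_lit 528) (.d (nat_lit 499) (nat_lit 498) (nat_lit 2543) (nat_lit 500) (nat_lit 2544))))))) (.a (.p (nat_lit 530) (.a (.f (nat_lit 495) (nat_lit 494) (nat_lit 3566) (.f (nat_lit 496) (nat_lit 531) (nat_lit 3567) (.d (nat_lit 463) (nat_lit 431) (nat_lit 4527) (nat_lit 592) (nat_lit 7631)))) (.a (.f (nat_lit 563) (nat_lit 562) (nat_lit 527) (.f (nat_lit 531) (nat_lit 564) (nat_lit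 528) (.d (nat_lit 499) (nat_lit 498) (nat_lit 2543) (nat_lit 500) (nat_lit 2544)))) (.f (nat_lit 495) (nat_lit 494) (nat_lit 3566) (.f (nat_lit 592) (nat_lit 624) (nat_lit 7663) (.d (nat_lit 463) (nat_lit 431) (nat_lit 4527) (nat_lit 496) (nat_lit 7631))))))) (.a s894 s916)))))))
noncomputable def s947 : Cert := .r (nat_lit 3773962427896970704184654646293669315781209737804872389853947251532035341449977908754284998803857646238004396430961602225084426788527947694510569213583697783901973905408) (.p (nat_lit 592) (.a (.f (nat_lit 623) (nat_lit 591) (nat_lit 5615) (.f (nat_lit 624) (nat_lit 655) (nat_lit 5647) (.d (nat_lit 625) (nat_lit 593) (nat_lit 4592) (nat_lit 657) (nat_lit 4624)))) (.a (.f (nat_lit 593) (nat_lit 625) (nat_lit 4592) (.f (nat_lit 561) (nat_lit 464) (nat_lit 4560) (.f (nat_lit 562) (nat_lit 563) (nat_lit 3599) (.d (nat_lit 591) (nat_lit 590) (nat_lit 2606) (nat_lit 623) (nat_lit 5615))))) (.a (.f (nat_lit 623) (nat_lit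 591) (nat_lit 5615) (.f (nat_lit 624) (nat_lit 655) (nat_lit 5647) (.f (nat_lit 656) (nat_lit 561) (nat_lit 6672) (.d (nat_lit 657) (nat_lit 625) (nat_lit 4624) (nat_lit 689) (nat_lit 4656))))) (.a (.f (nat_lit 623) (nat_lit 591) (nat_lit 5615) (.f (nat_lit 624) (nat_lit 655) (nat_lit 5647) (.f (nat_lit 561) (nat_lit 656) (nat_lit 6672) (.d (nat_lit 464) (nat_lit 432) (nat_lit 4528) (nat_lit 593) (nat_lit 4560))))) (.f (nat_lit 593) (nat_lit 625) (nat_lit 4592) (.f (nat_lit 464) (nat_lit 561) (nat_lit 4560) (.f (nat_lit 431) (nat_lit 463) (nat_lit 7599) (.f (nat_lit 432) (nat_lit 399) (nat_lit 7567) (.d (nat_lit 433) (nat_lit 401) (nat_lit 6544) (nat_lit 465) (nat_lit 6576)))))))))))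
noncomputable def s962 : Cert := .r (nat_lit 3773962427896970703980067733300160448905385381753147442840407123654343792107272198248276636528565486557800015660592592403154009030555443256434490679465860718068940931072) (.p (nat_lit 496) (.a (.p (nat_lit 464) (.a (.d (nat_lit 559) (nat_lit 432) (nat_lit 5551) (nat_lit 591) (nat_lit 5583)) (.a (.f (nat_lit 431) (nat_lit 463) (nat_lit 7599) (.f (nat_lit 432) (nat_lit 399) (nat_lit 7567) (.d (nat_lit 433) (nat_lit 401) (nat_lit 6544) (nat_lit 465) (nat_lit 6576)))) (.f (nat_lit 591) (nat_lit 559) (nat_lit 5583) (.f (nat_lit 592) (nat_lit 623) (nat_lit 5615) (.d (nat_lit 593) (nat_lit 561) (nat_lit 4560) (nat_lit 625) (nat_lit 4592))))))) (.a s546 (.a (.p (nat_lit 530) (.a (.f (nat_lit 559) (nat_lit 558) (nat_lit 1550) (.d (nat_lit 464) (nat_lit 432) (nat_lit 5551) (nat_lit 591) (nat_lit 5583))) (.f (nat_lit 563) (nat_lit 562) (nat_lit 527) (.f (nat_lit 531) (nat_lit 564) (nat_lit 528) (.d (nat_lit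 499) (nat_lit 498) (nat_lit 2543) (nat_lit 500) (nat_lit 2544)))))) (.a s947 (.a (.p (nat_lit 530) (.a (.d (nat_lit 559) (nat_lit 531) (nat_lit 1551) (nat_lit 558) (nat_lit 1550)) (.a (.f (nat_lit 559) (nat_lit 558) (nat_lit 1550) (.f (nat_lit 591) (nat_lit 623) (nat_lit 6639) (.f (nat_lit 562) (nat_lit 563) (nat_lit 527) (.f (nat_lit 561) (nat_lit 590) (nat_lit 1582) (.f (nat_lit 593) (nat_lit 625) (nat_lit 7664) (.d (nat_lit 498) (nat_lit 466) (nat_lit 5585) (nat_lit 499) (nat_lit 2543))))))) (.f (nat_lit 563) (nat_lit 562) (nat_lit 527) (.f (nat_lit 531) (nat_lit 564) (nat_lit 528) (.d (nat_lit 499) (nat_lit 498) (nat_lit 2543) (nat_lit 500) (nat_lit 2544))))))) (.p (nat_lit 530) (.a (.d (nat_lit 559) (nat_lit 531) (nat_lit 1551) (nat_lit 558) (nat_lit 1550)) (.a (.f (nat_lit 559) (nat_lit 558) (nat_lit 1550) (.f (nat_lit 464) (nat_lit 432) (nat_lit 5551) (.f (nat_lit 593) (nat_lit 561) (nat_lit 4560) (.f (nat_lit 625) (nat_lit 592)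 (nat_lit 4592) (.f (nat_lit 562) (nat_lit 563) (nat_lit 527) (.d (nat_lit 498) (nat_lit 499) (nat_lit 2543) (nat_lit 594) (nat_lit 5617))))))) (.f (nat_lit 563) (nat_lit 562) (nat_lit 527) (.f (nat_lit 531) (nat_lit 564) (nat_lit 528) (.d (nat_lit 499) (nat_lit 498) (nat_lit 2543) (nat_lit 500) (nat_lit 2544)))))))))))))
noncomputable def s971 : Cert := .r (nat_lit 3773962426139582502986631646264793844340548718132172006003720938849361146555773143298476687185190218548467649586404736686934909373052214328507029863446909475543486300160) (.p (nat_lit 529) (.a (.p (nat_lit 530) (.a (.d (nat_lit 559) (nat_lit 531) (nat_lit 1551) (nat_lit 558) (nat_lit 1550)) (.a (.f (nat_lit 559) (nat_lit 558) (nat_lit 1550) (.f (nat_lit 495) (nat_lit 494) (nat_lit 3566) (.d (nat_lit 463) (nat_lit 431) (nat_lit 4527) (nat_lit 592) (nat_lit 4559)))) (.f (nat_lit 495) (nat_lit 494) (nat_lit 3566) (.f (nat_lit 496) (nat_lit 531) (nat_lit 3567) (.d (nat_lit 463)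 (nat_lit 431) (nat_lit 4527) (nat_lit 592) (nat_lit 7631))))))) (.a (.p (nat_lit 530) (.a (.d (nat_lit 559) (nat_lit 531) (nat_lit 1551) (nat_lit 558) (nat_lit 1550)) (.a (.f (nat_lit 559) (nat_lit 558) (nat_lit 1550) (.f (nat_lit 495) (nat_lit 494) (nat_lit 3566) (.d (nat_lit 463) (nat_lit 431) (nat_lit 4527) (nat_lit 592) (nat_lit 4559)))) (.f (nat_lit 563) (nat_lit 562) (nat_lit 527) (.f (nat_lit 531) (nat_lit 564) (nat_lit 528) (.d (nat_lit 499) (nat_lit 498) (nat_lit 2543) (nat_lit 500) (nat_lit 2544))))))) (.a s510 (.a s925 (.a (.p (nat_lit 530) (.a (.f (nat_lit 495) (nat_lit 494) (nat_lit 3566) (.f (nat_lit 496) (nat_lit 531) (nat_lit 3567) (.d (nat_lit 463) (nat_lit 431) (nat_lit 4527) (nat_lit 592) (nat_lit 7631)))) (.a (.f (nat_lit 563) (nat_lit 562) (nat_lit 527) (.f (nat_lit 531) (nat_lit 564) (nat_lit 528) (.d (nat_lit 499) (nat_lit 498) (nat_lit 2543) (nat_lit 500) (nat_lit 2544)))) (.f (nat_lit 495) (nat_lit 494) (nat_lit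 3566) (.f (nat_lit 592) (nat_lit 624) (nat_lit 7663) (.d (nat_lit 463) (nat_lit 431) (nat_lit 4527) (nat_lit 496) (nat_lit 7631))))))) (.a s962 s970)))))))
noncomputable def s980 : Cert := .r (nat_lit 3773962426139582503191218559258302711216373074183896953017261066727052695898478853804485049460482378228672030356773746508865327131024718766583108397564746541376519274496) (.p (nat_lit 464) (.a (.f (nat_lit 463) (nat_lit 431) (nat_lit 7599) (.f (nat_lit 495) (nat_lit 592) (nat_lit 7631) (.f (nat_lit 465) (nat_lit 433) (nat_lit 6576) (.d (nat_lit 466) (nat_lit 467) (nat_lit 1487) (nat_lit 494) (nat_lit 1486))))) (.a (.f (nat_lit 433) (nat_lit 465) (nat_lit 6576) (.f (nat_lit 432) (nat_lit 401) (nat_lit 6544) (.d (nat_lit 431) (nat_lit 399) (nat_lit 7567) (nat_lit 463) (nat_lit 7599)))) (.a (.f (nat_lit 463) (nat_lit 431) (nat_lit 7599) (.f (nat_lit 592) (nat_lit 495) (nat_lit 7631) (.f (nat_lit 623) (nat_lit 591) (nat_lit 5615) (.f (nat_lit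 624) (nat_lit 655) (nat_lit 5647) (.d (nat_lit 625) (nat_lit 593) (nat_lit 4592) (nat_lit 657) (nat_lit 4624)))))) (.a (.f (nat_lit 433) (nat_lit 465) (nat_lit 6576) (.f (nat_lit 432) (nat_lit 401) (nat_lit 6544) (.f (nat_lit 399) (nat_lit 431) (nat_lit 7567) (.d (nat_lit 400) (nat_lit 367) (nat_lit 7535) (nat_lit 495) (nat_lit 5519))))) (.f (nat_lit 433) (nat_lit 465) (nat_lit 6576) (.f (nat_lit 432) (nat_lit 401) (nat_lit 6544) (.f (nat_lit 495) (nat_lit 400) (nat_lit 5519) (.d (nat_lit 592) (nat_lit 463) (nat_lit 7631) (nat_lit 624) (nat_lit 7663))))))))))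
noncomputable def s997 : Cert := .r (nat_lit 3773962426139582503191218559258302711216373074183896953017261066727052695898478853804485049460482378228672030356773746508865327131024718766583108397564746541376519274496) (.p (nat_lit 561) (.a (.f (nat_lit 526) (nat_lit 525) (nat_lit 525) (.d (nat_lit 562) (nat_lit 559) (nat_lit 3598) (nat_lit 563) (nat_lit 3599))) (.a (.p (nat_lit 592) (.a (.d (nat_lit 495) (nat_lit 463) (nat_lit 7631) (nat_lit 624) (nat_lit 7663)) (.f (nat_lit 591) (nat_lit 623) (nat_lit 5615) (.f (nat_lit 562) (nat_lit 563) (nat_lit 3599) (.d (nat_lit 590) (nat_lit 559) (nat_lit 1582) (nat_lit 589) (nat_lit 2605)))))) (.a (.p (nat_lit 592) (.a (.d (nat_lit 495) (nat_lit 463) (nat_lit 7631) (nat_lit 624) (nat_lit 7663)) (.f (nat_lit 591) (nat_lit 623) (nat_lit 5615) (.f (nat_lit 562) (nat_lit 563) (nat_lit 3599) (.d (nat_lit 590) (nat_lit 589) (nat_lit 2605) (nat_lit 593) (nat_lit 2606)))))) (.p (nat_lit 592) (.a (.d (nat_lit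 495) (nat_lit 463) (nat_lit 7631) (nat_lit 624) (nat_lit 7663)) (.f (nat_lit 593) (nat_lit 625) (nat_lit 4592) (.f (nat_lit 591) (nat_lit 623) (nat_lit 5615) (.f (nat_lit 590) (nat_lit 589) (nat_lit 2605) (.f (nat_lit 558) (nat_lit 557) (nat_lit 3629) (.f (nat_lit 559) (nat_lit 594) (nat_lit 558) (.d (nat_lit 622) (nat_lit 621) (nat_lit 1613) (nat_lit 654) (nat_lit 6670)))))))))))))
noncomputable def s998 : Cert := .r (nat_lit 3773962426139582502986631646264793844340548718132172006003720938849361146555773143298476687185190218548467649586404736686934909373052214328507029863446909475543486300160) (.p (nat_lit 496) (.a (.p (nat_lit 464) (.a (.d (nat_lit 559) (nat_lit 432) (nat_lit 5551) (nat_lit 591) (nat_lit 5583)) (.f (nat_lit 463) (nat_lit 431) (nat_lit 7599) (.f (nat_lit 495) (nat_lit 592) (nat_lit 7631) (.f (nat_lit 465) (nat_lit 433) (nat_lit 6576) (.d (nat_lit 466) (nat_lit 467) (nat_lit 1487) (nat_lit 494) (nat_lit 1486))))))) (.a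 (.p (nat_lit 561) (.a (.f (nat_lit 464) (nat_lit 593) (nat_lit 4560) (.d (nat_lit 559) (nat_lit 432) (nat_lit 5551) (nat_lit 591) (nat_lit 5583))) (.a (.f (nat_lit 526) (nat_lit 525) (nat_lit 525) (.d (nat_lit 562) (nat_lit 559) (nat_lit 3598) (nat_lit 563) (nat_lit 3599))) (.f (nat_lit 464) (nat_lit 593) (nat_lit 4560) (.f (nat_lit 431) (nat_lit 463) (nat_lit 7599) (.f (nat_lit 432) (nat_lit 399) (nat_lit 7567) (.d (nat_lit 433) (nat_lit 401) (nat_lit 6544) (nat_lit 465) (nat_lit 6576)))))))) (.a s980 (.a s997 (.a (.p (nat_lit 561) (.a (.f (nat_lit 464) (nat_lit 593) (nat_lit 4560) (.d (nat_lit 559) (nat_lit 432) (nat_lit 5551) (nat_lit 591) (nat_lit 5583))) (.a (.f (nat_lit 526) (nat_lit 525) (nat_lit 525) (.d (nat_lit 562) (nat_lit 559) (nat_lit 3598) (nat_lit 563) (nat_lit 3599))) (.f (nat_lit 593) (nat_lit 464) (nat_lit 4560) (.d (nat_lit 625) (nat_lit 592) (nat_lit 4592) (nat_lit 657) (nat_lit 7696)))))) (.p (nat_lit 561) (.a (.f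 (nat_lit 464) (nat_lit 593) (nat_lit 4560) (.f (nat_lit 432) (nat_lit 559) (nat_lit 5551) (.d (nat_lit 431) (nat_lit 399) (nat_lit 7567) (nat_lit 463) (nat_lit 7599)))) (.a (.f (nat_lit 526) (nat_lit 525) (nat_lit 525) (.d (nat_lit 562) (nat_lit 559) (nat_lit 3598) (nat_lit 563) (nat_lit 3599))) (.f (nat_lit 464) (nat_lit 593) (nat_lit 4560) (.f (nat_lit 431) (nat_lit 463) (nat_lit 7599) (.f (nat_lit 432) (nat_lit 399) (nat_lit 7567) (.d (nat_lit 433) (nat_lit 401) (nat_lit 6544) (nat_lit 465) (nat_lit 6576))))))))))))))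
noncomputable def s1000 : Cert := .r (nat_lit 3773962426139582502986631646264793844340548718132172006003720938849361146555773143298476687185190218548467649586404736686934909373052214328507029863446909475543486300160) (.p (nat_lit 529) (.a (.p (nat_lit 530) (.a (.d (nat_lit 559) (nat_lit 531) (nat_lit 1551) (nat_lit 558) (nat_lit 1550)) (.f (nat_lit 562) (nat_lit 563) (nat_lit 527) (.f (nat_lit 561) (nat_lit 526) (nat_lit 526) (.f (nat_lit 498) (nat_lit 499) (nat_lit 2543) (.d (nat_lit 466) (nat_lit 434) (nat_lit 5553) (nat_lit 593) (nat_lit 5585))))))) (.a s518 (.a (.p (nat_lit 530) (.a (.d (nat_lit 559) (nat_lit 531) (nat_lit 1551) (nat_lit 558) (nat_lit 1550)) (.a (.f (nat_lit 558) (nat_lit 559) (nat_lit 1550) (.f (nat_lit 526) (nat_lit 557) (nat_lit 1549) (.d (nat_lit 494) (nat_lit 493) (nat_lit 3565) (nat_lit 495) (nat_lit 3566)))) (.f (nat_lit 563) (nat_lit 562) (nat_lit 527) (.f (nat_lit 531) (nat_lit 564) (nat_lit 528) (.d (nat_lit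 499) (nat_lit 498) (nat_lit 2543) (nat_lit 500) (nat_lit 2544))))))) (.a s925 (.a s875 (.p (nat_lit 530) (.a (.d (nat_lit 559) (nat_lit 531) (nat_lit 1551) (nat_lit 558) (nat_lit 1550)) (.a (.f (nat_lit 558) (nat_lit 559) (nat_lit 1550) (.f (nat_lit 526) (nat_lit 557) (nat_lit 1549) (.d (nat_lit 494) (nat_lit 493) (nat_lit 3565) (nat_lit 495) (nat_lit 3566)))) (.f (nat_lit 499) (nat_lit 498) (nat_lit 2543) (.f (nat_lit 531) (nat_lit 500) (nat_lit 2544) (.f (nat_lit 532) (nat_lit 561) (nat_lit 1552) (.d (nat_lit 564) (nat_lit 563) (nat_lit 528) (nat_lit 565) (nat_lit 529))))))))))))))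
noncomputable def s1001 : Cert := .r (nat_lit 3773962427896970703980067733300160448905385381753147442840407123654343792107272198248276636528565486557800015660592592403154009030555443256434490679465860718068940931072) (.p (nat_lit 530) (.a (.f (nat_lit 562) (nat_lit 563) (nat_lit 527) (.f (nat_lit 561) (nat_lit 526) (nat_lit 526) (.f (nat_lit 498) (nat_lit 499) (nat_lit 2543) (.d (nat_lit 466) (nat_lit 434) (nat_lit 5553) (nat_lit 593) (nat_lit 5585))))) (.a (.f (nat_lit 563) (nat_lit 562) (nat_lit 527) (.f (nat_lit 531) (nat_lit 564) (nat_lit 528) (.d (nat_lit 499) (nat_lit 498) (nat_lit 2543) (nat_lit 500) (nat_lit 2544)))) (.a (.f (nat_lit 499) (nat_lit 498) (nat_lit 2543) (.f (nat_lit 531) (nat_lit 500) (nat_lit 2544) (.f (nat_lit 532) (nat_lit 561) (nat_lit 1552) (.d (nat_lit 564) (nat_lit 563) (nat_lit 528) (nat_lit 565) (nat_lit 529))))) (.a (.f (nat_lit 562) (nat_lit 563) (nat_lit 527) (.f (nat_lit 526) (nat_lit 561) (nat_lit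 526) (.f (nat_lit 493) (nat_lit 494) (nat_lit 3565) (.f (nat_lit 525) (nat_lit 492) (nat_lit 3564) (.d (nat_lit 557) (nat_lit 556) (nat_lit 1548) (nat_lit 558) (nat_lit 1549)))))) (.f (nat_lit 499) (nat_lit 498) (nat_lit 2543) (.f (nat_lit 531) (nat_lit 500) (nat_lit 2544) (.f (nat_lit 561) (nat_lit 532) (nat_lit 1552) (.d (nat_lit 526) (nat_lit 525) (nat_lit 525) (nat_lit 562) (nat_lit 526))))))))))
noncomputable def s1003 : Cert := .r (nat_lit 3773962427896970703980067733300160448905385381753147442840407123654343792107272198248276636528565486557800015660592592403154009030555443256434490679465860718068940931072) (.p (nat_lit 530) (.a (.f (nat_lit 562) (nat_lit 563) (nat_lit 527) (.f (nat_lit 561) (nat_lit 526) (nat_lit 526) (.f (nat_lit 498) (nat_lit 499) (nat_lit 2543) (.d (nat_lit 466) (nat_lit 434) (nat_lit 5553) (nat_lit 593) (nat_lit 5585))))) (.a (.f (nat_lit 563) (nat_lit 562) (nat_lit 527) (.f (nat_lit 531) (nat_lit 564) (nat_lit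 528) (.d (nat_lit 499) (nat_lit 498) (nat_lit 2543) (nat_lit 500) (nat_lit 2544)))) (.a (.f (nat_lit 499) (nat_lit 498) (nat_lit 2543) (.f (nat_lit 531) (nat_lit 500) (nat_lit 2544) (.f (nat_lit 532) (nat_lit 561) (nat_lit 1552) (.d (nat_lit 564) (nat_lit 563) (nat_lit 528) (nat_lit 565) (nat_lit 529))))) (.a (.f (nat_lit 562) (nat_lit 563) (nat_lit 527) (.f (nat_lit 561) (nat_lit 526) (nat_lit 526) (.f (nat_lit 531) (nat_lit 532) (nat_lit 1552) (.f (nat_lit 496) (nat_lit 495) (nat_lit 3567) (.d (nat_lit 464) (nat_lit 432) (nat_lit 4528) (nat_lit 593) (nat_lit 4560)))))) (.f (nat_lit 499) (nat_lit 498) (nat_lit 2543) (.f (nat_lit 531) (nat_lit 500) (nat_lit 2544) (.f (nat_lit 561) (nat_lit 532) (nat_lit 1552) (.d (nat_lit 526) (nat_lit 525) (nat_lit 525) (nat_lit 562) (nat_lit 526))))))))))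
noncomputable def s1004 : Cert := .r (nat_lit 3773962426139582502986631646264793844340548718132172006003720938849361146555773143298476687185190218548467649586404736686934909373052214328507029863446909475543486300160) (.p (nat_lit 529) (.a (.p (nat_lit 530) (.a (.f (nat_lit 495) (nat_lit 494) (nat_lit 3566) (.f (nat_lit 496) (nat_lit 531) (nat_lit 3567) (.d (nat_lit 463) (nat_lit 431) (nat_lit 4527) (nat_lit 592) (nat_lit 7631)))) (.f (nat_lit 562) (nat_lit 563) (nat_lit 527) (.f (nat_lit 561) (nat_lit 526) (nat_lit 526) (.f (nat_lit 498) (nat_lit 499) (nat_lit 2543) (.d (nat_lit 466) (nat_lit 434) (nat_lit 5553) (nat_lit 593) (nat_lit 5585))))))) (.a s875 (.a s528 (.a (.p (nat_lit 530) (.a (.f (nat_lit 495) (nat_lit 494) (nat_lit 3566) (.f (nat_lit 496) (nat_lit 531) (nat_lit 3567) (.d (nat_lit 463) (nat_lit 431) (nat_lit 4527) (nat_lit 592) (nat_lit 7631)))) (.a (.f (nat_lit 563) (nat_lit 562) (nat_lit 527) (.f (nat_lit 531) (nat_lit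 564) (nat_lit 528) (.d (nat_lit 499) (nat_lit 498) (nat_lit 2543) (nat_lit 500) (nat_lit 2544)))) (.f (nat_lit 495) (nat_lit 494) (nat_lit 3566) (.f (nat_lit 592) (nat_lit 624) (nat_lit 7663) (.d (nat_lit 463) (nat_lit 431) (nat_lit 4527) (nat_lit 496) (nat_lit 7631))))))) (.a s1001 (.a (.p (nat_lit 530) (.a (.f (nat_lit 495) (nat_lit 494) (nat_lit 3566) (.f (nat_lit 496) (nat_lit 531) (nat_lit 3567) (.d (nat_lit 463) (nat_lit 431) (nat_lit 4527) (nat_lit 592) (nat_lit 7631)))) (.a (.f (nat_lit 499) (nat_lit 498) (nat_lit 2543) (.f (nat_lit 531) (nat_lit 500) (nat_lit 2544) (.f (nat_lit 532) (nat_lit 561) (nat_lit 1552) (.d (nat_lit 564) (nat_lit 563) (nat_lit 528) (nat_lit 565) (nat_lit 529))))) (.f (nat_lit 495) (nat_lit 494) (nat_lit 3566) (.f (nat_lit 592) (nat_lit 624) (nat_lit 7663) (.d (nat_lit 463) (nat_lit 431) (nat_lit 4527) (nat_lit 496) (nat_lit 7631))))))) s1003)))))))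
noncomputable def s1010 : Cert := .r (nat_lit 3773962427896970703980067733300160448905385381753147442840407123654343792107272198248276636528565486557800015660592592403154009030555443256434490679465860718068940931072) (.p (nat_lit 530) (.a (.f (nat_lit 562) (nat_lit 563) (nat_lit 527) (.f (nat_lit 561) (nat_lit 526) (nat_lit 526) (.f (nat_lit 498) (nat_lit 499) (nat_lit 2543) (.d (nat_lit 466) (nat_lit 434) (nat_lit 5553) (nat_lit 593) (nat_lit 5585))))) (.a (.f (nat_lit 563) (nat_lit 562) (nat_lit 527) (.f (nat_lit 531) (nat_lit 564) (nat_lit 528) (.d (nat_lit 499) (nat_lit 498) (nat_lit 2543) (nat_lit 500) (nat_lit 2544)))) (.a (.f (nat_lit 499) (nat_lit 498) (nat_lit 2543) (.f (nat_lit 531) (nat_lit 500) (nat_lit 2544) (.f (nat_lit 532) (nat_lit 561) (nat_lit 1552) (.d (nat_lit 564) (nat_lit 563) (nat_lit 528) (nat_lit 565) (nat_lit 529))))) (.a (.f (nat_lit 531) (nat_lit 559) (nat_lit 1551) (.d (nat_lit 563) (nat_lit 562) (nat_lit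 527) (nat_lit 564) (nat_lit 528))) (.f (nat_lit 499) (nat_lit 498) (nat_lit 2543) (.f (nat_lit 531) (nat_lit 500) (nat_lit 2544) (.f (nat_lit 561) (nat_lit 532) (nat_lit 1552) (.d (nat_lit 526) (nat_lit 525) (nat_lit 525) (nat_lit 562) (nat_lit 526))))))))))
noncomputable def s1011 : Cert := .r (nat_lit 3773962426139582502986631646264793844340548718132172006003720938849361146555773143298476687185190218548467649586404736686934909373052214328507029863446909475543486300160) (.p (nat_lit 529) (.a (.p (nat_lit 530) (.a (.d (nat_lit 559) (nat_lit 531) (nat_lit 1551) (nat_lit 558) (nat_lit 1550)) (.f (nat_lit 562) (nat_lit 563) (nat_lit 527) (.f (nat_lit 561) (nat_lit 526) (nat_lit 526) (.f (nat_lit 498) (nat_lit 499) (nat_lit 2543) (.d (nat_lit 466) (nat_lit 434) (nat_lit 5553) (nat_lit 593) (nat_lit 5585))))))) (.a s558 (.a s894 (.a s962 (.a s1001 (.a (.p (nat_lit 530) (.a (.d (nat_lit 559) (nat_lit 531) (nat_lit 1551) (nat_lit 558) (nat_lit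 1550)) (.a (.f (nat_lit 558) (nat_lit 559) (nat_lit 1550) (.f (nat_lit 526) (nat_lit 557) (nat_lit 1549) (.f (nat_lit 493) (nat_lit 494) (nat_lit 3565) (.d (nat_lit 525) (nat_lit 492) (nat_lit 3564) (nat_lit 561) (nat_lit 525))))) (.f (nat_lit 499) (nat_lit 498) (nat_lit 2543) (.f (nat_lit 531) (nat_lit 500) (nat_lit 2544) (.f (nat_lit 532) (nat_lit 561) (nat_lit 1552) (.d (nat_lit 564) (nat_lit 563) (nat_lit 528) (nat_lit 565) (nat_lit 529)))))))) s1010)))))))
noncomputable def s1013 : Cert := .r (nat_lit 3773962426139582502986631646264793844340548718132172006003720938849361146555773143298476687185190218548467649586404736686934909373052214328507029863446909475543486300160) (.p (nat_lit 529) (.a (.p (nat_lit 530) (.a (.d (nat_lit 559) (nat_lit 531) (nat_lit 1551) (nat_lit 558) (nat_lit 1550)) (.a (.f (nat_lit 559) (nat_lit 558) (nat_lit 1550) (.f (nat_lit 495) (nat_lit 494) (nat_lit 3566) (.d (nat_lit 463) (nat_lit 431) (nat_lit 4527)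 (nat_lit 592) (nat_lit 4559)))) (.f (nat_lit 495) (nat_lit 494) (nat_lit 3566) (.f (nat_lit 496) (nat_lit 531) (nat_lit 3567) (.d (nat_lit 463) (nat_lit 431) (nat_lit 4527) (nat_lit 592) (nat_lit 7631))))))) (.a (.p (nat_lit 530) (.a (.d (nat_lit 559) (nat_lit 531) (nat_lit 1551) (nat_lit 558) (nat_lit 1550)) (.a (.f (nat_lit 559) (nat_lit 558) (nat_lit 1550) (.f (nat_lit 495) (nat_lit 494) (nat_lit 3566) (.d (nat_lit 463) (nat_lit 431) (nat_lit 4527) (nat_lit 592) (nat_lit 4559)))) (.f (nat_lit 563) (nat_lit 562) (nat_lit 527) (.f (nat_lit 531) (nat_lit 564) (nat_lit 528) (.d (nat_lit 499) (nat_lit 498) (nat_lit 2543) (nat_lit 500) (nat_lit 2544))))))) (.a s476 (.a (.p (nat_lit 530) (.a (.d (nat_lit 559) (nat_lit 531) (nat_lit 1551) (nat_lit 558) (nat_lit 1550)) (.f (nat_lit 562) (nat_lit 563) (nat_lit 527) (.f (nat_lit 526) (nat_lit 561) (nat_lit 526) (.d (nat_lit 494) (nat_lit 493) (nat_lit 3565) (nat_lit 495) (nat_lit 3566))))))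 (.a (.p (nat_lit 530) (.a (.f (nat_lit 495) (nat_lit 494) (nat_lit 3566) (.f (nat_lit 496) (nat_lit 531) (nat_lit 3567) (.d (nat_lit 463) (nat_lit 431) (nat_lit 4527) (nat_lit 592) (nat_lit 7631)))) (.a (.f (nat_lit 563) (nat_lit 562) (nat_lit 527) (.f (nat_lit 531) (nat_lit 564) (nat_lit 528) (.d (nat_lit 499) (nat_lit 498) (nat_lit 2543) (nat_lit 500) (nat_lit 2544)))) (.f (nat_lit 495) (nat_lit 494) (nat_lit 3566) (.f (nat_lit 592) (nat_lit 624) (nat_lit 7663) (.d (nat_lit 463) (nat_lit 431) (nat_lit 4527) (nat_lit 496) (nat_lit 7631))))))) (.a (.p (nat_lit 530) (.a (.d (nat_lit 559) (nat_lit 531) (nat_lit 1551) (nat_lit 558) (nat_lit 1550)) (.a (.f (nat_lit 562) (nat_lit 563) (nat_lit 527) (.f (nat_lit 526) (nat_lit 561) (nat_lit 526) (.f (nat_lit 493) (nat_lit 494) (nat_lit 3565) (.f (nat_lit 525) (nat_lit 492) (nat_lit 3564) (.d (nat_lit 557) (nat_lit 556) (nat_lit 1548) (nat_lit 558) (nat_lit 1549)))))) (.f (nat_lit 531) (nat_lit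 559) (nat_lit 1551) (.d (nat_lit 563) (nat_lit 562) (nat_lit 527) (nat_lit 564) (nat_lit 528)))))) (.p (nat_lit 530) (.a (.d (nat_lit 559) (nat_lit 531) (nat_lit 1551) (nat_lit 558) (nat_lit 1550)) (.a (.f (nat_lit 559) (nat_lit 558) (nat_lit 1550) (.f (nat_lit 562) (nat_lit 563) (nat_lit 527) (.f (nat_lit 561) (nat_lit 526) (nat_lit 526) (.f (nat_lit 591) (nat_lit 590) (nat_lit 1582) (.d (nat_lit 496) (nat_lit 464) (nat_lit 5583) (nat_lit 623) (nat_lit 6639)))))) (.f (nat_lit 563) (nat_lit 562) (nat_lit 527) (.f (nat_lit 531) (nat_lit 564) (nat_lit 528) (.d (nat_lit 499) (nat_lit 498) (nat_lit 2543) (nat_lit 500) (nat_lit 2544))))))))))))))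
noncomputable def s1014 : Cert := .r (nat_lit 3773962426139582502986631646264793844340548718132172006003720938849361146555773143298476687185190218548467649586404736686934909373052214328507029863446909475543486300160) (.p (nat_lit 529) (.a (.p (nat_lit 530) (.a (.d (nat_lit 559) (nat_lit 531) (nat_lit 1551) (nat_lit 558) (nat_lit 1550)) (.a (.f (nat_lit 559) (nat_lit 558) (nat_lit 1550) (.f (nat_lit 495) (nat_lit 494) (nat_lit 3566) (.d (nat_lit 463) (nat_lit 431) (nat_lit 4527) (nat_lit 592) (nat_lit 4559)))) (.f (nat_lit 495) (nat_lit 494) (nat_lit 3566) (.f (nat_lit 496) (nat_lit 531) (nat_lit 3567) (.d (nat_lit 463) (nat_lit 431) (nat_lit 4527) (nat_lit 592) (nat_lit 7631))))))) (.a s476 (.a (.p (nat_lit 530) (.a (.d (nat_lit 559) (nat_lit 531) (nat_lit 1551) (nat_lit 558) (nat_lit 1550)) (.a (.f (nat_lit 558) (nat_lit 559) (nat_lit 1550) (.f (nat_lit 526) (nat_lit 557) (nat_lit 1549) (.d (nat_lit 494) (nat_lit 493) (nat_lit 3565)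 (nat_lit 495) (nat_lit 3566)))) (.f (nat_lit 499) (nat_lit 498) (nat_lit 2543) (.f (nat_lit 531) (nat_lit 500) (nat_lit 2544) (.f (nat_lit 532) (nat_lit 561) (nat_lit 1552) (.d (nat_lit 564) (nat_lit 563) (nat_lit 528) (nat_lit 565) (nat_lit 529)))))))) (.a (.p (nat_lit 530) (.a (.f (nat_lit 495) (nat_lit 494) (nat_lit 3566) (.f (nat_lit 496) (nat_lit 531) (nat_lit 3567) (.d (nat_lit 463) (nat_lit 431) (nat_lit 4527) (nat_lit 592) (nat_lit 7631)))) (.a (.f (nat_lit 499) (nat_lit 498) (nat_lit 2543) (.f (nat_lit 531) (nat_lit 500) (nat_lit 2544) (.f (nat_lit 532) (nat_lit 561) (nat_lit 1552) (.d (nat_lit 564) (nat_lit 563) (nat_lit 528) (nat_lit 565) (nat_lit 529))))) (.f (nat_lit 495) (nat_lit 494) (nat_lit 3566) (.f (nat_lit 592) (nat_lit 624) (nat_lit 7663) (.d (nat_lit 463) (nat_lit 431) (nat_lit 4527) (nat_lit 496) (nat_lit 7631))))))) (.a (.p (nat_lit 530) (.a (.d (nat_lit 559) (nat_lit 531) (nat_lit 1551) (nat_lit 558) (nat_lit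 1550)) (.a (.f (nat_lit 558) (nat_lit 559) (nat_lit 1550) (.f (nat_lit 526) (nat_lit 557) (nat_lit 1549) (.f (nat_lit 493) (nat_lit 494) (nat_lit 3565) (.d (nat_lit 525) (nat_lit 492) (nat_lit 3564) (nat_lit 561) (nat_lit 525))))) (.f (nat_lit 499) (nat_lit 498) (nat_lit 2543) (.f (nat_lit 531) (nat_lit 500) (nat_lit 2544) (.f (nat_lit 532) (nat_lit 561) (nat_lit 1552) (.d (nat_lit 564) (nat_lit 563) (nat_lit 528) (nat_lit 565) (nat_lit 529)))))))) s916))))))
noncomputable def s1015 : Cert := .r (nat_lit 3773962426139582502986631646264793844340548718132172006003720938849361146555773143298476687185190218548467649586404736686934909373052214328507029863446909475543486300160) (.p (nat_lit 529) (.a (.p (nat_lit 530) (.a (.f (nat_lit 495) (nat_lit 494) (nat_lit 3566) (.f (nat_lit 496) (nat_lit 531) (nat_lit 3567) (.d (nat_lit 463) (nat_lit 431) (nat_lit 4527) (nat_lit 592) (nat_lit 7631)))) (.f (nat_lit 562) (nat_lit 563) (nat_lit 527) (.f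 (nat_lit 561) (nat_lit 526) (nat_lit 526) (.f (nat_lit 498) (nat_lit 499) (nat_lit 2543) (.d (nat_lit 466) (nat_lit 434) (nat_lit 5553) (nat_lit 593) (nat_lit 5585))))))) (.a s875 (.a s590 (.a (.p (nat_lit 530) (.a (.f (nat_lit 495) (nat_lit 494) (nat_lit 3566) (.f (nat_lit 496) (nat_lit 531) (nat_lit 3567) (.d (nat_lit 463) (nat_lit 431) (nat_lit 4527) (nat_lit 592) (nat_lit 7631)))) (.a (.f (nat_lit 563) (nat_lit 562) (nat_lit 527) (.f (nat_lit 531) (nat_lit 564) (nat_lit 528) (.d (nat_lit 499) (nat_lit 498) (nat_lit 2543) (nat_lit 500) (nat_lit 2544)))) (.f (nat_lit 495) (nat_lit 494) (nat_lit 3566) (.f (nat_lit 592) (nat_lit 624) (nat_lit 7663) (.d (nat_lit 463) (nat_lit 431) (nat_lit 4527) (nat_lit 496) (nat_lit 7631))))))) (.a s1010 (.p (nat_lit 530) (.a (.f (nat_lit 495) (nat_lit 494) (nat_lit 3566) (.f (nat_lit 496) (nat_lit 531) (nat_lit 3567) (.d (nat_lit 463) (nat_lit 431) (nat_lit 4527) (nat_lit 592) (nat_lit 7631)))) (.a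 (.f (nat_lit 499) (nat_lit 498) (nat_lit 2543) (.f (nat_lit 531) (nat_lit 500) (nat_lit 2544) (.f (nat_lit 532) (nat_lit 561) (nat_lit 1552) (.d (nat_lit 564) (nat_lit 563) (nat_lit 528) (nat_lit 565) (nat_lit 529))))) (.f (nat_lit 495) (nat_lit 494) (nat_lit 3566) (.f (nat_lit 592) (nat_lit 624) (nat_lit 7663) (.d (nat_lit 463) (nat_lit 431) (nat_lit 4527) (nat_lit 496) (nat_lit 7631)))))))))))))
noncomputable def s1016 : Cert := .r (nat_lit 3773962426139582502986631646264793844340548718132172006003720938849361146555773143298476687185190218548467649586404736686934909373052214328507029863446909475543486300160) (.p (nat_lit 529) (.a (.p (nat_lit 530) (.a (.d (nat_lit 559) (nat_lit 531) (nat_lit 1551) (nat_lit 558) (nat_lit 1550)) (.f (nat_lit 562) (nat_lit 563) (nat_lit 527) (.f (nat_lit 561) (nat_lit 526) (nat_lit 526) (.f (nat_lit 498) (nat_lit 499) (nat_lit 2543) (.d (nat_lit 466) (nat_lit 434) (nat_lit 5553) (nat_lit 593) (nat_lit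 5585))))))) (.a s601 (.a s916 (.a s962 (.a s1003 (.p (nat_lit 530) (.a (.d (nat_lit 559) (nat_lit 531) (nat_lit 1551) (nat_lit 558) (nat_lit 1550)) (.a (.f (nat_lit 559) (nat_lit 558) (nat_lit 1550) (.f (nat_lit 562) (nat_lit 563) (nat_lit 527) (.f (nat_lit 561) (nat_lit 526) (nat_lit 526) (.f (nat_lit 591) (nat_lit 590) (nat_lit 1582) (.d (nat_lit 496) (nat_lit 464) (nat_lit 5583) (nat_lit 623) (nat_lit 6639)))))) (.f (nat_lit 563) (nat_lit 562) (nat_lit 527) (.f (nat_lit 531) (nat_lit 564) (nat_lit 528) (.d (nat_lit 499) (nat_lit 498) (nat_lit 2543) (nat_lit 500) (nat_lit 2544)))))))))))))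
noncomputable def s1017 : Cert := .r (nat_lit 3773962426139582502986631646264793844340548718132172006003720938849361146555773143298476687185190218548467649586404736686934909373052214328507029863446909475543486300160) (.p (nat_lit 529) (.a (.p (nat_lit 530) (.a (.d (nat_lit 559) (nat_lit 531) (nat_lit 1551) (nat_lit 558) (nat_lit 1550)) (.f (nat_lit 562) (nat_lit 563) (nat_lit 527) (.f (nat_lit 561) (nat_lit 526) (nat_lit 526) (.f (nat_lit 498) (nat_lit 499) (nat_lit 2543) (.d (nat_lit 466) (nat_lit 434) (nat_lit 5553) (nat_lit 593) (nat_lit 5585))))))) (.a s607 (.a (.p (nat_lit 530) (.a (.d (nat_lit 559) (nat_lit 531) (nat_lit 1551) (nat_lit 558) (nat_lit 1550)) (.a (.f (nat_lit 558) (nat_lit 559) (nat_lit 1550) (.f (nat_lit 526) (nat_lit 557) (nat_lit 1549) (.d (nat_lit 494) (nat_lit 493) (nat_lit 3565) (nat_lit 495) (nat_lit 3566)))) (.f (nat_lit 563) (nat_lit 562) (nat_lit 527) (.f (nat_lit 531) (nat_lit 564) (nat_lit 528) (.d (nat_lit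 499) (nat_lit 498) (nat_lit 2543) (nat_lit 500) (nat_lit 2544))))))) (.a s970 (.a s875 (.p (nat_lit 530) (.a (.d (nat_lit 559) (nat_lit 531) (nat_lit 1551) (nat_lit 558) (nat_lit 1550)) (.a (.f (nat_lit 558) (nat_lit 559) (nat_lit 1550) (.f (nat_lit 526) (nat_lit 557) (nat_lit 1549) (.d (nat_lit 494) (nat_lit 493) (nat_lit 3565) (nat_lit 495) (nat_lit 3566)))) (.f (nat_lit 499) (nat_lit 498) (nat_lit 2543) (.f (nat_lit 531) (nat_lit 500) (nat_lit 2544) (.f (nat_lit 532) (nat_lit 561) (nat_lit 1552) (.d (nat_lit 564) (nat_lit 563) (nat_lit 528) (nat_lit 565) (nat_lit 529))))))))))))))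
noncomputable def s1018 : Cert := .r (nat_lit 3773962426139582502986631646264793844340548718132172006003720938849361146555773143298476687185190218548467649586404736686934909373052214328507029863446909475543486300160) (.p (nat_lit 529) (.a (.p (nat_lit 530) (.a (.d (nat_lit 559) (nat_lit 531) (nat_lit 1551) (nat_lit 558) (nat_lit 1550)) (.a (.f (nat_lit 559) (nat_lit 558) (nat_lit 1550) (.f (nat_lit 495) (nat_lit 494) (nat_lit 3566) (.d (nat_lit 463) (nat_lit 431) (nat_lit 4527) (nat_lit 592) (nat_lit 4559)))) (.f (nat_lit 495) (nat_lit 494) (nat_lit 3566) (.f (nat_lit 496) (nat_lit 531) (nat_lit 3567) (.d (nat_lit 463) (nat_lit 431) (nat_lit 4527) (nat_lit 592) (nat_lit 7631))))))) (.a s476 (.a s518 (.a s528 (.a s558 (.a s590 (.a s601 (.a s607 s613)))))))))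
noncomputable def s1019 : Cert := .r (nat_lit 3773962426139582502986631646264793844340548718132172006003720938849361146555773143298476687185190218548467649586404736686934909373052214328507029863446909475543486300160) (.p (nat_lit 529) (.a (.p (nat_lit 530) (.a (.d (nat_lit 559) (nat_lit 531) (nat_lit 1551) (nat_lit 558) (nat_lit 1550)) (.a (.f (nat_lit 559) (nat_lit 558) (nat_lit 1550) (.f (nat_lit 495) (nat_lit 494) (nat_lit 3566) (.d (nat_lit 463) (nat_lit 431) (nat_lit 4527) (nat_lit 592) (nat_lit 4559)))) (.f (nat_lit 495) (nat_lit 494) (nat_lit 3566) (.f (nat_lit 496) (nat_lit 531) (nat_lit 3567) (.d (nat_lit 463) (nat_lit 431) (nat_lit 4527) (nat_lit 592) (nat_lit 7631))))))) (.a (.p (nat_lit 530) (.a (.d (nat_lit 559) (nat_lit 531) (nat_lit 1551) (nat_lit 558) (nat_lit 1550)) (.a (.f (nat_lit 559) (nat_lit 558) (nat_lit 1550) (.f (nat_lit 495) (nat_lit 494) (nat_lit 3566) (.d (nat_lit 463) (nat_lit 431) (nat_lit 4527) (nat_lit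 592) (nat_lit 4559)))) (.f (nat_lit 562) (nat_lit 563) (nat_lit 527) (.f (nat_lit 561) (nat_lit 526) (nat_lit 526) (.f (nat_lit 498) (nat_lit 499) (nat_lit 2543) (.d (nat_lit 466) (nat_lit 434) (nat_lit 5553) (nat_lit 593) (nat_lit 5585)))))))) (.a s612 (.a (.p (nat_lit 530) (.a (.d (nat_lit 559) (nat_lit 531) (nat_lit 1551) (nat_lit 558) (nat_lit 1550)) (.f (nat_lit 562) (nat_lit 563) (nat_lit 527) (.f (nat_lit 561) (nat_lit 526) (nat_lit 526) (.f (nat_lit 498) (nat_lit 499) (nat_lit 2543) (.d (nat_lit 466) (nat_lit 434) (nat_lit 5553) (nat_lit 593) (nat_lit 5585))))))) (.p (nat_lit 530) (.a (.f (nat_lit 495) (nat_lit 494) (nat_lit 3566) (.f (nat_lit 496) (nat_lit 531) (nat_lit 3567) (.d (nat_lit 463) (nat_lit 431) (nat_lit 4527) (nat_lit 592) (nat_lit 7631)))) (.f (nat_lit 562) (nat_lit 563) (nat_lit 527) (.f (nat_lit 561) (nat_lit 526) (nat_lit 526) (.f (nat_lit 498) (nat_lit 499) (nat_lit 2543) (.d (nat_lit 466) (nat_lit 434) (nat_lit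 5553) (nat_lit 593) (nat_lit 5585))))))))))))
noncomputable def s1020 : Cert := .r (nat_lit 3773962426139582502986631646264793844340548718132172006003720938849361146555773143298476687185190218548467649586404736686934909373052214328507029863446909475543486300160) (.p (nat_lit 529) (.a (.p (nat_lit 530) (.a (.d (nat_lit 559) (nat_lit 531) (nat_lit 1551) (nat_lit 558) (nat_lit 1550)) (.f (nat_lit 562) (nat_lit 563) (nat_lit 527) (.f (nat_lit 561) (nat_lit 526) (nat_lit 526) (.f (nat_lit 498) (nat_lit 499) (nat_lit 2543) (.d (nat_lit 466) (nat_lit 434) (nat_lit 5553) (nat_lit 593) (nat_lit 5585))))))) (.a s613 (.a (.p (nat_lit 530) (.a (.d (nat_lit 559) (nat_lit 531) (nat_lit 1551) (nat_lit 558) (nat_lit 1550)) (.a (.f (nat_lit 558) (nat_lit 559) (nat_lit 1550) (.f (nat_lit 526) (nat_lit 557) (nat_lit 1549) (.d (nat_lit 494) (nat_lit 493) (nat_lit 3565) (nat_lit 495) (nat_lit 3566)))) (.f (nat_lit 563) (nat_lit 562) (nat_lit 527) (.f (nat_lit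 531) (nat_lit 564) (nat_lit 528) (.d (nat_lit 499) (nat_lit 498) (nat_lit 2543) (nat_lit 500) (nat_lit 2544))))))) (.a s970 (.a s875 (.p (nat_lit 530) (.a (.d (nat_lit 559) (nat_lit 531) (nat_lit 1551) (nat_lit 558) (nat_lit 1550)) (.a (.f (nat_lit 558) (nat_lit 559) (nat_lit 1550) (.f (nat_lit 526) (nat_lit 557) (nat_lit 1549) (.d (nat_lit 494) (nat_lit 493) (nat_lit 3565) (nat_lit 495) (nat_lit 3566)))) (.f (nat_lit 499) (nat_lit 498) (nat_lit 2543) (.f (nat_lit 531) (nat_lit 500) (nat_lit 2544) (.f (nat_lit 532) (nat_lit 561) (nat_lit 1552) (.d (nat_lit 564) (nat_lit 563) (nat_lit 528) (nat_lit 565) (nat_lit 529))))))))))))))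
noncomputable def s1021 : Cert := .r (nat_lit 3773962426139582502986631646264793844340548718132172006003720938849361146555773143298476687185190218548467649586404736686934909373052214328507029863446909475543486300160) (.p (nat_lit 529) (.a (.p (nat_lit 530) (.a (.d (nat_lit 559) (nat_lit 531) (nat_lit 1551) (nat_lit 558) (nat_lit 1550)) (.a (.f (nat_lit 559) (nat_lit 558) (nat_lit 1550) (.f (nat_lit 495) (nat_lit 494) (nat_lit 3566) (.d (nat_lit 463) (nat_lit 431) (nat_lit 4527) (nat_lit 592) (nat_lit 4559)))) (.f (nat_lit 495) (nat_lit 494) (nat_lit 3566) (.f (nat_lit 496) (nat_lit 531) (nat_lit 3567) (.d (nat_lit 463) (nat_lit 431) (nat_lit 4527) (nat_lit 592) (nat_lit 7631))))))) (.a (.p (nat_lit 530) (.a (.d (nat_lit 559) (nat_lit 531) (nat_lit 1551) (nat_lit 558) (nat_lit 1550)) (.a (.f (nat_lit 559) (nat_lit 558) (nat_lit 1550) (.f (nat_lit 495) (nat_lit 494) (nat_lit 3566) (.d (nat_lit 463) (nat_lit 431) (nat_lit 4527) (nat_lit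 592) (nat_lit 4559)))) (.f (nat_lit 562) (nat_lit 563) (nat_lit 527) (.f (nat_lit 561) (nat_lit 526) (nat_lit 526) (.f (nat_lit 498) (nat_lit 499) (nat_lit 2543) (.d (nat_lit 466) (nat_lit 434) (nat_lit 5553) (nat_lit 593) (nat_lit 5585)))))))) (.a s614 (.a (.p (nat_lit 530) (.a (.d (nat_lit 559) (nat_lit 531) (nat_lit 1551) (nat_lit 558) (nat_lit 1550)) (.f (nat_lit 562) (nat_lit 563) (nat_lit 527) (.f (nat_lit 561) (nat_lit 526) (nat_lit 526) (.f (nat_lit 498) (nat_lit 499) (nat_lit 2543) (.d (nat_lit 466) (nat_lit 434) (nat_lit 5553) (nat_lit 593) (nat_lit 5585))))))) (.p (nat_lit 530) (.a (.f (nat_lit 495) (nat_lit 494) (nat_lit 3566) (.f (nat_lit 496) (nat_lit 531) (nat_lit 3567) (.d (nat_lit 463) (nat_lit 431) (nat_lit 4527) (nat_lit 592) (nat_lit 7631)))) (.f (nat_lit 562) (nat_lit 563) (nat_lit 527) (.f (nat_lit 561) (nat_lit 526) (nat_lit 526) (.f (nat_lit 498) (nat_lit 499) (nat_lit 2543) (.d (nat_lit 466) (nat_lit 434) (nat_lit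 5553) (nat_lit 593) (nat_lit 5585))))))))))))
noncomputable def s1055 : Cert := .r (nat_lit 5660943638770026704231588447638349115369613911293014149796409862072796058445784951210265043441941510820368382861060141101347589145202514260778679591165626402683865792512) (.p (nat_lit 592) (.a (.f (nat_lit 525) (nat_lit 524) (nat_lit 524) (.f (nat_lit 557) (nat_lit 556) (nat_lit 1548) (.f (nat_lit 558) (nat_lit 593) (nat_lit 557) (.f (nat_lit 589) (nat_lit 588) (nat_lit 1580) (.d (nat_lit 494) (nat_lit 462) (nat_lit 5581) (nat_lit 621) (nat_lit 6637)))))) (.a (.f (nat_lit 624) (nat_lit 656) (nat_lit 7695) (.f (nat_lit 623) (nat_lit 655) (nat_lit 5647) (.f (nat_lit 591) (nat_lit 494) (nat_lit 7662) (.f (nat_lit 625) (nat_lit 657) (nat_lit 4624) (.d (nat_lit 590) (nat_lit 589) (nat_lit 589) (nat_lit 626) (nat_lit 3662)))))) (.f (nat_lit 525) (nat_lit 524) (nat_lit 524) (.f (nat_lit 557) (nat_lit 556) (nat_lit 1548) (.f (nat_lit 558) (nat_lit 593)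 (nat_lit 557) (.f (nat_lit 493) (nat_lit 492) (nat_lit 3564) (.d (nat_lit 461) (nat_lit 429) (nat_lit 4525) (nat_lit 590) (nat_lit 4557)))))))))
noncomputable def s1119 : Cert := .r (nat_lit 5660943638550353179107408936758928289799009328340392220191824088972173227751847569341540049774019602319201837101786659136820201688014610644787746989163257497368183963648) (.p (nat_lit 495) (.a (.f (nat_lit 463) (nat_lit 431) (nat_lit 4527) (.f (nat_lit 558) (nat_lit 590) (nat_lit 5582) (.d (nat_lit 529) (nat_lit 530) (nat_lit 1550) (nat_lit 557) (nat_lit 2573)))) (.a (.f (nat_lit 463) (nat_lit 431) (nat_lit 4527) (.f (nat_lit 558) (nat_lit 590) (nat_lit 5582) (.d (nat_lit 557) (nat_lit 529) (nat_lit 2573) (nat_lit 556) (nat_lit 2572)))) (.a (.f (nat_lit 463) (nat_lit 431) (nat_lit 4527) (.f (nat_lit 462) (nat_lit 430) (nat_lit 7598) (.f (nat_lit 591) (nat_lit 494) (nat_lit 7630) (.f (nat_lit 623) (nat_lit 655) (nat_lit 6671) (.d (nat_lit 622) (nat_lit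 590) (nat_lit 5614) (nat_lit 654) (nat_lit 5646)))))) (.a s1117 (.d (nat_lit 463) (nat_lit 431) (nat_lit 4527) (nat_lit 592) (nat_lit 4559)))))))
noncomputable def s1131 : Cert := .r (nat_lit 5660943638550353179107408936758928289799009328340392220191824088972173227751847569341540049774019602319201837101786659136820201688014610644787746989163257497368183963648) (.p (nat_lit 592) (.a (.d (nat_lit 495) (nat_lit 463) (nat_lit 4559) (nat_lit 624) (nat_lit 7663)) (.a (.p (nat_lit 526) (.a (.f (nat_lit 525) (nat_lit 524) (nat_lit 524) (.f (nat_lit 557) (nat_lit 556) (nat_lit 1548) (.f (nat_lit 558) (nat_lit 593) (nat_lit 557) (.f (nat_lit 589) (nat_lit 588) (nat_lit 1580) (.d (nat_lit 494) (nat_lit 462) (nat_lit 5581) (nat_lit 621) (nat_lit 6637)))))) (.a (.f (nat_lit 624) (nat_lit 656) (nat_lit 7695) (.f (nat_lit 623) (nat_lit 655) (nat_lit 5647) (.f (nat_lit 591) (nat_lit 494) (nat_lit 7662) (.f (nat_lit 625) (nat_lit 657) (nat_lit 4624)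 (.d (nat_lit 590) (nat_lit 589) (nat_lit 589) (nat_lit 626) (nat_lit 3662)))))) (.f (nat_lit 525) (nat_lit 524) (nat_lit 524) (.f (nat_lit 557) (nat_lit 556) (nat_lit 1548) (.f (nat_lit 558) (nat_lit 593) (nat_lit 557) (.f (nat_lit 493) (nat_lit 492) (nat_lit 3564) (.d (nat_lit 461) (nat_lit 429) (nat_lit 4525) (nat_lit 590) (nat_lit 4557))))))))) (.p (nat_lit 591) (.a (.f (nat_lit 495) (nat_lit 463) (nat_lit 4559) (.f (nat_lit 623) (nat_lit 655) (nat_lit 6671) (.d (nat_lit 494) (nat_lit 462) (nat_lit 7630) (nat_lit 526) (nat_lit 7662)))) (.a (.f (nat_lit 495) (nat_lit 463) (nat_lit 4559) (.f (nat_lit 590) (nat_lit 622) (nat_lit 5614) (.f (nat_lit 589) (nat_lit 588) (nat_lit 2604) (.f (nat_lit 557) (nat_lit 556) (nat_lit 3628) (.f (nat_lit 593) (nat_lit 558) (nat_lit 557) (.f (nat_lit 594) (nat_lit 595) (nat_lit 3631) (.d (nat_lit 626) (nat_lit 625) (nat_lit 590) (nat_lit 627) (nat_lit 591)))))))) (.f (nat_lit 623) (nat_lit 655) (nat_lit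 6671) (.f (nat_lit 622) (nat_lit 654) (nat_lit 5646) (.f (nat_lit 593) (nat_lit 594) (nat_lit 1614) (.d (nat_lit 621) (nat_lit 590) (nat_lit 1613) (nat_lit 620) (nat_lit 2636)))))))))))
noncomputable def s1178 : Cert := .r (nat_lit 3773962426139582502986631646264793844340548718132172006003720938849361146555773143298476687185190218548467649586404736686934909373052214328507029863446909475543486300160) (.p (nat_lit 592) (.a (.f (nat_lit 624) (nat_lit 495) (nat_lit 7663) (.f (nat_lit 656) (nat_lit 559) (nat_lit 7695) (.d (nat_lit 655) (nat_lit 623) (nat_lit 5647) (nat_lit 687) (nat_lit 5679)))) (.a (.f (nat_lit 624) (nat_lit 495) (nat_lit 7663) (.f (nat_lit 625) (nat_lit 657) (nat_lit 4624) (.f (nat_lit 593) (nat_lit 496) (nat_lit 4592) (.f (nat_lit 623) (nat_lit 655) (nat_lit 5647) (.d (nat_lit 594) (nat_lit 595) (nat_lit 1615) (nat_lit 622) (nat_lit 2638)))))) (.a s634 (.a s1177 (.f (nat_lit 624) (nat_lit 495) (nat_lit 7663) (.f (nat_lit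 656) (nat_lit 559) (nat_lit 7695) (.d (nat_lit 657) (nat_lit 625) (nat_lit 4624) (nat_lit 689) (nat_lit 4656)))))))))
noncomputable def s1193 : Cert := .r (nat_lit 3773962426139582502986631646264793844340548718132172006003720938849361146555773143298476687185190218548467649586404736686934909373052214328507029863446909475543486300160) (.p (nat_lit 592) (.a (.f (nat_lit 624) (nat_lit 495) (nat_lit 7663) (.f (nat_lit 656) (nat_lit 559) (nat_lit 7695) (.d (nat_lit 655) (nat_lit 623) (nat_lit 5647) (nat_lit 687) (nat_lit 5679)))) (.a (.f (nat_lit 624) (nat_lit 495) (nat_lit 7663) (.f (nat_lit 625) (nat_lit 657) (nat_lit 4624) (.f (nat_lit 593) (nat_lit 496) (nat_lit 4592) (.f (nat_lit 623) (nat_lit 655) (nat_lit 5647) (.d (nat_lit 594) (nat_lit 595) (nat_lit 1615) (nat_lit 622) (nat_lit 2638)))))) (.a (.p (nat_lit 496) (.a (.f (nat_lit 623) (nat_lit 591) (nat_lit 5615) (.f (nat_lit 624) (nat_lit 655) (nat_lit 5647) (.d (nat_lit 625) (nat_lit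 593) (nat_lit 4592) (nat_lit 657) (nat_lit 4624)))) (.a (.f (nat_lit 591) (nat_lit 623) (nat_lit 5615) (.f (nat_lit 559) (nat_lit 464) (nat_lit 5583) (.f (nat_lit 593) (nat_lit 625) (nat_lit 4592) (.d (nat_lit 558) (nat_lit 557) (nat_lit 557) (nat_lit 594) (nat_lit 3630))))) (.a (.f (nat_lit 591) (nat_lit 623) (nat_lit 5615) (.f (nat_lit 464) (nat_lit 559) (nat_lit 5583) (.f (nat_lit 431) (nat_lit 463) (nat_lit 7599) (.f (nat_lit 432) (nat_lit 399) (nat_lit 7567) (.d (nat_lit 433) (nat_lit 401) (nat_lit 6544) (nat_lit 465) (nat_lit 6576)))))) (.a (.f (nat_lit 625) (nat_lit 593) (nat_lit 4592) (.f (nat_lit 624) (nat_lit 657) (nat_lit 4624) (.f (nat_lit 655) (nat_lit 623) (nat_lit 5647) (.d (nat_lit 656) (nat_lit 559) (nat_lit 7695) (nat_lit 687) (nat_lit 5679))))) (.f (nat_lit 625) (nat_lit 593) (nat_lit 4592) (.f (nat_lit 624) (nat_lit 657) (nat_lit 4624) (.f (nat_lit 559) (nat_lit 656) (nat_lit 7695) (.d (nat_lit 464) (nat_lit 432)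 (nat_lit 5551) (nat_lit 591) (nat_lit 5583)))))))))) (.a (.p (nat_lit 496) (.a (.f (nat_lit 591) (nat_lit 623) (nat_lit 5615) (.f (nat_lit 559) (nat_lit 464) (nat_lit 5583) (.f (nat_lit 593) (nat_lit 625) (nat_lit 4592) (.d (nat_lit 558) (nat_lit 557) (nat_lit 557) (nat_lit 594) (nat_lit 3630))))) (.f (nat_lit 497) (nat_lit 465) (nat_lit 6608) (.f (nat_lit 526) (nat_lit 525) (nat_lit 2541) (.d (nat_lit 495) (nat_lit 463) (nat_lit 7631) (nat_lit 498) (nat_lit 1518)))))) (.f (nat_lit 624) (nat_lit 495) (nat_lit 7663) (.f (nat_lit 656) (nat_lit 559) (nat_lit 7695) (.d (nat_lit 657) (nat_lit 625) (nat_lit 4624) (nat_lit 689) (nat_lit 4656)))))))))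
noncomputable def s1208 : Cert := .r (nat_lit 3773962427896970703980067733300160448905385381753147442840407123654343792107272198248276636528565486557800015660592592403154009030555443256434490679465860718068940931072) (.p (nat_lit 526) (.a (.f (nat_lit 557) (nat_lit 558) (nat_lit 1549) (.f (nat_lit 525) (nat_lit 556) (nat_lit 1548) (.d (nat_lit 493) (nat_lit 492) (nat_lit 3564) (nat_lit 494) (nat_lit 3565)))) (.a (.p (nat_lit 495) (.a (.f (nat_lit 558) (nat_lit 557) (nat_lit 1549) (.f (nat_lit 463) (nat_lit 431) (nat_lit 4527) (.d (nat_lit 494) (nat_lit 493) (nat_lit 3565) (nat_lit 590) (nat_lit 6606)))) (.a (.f (nat_lit 494) (nat_lit 493) (nat_lit 3565) (.f (nat_lit 463) (nat_lit 431) (nat_lit 4527) (.f (nat_lit 497) (nat_lit 498) (nat_lit 2542) (.f (nat_lit 465) (nat_lit 433) (nat_lit 5552) (.f (nat_lit 464) (nat_lit 466) (nat_lit 1486) (.f (nat_lit 559) (nat_lit 432) (nat_lit 6575) (.d (nat_lit 462) (nat_lit 430) (nat_lit 7598) (nat_lit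 591) (nat_lit 7630)))))))) (.a (.f (nat_lit 558) (nat_lit 557) (nat_lit 1549) (.f (nat_lit 463) (nat_lit 431) (nat_lit 4527) (.d (nat_lit 590) (nat_lit 559) (nat_lit 5582) (nat_lit 622) (nat_lit 6638)))) (.f (nat_lit 494) (nat_lit 493) (nat_lit 3565) (.f (nat_lit 558) (nat_lit 557) (nat_lit 1549) (.f (nat_lit 590) (nat_lit 622) (nat_lit 6638) (.f (nat_lit 591) (nat_lit 623) (nat_lit 4590) (.f (nat_lit 462) (nat_lit 559) (nat_lit 7630) (.f (nat_lit 430) (nat_lit 398) (nat_lit 4494) (.d (nat_lit 429) (nat_lit 397) (nat_lit 7565) (nat_lit 461) (nat_lit 7597)))))))))))) (.a (.f (nat_lit 493) (nat_lit 494) (nat_lit 3565) (.f (nat_lit 525) (nat_lit 492) (nat_lit 3564) (.f (nat_lit 524) (nat_lit 559) (nat_lit 524) (.d (nat_lit 556) (nat_lit 555) (nat_lit 1547) (nat_lit 557) (nat_lit 1548))))) (.a (.f (nat_lit 557) (nat_lit 558) (nat_lit 1549) (.f (nat_lit 525) (nat_lit 556) (nat_lit 1548) (.f (nat_lit 492) (nat_lit 493) (nat_lit 3564) (.d (nat_lit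 524) (nat_lit 491) (nat_lit 3563) (nat_lit 559) (nat_lit 524))))) (.a s463 (.f (nat_lit 497) (nat_lit 498) (nat_lit 2542) (.f (nat_lit 525) (nat_lit 496) (nat_lit 2541) (.d (nat_lit 557) (nat_lit 556) (nat_lit 1548) (nat_lit 558) (nat_lit 1549))))))))))
noncomputable def s1214 : Cert := .r (nat_lit 3773962426139582502986631646264793844340548718132172006003720938849361146555773143298476687185190218548467649586404736686934909373052214328507029863446909475543486300160) (.p (nat_lit 529) (.a (.p (nat_lit 530) (.a (.d (nat_lit 559) (nat_lit 531) (nat_lit 1551) (nat_lit 558) (nat_lit 1550)) (.f (nat_lit 498) (nat_lit 499) (nat_lit 2543) (.f (nat_lit 497) (nat_lit 526) (nat_lit 2542) (.f (nat_lit 562) (nat_lit 563) (nat_lit 527) (.d (nat_lit 465) (nat_lit 433) (nat_lit 4529) (nat_lit 594) (nat_lit 7633))))))) (.a s1208 (.a (.p (nat_lit 530) (.a (.d (nat_lit 559) (nat_lit 531) (nat_lit 1551) (nat_lit 558) (nat_lit 1550)) (.a (.f (nat_lit 558)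 (nat_lit 559) (nat_lit 1550) (.f (nat_lit 526) (nat_lit 557) (nat_lit 1549) (.d (nat_lit 494) (nat_lit 493) (nat_lit 3565) (nat_lit 495) (nat_lit 3566)))) (.f (nat_lit 563) (nat_lit 562) (nat_lit 527) (.f (nat_lit 531) (nat_lit 564) (nat_lit 528) (.d (nat_lit 499) (nat_lit 498) (nat_lit 2543) (nat_lit 500) (nat_lit 2544))))))) (.a s173 (.a (.p (nat_lit 530) (.a (.f (nat_lit 498) (nat_lit 499) (nat_lit 2543) (.f (nat_lit 497) (nat_lit 526) (nat_lit 2542) (.f (nat_lit 562) (nat_lit 563) (nat_lit 527) (.d (nat_lit 465) (nat_lit 433) (nat_lit 4529) (nat_lit 594) (nat_lit 7633))))) (.a (.f (nat_lit 563) (nat_lit 562) (nat_lit 527) (.f (nat_lit 531) (nat_lit 564) (nat_lit 528) (.d (nat_lit 499) (nat_lit 498) (nat_lit 2543) (nat_lit 500) (nat_lit 2544)))) (.a (.f (nat_lit 495) (nat_lit 494) (nat_lit 3566) (.f (nat_lit 496) (nat_lit 531) (nat_lit 3567) (.f (nat_lit 498) (nat_lit 499) (nat_lit 2543) (.f (nat_lit 497) (nat_lit 526) (nat_lit 2542)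 (.d (nat_lit 463) (nat_lit 431) (nat_lit 4527) (nat_lit 462) (nat_lit 3534)))))) (.f (nat_lit 495) (nat_lit 494) (nat_lit 3566) (.f (nat_lit 531) (nat_lit 496) (nat_lit 3567) (.d (nat_lit 563) (nat_lit 562) (nat_lit 527) (nat_lit 564) (nat_lit 528)))))))) (.p (nat_lit 530) (.a (.d (nat_lit 559) (nat_lit 531) (nat_lit 1551) (nat_lit 558) (nat_lit 1550)) (.a (.f (nat_lit 558) (nat_lit 559) (nat_lit 1550) (.f (nat_lit 526) (nat_lit 557) (nat_lit 1549) (.d (nat_lit 494) (nat_lit 493) (nat_lit 3565) (nat_lit 495) (nat_lit 3566)))) (.f (nat_lit 495) (nat_lit 494) (nat_lit 3566) (.f (nat_lit 531) (nat_lit 496) (nat_lit 3567) (.d (nat_lit 563) (nat_lit 562) (nat_lit 527) (nat_lit 564) (nat_lit 528)))))))))))))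
noncomputable def s1237 : Cert := .r (nat_lit 3773962427896970704184654646293669315781209737804872389853947251532035341449977908754284998803857646238004396430961602225084426788527947694510569213583697783901973905408) (.p (nat_lit 526) (.a (.f (nat_lit 493) (nat_lit 494) (nat_lit 3565) (.f (nat_lit 525) (nat_lit 492) (nat_lit 3564) (.d (nat_lit 557) (nat_lit 556) (nat_lit 1548) (nat_lit 558) (nat_lit 1549)))) (.a (.f (nat_lit 494) (nat_lit 493) (nat_lit 3565) (.f (nat_lit 495) (nat_lit 530) (nat_lit 3566) (.f (nat_lit 463) (nat_lit 431) (nat_lit 4527) (.d (nat_lit 558) (nat_lit 557) (nat_lit 1549) (nat_lit 590) (nat_lit 6606))))) (.a (.f (nat_lit 493) (nat_lit 494) (nat_lit 3565) (.f (nat_lit 525) (nat_lit 492) (nat_lit 3564) (.f (nat_lit 524) (nat_lit 495) (nat_lit 2540) (.d (nat_lit 556) (nat_lit 555) (nat_lit 1547) (nat_lit 557) (nat_lit 1548))))) (.a (.f (nat_lit 557) (nat_lit 558) (nat_lit 1549) (.f (nat_lit 525) (nat_lit 556) (nat_lit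 1548) (.f (nat_lit 492) (nat_lit 493) (nat_lit 3564) (.d (nat_lit 524) (nat_lit 491) (nat_lit 3563) (nat_lit 495) (nat_lit 2540))))) (.a (.f (nat_lit 494) (nat_lit 493) (nat_lit 3565) (.f (nat_lit 530) (nat_lit 495) (nat_lit 3566) (.f (nat_lit 499) (nat_lit 498) (nat_lit 2543) (.f (nat_lit 531) (nat_lit 500) (nat_lit 2544) (.d (nat_lit 563) (nat_lit 562) (nat_lit 527) (nat_lit 564) (nat_lit 528)))))) (.f (nat_lit 557) (nat_lit 558) (nat_lit 1549) (.f (nat_lit 525) (nat_lit 556) (nat_lit 1548) (.f (nat_lit 495) (nat_lit 524) (nat_lit 2540) (.d (nat_lit 530) (nat_lit 494) (nat_lit 3566) (nat_lit 531) (nat_lit 3567)))))))))))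
noncomputable def s1299 : Cert := .r (nat_lit 3773962427896970703980067733300160448905385381753147442840407123654343792107272198248276636528565486557800015660592592403154009030555443256434490679465860718068940931072) (.p (nat_lit 530) (.a (.d (nat_lit 559) (nat_lit 531) (nat_lit 1551) (nat_lit 558) (nat_lit 1550)) (.a (.p (nat_lit 497) (.a (.f (nat_lit 498) (nat_lit 499) (nat_lit 2543) (.f (nat_lit 562) (nat_lit 563) (nat_lit 527) (.d (nat_lit 465) (nat_lit 433) (nat_lit 4529) (nat_lit 594) (nat_lit 7633)))) (.a (.f (nat_lit 559) (nat_lit 558) (nat_lit 1550) (.f (nat_lit 498) (nat_lit 499) (nat_lit 2543) (.f (nat_lit 562) (nat_lit 563) (nat_lit 527) (.f (nat_lit 594) (nat_lit 626) (nat_lit 7665) (.f (nat_lit 592) (nat_lit 624) (nat_lit 6640) (.d (nat_lit 593) (nat_lit 595) (nat_lit 3631) (nat_lit 625) (nat_lit 5617))))))) (.f (nat_lit 465) (nat_lit 433) (nat_lit 5552) (.d (nat_lit 592) (nat_lit 496) (nat_lit 6608) (nat_lit 624) (nat_lit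 6640)))))) (.f (nat_lit 563) (nat_lit 562) (nat_lit 527) (.f (nat_lit 531) (nat_lit 564) (nat_lit 528) (.d (nat_lit 499) (nat_lit 498) (nat_lit 2543) (nat_lit 500) (nat_lit 2544)))))))
noncomputable def s1305 : Cert := .r (nat_lit 3773962427896970703980067733300160448905385381753147442840407123654343792107272198248276636528565486557800015660592592403154009030555443256434490679465860718068940931072) (.p (nat_lit 526) (.a (.f (nat_lit 557) (nat_lit 558) (nat_lit 1549) (.f (nat_lit 525) (nat_lit 556) (nat_lit 1548) (.d (nat_lit 493) (nat_lit 492) (nat_lit 3564) (nat_lit 494) (nat_lit 3565)))) (.a (.f (nat_lit 558) (nat_lit 557) (nat_lit 1549) (.f (nat_lit 559) (nat_lit 530) (nat_lit 1550) (.f (nat_lit 494) (nat_lit 493) (nat_lit 3565) (.d (nat_lit 462) (nat_lit 430) (nat_lit 4526) (nat_lit 591) (nat_lit 4558))))) (.a (.f (nat_lit 493) (nat_lit 494) (nat_lit 3565) (.f (nat_lit 525) (nat_lit 492) (nat_lit 3564) (.f (nat_lit 524) (nat_lit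 559) (nat_lit 524) (.d (nat_lit 556) (nat_lit 555) (nat_lit 1547) (nat_lit 557) (nat_lit 1548))))) (.a (.f (nat_lit 558) (nat_lit 557) (nat_lit 1549) (.f (nat_lit 559) (nat_lit 530) (nat_lit 1550) (.f (nat_lit 525) (nat_lit 524) (nat_lit 524) (.f (nat_lit 496) (nat_lit 497) (nat_lit 2541) (.d (nat_lit 464) (nat_lit 432) (nat_lit 5551) (nat_lit 591) (nat_lit 5583)))))) (.f (nat_lit 493) (nat_lit 494) (nat_lit 3565) (.f (nat_lit 525) (nat_lit 492) (nat_lit 3564) (.f (nat_lit 559) (nat_lit 524) (nat_lit 524) (.d (nat_lit 530) (nat_lit 531) (nat_lit 1551) (nat_lit 558) (nat_lit 1550))))))))))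
noncomputable def s1308 : Cert := .r (nat_lit 3773962427896970703980067733300160448905385381753147442840407123654343792107272198248276636528565486557800015660592592403154009030555443256434490679465860718068940931072) (.p (nat_lit 530) (.a (.f (nat_lit 498) (nat_lit 499) (nat_lit 2543) (.f (nat_lit 497) (nat_lit 526) (nat_lit 2542) (.f (nat_lit 562) (nat_lit 563) (nat_lit 527) (.d (nat_lit 465) (nat_lit 433) (nat_lit 4529) (nat_lit 594) (nat_lit 7633))))) (.a (.f (nat_lit 563) (nat_lit 562) (nat_lit 527) (.f (nat_lit 531) (nat_lit 564) (nat_lit 528) (.d (nat_lit 499) (nat_lit 498) (nat_lit 2543) (nat_lit 500) (nat_lit 2544)))) (.a (.f (nat_lit 531) (nat_lit 559) (nat_lit 1551) (.d (nat_lit 499) (nat_lit 498) (nat_lit 2543) (nat_lit 500) (nat_lit 2544))) (.f (nat_lit 531) (nat_lit 559) (nat_lit 1551) (.d (nat_lit 563) (nat_lit 562) (nat_lit 527) (nat_lit 564) (nat_lit 528)))))))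
noncomputable def s1309 : Cert := .r (nat_lit 3773962426139582502986631646264793844340548718132172006003720938849361146555773143298476687185190218548467649586404736686934909373052214328507029863446909475543486300160) (.p (nat_lit 529) (.a (.p (nat_lit 526) (.a (.f (nat_lit 497) (nat_lit 498) (nat_lit 2542) (.f (nat_lit 496) (nat_lit 525) (nat_lit 2541) (.d (nat_lit 465) (nat_lit 433) (nat_lit 5552) (nat_lit 592) (nat_lit 6608)))) (.a (.f (nat_lit 557) (nat_lit 558) (nat_lit 1549) (.f (nat_lit 525) (nat_lit 556) (nat_lit 1548) (.d (nat_lit 493) (nat_lit 492) (nat_lit 3564) (nat_lit 494) (nat_lit 3565)))) (.f (nat_lit 497) (nat_lit 498) (nat_lit 2542) (.f (nat_lit 592) (nat_lit 624) (nat_lit 6640) (.d (nat_lit 465) (nat_lit 433) (nat_lit 5552) (nat_lit 496) (nat_lit 6608))))))) (.a (.p (nat_lit 530) (.a (.d (nat_lit 559) (nat_lit 531) (nat_lit 1551) (nat_lit 558) (nat_lit 1550)) (.f (nat_lit 498) (nat_lit 499) (nat_lit 2543) (.f (nat_lit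 497) (nat_lit 526) (nat_lit 2542) (.f (nat_lit 562) (nat_lit 563) (nat_lit 527) (.d (nat_lit 465) (nat_lit 433) (nat_lit 4529) (nat_lit 594) (nat_lit 7633))))))) (.a s894 (.a s1299 (.a s1305 s1308))))))
noncomputable def s1317 : Cert := .r (nat_lit 3773962426139582502986631646264793844340548718132172006003720938849361146555773143298476687185190218548467649586404736686934909373052214328507029863446909475543486300160) (.p (nat_lit 529) (.a (.p (nat_lit 530) (.a (.d (nat_lit 559) (nat_lit 531) (nat_lit 1551) (nat_lit 558) (nat_lit 1550)) (.a (.f (nat_lit 559) (nat_lit 558) (nat_lit 1550) (.f (nat_lit 495) (nat_lit 494) (nat_lit 3566) (.d (nat_lit 463) (nat_lit 431) (nat_lit 4527) (nat_lit 592) (nat_lit 4559)))) (.f (nat_lit 495) (nat_lit 494) (nat_lit 3566) (.f (nat_lit 496) (nat_lit 531) (nat_lit 3567) (.d (nat_lit 463) (nat_lit 431) (nat_lit 4527) (nat_lit 592) (nat_lit 7631))))))) (.a (.p (nat_lit 530) (.a (.d (nat_lit 559) (nat_lit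 531) (nat_lit 1551) (nat_lit 558) (nat_lit 1550)) (.a (.f (nat_lit 559) (nat_lit 558) (nat_lit 1550) (.f (nat_lit 495) (nat_lit 494) (nat_lit 3566) (.d (nat_lit 463) (nat_lit 431) (nat_lit 4527) (nat_lit 592) (nat_lit 4559)))) (.f (nat_lit 563) (nat_lit 562) (nat_lit 527) (.f (nat_lit 531) (nat_lit 564) (nat_lit 528) (.d (nat_lit 499) (nat_lit 498) (nat_lit 2543) (nat_lit 500) (nat_lit 2544))))))) (.a s476 (.a s173 (.a (.p (nat_lit 530) (.a (.f (nat_lit 495) (nat_lit 494) (nat_lit 3566) (.f (nat_lit 496) (nat_lit 531) (nat_lit 3567) (.d (nat_lit 463) (nat_lit 431) (nat_lit 4527) (nat_lit 592) (nat_lit 7631)))) (.a (.f (nat_lit 563) (nat_lit 562) (nat_lit 527) (.f (nat_lit 531) (nat_lit 564) (nat_lit 528) (.d (nat_lit 499) (nat_lit 498) (nat_lit 2543) (nat_lit 500) (nat_lit 2544)))) (.f (nat_lit 495) (nat_lit 494) (nat_lit 3566) (.f (nat_lit 592) (nat_lit 624) (nat_lit 7663) (.d (nat_lit 463) (nat_lit 431) (nat_lit 4527) (nat_lit 496)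 (nat_lit 7631))))))) (.a s894 (.p (nat_lit 530) (.a (.d (nat_lit 559) (nat_lit 531) (nat_lit 1551) (nat_lit 558) (nat_lit 1550)) (.a (.f (nat_lit 559) (nat_lit 558) (nat_lit 1550) (.f (nat_lit 498) (nat_lit 499) (nat_lit 2543) (.f (nat_lit 497) (nat_lit 526) (nat_lit 2542) (.f (nat_lit 592) (nat_lit 624) (nat_lit 6640) (.f (nat_lit 562) (nat_lit 563) (nat_lit 527) (.f (nat_lit 594) (nat_lit 626) (nat_lit 7665) (.d (nat_lit 593) (nat_lit 595) (nat_lit 3631) (nat_lit 625) (nat_lit 5617)))))))) (.f (nat_lit 563) (nat_lit 562) (nat_lit 527) (.f (nat_lit 531) (nat_lit 564) (nat_lit 528) (.d (nat_lit 499) (nat_lit 498) (nat_lit 2543) (nat_lit 500) (nat_lit 2544))))))))))))))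
noncomputable def s1331 : Cert := .r (nat_lit 3773962427896970703980067733300160448905385381753147442840407123654343792107272198248276636528565486557800015660592592403154009030555443256434490679465860718068940931072) (.p (nat_lit 526) (.a (.f (nat_lit 557) (nat_lit 558) (nat_lit 1549) (.f (nat_lit 525) (nat_lit 556) (nat_lit 1548) (.d (nat_lit 493) (nat_lit 492) (nat_lit 3564) (nat_lit 494) (nat_lit 3565)))) (.a (.f (nat_lit 494) (nat_lit 493) (nat_lit 3565) (.f (nat_lit 495) (nat_lit 530) (nat_lit 3566) (.f (nat_lit 558) (nat_lit 557) (nat_lit 1549) (.d (nat_lit 463) (nat_lit 431) (nat_lit 5550) (nat_lit 590) (nat_lit 6606))))) (.a (.f (nat_lit 494) (nat_lit 493) (nat_lit 3565) (.f (nat_lit 495) (nat_lit 530) (nat_lit 3566) (.f (nat_lit 463) (nat_lit 431) (nat_lit 4527) (.d (nat_lit 592) (nat_lit 496) (nat_lit 7631) (nat_lit 624) (nat_lit 7663))))) (.f (nat_lit 557) (nat_lit 558) (nat_lit 1549) (.f (nat_lit 525) (nat_lit 556) (nat_lit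 1548) (.f (nat_lit 496) (nat_lit 497) (nat_lit 2541) (.f (nat_lit 495) (nat_lit 524) (nat_lit 2540) (.d (nat_lit 463) (nat_lit 431) (nat_lit 4527) (nat_lit 592) (nat_lit 7631))))))))))
noncomputable def s1335 : Cert := .r (nat_lit 3773962426139582502986631646264793844340548718132172006003720938849361146555773143298476687185190218548467649586404736686934909373052214328507029863446909475543486300160) (.p (nat_lit 529) (.a (.p (nat_lit 530) (.a (.d (nat_lit 559) (nat_lit 531) (nat_lit 1551) (nat_lit 558) (nat_lit 1550)) (.a (.f (nat_lit 559) (nat_lit 558) (nat_lit 1550) (.f (nat_lit 495) (nat_lit 494) (nat_lit 3566) (.d (nat_lit 463) (nat_lit 431) (nat_lit 4527) (nat_lit 592) (nat_lit 4559)))) (.f (nat_lit 495) (nat_lit 494) (nat_lit 3566) (.f (nat_lit 496) (nat_lit 531) (nat_lit 3567) (.d (nat_lit 463) (nat_lit 431) (nat_lit 4527) (nat_lit 592) (nat_lit 7631))))))) (.a s476 (.a (.p (nat_lit 530) (.a (.d (nat_lit 559) (nat_lit 531) (nat_lit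 1551) (nat_lit 558) (nat_lit 1550)) (.a (.f (nat_lit 558) (nat_lit 559) (nat_lit 1550) (.f (nat_lit 526) (nat_lit 557) (nat_lit 1549) (.d (nat_lit 494) (nat_lit 493) (nat_lit 3565) (nat_lit 495) (nat_lit 3566)))) (.f (nat_lit 495) (nat_lit 494) (nat_lit 3566) (.f (nat_lit 531) (nat_lit 496) (nat_lit 3567) (.d (nat_lit 563) (nat_lit 562) (nat_lit 527) (nat_lit 564) (nat_lit 528))))))) (.a s1331 (.a s1305 (.a (.p (nat_lit 530) (.a (.f (nat_lit 495) (nat_lit 494) (nat_lit 3566) (.f (nat_lit 496) (nat_lit 531) (nat_lit 3567) (.d (nat_lit 463) (nat_lit 431) (nat_lit 4527) (nat_lit 592) (nat_lit 7631)))) (.a (.f (nat_lit 531) (nat_lit 559) (nat_lit 1551) (.d (nat_lit 563) (nat_lit 562) (nat_lit 527) (nat_lit 564) (nat_lit 528))) (.f (nat_lit 495) (nat_lit 494) (nat_lit 3566) (.f (nat_lit 592) (nat_lit 624) (nat_lit 7663) (.d (nat_lit 463) (nat_lit 431) (nat_lit 4527) (nat_lit 496) (nat_lit 7631))))))) (.p (nat_lit 496) (.a (.p (nat_lit 464)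 (.a (.d (nat_lit 559) (nat_lit 432) (nat_lit 5551) (nat_lit 591) (nat_lit 5583)) (.a (.f (nat_lit 431) (nat_lit 463) (nat_lit 7599) (.f (nat_lit 432) (nat_lit 399) (nat_lit 7567) (.d (nat_lit 433) (nat_lit 401) (nat_lit 6544) (nat_lit 465) (nat_lit 6576)))) (.f (nat_lit 559) (nat_lit 591) (nat_lit 5583) (.f (nat_lit 463) (nat_lit 431) (nat_lit 7599) (.f (nat_lit 495) (nat_lit 592) (nat_lit 7631) (.d (nat_lit 558) (nat_lit 557) (nat_lit 2573) (nat_lit 590) (nat_lit 5582)))))))) (.a s725 (.a s900 (.a s546 (.a (.p (nat_lit 592) (.a (.d (nat_lit 495) (nat_lit 463) (nat_lit 7631) (nat_lit 624) (nat_lit 7663)) (.a (.f (nat_lit 623) (nat_lit 591) (nat_lit 5615) (.f (nat_lit 624) (nat_lit 655) (nat_lit 5647) (.d (nat_lit 625) (nat_lit 593) (nat_lit 4592) (nat_lit 657) (nat_lit 4624)))) (.f (nat_lit 495) (nat_lit 463) (nat_lit 7631) (.f (nat_lit 530) (nat_lit 531) (nat_lit 3567) (.f (nat_lit 558) (nat_lit 559) (nat_lit 1550) (.f (nat_lit 557)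 (nat_lit 526) (nat_lit 1549) (.f (nat_lit 591) (nat_lit 623) (nat_lit 5615) (.d (nat_lit 593) (nat_lit 590) (nat_lit 3629) (nat_lit 625) (nat_lit 4592)))))))))) (.a (.p (nat_lit 464) (.a (.d (nat_lit 559) (nat_lit 432) (nat_lit 5551) (nat_lit 591) (nat_lit 5583)) (.a (.f (nat_lit 433) (nat_lit 465) (nat_lit 6576) (.f (nat_lit 432) (nat_lit 401) (nat_lit 6544) (.f (nat_lit 399) (nat_lit 431) (nat_lit 7567) (.d (nat_lit 400) (nat_lit 367) (nat_lit 7535) (nat_lit 495) (nat_lit 5519))))) (.f (nat_lit 591) (nat_lit 559) (nat_lit 5583) (.f (nat_lit 592) (nat_lit 623) (nat_lit 5615) (.f (nat_lit 624) (nat_lit 495) (nat_lit 7663) (.d (nat_lit 625) (nat_lit 593) (nat_lit 4592) (nat_lit 657) (nat_lit 4624)))))))) (.p (nat_lit 530) (.a (.f (nat_lit 559) (nat_lit 558) (nat_lit 1550) (.f (nat_lit 464) (nat_lit 432) (nat_lit 5551) (.f (nat_lit 463) (nat_lit 431) (nat_lit 7599) (.f (nat_lit 592) (nat_lit 495) (nat_lit 7631) (.f (nat_lit 624) (nat_lit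 656) (nat_lit 7695) (.d (nat_lit 625) (nat_lit 593) (nat_lit 4592) (nat_lit 657) (nat_lit 4624))))))) (.a (.d (nat_lit 559) (nat_lit 531) (nat_lit 1551) (nat_lit 558) (nat_lit 1550)) (.f (nat_lit 563) (nat_lit 562) (nat_lit 527) (.f (nat_lit 531) (nat_lit 564) (nat_lit 528) (.f (nat_lit 500) (nat_lit 499) (nat_lit 2544) (.d (nat_lit 532) (nat_lit 497) (nat_lit 3568) (nat_lit 501) (nat_lit 2545))))))))))))))))))))))
noncomputable def s1337 : Cert := .r (nat_lit 3773962426139582502986631646264793844340548718132172006003720938849361146555773143298476687185190218548467649586404736686934909373052214328507029863446909475543486300160) (.p (nat_lit 529) (.a (.p (nat_lit 530) (.a (.f (nat_lit 495) (nat_lit 494) (nat_lit 3566) (.f (nat_lit 496) (nat_lit 531) (nat_lit 3567) (.d (nat_lit 463) (nat_lit 431) (nat_lit 4527) (nat_lit 592) (nat_lit 7631)))) (.f (nat_lit 498) (nat_lit 499) (nat_lit 2543) (.f (nat_lit 497) (nat_lit 526) (nat_lit 2542)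 (.f (nat_lit 562) (nat_lit 563) (nat_lit 527) (.d (nat_lit 465) (nat_lit 433) (nat_lit 4529) (nat_lit 594) (nat_lit 7633))))))) (.a s1308 (.a (.p (nat_lit 526) (.a (.f (nat_lit 497) (nat_lit 498) (nat_lit 2542) (.f (nat_lit 496) (nat_lit 525) (nat_lit 2541) (.d (nat_lit 465) (nat_lit 433) (nat_lit 5552) (nat_lit 592) (nat_lit 6608)))) (.a (.f (nat_lit 493) (nat_lit 494) (nat_lit 3565) (.f (nat_lit 525) (nat_lit 492) (nat_lit 3564) (.f (nat_lit 524) (nat_lit 559) (nat_lit 524) (.d (nat_lit 556) (nat_lit 555) (nat_lit 1547) (nat_lit 557) (nat_lit 1548))))) (.f (nat_lit 497) (nat_lit 498) (nat_lit 2542) (.f (nat_lit 592) (nat_lit 624) (nat_lit 6640) (.d (nat_lit 465) (nat_lit 433) (nat_lit 5552) (nat_lit 496) (nat_lit 6608))))))) (.a (.p (nat_lit 530) (.a (.f (nat_lit 495) (nat_lit 494) (nat_lit 3566) (.f (nat_lit 496) (nat_lit 531) (nat_lit 3567) (.d (nat_lit 463) (nat_lit 431) (nat_lit 4527) (nat_lit 592) (nat_lit 7631)))) (.a (.f (nat_lit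 563) (nat_lit 562) (nat_lit 527) (.f (nat_lit 531) (nat_lit 564) (nat_lit 528) (.d (nat_lit 499) (nat_lit 498) (nat_lit 2543) (nat_lit 500) (nat_lit 2544)))) (.f (nat_lit 495) (nat_lit 494) (nat_lit 3566) (.f (nat_lit 592) (nat_lit 624) (nat_lit 7663) (.d (nat_lit 463) (nat_lit 431) (nat_lit 4527) (nat_lit 496) (nat_lit 7631))))))) (.p (nat_lit 530) (.a (.f (nat_lit 495) (nat_lit 494) (nat_lit 3566) (.f (nat_lit 496) (nat_lit 531) (nat_lit 3567) (.d (nat_lit 463) (nat_lit 431) (nat_lit 4527) (nat_lit 592) (nat_lit 7631)))) (.a (.f (nat_lit 531) (nat_lit 559) (nat_lit 1551) (.d (nat_lit 563) (nat_lit 562) (nat_lit 527) (nat_lit 564) (nat_lit 528))) (.f (nat_lit 495) (nat_lit 494) (nat_lit 3566) (.f (nat_lit 592) (nat_lit 624) (nat_lit 7663) (.d (nat_lit 463) (nat_lit 431) (nat_lit 4527) (nat_lit 496) (nat_lit 7631))))))))))))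
noncomputable def s1345 : Cert := .r (nat_lit 16209045194715341170328675720530229892407161939037567858740208450107833483431033593429628803248100883623463213123861357330135795575262156669485319149264700516029650895080632877056) (.p (nat_lit 624) (.a (.f (nat_lit 656) (nat_lit 559) (nat_lit 7695) (.d (nat_lit 655) (nat_lit 623) (nat_lit 5647) (nat_lit 687) (nat_lit 5679))) (.a (.f (nat_lit 657) (nat_lit 625) (nat_lit 4624) (.f (nat_lit 656) (nat_lit 689) (nat_lit 4656) (.d (nat_lit 655) (nat_lit 623) (nat_lit 5647) (nat_lit 687) (nat_lit 5679)))) (.a (.f (nat_lit 656) (nat_lit 559) (nat_lit 7695) (.d (nat_lit 657) (nat_lit 625) (nat_lit 4624) (nat_lit 689) (nat_lit 4656))) (.f (nat_lit 623) (nat_lit 655) (nat_lit 5647) (.f (nat_lit 591) (nat_lit 496) (nat_lit 5615) (.f (nat_lit 625) (nat_lit 657) (nat_lit 4624) (.d (nat_lit 590) (nat_lit 589) (nat_lit 589) (nat_lit 626) (nat_lit 3662)))))))))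
noncomputable def s1355 : Cert := .r (nat_lit 3773962426139582502986631646264793844340548718132172006003720938849361146555773143298476687185190218548467649586404736686934909373052214328507029863446909475543486300160) (.p (nat_lit 592) (.a (.f (nat_lit 624) (nat_lit 495) (nat_lit 7663) (.f (nat_lit 656) (nat_lit 559) (nat_lit 7695) (.d (nat_lit 655) (nat_lit 623) (nat_lit 5647) (nat_lit 687) (nat_lit 5679)))) (.a (.f (nat_lit 624) (nat_lit 495) (nat_lit 7663) (.f (nat_lit 625) (nat_lit 657) (nat_lit 4624) (.f (nat_lit 593) (nat_lit 496) (nat_lit 4592) (.f (nat_lit 623) (nat_lit 655) (nat_lit 5647) (.d (nat_lit 594) (nat_lit 595) (nat_lit 1615) (nat_lit 622) (nat_lit 2638)))))) (.a s1345 (.a (.p (nat_lit 496) (.a (.f (nat_lit 497) (nat_lit 465) (nat_lit 6608) (.f (nat_lit 526) (nat_lit 525) (nat_lit 2541) (.d (nat_lit 495) (nat_lit 463) (nat_lit 7631) (nat_lit 498) (nat_lit 1518)))) (.a (.f (nat_lit 591) (nat_lit 623) (nat_lit 5615) (.f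 (nat_lit 464) (nat_lit 559) (nat_lit 5583) (.f (nat_lit 431) (nat_lit 463) (nat_lit 7599) (.f (nat_lit 432) (nat_lit 399) (nat_lit 7567) (.d (nat_lit 433) (nat_lit 401) (nat_lit 6544) (nat_lit 465) (nat_lit 6576)))))) (.a (.f (nat_lit 495) (nat_lit 463) (nat_lit 7631) (.f (nat_lit 591) (nat_lit 623) (nat_lit 5615) (.f (nat_lit 559) (nat_lit 464) (nat_lit 5583) (.f (nat_lit 494) (nat_lit 462) (nat_lit 7630) (.d (nat_lit 493) (nat_lit 492) (nat_lit 492) (nat_lit 529) (nat_lit 493)))))) (.f (nat_lit 497) (nat_lit 465) (nat_lit 6608) (.f (nat_lit 498) (nat_lit 499) (nat_lit 1519) (.d (nat_lit 526) (nat_lit 525) (nat_lit 2541) (nat_lit 529) (nat_lit 2542)))))))) (.f (nat_lit 624) (nat_lit 495) (nat_lit 7663) (.f (nat_lit 656) (nat_lit 559) (nat_lit 7695) (.d (nat_lit 657) (nat_lit 625) (nat_lit 4624) (nat_lit 689) (nat_lit 4656)))))))))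
noncomputable def s1361 : Cert := .r (nat_lit 3773962426139582502986631646264793844340548718132172006003720938849361146555773143298476687185190218548467649586404736686934909373052214328507029863446909475543486300160) (.p (nat_lit 529) (.a (.p (nat_lit 530) (.a (.d (nat_lit 559) (nat_lit 531) (nat_lit 1551) (nat_lit 558) (nat_lit 1550)) (.a (.f (nat_lit 559) (nat_lit 558) (nat_lit 1550) (.f (nat_lit 495) (nat_lit 494) (nat_lit 3566) (.d (nat_lit 463) (nat_lit 431) (nat_lit 4527) (nat_lit 592) (nat_lit 4559)))) (.f (nat_lit 495) (nat_lit 494) (nat_lit 3566) (.f (nat_lit 496) (nat_lit 531) (nat_lit 3567) (.d (nat_lit 463) (nat_lit 431) (nat_lit 4527) (nat_lit 592) (nat_lit 7631))))))) (.a (.p (nat_lit 530) (.a (.d (nat_lit 559) (nat_lit 531) (nat_lit 1551) (nat_lit 558) (nat_lit 1550)) (.a (.f (nat_lit 559) (nat_lit 558) (nat_lit 1550) (.f (nat_lit 495) (nat_lit 494) (nat_lit 3566) (.d (nat_lit 463) (nat_lit 431) (nat_lit 4527) (nat_lit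 592) (nat_lit 4559)))) (.f (nat_lit 563) (nat_lit 562) (nat_lit 527) (.f (nat_lit 531) (nat_lit 564) (nat_lit 528) (.d (nat_lit 499) (nat_lit 498) (nat_lit 2543) (nat_lit 500) (nat_lit 2544))))))) (.a (.p (nat_lit 526) (.a (.f (nat_lit 497) (nat_lit 498) (nat_lit 2542) (.f (nat_lit 496) (nat_lit 525) (nat_lit 2541) (.d (nat_lit 465) (nat_lit 433) (nat_lit 5552) (nat_lit 592) (nat_lit 6608)))) (.a (.f (nat_lit 557) (nat_lit 558) (nat_lit 1549) (.f (nat_lit 525) (nat_lit 556) (nat_lit 1548) (.d (nat_lit 493) (nat_lit 492) (nat_lit 3564) (nat_lit 494) (nat_lit 3565)))) (.f (nat_lit 497) (nat_lit 498) (nat_lit 2542) (.f (nat_lit 592) (nat_lit 624) (nat_lit 6640) (.d (nat_lit 465) (nat_lit 433) (nat_lit 5552) (nat_lit 496) (nat_lit 6608))))))) (.a s173 (.a (.p (nat_lit 530) (.a (.f (nat_lit 495) (nat_lit 494) (nat_lit 3566) (.f (nat_lit 496) (nat_lit 531) (nat_lit 3567) (.d (nat_lit 463) (nat_lit 431) (nat_lit 4527) (nat_lit 592) (nat_lit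 7631)))) (.a (.f (nat_lit 563) (nat_lit 562) (nat_lit 527) (.f (nat_lit 531) (nat_lit 564) (nat_lit 528) (.d (nat_lit 499) (nat_lit 498) (nat_lit 2543) (nat_lit 500) (nat_lit 2544)))) (.f (nat_lit 495) (nat_lit 494) (nat_lit 3566) (.f (nat_lit 592) (nat_lit 624) (nat_lit 7663) (.d (nat_lit 463) (nat_lit 431) (nat_lit 4527) (nat_lit 496) (nat_lit 7631))))))) (.p (nat_lit 530) (.a (.d (nat_lit 559) (nat_lit 531) (nat_lit 1551) (nat_lit 558) (nat_lit 1550)) (.f (nat_lit 498) (nat_lit 499) (nat_lit 2543) (.f (nat_lit 497) (nat_lit 526) (nat_lit 2542) (.f (nat_lit 592) (nat_lit 624) (nat_lit 6640) (.d (nat_lit 465) (nat_lit 433) (nat_lit 5552) (nat_lit 496) (nat_lit 6608)))))))))))))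
noncomputable def s1421 : Cert := .r (nat_lit 5660943638550353179107408936758928289799009328340392220191824088972173227751847569341540049774019602319201837101786659136820201688014610644787746989163257497368183963648) (.p (nat_lit 495) (.a (.f (nat_lit 463) (nat_lit 431) (nat_lit 4527) (.f (nat_lit 462) (nat_lit 430) (nat_lit 7598) (.f (nat_lit 591) (nat_lit 494) (nat_lit 7630) (.f (nat_lit 623) (nat_lit 655) (nat_lit 6671) (.d (nat_lit 622) (nat_lit 590) (nat_lit 5614) (nat_lit 654) (nat_lit 5646)))))) (.a (.p (nat_lit 591) (.a (.f (nat_lit 623) (nat_lit 655) (nat_lit 6671) (.d (nat_lit 622) (nat_lit 590) (nat_lit 5614) (nat_lit 654) (nat_lit 5646))) (.a (.f (nat_lit 592) (nat_lit 624) (nat_lit 7663) (.f (nat_lit 590) (nat_lit 622) (nat_lit 5614) (.d (nat_lit 561) (nat_lit 562) (nat_lit 1582) (nat_lit 589) (nat_lit 2605)))) (.f (nat_lit 624) (nat_lit 592) (nat_lit 7663) (.d (nat_lit 623) (nat_lit 655) (nat_lit 6671) (nat_lit 656) (nat_lit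 4623)))))) (.d (nat_lit 463) (nat_lit 431) (nat_lit 4527) (nat_lit 592) (nat_lit 4559)))))
noncomputable def s1455 : Cert := .r (nat_lit 3773962426139582503191218559258302711216373074183896953017261066727052695898478853804485049460482378228672030356773746508865327131024718766583108397564746541376519274496) (.p (nat_lit 464) (.a (.f (nat_lit 463) (nat_lit 431) (nat_lit 7599) (.f (nat_lit 495) (nat_lit 592) (nat_lit 7631) (.f (nat_lit 465) (nat_lit 433) (nat_lit 6576) (.d (nat_lit 466) (nat_lit 467) (nat_lit 1487) (nat_lit 494) (nat_lit 1486))))) (.a (.f (nat_lit 433) (nat_lit 465) (nat_lit 6576) (.f (nat_lit 432) (nat_lit 401) (nat_lit 6544) (.d (nat_lit 431) (nat_lit 399) (nat_lit 7567) (nat_lit 463) (nat_lit 7599)))) (.a (.f (nat_lit 432) (nat_lit 559) (nat_lit 5551) (.d (nat_lit 431) (nat_lit 399) (nat_lit 7567) (nat_lit 463) (nat_lit 7599))) (.a (.f (nat_lit 433) (nat_lit 465) (nat_lit 6576) (.f (nat_lit 432) (nat_lit 401) (nat_lit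 6544) (.f (nat_lit 399) (nat_lit 431) (nat_lit 7567) (.d (nat_lit 400) (nat_lit 367) (nat_lit 7535) (nat_lit 495) (nat_lit 5519))))) (.f (nat_lit 433) (nat_lit 465) (nat_lit 6576) (.f (nat_lit 432) (nat_lit 401) (nat_lit 6544) (.f (nat_lit 495) (nat_lit 400) (nat_lit 5519) (.d (nat_lit 592) (nat_lit 463) (nat_lit 7631) (nat_lit 624) (nat_lit 7663))))))))))
noncomputable def s1533 : Cert := .r (nat_lit 5660943638550353179209702393255682723236921506366254693698594152911019002423200424594544230911665682159304027486971164047785410567000862863825786256222176030284700450816) (.p (nat_lit 496) (.a (.f (nat_lit 463) (nat_lit 431) (nat_lit 4527) (.f (nat_lit 462) (nat_lit 430) (nat_lit 7598) (.f (nat_lit 497) (nat_lit 498) (nat_lit 3534) (.d (nat_lit 461) (nat_lit 460) (nat_lit 460) (nat_lit 494) (nat_lit 3533))))) (.a (.f (nat_lit 464) (nat_lit 432) (nat_lit 5551) (.f (nat_lit 463) (nat_lit 431) (nat_lit 4527) (.f (nat_lit 465) (nat_lit 433)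 (nat_lit 6576) (.d (nat_lit 466) (nat_lit 467) (nat_lit 1487) (nat_lit 494) (nat_lit 1486))))) (.a (.f (nat_lit 464) (nat_lit 432) (nat_lit 5551) (.f (nat_lit 465) (nat_lit 433) (nat_lit 6576) (.f (nat_lit 494) (nat_lit 493) (nat_lit 2509) (.d (nat_lit 466) (nat_lit 467) (nat_lit 1487) (nat_lit 497) (nat_lit 2510))))) (.f (nat_lit 464) (nat_lit 432) (nat_lit 5551) (.f (nat_lit 463) (nat_lit 431) (nat_lit 4527) (.f (nat_lit 462) (nat_lit 430) (nat_lit 7598) (.d (nat_lit 461) (nat_lit 460) (nat_lit 460) (nat_lit 497) (nat_lit 461)))))))))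
noncomputable def s1540 : Cert := .r (nat_lit 3773962426139582502986631646264793844340548718132172006003720938849361146555773143298476687185190218548467649586404736686934909373052214328507029863446909475543486300160) (.p (nat_lit 559) (.a s1386 (.a (.p (nat_lit 496) (.a (.d (nat_lit 464) (nat_lit 432) (nat_lit 5551) (nat_lit 591) (nat_lit 5583)) (.a (.p (nat_lit 495) (.a (.f (nat_lit 463) (nat_lit 431) (nat_lit 4527) (.f (nat_lit 591) (nat_lit 623) (nat_lit 6639) (.d (nat_lit 462) (nat_lit 430) (nat_lit 7598) (nat_lit 494) (nat_lit 7630)))) (.a (.f (nat_lit 591) (nat_lit 623) (nat_lit 6639) (.f (nat_lit 494) (nat_lit 462) (nat_lit 7630) (.d (nat_lit 493) (nat_lit 492) (nat_lit 492) (nat_lit 529) (nat_lit 493)))) (.f (nat_lit 463) (nat_lit 431) (nat_lit 4527) (.f (nat_lit 558) (nat_lit 590) (nat_lit 5582) (.d (nat_lit 557) (nat_lit 529) (nat_lit 2573) (nat_lit 556) (nat_lit 2572))))))) (.f (nat_lit 464) (nat_lit 432) (nat_lit 5551) (.f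 (nat_lit 463) (nat_lit 431) (nat_lit 7599) (.f (nat_lit 465) (nat_lit 433) (nat_lit 6576) (.f (nat_lit 561) (nat_lit 593) (nat_lit 4560) (.f (nat_lit 562) (nat_lit 563) (nat_lit 3599) (.f (nat_lit 594) (nat_lit 595) (nat_lit 559) (.f (nat_lit 497) (nat_lit 529) (nat_lit 4561) (.d (nat_lit 462) (nat_lit 461) (nat_lit 461) (nat_lit 498) (nat_lit 462)))))))))))) (.a s1475 (.a s1494 (.a s1505 (.a s1510 (.a s1511 (.a (.p (nat_lit 495) (.a (.f (nat_lit 463) (nat_lit 431) (nat_lit 4527) (.f (nat_lit 464) (nat_lit 432) (nat_lit 6575) (.f (nat_lit 591) (nat_lit 496) (nat_lit 5583) (.d (nat_lit 462) (nat_lit 430) (nat_lit 7598) (nat_lit 494) (nat_lit 7630))))) (.a (.f (nat_lit 463) (nat_lit 431) (nat_lit 4527) (.f (nat_lit 462) (nat_lit 430) (nat_lit 7598) (.f (nat_lit 591) (nat_lit 494) (nat_lit 7630) (.f (nat_lit 623) (nat_lit 655) (nat_lit 6671) (.d (nat_lit 622) (nat_lit 590) (nat_lit 5614) (nat_lit 654) (nat_lit 5646)))))) (.a (.p (nat_lit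 496) (.a (.f (nat_lit 591) (nat_lit 623) (nat_lit 6639) (.f (nat_lit 494) (nat_lit 462) (nat_lit 7630) (.d (nat_lit 493) (nat_lit 492) (nat_lit 492) (nat_lit 529) (nat_lit 493)))) (.a (.d (nat_lit 464) (nat_lit 432) (nat_lit 5551) (nat_lit 591) (nat_lit 5583)) (.f (nat_lit 464) (nat_lit 432) (nat_lit 5551) (.f (nat_lit 465) (nat_lit 433) (nat_lit 6576) (.f (nat_lit 494) (nat_lit 493) (nat_lit 2509) (.d (nat_lit 466) (nat_lit 467) (nat_lit 1487) (nat_lit 497) (nat_lit 2510)))))))) (.a (.f (nat_lit 463) (nat_lit 431) (nat_lit 4527) (.f (nat_lit 464) (nat_lit 432) (nat_lit 6575) (.f (nat_lit 496) (nat_lit 591) (nat_lit 5583) (.f (nat_lit 462) (nat_lit 430) (nat_lit 7598) (.d (nat_lit 461) (nat_lit 460) (nat_lit 460) (nat_lit 497) (nat_lit 461)))))) (.a s1533 (.f (nat_lit 463) (nat_lit 431) (nat_lit 4527) (.f (nat_lit 464) (nat_lit 432) (nat_lit 6575) (.f (nat_lit 496) (nat_lit 591) (nat_lit 5583) (.f (nat_lit 465) (nat_lit 433) (nat_lit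 6576) (.d (nat_lit 466) (nat_lit 467) (nat_lit 1487) (nat_lit 494) (nat_lit 1486)))))))))))) (.p (nat_lit 561) (.a (.f (nat_lit 562) (nat_lit 563) (nat_lit 3599) (.f (nat_lit 594) (nat_lit 595) (nat_lit 559) (.f (nat_lit 558) (nat_lit 593) (nat_lit 558) (.d (nat_lit 557) (nat_lit 529) (nat_lit 2573) (nat_lit 556) (nat_lit 2572))))) (.a (.f (nat_lit 562) (nat_lit 563) (nat_lit 3599) (.f (nat_lit 594) (nat_lit 595) (nat_lit 559) (.f (nat_lit 530) (nat_lit 531) (nat_lit 2575) (.f (nat_lit 593) (nat_lit 558) (nat_lit 558) (.d (nat_lit 498) (nat_lit 466) (nat_lit 5585) (nat_lit 625) (nat_lit 5617)))))) (.a (.f (nat_lit 562) (nat_lit 563) (nat_lit 3599) (.f (nat_lit 530) (nat_lit 531) (nat_lit 2575) (.f (nat_lit 529) (nat_lit 558) (nat_lit 1550) (.f (nat_lit 594) (nat_lit 595) (nat_lit 559) (.d (nat_lit 497) (nat_lit 465) (nat_lit 4561) (nat_lit 626) (nat_lit 7665)))))) (.a (.p (nat_lit 529) (.a (.f (nat_lit 530) (nat_lit 531) (nat_lit 1551)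 (.f (nat_lit 498) (nat_lit 499) (nat_lit 2543) (.f (nat_lit 593) (nat_lit 625) (nat_lit 6641) (.d (nat_lit 466) (nat_lit 434) (nat_lit 5553) (nat_lit 497) (nat_lit 6609))))) (.a (.f (nat_lit 558) (nat_lit 557) (nat_lit 2573) (.f (nat_lit 593) (nat_lit 594) (nat_lit 558) (.d (nat_lit 496) (nat_lit 464) (nat_lit 4560) (nat_lit 625) (nat_lit 7664)))) (.d (nat_lit 530) (nat_lit 531) (nat_lit 1551) (nat_lit 558) (nat_lit 1550))))) (.a s1424 (.f (nat_lit 562) (nat_lit 563) (nat_lit 3599) (.f (nat_lit 530) (nat_lit 531) (nat_lit 2575) (.f (nat_lit 529) (nat_lit 558) (nat_lit 1550) (.f (nat_lit 498) (nat_lit 499) (nat_lit 2543) (.d (nat_lit 466) (nat_lit 434) (nat_lit 5553) (nat_lit 593) (nat_lit 5585)))))))))))))))))))))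
noncomputable def s1596 : Cert := .r (nat_lit 3773962426139582502986631646264793844340548718132172006003720938849361146555773143298476687185190218548467649586404736686934909373052214328507029863446909475543486300160) (.p (nat_lit 592) (.a (.f (nat_lit 624) (nat_lit 495) (nat_lit 7663) (.f (nat_lit 625) (nat_lit 657) (nat_lit 4624) (.f (nat_lit 593) (nat_lit 496) (nat_lit 4592) (.f (nat_lit 623) (nat_lit 655) (nat_lit 5647) (.d (nat_lit 594) (nat_lit 595) (nat_lit 1615) (nat_lit 622) (nat_lit 2638)))))) (.a (.f (nat_lit 624) (nat_lit 495) (nat_lit 7663) (.f (nat_lit 657) (nat_lit 625) (nat_lit 4624) (.f (nat_lit 656) (nat_lit 689) (nat_lit 4656) (.d (nat_lit 655) (nat_lit 623) (nat_lit 5647) (nat_lit 687) (nat_lit 5679))))) (.a (.p (nat_lit 624) (.a (.f (nat_lit 657) (nat_lit 625) (nat_lit 4624) (.f (nat_lit 656) (nat_lit 689) (nat_lit 4656) (.d (nat_lit 655) (nat_lit 623) (nat_lit 5647) (nat_lit 687) (nat_lit 5679)))) (.a (.f (nat_lit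 655) (nat_lit 623) (nat_lit 5647) (.f (nat_lit 656) (nat_lit 687) (nat_lit 5679) (.f (nat_lit 561) (nat_lit 529) (nat_lit 6672) (.f (nat_lit 688) (nat_lit 593) (nat_lit 6704) (.d (nat_lit 689) (nat_lit 657) (nat_lit 4656) (nat_lit 721) (nat_lit 4688)))))) (.a (.f (nat_lit 657) (nat_lit 625) (nat_lit 4624) (.f (nat_lit 656) (nat_lit 689) (nat_lit 4656) (.f (nat_lit 561) (nat_lit 529) (nat_lit 6672) (.f (nat_lit 687) (nat_lit 655) (nat_lit 5679) (.d (nat_lit 688) (nat_lit 593) (nat_lit 6704) (nat_lit 719) (nat_lit 5711)))))) (.a (.f (nat_lit 625) (nat_lit 657) (nat_lit 4624) (.f (nat_lit 623) (nat_lit 655) (nat_lit 5647) (.d (nat_lit 496) (nat_lit 591) (nat_lit 5615) (nat_lit 593) (nat_lit 4592)))) (.a (.f (nat_lit 623) (nat_lit 655) (nat_lit 5647) (.f (nat_lit 496) (nat_lit 591) (nat_lit 5615) (.f (nat_lit 593) (nat_lit 625) (nat_lit 4592) (.f (nat_lit 561) (nat_lit 464) (nat_lit 4560) (.d (nat_lit 656) (nat_lit 529) (nat_lit 6672) (nat_lit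 688) (nat_lit 6704)))))) (.f (nat_lit 657) (nat_lit 625) (nat_lit 4624) (.f (nat_lit 656) (nat_lit 689) (nat_lit 4656) (.f (nat_lit 561) (nat_lit 529) (nat_lit 6672) (.f (nat_lit 593) (nat_lit 688) (nat_lit 6704) (.f (nat_lit 562) (nat_lit 563) (nat_lit 3599) (.f (nat_lit 591) (nat_lit 590) (nat_lit 2606) (.d (nat_lit 496) (nat_lit 464) (nat_lit 4560) (nat_lit 623) (nat_lit 5615)))))))))))))) (.a (.p (nat_lit 496) (.a (.f (nat_lit 495) (nat_lit 463) (nat_lit 7631) (.f (nat_lit 497) (nat_lit 465) (nat_lit 6608) (.f (nat_lit 498) (nat_lit 499) (nat_lit 1519) (.f (nat_lit 530) (nat_lit 531) (nat_lit 495) (.f (nat_lit 529) (nat_lit 494) (nat_lit 3566) (.f (nat_lit 593) (nat_lit 625) (nat_lit 4592) (.d (nat_lit 466) (nat_lit 467) (nat_lit 2511) (nat_lit 561) (nat_lit 6609)))))))) (.a (.f (nat_lit 495) (nat_lit 463) (nat_lit 7631) (.f (nat_lit 497) (nat_lit 465) (nat_lit 6608) (.f (nat_lit 591) (nat_lit 623) (nat_lit 5615) (.f (nat_lit 593)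 (nat_lit 625) (nat_lit 4592) (.f (nat_lit 498) (nat_lit 499) (nat_lit 1519) (.f (nat_lit 466) (nat_lit 467) (nat_lit 2511) (.f (nat_lit 561) (nat_lit 529) (nat_lit 6609) (.d (nat_lit 562) (nat_lit 563) (nat_lit 1583) (nat_lit 590) (nat_lit 2606))))))))) (.a (.f (nat_lit 495) (nat_lit 463) (nat_lit 7631) (.f (nat_lit 593) (nat_lit 625) (nat_lit 4592) (.f (nat_lit 464) (nat_lit 561) (nat_lit 4560) (.f (nat_lit 432) (nat_lit 400) (nat_lit 5519) (.d (nat_lit 433) (nat_lit 401) (nat_lit 6544) (nat_lit 465) (nat_lit 6576)))))) (.a (.f (nat_lit 495) (nat_lit 463) (nat_lit 7631) (.f (nat_lit 497) (nat_lit 465) (nat_lit 6608) (.f (nat_lit 498) (nat_lit 499) (nat_lit 1519) (.f (nat_lit 530) (nat_lit 531) (nat_lit 495) (.f (nat_lit 494) (nat_lit 529) (nat_lit 3566) (.f (nat_lit 493) (nat_lit 492) (nat_lit 492) (.d (nat_lit 461) (nat_lit 460) (nat_lit 3532) (nat_lit 462) (nat_lit 3533)))))))) (.a (.f (nat_lit 465) (nat_lit 497) (nat_lit 6608) (.f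 (nat_lit 464) (nat_lit 433) (nat_lit 6576) (.d (nat_lit 593) (nat_lit 561) (nat_lit 4560) (nat_lit 625) (nat_lit 4592)))) (.f (nat_lit 593) (nat_lit 625) (nat_lit 4592) (.f (nat_lit 561) (nat_lit 464) (nat_lit 4560) (.f (nat_lit 562) (nat_lit 563) (nat_lit 3599) (.d (nat_lit 591) (nat_lit 590) (nat_lit 2606) (nat_lit 623) (nat_lit 5615))))))))))) (.a (.f (nat_lit 624) (nat_lit 495) (nat_lit 7663) (.f (nat_lit 529) (nat_lit 497) (nat_lit 6640) (.f (nat_lit 561) (nat_lit 656) (nat_lit 6672) (.f (nat_lit 562) (nat_lit 563) (nat_lit 3599) (.f (nat_lit 623) (nat_lit 655) (nat_lit 5647) (.f (nat_lit 591) (nat_lit 496) (nat_lit 5615) (.d (nat_lit 590) (nat_lit 589) (nat_lit 2605) (nat_lit 593) (nat_lit 2606)))))))) (.f (nat_lit 624) (nat_lit 495) (nat_lit 7663) (.f (nat_lit 529) (nat_lit 497) (nat_lit 6640) (.f (nat_lit 561) (nat_lit 656) (nat_lit 6672) (.f (nat_lit 625) (nat_lit 657) (nat_lit 4624) (.f (nat_lit 593) (nat_lit 496) (nat_lit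 4592) (.f (nat_lit 562) (nat_lit 563) (nat_lit 3599) (.f (nat_lit 626) (nat_lit 658) (nat_lit 4625) (.d (nat_lit 591) (nat_lit 590) (nat_lit 2606) (nat_lit 627) (nat_lit 3663)))))))))))))))
noncomputable def s1597 : Cert := .r (nat_lit 3773962427896970703980067733300160448905385381753147442840407123654343792107272198248276636528565486557800015660592592403154009030555443256434490679465860718068940931072) (.p (nat_lit 530) (.a (.d (nat_lit 559) (nat_lit 531) (nat_lit 1551) (nat_lit 558) (nat_lit 1550)) s317))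
noncomputable def s1612 : Cert := .r (nat_lit 3773962427896970704184654646293669315781209737804872389853947251532035341449977908754284998803857646238004396430961602225084426788527947694510569213583697783901973905408) (.p (nat_lit 592) (.a (.f (nat_lit 623) (nat_lit 591) (nat_lit 5615) (.f (nat_lit 624) (nat_lit 655) (nat_lit 5647) (.d (nat_lit 625) (nat_lit 593) (nat_lit 4592) (nat_lit 657) (nat_lit 4624)))) (.a (.f (nat_lit 497) (nat_lit 465) (nat_lit 6608) (.f (nat_lit 593) (nat_lit 625) (nat_lit 4592) (.f (nat_lit 591) (nat_lit 623) (nat_lit 5615) (.f (nat_lit 498) (nat_lit 499) (nat_lit 1519) (.f (nat_lit 561) (nat_lit 466) (nat_lit 6609) (.d (nat_lit 562) (nat_lit 563) (nat_lit 1583) (nat_lit 590) (nat_lit 2606))))))) (.a (.f (nat_lit 623) (nat_lit 591) (nat_lit 5615) (.f (nat_lit 624) (nat_lit 655) (nat_lit 5647) (.f (nat_lit 656) (nat_lit 561) (nat_lit 6672) (.d (nat_lit 657) (nat_lit 625) (nat_lit 4624) (nat_lit 689) (nat_lit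 4656))))) (.d (nat_lit 497) (nat_lit 465) (nat_lit 6608) (nat_lit 624) (nat_lit 6640))))))
noncomputable def s1626 : Cert := .r (nat_lit 3773962427896970703980067733300160448905385381753147442840407123654343792107272198248276636528565486557800015660592592403154009030555443256434490679465860718068940931072) (.p (nat_lit 530) (.a (.d (nat_lit 559) (nat_lit 531) (nat_lit 1551) (nat_lit 558) (nat_lit 1550)) (.a (.p (nat_lit 561) (.a (.f (nat_lit 562) (nat_lit 563) (nat_lit 527) (.f (nat_lit 498) (nat_lit 499) (nat_lit 2543) (.d (nat_lit 466) (nat_lit 434) (nat_lit 5553) (nat_lit 593) (nat_lit 5585)))) (.a (.f (nat_lit 498) (nat_lit 499) (nat_lit 2543) (.f (nat_lit 593) (nat_lit 625) (nat_lit 6641) (.d (nat_lit 466) (nat_lit 434) (nat_lit 5553) (nat_lit 497) (nat_lit 6609)))) (.f (nat_lit 562) (nat_lit 563) (nat_lit 527) (.f (nat_lit 559) (nat_lit 558) (nat_lit 1550) (.f (nat_lit 594) (nat_lit 595) (nat_lit 559) (.d (nat_lit 497) (nat_lit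 465) (nat_lit 4561) (nat_lit 626) (nat_lit 7665)))))))) (.f (nat_lit 563) (nat_lit 562) (nat_lit 527) (.f (nat_lit 531) (nat_lit 564) (nat_lit 528) (.d (nat_lit 499) (nat_lit 498) (nat_lit 2543) (nat_lit 500) (nat_lit 2544)))))))
noncomputable def s1641 : Cert := .r (nat_lit 3773962427896970703980067733300160448905385381753147442840407123654343792107272198248276636528565486557800015660592592403154009030555443256434490679465860718068940931072) (.p (nat_lit 530) (.a (.f (nat_lit 563) (nat_lit 562) (nat_lit 527) (.f (nat_lit 531) (nat_lit 564) (nat_lit 528) (.d (nat_lit 499) (nat_lit 498) (nat_lit 2543) (nat_lit 500) (nat_lit 2544)))) (.a s317 (.a (.f (nat_lit 499) (nat_lit 498) (nat_lit 2543) (.f (nat_lit 531) (nat_lit 500) (nat_lit 2544) (.f (nat_lit 532) (nat_lit 561) (nat_lit 1552) (.d (nat_lit 564) (nat_lit 563) (nat_lit 528) (nat_lit 565) (nat_lit 529))))) (.a (.f (nat_lit 563) (nat_lit 562) (nat_lit 527) (.f (nat_lit 531) (nat_lit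 564) (nat_lit 528) (.f (nat_lit 532) (nat_lit 561) (nat_lit 1552) (.d (nat_lit 500) (nat_lit 499) (nat_lit 2544) (nat_lit 501) (nat_lit 2545))))) (.a (.p (nat_lit 497) (.a (.f (nat_lit 592) (nat_lit 624) (nat_lit 6640) (.d (nat_lit 465) (nat_lit 433) (nat_lit 5552) (nat_lit 561) (nat_lit 5584))) (.a (.f (nat_lit 465) (nat_lit 433) (nat_lit 5552) (.d (nat_lit 592) (nat_lit 496) (nat_lit 6608) (nat_lit 624) (nat_lit 6640))) (.f (nat_lit 499) (nat_lit 498) (nat_lit 2543) (.f (nat_lit 531) (nat_lit 500) (nat_lit 2544) (.d (nat_lit 532) (nat_lit 496) (nat_lit 3568) (nat_lit 561) (nat_lit 1552))))))) (.f (nat_lit 563) (nat_lit 562) (nat_lit 527) (.f (nat_lit 531) (nat_lit 564) (nat_lit 528) (.f (nat_lit 532) (nat_lit 561) (nat_lit 1552) (.f (nat_lit 497) (nat_lit 496) (nat_lit 3568) (.f (nat_lit 533) (nat_lit 498) (nat_lit 3569) (.d (nat_lit 501) (nat_lit 500) (nat_lit 2545) (nat_lit 502) (nat_lit 2546)))))))))))))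
noncomputable def s1645 : Cert := .r (nat_lit 3773962427896970703980067733300160448905385381753147442840407123654343792107272198248276636528565486557800015660592592403154009030555443256434490679465860718068940931072) (.p (nat_lit 530) (.a (.d (nat_lit 559) (nat_lit 531) (nat_lit 1551) (nat_lit 558) (nat_lit 1550)) (.a (.p (nat_lit 561) (.a (.f (nat_lit 562) (nat_lit 563) (nat_lit 527) (.f (nat_lit 498) (nat_lit 499) (nat_lit 2543) (.d (nat_lit 466) (nat_lit 434) (nat_lit 5553) (nat_lit 593) (nat_lit 5585)))) (.a (.f (nat_lit 498) (nat_lit 499) (nat_lit 2543) (.f (nat_lit 593) (nat_lit 625) (nat_lit 6641) (.d (nat_lit 466) (nat_lit 434) (nat_lit 5553) (nat_lit 497) (nat_lit 6609)))) (.f (nat_lit 559) (nat_lit 558) (nat_lit 1550) (.f (nat_lit 562) (nat_lit 563) (nat_lit 527) (.f (nat_lit 591) (nat_lit 590) (nat_lit 1582) (.d (nat_lit 496) (nat_lit 464) (nat_lit 5583) (nat_lit 623) (nat_lit 6639)))))))) (.f (nat_lit 563) (nat_lit 562) (nat_lit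 527) (.f (nat_lit 531) (nat_lit 564) (nat_lit 528) (.d (nat_lit 499) (nat_lit 498) (nat_lit 2543) (nat_lit 500) (nat_lit 2544)))))))
noncomputable def s1652 : Cert := .r (nat_lit 3773962427896970703980067733300160448905385381753147442840407123654343792107272198248276636528565486557800015660592592403154009030555443256434490679465860718068940931072) (.p (nat_lit 530) (.a (.d (nat_lit 559) (nat_lit 531) (nat_lit 1551) (nat_lit 558) (nat_lit 1550)) (.a (.p (nat_lit 497) (.a (.f (nat_lit 498) (nat_lit 499) (nat_lit 2543) (.f (nat_lit 562) (nat_lit 563) (nat_lit 527) (.d (nat_lit 465) (nat_lit 433) (nat_lit 4529) (nat_lit 594) (nat_lit 7633)))) (.a (.f (nat_lit 559) (nat_lit 558) (nat_lit 1550) (.f (nat_lit 562) (nat_lit 563) (nat_lit 527) (.f (nat_lit 498) (nat_lit 499) (nat_lit 2543) (.f (nat_lit 594) (nat_lit 626) (nat_lit 7665) (.d (nat_lit 595) (nat_lit 561) (nat_lit 559) (nat_lit 627) (nat_lit 4594)))))) (.f (nat_lit 592) (nat_lit 624)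 (nat_lit 6640) (.d (nat_lit 465) (nat_lit 433) (nat_lit 5552) (nat_lit 561) (nat_lit 5584)))))) (.f (nat_lit 563) (nat_lit 562) (nat_lit 527) (.f (nat_lit 531) (nat_lit 564) (nat_lit 528) (.d (nat_lit 499) (nat_lit 498) (nat_lit 2543) (nat_lit 500) (nat_lit 2544)))))))
noncomputable def s1675 : Cert := .r (nat_lit 3773962431411747105966939907370893658035058708995098316513779493264309083210270308147876535215316022576464747808968303835592208345561901112289412311503763203119850192896) (.p (nat_lit 497) (.a (.f (nat_lit 562) (nat_lit 563) (nat_lit 527) (.f (nat_lit 465) (nat_lit 433) (nat_lit 5552) (.d (nat_lit 561) (nat_lit 592) (nat_lit 5584) (nat_lit 594) (nat_lit 4561)))) (.a (.f (nat_lit 465) (nat_lit 433) (nat_lit 5552) (.d (nat_lit 592) (nat_lit 496) (nat_lit 6608) (nat_lit 624) (nat_lit 6640))) (.a (.f (nat_lit 562) (nat_lit 563) (nat_lit 527) (.f (nat_lit 465) (nat_lit 433) (nat_lit 5552) (.d (nat_lit 594) (nat_lit 561) (nat_lit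 4561) (nat_lit 626) (nat_lit 7665)))) (.f (nat_lit 559) (nat_lit 558) (nat_lit 1550) (.f (nat_lit 562) (nat_lit 563) (nat_lit 527) (.f (nat_lit 592) (nat_lit 624) (nat_lit 6640) (.f (nat_lit 594) (nat_lit 626) (nat_lit 7665) (.d (nat_lit 595) (nat_lit 561) (nat_lit 559) (nat_lit 593) (nat_lit 3631))))))))))
noncomputable def s1676 : Cert := .r (nat_lit 3773962427896970703980067733300160448905385381753147442840407123654343792107272198248276636528565486557800015660592592403154009030555443256434490679465860718068940931072) (.p (nat_lit 530) (.a (.d (nat_lit 559) (nat_lit 531) (nat_lit 1551) (nat_lit 558) (nat_lit 1550)) (.a s1675 (.f (nat_lit 563) (nat_lit 562) (nat_lit 527) (.f (nat_lit 531) (nat_lit 564) (nat_lit 528) (.f (nat_lit 532) (nat_lit 561) (nat_lit 1552) (.d (nat_lit 500) (nat_lit 499) (nat_lit 2544) (nat_lit 501) (nat_lit 2545))))))))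
noncomputable def s1677 : Cert := .r (nat_lit 3773962427896970703980067733300160448905385381753147442840407123654343792107272198248276636528565486557800015660592592403154009030555443256434490679465860718068940931072) (.p (nat_lit 530) (.a (.d (nat_lit 559) (nat_lit 531) (nat_lit 1551) (nat_lit 558) (nat_lit 1550)) (.a s1675 (.f (nat_lit 563) (nat_lit 562) (nat_lit 527) (.f (nat_lit 531) (nat_lit 564) (nat_lit 528) (.f (nat_lit 532) (nat_lit 561) (nat_lit 1552) (.f (nat_lit 497) (nat_lit 496) (nat_lit 3568) (.f (nat_lit 533) (nat_lit 498) (nat_lit 3569) (.d (nat_lit 501) (nat_lit 500) (nat_lit 2545) (nat_lit 502) (nat_lit 2546))))))))))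
noncomputable def s1678 : Cert := .r (nat_lit 3773962426139582502986631646264793844340548718132172006003720938849361146555773143298476687185190218548467649586404736686934909373052214328507029863446909475543486300160) (.p (nat_lit 529) (.a s962 (.a s1597 (.a (.p (nat_lit 496) (.a (.p (nat_lit 464) (.a (.d (nat_lit 559) (nat_lit 432) (nat_lit 5551) (nat_lit 591) (nat_lit 5583)) (.a (.f (nat_lit 431) (nat_lit 463) (nat_lit 7599) (.f (nat_lit 432) (nat_lit 399) (nat_lit 7567) (.d (nat_lit 433) (nat_lit 401) (nat_lit 6544) (nat_lit 465) (nat_lit 6576)))) (.f (nat_lit 591) (nat_lit 559) (nat_lit 5583) (.f (nat_lit 592) (nat_lit 623) (nat_lit 5615) (.d (nat_lit 593) (nat_lit 561) (nat_lit 4560) (nat_lit 625) (nat_lit 4592))))))) (.a s546 (.a (.p (nat_lit 464) (.a (.f (nat_lit 431) (nat_lit 463) (nat_lit 7599) (.f (nat_lit 432) (nat_lit 399) (nat_lit 7567) (.d (nat_lit 433) (nat_lit 401) (nat_lit 6544) (nat_lit 465) (nat_lit 6576)))) (.a (.d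 (nat_lit 561) (nat_lit 432) (nat_lit 4528) (nat_lit 593) (nat_lit 4560)) (.f (nat_lit 561) (nat_lit 593) (nat_lit 4560) (.f (nat_lit 465) (nat_lit 433) (nat_lit 6576) (.f (nat_lit 463) (nat_lit 431) (nat_lit 7599) (.f (nat_lit 562) (nat_lit 563) (nat_lit 3599) (.f (nat_lit 497) (nat_lit 594) (nat_lit 4561) (.d (nat_lit 462) (nat_lit 461) (nat_lit 461) (nat_lit 498) (nat_lit 462)))))))))) (.a s1612 (.a (.p (nat_lit 464) (.a (.d (nat_lit 559) (nat_lit 432) (nat_lit 5551) (nat_lit 591) (nat_lit 5583)) (.a (.d (nat_lit 561) (nat_lit 432) (nat_lit 4528) (nat_lit 593) (nat_lit 4560)) (.f (nat_lit 591) (nat_lit 559) (nat_lit 5583) (.f (nat_lit 592) (nat_lit 623) (nat_lit 5615) (.d (nat_lit 593) (nat_lit 561) (nat_lit 4560) (nat_lit 625) (nat_lit 4592))))))) (.p (nat_lit 464) (.a (.d (nat_lit 559) (nat_lit 432) (nat_lit 5551) (nat_lit 591) (nat_lit 5583)) (.a (.f (nat_lit 431) (nat_lit 463) (nat_lit 7599) (.f (nat_lit 432) (nat_lit 399) (nat_lit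 7567) (.d (nat_lit 433) (nat_lit 401) (nat_lit 6544) (nat_lit 465) (nat_lit 6576)))) (.f (nat_lit 465) (nat_lit 433) (nat_lit 6576) (.f (nat_lit 497) (nat_lit 592) (nat_lit 6608) (.f (nat_lit 498) (nat_lit 499) (nat_lit 1519) (.d (nat_lit 463) (nat_lit 431) (nat_lit 7599) (nat_lit 462) (nat_lit 462)))))))))))))) (.a s1299 (.a s1626 (.a s1641 (.a s1645 (.a s1652 (.a (.p (nat_lit 496) (.a (.p (nat_lit 464) (.a (.d (nat_lit 559) (nat_lit 432) (nat_lit 5551) (nat_lit 591) (nat_lit 5583)) (.a (.f (nat_lit 431) (nat_lit 463) (nat_lit 7599) (.f (nat_lit 432) (nat_lit 399) (nat_lit 7567) (.d (nat_lit 433) (nat_lit 401) (nat_lit 6544) (nat_lit 465) (nat_lit 6576)))) (.f (nat_lit 591) (nat_lit 559) (nat_lit 5583) (.f (nat_lit 592) (nat_lit 623) (nat_lit 5615) (.d (nat_lit 593) (nat_lit 561) (nat_lit 4560) (nat_lit 625) (nat_lit 4592))))))) (.a s546 (.a (.p (nat_lit 530) (.a (.f (nat_lit 559) (nat_lit 558) (nat_lit 1550) (.d (nat_lit 464) (nat_lit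 432) (nat_lit 5551) (nat_lit 591) (nat_lit 5583))) (.f (nat_lit 499) (nat_lit 498) (nat_lit 2543) (.f (nat_lit 531) (nat_lit 500) (nat_lit 2544) (.d (nat_lit 532) (nat_lit 497) (nat_lit 3568) (nat_lit 561) (nat_lit 1552)))))) (.a (.p (nat_lit 464) (.a (.f (nat_lit 431) (nat_lit 463) (nat_lit 7599) (.f (nat_lit 432) (nat_lit 399) (nat_lit 7567) (.d (nat_lit 433) (nat_lit 401) (nat_lit 6544) (nat_lit 465) (nat_lit 6576)))) (.a (.d (nat_lit 561) (nat_lit 432) (nat_lit 4528) (nat_lit 593) (nat_lit 4560)) (.f (nat_lit 465) (nat_lit 433) (nat_lit 6576) (.f (nat_lit 497) (nat_lit 592) (nat_lit 6608) (.f (nat_lit 498) (nat_lit 499) (nat_lit 1519) (.d (nat_lit 463) (nat_lit 431) (nat_lit 7599) (nat_lit 462) (nat_lit 462)))))))) (.p (nat_lit 592) (.a (.f (nat_lit 623) (nat_lit 591) (nat_lit 5615) (.f (nat_lit 624) (nat_lit 655) (nat_lit 5647) (.d (nat_lit 625) (nat_lit 593) (nat_lit 4592) (nat_lit 657) (nat_lit 4624)))) (.a (.f (nat_lit 497) (nat_lit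 465) (nat_lit 6608) (.f (nat_lit 498) (nat_lit 499) (nat_lit 1519) (.f (nat_lit 593) (nat_lit 625) (nat_lit 4592) (.f (nat_lit 591) (nat_lit 623) (nat_lit 5615) (.f (nat_lit 561) (nat_lit 466) (nat_lit 6609) (.f (nat_lit 594) (nat_lit 626) (nat_lit 4593) (.d (nat_lit 559) (nat_lit 558) (nat_lit 3630) (nat_lit 595) (nat_lit 3631)))))))) (.a (.f (nat_lit 623) (nat_lit 591) (nat_lit 5615) (.f (nat_lit 624) (nat_lit 655) (nat_lit 5647) (.f (nat_lit 656) (nat_lit 561) (nat_lit 6672) (.d (nat_lit 657) (nat_lit 625) (nat_lit 4624) (nat_lit 689) (nat_lit 4656))))) (.d (nat_lit 497) (nat_lit 465) (nat_lit 6608) (nat_lit 624) (nat_lit 6640))))))))))) (.a s1676 s1677)))))))))))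
noncomputable def s1695 : Cert := .r (nat_lit 3773962426139582502986631646264793844340548718132172006003720938849361146555773143298476687185190218548467649586404736686934909373052214328507029863446909475543486300160) (.p (nat_lit 529) (.a (.p (nat_lit 530) (.a (.d (nat_lit 559) (nat_lit 531) (nat_lit 1551) (nat_lit 558) (nat_lit 1550)) (.a (.f (nat_lit 559) (nat_lit 558) (nat_lit 1550) (.f (nat_lit 495) (nat_lit 494) (nat_lit 3566) (.d (nat_lit 463) (nat_lit 431) (nat_lit 4527) (nat_lit 592) (nat_lit 4559)))) (.f (nat_lit 495) (nat_lit 494) (nat_lit 3566) (.f (nat_lit 496) (nat_lit 531) (nat_lit 3567) (.d (nat_lit 463) (nat_lit 431) (nat_lit 4527) (nat_lit 592) (nat_lit 7631))))))) (.a (.p (nat_lit 530) (.a (.d (nat_lit 559) (nat_lit 531) (nat_lit 1551) (nat_lit 558) (nat_lit 1550)) (.a (.f (nat_lit 559) (nat_lit 558) (nat_lit 1550) (.f (nat_lit 495) (nat_lit 494) (nat_lit 3566) (.d (nat_lit 463) (nat_lit 431) (nat_lit 4527) (nat_lit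 592) (nat_lit 4559)))) (.f (nat_lit 563) (nat_lit 562) (nat_lit 527) (.f (nat_lit 531) (nat_lit 564) (nat_lit 528) (.d (nat_lit 499) (nat_lit 498) (nat_lit 2543) (nat_lit 500) (nat_lit 2544))))))) (.a (.p (nat_lit 592) (.a (.f (nat_lit 624) (nat_lit 497) (nat_lit 6640) (.d (nat_lit 656) (nat_lit 559) (nat_lit 7695) (nat_lit 561) (nat_lit 6672))) (.a (.f (nat_lit 624) (nat_lit 495) (nat_lit 7663) (.d (nat_lit 656) (nat_lit 559) (nat_lit 7695) (nat_lit 561) (nat_lit 6672))) (.a (.d (nat_lit 624) (nat_lit 495) (nat_lit 7663) (nat_lit 497) (nat_lit 6640)) (.p (nat_lit 496) (.a (.f (nat_lit 495) (nat_lit 463) (nat_lit 7631) (.f (nat_lit 591) (nat_lit 623) (nat_lit 5615) (.f (nat_lit 593) (nat_lit 625) (nat_lit 4592) (.f (nat_lit 494) (nat_lit 493) (nat_lit 493) (.f (nat_lit 559) (nat_lit 462) (nat_lit 7630) (.d (nat_lit 558) (nat_lit 557) (nat_lit 557) (nat_lit 594) (nat_lit 3630))))))) (.a (.f (nat_lit 497) (nat_lit 465) (nat_lit 6608) (.f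 (nat_lit 593) (nat_lit 625) (nat_lit 4592) (.f (nat_lit 591) (nat_lit 623) (nat_lit 5615) (.f (nat_lit 498) (nat_lit 499) (nat_lit 1519) (.f (nat_lit 561) (nat_lit 466) (nat_lit 6609) (.d (nat_lit 562) (nat_lit 563) (nat_lit 1583) (nat_lit 590) (nat_lit 2606))))))) (.a (.f (nat_lit 495) (nat_lit 463) (nat_lit 7631) (.f (nat_lit 497) (nat_lit 465) (nat_lit 6608) (.f (nat_lit 494) (nat_lit 493) (nat_lit 493) (.f (nat_lit 591) (nat_lit 623) (nat_lit 5615) (.d (nat_lit 462) (nat_lit 461) (nat_lit 3533) (nat_lit 559) (nat_lit 7630)))))) (.f (nat_lit 495) (nat_lit 463) (nat_lit 7631) (.f (nat_lit 497) (nat_lit 465) (nat_lit 6608) (.f (nat_lit 498) (nat_lit 499) (nat_lit 1519) (.f (nat_lit 593) (nat_lit 625) (nat_lit 4592) (.d (nat_lit 466) (nat_lit 467) (nat_lit 2511) (nat_lit 561) (nat_lit 6609)))))))))))))) (.a s1626 (.p (nat_lit 530) (.a (.f (nat_lit 495) (nat_lit 494) (nat_lit 3566) (.f (nat_lit 496) (nat_lit 531) (nat_lit 3567) (.d (nat_lit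 463) (nat_lit 431) (nat_lit 4527) (nat_lit 592) (nat_lit 7631)))) (.a (.f (nat_lit 563) (nat_lit 562) (nat_lit 527) (.f (nat_lit 531) (nat_lit 564) (nat_lit 528) (.d (nat_lit 499) (nat_lit 498) (nat_lit 2543) (nat_lit 500) (nat_lit 2544)))) (.f (nat_lit 495) (nat_lit 494) (nat_lit 3566) (.f (nat_lit 592) (nat_lit 624) (nat_lit 7663) (.d (nat_lit 463) (nat_lit 431) (nat_lit 4527) (nat_lit 496) (nat_lit 7631))))))))))))
noncomputable def s1696 : Cert := .r (nat_lit 3773962426139582502986631646264793844340548718132172006003720938849361146555773143298476687185190218548467649586404736686934909373052214328507029863446909475543486300160) (.p (nat_lit 529) (.a (.p (nat_lit 530) (.a (.d (nat_lit 559) (nat_lit 531) (nat_lit 1551) (nat_lit 558) (nat_lit 1550)) (.a (.f (nat_lit 559) (nat_lit 558) (nat_lit 1550) (.f (nat_lit 495) (nat_lit 494) (nat_lit 3566) (.d (nat_lit 463) (nat_lit 431) (nat_lit 4527) (nat_lit 592) (nat_lit 4559)))) (.f (nat_lit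 495) (nat_lit 494) (nat_lit 3566) (.f (nat_lit 496) (nat_lit 531) (nat_lit 3567) (.d (nat_lit 463) (nat_lit 431) (nat_lit 4527) (nat_lit 592) (nat_lit 7631))))))) (.a (.p (nat_lit 530) (.a (.d (nat_lit 559) (nat_lit 531) (nat_lit 1551) (nat_lit 558) (nat_lit 1550)) (.a (.f (nat_lit 559) (nat_lit 558) (nat_lit 1550) (.f (nat_lit 495) (nat_lit 494) (nat_lit 3566) (.d (nat_lit 463) (nat_lit 431) (nat_lit 4527) (nat_lit 592) (nat_lit 4559)))) (.f (nat_lit 563) (nat_lit 562) (nat_lit 527) (.f (nat_lit 531) (nat_lit 564) (nat_lit 528) (.d (nat_lit 499) (nat_lit 498) (nat_lit 2543) (nat_lit 500) (nat_lit 2544))))))) (.a s718 (.a s173 (.a (.p (nat_lit 530) (.a (.f (nat_lit 495) (nat_lit 494) (nat_lit 3566) (.f (nat_lit 496) (nat_lit 531) (nat_lit 3567) (.d (nat_lit 463) (nat_lit 431) (nat_lit 4527) (nat_lit 592) (nat_lit 7631)))) (.a (.f (nat_lit 563) (nat_lit 562) (nat_lit 527) (.f (nat_lit 531) (nat_lit 564) (nat_lit 528) (.d (nat_lit 499)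 (nat_lit 498) (nat_lit 2543) (nat_lit 500) (nat_lit 2544)))) (.f (nat_lit 495) (nat_lit 494) (nat_lit 3566) (.f (nat_lit 592) (nat_lit 624) (nat_lit 7663) (.d (nat_lit 463) (nat_lit 431) (nat_lit 4527) (nat_lit 496) (nat_lit 7631))))))) s1645))))))
noncomputable def s1704 : Cert := .r (nat_lit 3773962426139582502986631646264793844340548718132172006003720938849361146555773143298476687185190218548467649586404736686934909373052214328507029863446909475543486300160) (.p (nat_lit 592) (.a (.f (nat_lit 624) (nat_lit 495) (nat_lit 7663) (.f (nat_lit 656) (nat_lit 559) (nat_lit 7695) (.d (nat_lit 529) (nat_lit 497) (nat_lit 6640) (nat_lit 561) (nat_lit 6672)))) (.a (.f (nat_lit 624) (nat_lit 495) (nat_lit 7663) (.f (nat_lit 656) (nat_lit 559) (nat_lit 7695) (.d (nat_lit 655) (nat_lit 623) (nat_lit 5647) (nat_lit 687) (nat_lit 5679)))) (.a (.f (nat_lit 624) (nat_lit 495) (nat_lit 7663) (.f (nat_lit 657) (nat_lit 625) (nat_lit 4624) (.f (nat_lit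 656) (nat_lit 689) (nat_lit 4656) (.d (nat_lit 655) (nat_lit 623) (nat_lit 5647) (nat_lit 687) (nat_lit 5679))))) (.a s1345 s1703)))))
noncomputable def s1706 : Cert := .r (nat_lit 3773962427896970703980067733300160448905385381753147442840407123654343792107272198248276636528565486557800015660592592403154009030555443256434490679465860718068940931072) (.p (nat_lit 530) (.a (.d (nat_lit 559) (nat_lit 531) (nat_lit 1551) (nat_lit 558) (nat_lit 1550)) (.a (.f (nat_lit 559) (nat_lit 558) (nat_lit 1550) (.f (nat_lit 495) (nat_lit 494) (nat_lit 3566) (.f (nat_lit 463) (nat_lit 431) (nat_lit 4527) (.f (nat_lit 464) (nat_lit 432) (nat_lit 6575) (.f (nat_lit 591) (nat_lit 496) (nat_lit 5583) (.f (nat_lit 562) (nat_lit 563) (nat_lit 527) (.d (nat_lit 590) (nat_lit 561) (nat_lit 1582) (nat_lit 622) (nat_lit 5614)))))))) (.f (nat_lit 495) (nat_lit 494) (nat_lit 3566) (.f (nat_lit 531) (nat_lit 496) (nat_lit 3567) (.d (nat_lit 563) (nat_lit 562) (nat_lit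 527) (nat_lit 564) (nat_lit 528)))))))
noncomputable def s1708 : Cert := .r (nat_lit 3773962426139582502986631646264793844340548718132172006003720938849361146555773143298476687185190218548467649586404736686934909373052214328507029863446909475543486300160) (.p (nat_lit 529) (.a (.p (nat_lit 530) (.a (.d (nat_lit 559) (nat_lit 531) (nat_lit 1551) (nat_lit 558) (nat_lit 1550)) (.a (.f (nat_lit 559) (nat_lit 558) (nat_lit 1550) (.f (nat_lit 495) (nat_lit 494) (nat_lit 3566) (.d (nat_lit 463) (nat_lit 431) (nat_lit 4527) (nat_lit 592) (nat_lit 4559)))) (.f (nat_lit 495) (nat_lit 494) (nat_lit 3566) (.f (nat_lit 496) (nat_lit 531) (nat_lit 3567) (.d (nat_lit 463) (nat_lit 431) (nat_lit 4527) (nat_lit 592) (nat_lit 7631))))))) (.a (.p (nat_lit 530) (.a (.d (nat_lit 559) (nat_lit 531) (nat_lit 1551) (nat_lit 558) (nat_lit 1550)) (.a (.f (nat_lit 559) (nat_lit 558) (nat_lit 1550) (.f (nat_lit 495) (nat_lit 494) (nat_lit 3566) (.d (nat_lit 463)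 (nat_lit 431) (nat_lit 4527) (nat_lit 592) (nat_lit 4559)))) (.f (nat_lit 563) (nat_lit 562) (nat_lit 527) (.f (nat_lit 531) (nat_lit 564) (nat_lit 528) (.f (nat_lit 532) (nat_lit 561) (nat_lit 1552) (.d (nat_lit 500) (nat_lit 499) (nat_lit 2544) (nat_lit 501) (nat_lit 2545)))))))) (.a s510 (.a s1706 (.a (.p (nat_lit 530) (.a (.f (nat_lit 495) (nat_lit 494) (nat_lit 3566) (.f (nat_lit 496) (nat_lit 531) (nat_lit 3567) (.d (nat_lit 463) (nat_lit 431) (nat_lit 4527) (nat_lit 592) (nat_lit 7631)))) (.a (.f (nat_lit 563) (nat_lit 562) (nat_lit 527) (.f (nat_lit 531) (nat_lit 564) (nat_lit 528) (.f (nat_lit 532) (nat_lit 561) (nat_lit 1552) (.d (nat_lit 500) (nat_lit 499) (nat_lit 2544) (nat_lit 501) (nat_lit 2545))))) (.f (nat_lit 495) (nat_lit 494) (nat_lit 3566) (.f (nat_lit 592) (nat_lit 624) (nat_lit 7663) (.d (nat_lit 463) (nat_lit 431) (nat_lit 4527) (nat_lit 496) (nat_lit 7631))))))) s1676))))))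
noncomputable def s1733 : Cert := .r (nat_lit 3773962426139582502986631646264793844340548718132172006003720938849361146555773143298476687185190218548467649586404736686934909373052214328507029863446909475543486300160) (.p (nat_lit 529) (.a s970 (.a s1597 (.a (.p (nat_lit 496) (.a (.p (nat_lit 464) (.a (.d (nat_lit 559) (nat_lit 432) (nat_lit 5551) (nat_lit 591) (nat_lit 5583)) (.a (.d (nat_lit 561) (nat_lit 432) (nat_lit 4528) (nat_lit 593) (nat_lit 4560)) (.f (nat_lit 591) (nat_lit 559) (nat_lit 5583) (.f (nat_lit 592) (nat_lit 623) (nat_lit 5615) (.d (nat_lit 593) (nat_lit 561) (nat_lit 4560) (nat_lit 625) (nat_lit 4592))))))) (.a (.p (nat_lit 464) (.a (.d (nat_lit 559) (nat_lit 432) (nat_lit 5551) (nat_lit 591) (nat_lit 5583)) (.a (.f (nat_lit 433) (nat_lit 465) (nat_lit 6576) (.f (nat_lit 432) (nat_lit 401) (nat_lit 6544) (.f (nat_lit 399) (nat_lit 431) (nat_lit 7567) (.d (nat_lit 400) (nat_lit 367) (nat_lit 7535) (nat_lit 495) (nat_lit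 5519))))) (.f (nat_lit 591) (nat_lit 559) (nat_lit 5583) (.f (nat_lit 592) (nat_lit 623) (nat_lit 5615) (.f (nat_lit 624) (nat_lit 495) (nat_lit 7663) (.d (nat_lit 625) (nat_lit 593) (nat_lit 4592) (nat_lit 657) (nat_lit 4624)))))))) (.a (.p (nat_lit 464) (.a (.d (nat_lit 559) (nat_lit 432) (nat_lit 5551) (nat_lit 591) (nat_lit 5583)) (.a (.d (nat_lit 561) (nat_lit 432) (nat_lit 4528) (nat_lit 593) (nat_lit 4560)) (.f (nat_lit 559) (nat_lit 591) (nat_lit 5583) (.f (nat_lit 561) (nat_lit 593) (nat_lit 4560) (.f (nat_lit 562) (nat_lit 563) (nat_lit 3599) (.f (nat_lit 465) (nat_lit 433) (nat_lit 6576) (.d (nat_lit 594) (nat_lit 497) (nat_lit 4561) (nat_lit 595) (nat_lit 559))))))))) (.a s1612 (.a (.p (nat_lit 464) (.a (.d (nat_lit 559) (nat_lit 432) (nat_lit 5551) (nat_lit 591) (nat_lit 5583)) (.a (.f (nat_lit 433) (nat_lit 465) (nat_lit 6576) (.f (nat_lit 432) (nat_lit 401) (nat_lit 6544) (.f (nat_lit 399) (nat_lit 431) (nat_lit 7567)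 (.d (nat_lit 400) (nat_lit 367) (nat_lit 7535) (nat_lit 495) (nat_lit 5519))))) (.f (nat_lit 559) (nat_lit 591) (nat_lit 5583) (.f (nat_lit 465) (nat_lit 433) (nat_lit 6576) (.f (nat_lit 592) (nat_lit 497) (nat_lit 6608) (.d (nat_lit 624) (nat_lit 495) (nat_lit 7663) (nat_lit 656) (nat_lit 7695)))))))) (.p (nat_lit 464) (.a (.d (nat_lit 561) (nat_lit 432) (nat_lit 4528) (nat_lit 593) (nat_lit 4560)) (.a (.f (nat_lit 433) (nat_lit 465) (nat_lit 6576) (.f (nat_lit 432) (nat_lit 401) (nat_lit 6544) (.f (nat_lit 399) (nat_lit 431) (nat_lit 7567) (.d (nat_lit 400) (nat_lit 367) (nat_lit 7535) (nat_lit 495) (nat_lit 5519))))) (.f (nat_lit 561) (nat_lit 593) (nat_lit 4560) (.f (nat_lit 465) (nat_lit 433) (nat_lit 6576) (.f (nat_lit 497) (nat_lit 592) (nat_lit 6608) (.d (nat_lit 562) (nat_lit 563) (nat_lit 3599) (nat_lit 594) (nat_lit 4561)))))))))))))) (.a s1299 (.a s1626 (.a s1641 (.a s1652 (.a s1731 (.a s1676 (.a s1732 s1677)))))))))))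
noncomputable def s1735 : Cert := .r (nat_lit 3773962426139582502986631646264793844340548718132172006003720938849361146555773143298476687185190218548467649586404736686934909373052214328507029863446909475543486300160) (.p (nat_lit 496) (.a (.p (nat_lit 464) (.a (.d (nat_lit 559) (nat_lit 432) (nat_lit 5551) (nat_lit 591) (nat_lit 5583)) (.f (nat_lit 463) (nat_lit 431) (nat_lit 7599) (.f (nat_lit 495) (nat_lit 592) (nat_lit 7631) (.f (nat_lit 465) (nat_lit 433) (nat_lit 6576) (.d (nat_lit 466) (nat_lit 467) (nat_lit 1487) (nat_lit 494) (nat_lit 1486))))))) (.a s114 (.a (.p (nat_lit 464) (.a (.f (nat_lit 463) (nat_lit 431) (nat_lit 7599) (.f (nat_lit 495) (nat_lit 592) (nat_lit 7631) (.f (nat_lit 465) (nat_lit 433) (nat_lit 6576) (.d (nat_lit 466) (nat_lit 467) (nat_lit 1487) (nat_lit 494) (nat_lit 1486))))) (.a (.f (nat_lit 561) (nat_lit 593) (nat_lit 4560) (.f (nat_lit 432) (nat_lit 529) (nat_lit 4528) (.d (nat_lit 431) (nat_lit 399)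 (nat_lit 7567) (nat_lit 463) (nat_lit 7599)))) (.f (nat_lit 561) (nat_lit 593) (nat_lit 4560) (.f (nat_lit 432) (nat_lit 529) (nat_lit 4528) (.d (nat_lit 433) (nat_lit 401) (nat_lit 6544) (nat_lit 465) (nat_lit 6576))))))) (.a s1734 (.a (.p (nat_lit 464) (.a (.d (nat_lit 559) (nat_lit 432) (nat_lit 5551) (nat_lit 591) (nat_lit 5583)) (.a (.f (nat_lit 561) (nat_lit 593) (nat_lit 4560) (.f (nat_lit 432) (nat_lit 529) (nat_lit 4528) (.d (nat_lit 431) (nat_lit 399) (nat_lit 7567) (nat_lit 463) (nat_lit 7599)))) (.f (nat_lit 559) (nat_lit 591) (nat_lit 5583) (.f (nat_lit 463) (nat_lit 431) (nat_lit 7599) (.f (nat_lit 495) (nat_lit 592) (nat_lit 7631) (.f (nat_lit 558) (nat_lit 590) (nat_lit 5582) (.d (nat_lit 529) (nat_lit 530) (nat_lit 1550) (nat_lit 557) (nat_lit 2573))))))))) s136))))))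
noncomputable def s1746 : Cert := .r (nat_lit 3773962426139582502986631646264793844340548718132172006003720938849361146555773143298476687185190218548467649586404736686934909373052214328507029863446909475543486300160) (.p (nat_lit 592) (.a (.f (nat_lit 624) (nat_lit 495) (nat_lit 7663) (.f (nat_lit 656) (nat_lit 559) (nat_lit 7695) (.d (nat_lit 529) (nat_lit 497) (nat_lit 6640) (nat_lit 561) (nat_lit 6672)))) (.a (.f (nat_lit 624) (nat_lit 495) (nat_lit 7663) (.f (nat_lit 656) (nat_lit 559) (nat_lit 7695) (.d (nat_lit 655) (nat_lit 623) (nat_lit 5647) (nat_lit 687) (nat_lit 5679)))) (.a (.f (nat_lit 624) (nat_lit 495) (nat_lit 7663) (.f (nat_lit 625) (nat_lit 657) (nat_lit 4624) (.f (nat_lit 593) (nat_lit 496) (nat_lit 4592) (.f (nat_lit 623) (nat_lit 655) (nat_lit 5647) (.d (nat_lit 594) (nat_lit 595) (nat_lit 1615) (nat_lit 622) (nat_lit 2638)))))) (.a (.p (nat_lit 624) (.a (.f (nat_lit 656) (nat_lit 559) (nat_lit 7695) (.d (nat_lit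 655) (nat_lit 623) (nat_lit 5647) (nat_lit 687) (nat_lit 5679))) (.a (.f (nat_lit 657) (nat_lit 625) (nat_lit 4624) (.f (nat_lit 656) (nat_lit 689) (nat_lit 4656) (.d (nat_lit 655) (nat_lit 623) (nat_lit 5647) (nat_lit 687) (nat_lit 5679)))) (.a (.f (nat_lit 625) (nat_lit 657) (nat_lit 4624) (.f (nat_lit 593) (nat_lit 496) (nat_lit 4592) (.f (nat_lit 623) (nat_lit 655) (nat_lit 5647) (.d (nat_lit 594) (nat_lit 595) (nat_lit 1615) (nat_lit 622) (nat_lit 2638))))) (.a (.f (nat_lit 657) (nat_lit 625) (nat_lit 4624) (.f (nat_lit 656) (nat_lit 689) (nat_lit 4656) (.f (nat_lit 561) (nat_lit 529) (nat_lit 6672) (.f (nat_lit 687) (nat_lit 655) (nat_lit 5679) (.d (nat_lit 688) (nat_lit 593) (nat_lit 6704) (nat_lit 719) (nat_lit 5711)))))) (.f (nat_lit 656) (nat_lit 559) (nat_lit 7695) (.d (nat_lit 657) (nat_lit 625) (nat_lit 4624) (nat_lit 689) (nat_lit 4656)))))))) (.p (nat_lit 496) (.a (.f (nat_lit 495) (nat_lit 463) (nat_lit 7631) (.f (nat_lit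 497) (nat_lit 465) (nat_lit 6608) (.f (nat_lit 498) (nat_lit 499) (nat_lit 1519) (.f (nat_lit 530) (nat_lit 531) (nat_lit 495) (.f (nat_lit 529) (nat_lit 494) (nat_lit 3566) (.f (nat_lit 593) (nat_lit 625) (nat_lit 4592) (.d (nat_lit 466) (nat_lit 467) (nat_lit 2511) (nat_lit 561) (nat_lit 6609)))))))) (.a (.f (nat_lit 495) (nat_lit 463) (nat_lit 7631) (.f (nat_lit 593) (nat_lit 625) (nat_lit 4592) (.f (nat_lit 464) (nat_lit 561) (nat_lit 4560) (.f (nat_lit 432) (nat_lit 400) (nat_lit 5519) (.d (nat_lit 433) (nat_lit 401) (nat_lit 6544) (nat_lit 465) (nat_lit 6576)))))) (.a (.f (nat_lit 463) (nat_lit 495) (nat_lit 7631) (.f (nat_lit 464) (nat_lit 431) (nat_lit 7599) (.f (nat_lit 432) (nat_lit 559) (nat_lit 5551) (.d (nat_lit 433) (nat_lit 401) (nat_lit 6544) (nat_lit 465) (nat_lit 6576))))) (.a (.f (nat_lit 465) (nat_lit 497) (nat_lit 6608) (.f (nat_lit 464) (nat_lit 433) (nat_lit 6576) (.d (nat_lit 593) (nat_lit 561) (nat_lit 4560)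 (nat_lit 625) (nat_lit 4592)))) (.f (nat_lit 495) (nat_lit 463) (nat_lit 7631) (.f (nat_lit 593) (nat_lit 625) (nat_lit 4592) (.f (nat_lit 464) (nat_lit 561) (nat_lit 4560) (.d (nat_lit 432) (nat_lit 400) (nat_lit 5519) (nat_lit 559) (nat_lit 5551)))))))))))))))
noncomputable def s1753 : Cert := .r (nat_lit 3773962431411747105966939907370893658035058708995098316513779493264309083210270308147876535215316022576464747808968303835592208345561901112289412311503763203119850192896) (.p (nat_lit 497) (.a (.f (nat_lit 562) (nat_lit 563) (nat_lit 527) (.f (nat_lit 465) (nat_lit 433) (nat_lit 5552) (.d (nat_lit 561) (nat_lit 592) (nat_lit 5584) (nat_lit 594) (nat_lit 4561)))) (.a (.f (nat_lit 562) (nat_lit 563) (nat_lit 527) (.f (nat_lit 465) (nat_lit 433) (nat_lit 5552) (.d (nat_lit 594) (nat_lit 498) (nat_lit 7633) (nat_lit 626) (nat_lit 7665)))) (.a (.f (nat_lit 563) (nat_lit 562) (nat_lit 527) (.f (nat_lit 531) (nat_lit 564) (nat_lit 528) (.f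 (nat_lit 532) (nat_lit 561) (nat_lit 1552) (.f (nat_lit 533) (nat_lit 498) (nat_lit 3569) (.d (nat_lit 501) (nat_lit 500) (nat_lit 2545) (nat_lit 502) (nat_lit 2546)))))) (.f (nat_lit 592) (nat_lit 624) (nat_lit 6640) (.d (nat_lit 465) (nat_lit 433) (nat_lit 5552) (nat_lit 561) (nat_lit 5584)))))))
noncomputable def s1755 : Cert := .r (nat_lit 3773962427896970703980067733300160448905385381753147442840407123654343792107272198248276636528565486557800015660592592403154009030555443256434490679465860718068940931072) (.p (nat_lit 530) (.a (.f (nat_lit 495) (nat_lit 494) (nat_lit 3566) (.f (nat_lit 496) (nat_lit 531) (nat_lit 3567) (.d (nat_lit 463) (nat_lit 431) (nat_lit 4527) (nat_lit 592) (nat_lit 7631)))) (.a s1753 (.a (.f (nat_lit 495) (nat_lit 494) (nat_lit 3566) (.f (nat_lit 592) (nat_lit 624) (nat_lit 7663) (.d (nat_lit 463) (nat_lit 431) (nat_lit 4527) (nat_lit 496) (nat_lit 7631)))) (.f (nat_lit 495) (nat_lit 494) (nat_lit 3566) (.f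 (nat_lit 531) (nat_lit 496) (nat_lit 3567) (.d (nat_lit 563) (nat_lit 562) (nat_lit 527) (nat_lit 564) (nat_lit 528))))))))
noncomputable def s1756 : Cert := .r (nat_lit 3773962426139582502986631646264793844340548718132172006003720938849361146555773143298476687185190218548467649586404736686934909373052214328507029863446909475543486300160) (.p (nat_lit 529) (.a (.p (nat_lit 530) (.a (.d (nat_lit 559) (nat_lit 531) (nat_lit 1551) (nat_lit 558) (nat_lit 1550)) (.a (.f (nat_lit 559) (nat_lit 558) (nat_lit 1550) (.f (nat_lit 495) (nat_lit 494) (nat_lit 3566) (.d (nat_lit 463) (nat_lit 431) (nat_lit 4527) (nat_lit 592) (nat_lit 4559)))) (.f (nat_lit 495) (nat_lit 494) (nat_lit 3566) (.f (nat_lit 496) (nat_lit 531) (nat_lit 3567) (.d (nat_lit 463) (nat_lit 431) (nat_lit 4527) (nat_lit 592) (nat_lit 7631))))))) (.a (.p (nat_lit 530) (.a (.d (nat_lit 559) (nat_lit 531) (nat_lit 1551) (nat_lit 558) (nat_lit 1550)) (.a (.f (nat_lit 559) (nat_lit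 558) (nat_lit 1550) (.f (nat_lit 495) (nat_lit 494) (nat_lit 3566) (.d (nat_lit 463) (nat_lit 431) (nat_lit 4527) (nat_lit 592) (nat_lit 4559)))) s1753))) (.a s510 (.a s1706 (.a s1755 s1677))))))
noncomputable def s1758 : Cert := .r (nat_lit 3773962426139582502986631646264793844340548718132172006003720938849361146555773143298476687185190218548467649586404736686934909373052214328507029863446909475543486300160) (.p (nat_lit 496) (.a (.p (nat_lit 464) (.a (.d (nat_lit 559) (nat_lit 432) (nat_lit 5551) (nat_lit 591) (nat_lit 5583)) (.f (nat_lit 463) (nat_lit 431) (nat_lit 7599) (.f (nat_lit 495) (nat_lit 592) (nat_lit 7631) (.f (nat_lit 465) (nat_lit 433) (nat_lit 6576) (.d (nat_lit 466) (nat_lit 467) (nat_lit 1487) (nat_lit 494) (nat_lit 1486))))))) (.a s114 (.a (.p (nat_lit 464) (.a (.f (nat_lit 463) (nat_lit 431) (nat_lit 7599) (.f (nat_lit 495) (nat_lit 592) (nat_lit 7631) (.f (nat_lit 465) (nat_lit 433) (nat_lit 6576) (.d (nat_lit 466)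 (nat_lit 467) (nat_lit 1487) (nat_lit 494) (nat_lit 1486))))) (.a (.f (nat_lit 561) (nat_lit 593) (nat_lit 4560) (.f (nat_lit 432) (nat_lit 529) (nat_lit 4528) (.d (nat_lit 431) (nat_lit 399) (nat_lit 7567) (nat_lit 463) (nat_lit 7599)))) (.f (nat_lit 561) (nat_lit 593) (nat_lit 4560) (.f (nat_lit 432) (nat_lit 529) (nat_lit 4528) (.d (nat_lit 433) (nat_lit 401) (nat_lit 6544) (nat_lit 465) (nat_lit 6576))))))) (.a s1757 (.a (.p (nat_lit 464) (.a (.d (nat_lit 559) (nat_lit 432) (nat_lit 5551) (nat_lit 591) (nat_lit 5583)) (.a (.f (nat_lit 561) (nat_lit 593) (nat_lit 4560) (.f (nat_lit 432) (nat_lit 529) (nat_lit 4528) (.d (nat_lit 431) (nat_lit 399) (nat_lit 7567) (nat_lit 463) (nat_lit 7599)))) (.f (nat_lit 559) (nat_lit 591) (nat_lit 5583) (.f (nat_lit 463) (nat_lit 431) (nat_lit 7599) (.f (nat_lit 495) (nat_lit 592) (nat_lit 7631) (.f (nat_lit 558) (nat_lit 590) (nat_lit 5582) (.d (nat_lit 529) (nat_lit 530) (nat_lit 1550) (nat_lit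 557) (nat_lit 2573))))))))) s136))))))
noncomputable def s2191 : Cert := .r (nat_lit 5660943638550353179107408936758928289799009328340392220191824088972173227751847569341540049774019602319201837101786659136820201688014610644787746989163257497368183963648) (.p (nat_lit 561) (.a (.f (nat_lit 562) (nat_lit 563) (nat_lit 3599) (.f (nat_lit 594) (nat_lit 595) (nat_lit 559) (.f (nat_lit 530) (nat_lit 531) (nat_lit 2575) (.f (nat_lit 593) (nat_lit 558) (nat_lit 558) (.d (nat_lit 498) (nat_lit 466) (nat_lit 5585) (nat_lit 625) (nat_lit 5617)))))) (.a (.d (nat_lit 526) (nat_lit 525) (nat_lit 525) (nat_lit 562) (nat_lit 3598)) (.p (nat_lit 558) (.a (.f (nat_lit 557) (nat_lit 556) (nat_lit 2572) (.d (nat_lit 589) (nat_lit 588) (nat_lit 1580) (nat_lit 590) (nat_lit 1581))) (.a (.f (nat_lit 526) (nat_lit 525) (nat_lit 525) (.f (nat_lit 590) (nat_lit 589) (nat_lit 1581) (.f (nat_lit 622) (nat_lit 654) (nat_lit 6670) (.f (nat_lit 623) (nat_lit 655)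 (nat_lit 4622) (.f (nat_lit 494) (nat_lit 591) (nat_lit 7662) (.f (nat_lit 462) (nat_lit 430) (nat_lit 4526) (.d (nat_lit 461) (nat_lit 429) (nat_lit 7597) (nat_lit 493) (nat_lit 7629)))))))) (.f (nat_lit 557) (nat_lit 556) (nat_lit 2572) (.d (nat_lit 593) (nat_lit 592) (nat_lit 557) (nat_lit 594) (nat_lit 558)))))))))
noncomputable def s2218 : Cert := .r (nat_lit 13208868488193435883590518098735466071632851769173273076944236689463421552536145273513793500129337137402138587163314348936361370947864195909910615492028649584666974617600) (.p (nat_lit 558) (.a (.f (nat_lit 557) (nat_lit 556) (nat_lit 2572) (.d (nat_lit 589) (nat_lit 588) (nat_lit 1580) (nat_lit 590) (nat_lit 1581))) (.a (.f (nat_lit 526) (nat_lit 525) (nat_lit 525) (.f (nat_lit 590) (nat_lit 589) (nat_lit 1581) (.f (nat_lit 622) (nat_lit 654) (nat_lit 6670) (.f (nat_lit 623) (nat_lit 655) (nat_lit 4622) (.f (nat_lit 494) (nat_lit 591) (nat_lit 7662) (.f (nat_lit 462) (nat_lit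 430) (nat_lit 4526) (.d (nat_lit 461) (nat_lit 429) (nat_lit 7597) (nat_lit 493) (nat_lit 7629)))))))) (.f (nat_lit 525) (nat_lit 526) (nat_lit 525) (.d (nat_lit 557) (nat_lit 524) (nat_lit 3596) (nat_lit 556) (nat_lit 2572))))))
noncomputable def s2219 : Cert := .r (nat_lit 5660943638550353179107408936758928289799009328340392220191824088972173227751847569341540049774019602319201837101786659136820201688014610644787746989163257497368183963648) (.p (nat_lit 561) (.a (.f (nat_lit 562) (nat_lit 563) (nat_lit 3599) (.f (nat_lit 591) (nat_lit 590) (nat_lit 1582) (.d (nat_lit 496) (nat_lit 464) (nat_lit 5583) (nat_lit 623) (nat_lit 6639)))) (.a (.f (nat_lit 562) (nat_lit 563) (nat_lit 3599) (.f (nat_lit 594) (nat_lit 595) (nat_lit 559) (.f (nat_lit 530) (nat_lit 531) (nat_lit 2575) (.f (nat_lit 593) (nat_lit 558) (nat_lit 558) (.d (nat_lit 498) (nat_lit 466) (nat_lit 5585) (nat_lit 625) (nat_lit 5617)))))) s2218)))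
noncomputable def s2220 : Cert := .r (nat_lit 5660943638550353179107408936758928289799009328340392220191824088972173227751847569341540049774019602319201837101786659136820201688014610644787746989163257497368183963648) (.p (nat_lit 561) (.a (.f (nat_lit 562) (nat_lit 563) (nat_lit 3599) (.f (nat_lit 591) (nat_lit 590) (nat_lit 1582) (.d (nat_lit 496) (nat_lit 464) (nat_lit 5583) (nat_lit 623) (nat_lit 6639)))) (.a (.d (nat_lit 526) (nat_lit 525) (nat_lit 525) (nat_lit 562) (nat_lit 3598)) s2218)))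
noncomputable def s2227 : Cert := .r (nat_lit 5660943638550353179107408936758928289799009328340392220191824088972173227751847569341540049774019602319201837101786659136820201688014610644787746989163257497368183963648) (.p (nat_lit 496) (.a (.d (nat_lit 464) (nat_lit 432) (nat_lit 5551) (nat_lit 591) (nat_lit 5583)) (.a (.p (nat_lit 592) (.a (.f (nat_lit 623) (nat_lit 591) (nat_lit 5615) (.d (nat_lit 624) (nat_lit 655) (nat_lit 5647) (nat_lit 656) (nat_lit 7695))) (.a (.f (nat_lit 591) (nat_lit 623) (nat_lit 5615) (.f (nat_lit 593) (nat_lit 625) (nat_lit 4592) (.f (nat_lit 594) (nat_lit 595) (nat_lit 3631) (.f (nat_lit 562) (nat_lit 563) (nat_lit 2607) (.d (nat_lit 561) (nat_lit 526) (nat_lit 3598) (nat_lit 590) (nat_lit 1582)))))) (.f (nat_lit 624) (nat_lit 656) (nat_lit 7695) (.d (nat_lit 625) (nat_lit 593) (nat_lit 4592) (nat_lit 657) (nat_lit 4624)))))) (.f (nat_lit 464) (nat_lit 432) (nat_lit 5551) (.f (nat_lit 561) (nat_lit 593)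 (nat_lit 4560) (.d (nat_lit 526) (nat_lit 525) (nat_lit 525) (nat_lit 562) (nat_lit 3598)))))))
noncomputable def s2362 : Cert := .r (nat_lit 5660943638550353179311995849752437156674833684392117167205364216849864777094553279847548412049311761999406217872155668958750619445987115082863825523281094563201216937984) (.p (nat_lit 495) (.a (.f (nat_lit 463) (nat_lit 431) (nat_lit 4527) (.f (nat_lit 462) (nat_lit 430) (nat_lit 7598) (.f (nat_lit 497) (nat_lit 498) (nat_lit 3534) (.d (nat_lit 461) (nat_lit 460) (nat_lit 460) (nat_lit 494) (nat_lit 3533))))) (.a (.f (nat_lit 464) (nat_lit 432) (nat_lit 5551) (.f (nat_lit 463) (nat_lit 431) (nat_lit 4527) (.f (nat_lit 465) (nat_lit 433) (nat_lit 6576) (.d (nat_lit 466) (nat_lit 467) (nat_lit 1487) (nat_lit 494) (nat_lit 1486))))) (.a (.f (nat_lit 464) (nat_lit 432) (nat_lit 5551) (.f (nat_lit 465) (nat_lit 433) (nat_lit 6576) (.f (nat_lit 494) (nat_lit 493) (nat_lit 2509) (.d (nat_lit 466) (nat_lit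 467) (nat_lit 1487) (nat_lit 497) (nat_lit 2510))))) (.f (nat_lit 464) (nat_lit 432) (nat_lit 5551) (.f (nat_lit 463) (nat_lit 431) (nat_lit 4527) (.f (nat_lit 462) (nat_lit 430) (nat_lit 7598) (.d (nat_lit 461) (nat_lit 460) (nat_lit 460) (nat_lit 497) (nat_lit 461)))))))))
noncomputable def s2439 : Cert := .r (nat_lit 3773962427896970703980067733300160448905385381753147442840407123654343792107272198248276636528565486557800015660592592403154009030555443256434490679465860718068940931072) (.p (nat_lit 526) (.a (.d (nat_lit 561) (nat_lit 525) (nat_lit 525) (nat_lit 562) (nat_lit 526)) (.a (.f (nat_lit 557) (nat_lit 558) (nat_lit 1549) (.f (nat_lit 525) (nat_lit 556) (nat_lit 1548) (.d (nat_lit 493) (nat_lit 492) (nat_lit 3564) (nat_lit 494) (nat_lit 3565)))) (.f (nat_lit 561) (nat_lit 562) (nat_lit 526) (.f (nat_lit 558) (nat_lit 557) (nat_lit 1549) (.f (nat_lit 494) (nat_lit 493) (nat_lit 3565) (.f (nat_lit 497) (nat_lit 498) (nat_lit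 2542) (.f (nat_lit 465) (nat_lit 433) (nat_lit 5552) (.f (nat_lit 464) (nat_lit 432) (nat_lit 7600) (.f (nat_lit 466) (nat_lit 434) (nat_lit 6577) (.f (nat_lit 463) (nat_lit 495) (nat_lit 1486) (.d (nat_lit 431) (nat_lit 430) (nat_lit 3502) (nat_lit 462) (nat_lit 6574)))))))))))))
noncomputable def s2441 : Cert := .r (nat_lit 3773962426139582502986631646264793844340548718132172006003720938849361146555773143298476687185190218548467649586404736686934909373052214328507029863446909475543486300160) (.p (nat_lit 529) (.a (.p (nat_lit 530) (.a (.d (nat_lit 559) (nat_lit 531) (nat_lit 1551) (nat_lit 558) (nat_lit 1550)) (.f (nat_lit 562) (nat_lit 563) (nat_lit 527) (.f (nat_lit 561) (nat_lit 526) (nat_lit 526) (.f (nat_lit 498) (nat_lit 499) (nat_lit 2543) (.d (nat_lit 466) (nat_lit 434) (nat_lit 5553) (nat_lit 593) (nat_lit 5585))))))) (.a s2439 (.a (.p (nat_lit 530) (.a (.d (nat_lit 559) (nat_lit 531) (nat_lit 1551) (nat_lit 558) (nat_lit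 1550)) (.a (.f (nat_lit 559) (nat_lit 558) (nat_lit 1550) (.f (nat_lit 562) (nat_lit 563) (nat_lit 527) (.f (nat_lit 498) (nat_lit 499) (nat_lit 2543) (.f (nat_lit 495) (nat_lit 494) (nat_lit 3566) (.f (nat_lit 463) (nat_lit 431) (nat_lit 4527) (.f (nat_lit 462) (nat_lit 430) (nat_lit 7598) (.f (nat_lit 464) (nat_lit 432) (nat_lit 6575) (.f (nat_lit 465) (nat_lit 497) (nat_lit 462) (.d (nat_lit 433) (nat_lit 434) (nat_lit 2478) (nat_lit 466) (nat_lit 7601)))))))))) (.f (nat_lit 563) (nat_lit 562) (nat_lit 527) (.f (nat_lit 531) (nat_lit 564) (nat_lit 528) (.d (nat_lit 499) (nat_lit 498) (nat_lit 2543) (nat_lit 500) (nat_lit 2544))))))) (.a (.p (nat_lit 530) (.a (.d (nat_lit 559) (nat_lit 531) (nat_lit 1551) (nat_lit 558) (nat_lit 1550)) (.a (.f (nat_lit 558) (nat_lit 559) (nat_lit 1550) (.f (nat_lit 526) (nat_lit 557) (nat_lit 1549) (.d (nat_lit 494) (nat_lit 493) (nat_lit 3565) (nat_lit 495) (nat_lit 3566)))) (.f (nat_lit 499) (nat_lit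 498) (nat_lit 2543) (.f (nat_lit 531) (nat_lit 500) (nat_lit 2544) (.f (nat_lit 532) (nat_lit 561) (nat_lit 1552) (.d (nat_lit 564) (nat_lit 563) (nat_lit 528) (nat_lit 565) (nat_lit 529)))))))) (.a s875 (.p (nat_lit 530) (.a (.d (nat_lit 559) (nat_lit 531) (nat_lit 1551) (nat_lit 558) (nat_lit 1550)) (.f (nat_lit 562) (nat_lit 563) (nat_lit 527) (.f (nat_lit 526) (nat_lit 561) (nat_lit 526) (.d (nat_lit 494) (nat_lit 493) (nat_lit 3565) (nat_lit 495) (nat_lit 3566))))))))))))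
noncomputable def s2495 : Cert := .r (nat_lit 3773962426139582502986631646264793844340548718132172006003720938849361146555773143298476687185190218548467649586404736686934909373052214328507029863446909475543486300160) (.p (nat_lit 526) (.a (.f (nat_lit 525) (nat_lit 561) (nat_lit 525) (.f (nat_lit 493) (nat_lit 492) (nat_lit 3564) (.f (nat_lit 557) (nat_lit 556) (nat_lit 1548) (.d (nat_lit 529) (nat_lit 494) (nat_lit 3565) (nat_lit 558) (nat_lit 1549))))) (.a (.p (nat_lit 525) (.a (.f (nat_lit 493) (nat_lit 492) (nat_lit 3564) (.f (nat_lit 557) (nat_lit 556) (nat_lit 1548) (.d (nat_lit 529) (nat_lit 494) (nat_lit 3565) (nat_lit 558) (nat_lit 1549)))) (.a (.f (nat_lit 492) (nat_lit 493) (nat_lit 3564) (.f (nat_lit 524) (nat_lit 491) (nat_lit 3563) (.d (nat_lit 556) (nat_lit 555) (nat_lit 1547) (nat_lit 557) (nat_lit 1548)))) (.a (.f (nat_lit 492) (nat_lit 493) (nat_lit 3564) (.f (nat_lit 524) (nat_lit 491) (nat_lit 3563) (.f (nat_lit 495)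 (nat_lit 496) (nat_lit 2540) (.f (nat_lit 523) (nat_lit 494) (nat_lit 2539) (.d (nat_lit 555) (nat_lit 554) (nat_lit 1546) (nat_lit 556) (nat_lit 1547)))))) (.a (.f (nat_lit 556) (nat_lit 557) (nat_lit 1548) (.f (nat_lit 524) (nat_lit 555) (nat_lit 1547) (.f (nat_lit 495) (nat_lit 496) (nat_lit 2540) (.f (nat_lit 491) (nat_lit 492) (nat_lit 3563) (.d (nat_lit 523) (nat_lit 490) (nat_lit 3562) (nat_lit 494) (nat_lit 2539)))))) (.a (.f (nat_lit 557) (nat_lit 556) (nat_lit 1548) (.f (nat_lit 529) (nat_lit 558) (nat_lit 1549) (.f (nat_lit 494) (nat_lit 493) (nat_lit 3565) (.f (nat_lit 495) (nat_lit 530) (nat_lit 3566) (.d (nat_lit 524) (nat_lit 496) (nat_lit 2540) (nat_lit 523) (nat_lit 2539)))))) (.f (nat_lit 492) (nat_lit 493) (nat_lit 3564) (.f (nat_lit 524) (nat_lit 491) (nat_lit 3563) (.f (nat_lit 495) (nat_lit 496) (nat_lit 2540) (.f (nat_lit 494) (nat_lit 523) (nat_lit 2539) (.f (nat_lit 463) (nat_lit 431) (nat_lit 4527) (.f (nat_lit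 558) (nat_lit 590) (nat_lit 6606) (.d (nat_lit 529) (nat_lit 530) (nat_lit 3566) (nat_lit 557) (nat_lit 1549)))))))))))))) (.a (.f (nat_lit 525) (nat_lit 561) (nat_lit 525) (.f (nat_lit 492) (nat_lit 493) (nat_lit 3564) (.f (nat_lit 524) (nat_lit 491) (nat_lit 3563) (.d (nat_lit 556) (nat_lit 555) (nat_lit 1547) (nat_lit 557) (nat_lit 1548))))) (.a (.p (nat_lit 529) (.a (.f (nat_lit 561) (nat_lit 562) (nat_lit 526) (.f (nat_lit 497) (nat_lit 498) (nat_lit 2542) (.f (nat_lit 465) (nat_lit 433) (nat_lit 5552) (.f (nat_lit 464) (nat_lit 432) (nat_lit 7600) (.f (nat_lit 496) (nat_lit 593) (nat_lit 4560) (.f (nat_lit 494) (nat_lit 493) (nat_lit 3565) (.d (nat_lit 466) (nat_lit 434) (nat_lit 6577) (nat_lit 495) (nat_lit 2510)))))))) (.a (.f (nat_lit 494) (nat_lit 493) (nat_lit 3565) (.f (nat_lit 495) (nat_lit 530) (nat_lit 3566) (.f (nat_lit 558) (nat_lit 557) (nat_lit 1549) (.d (nat_lit 463) (nat_lit 431) (nat_lit 5550) (nat_lit 590) (nat_lit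 6606))))) (.f (nat_lit 561) (nat_lit 562) (nat_lit 526) (.f (nat_lit 497) (nat_lit 498) (nat_lit 2542) (.f (nat_lit 465) (nat_lit 433) (nat_lit 5552) (.f (nat_lit 464) (nat_lit 432) (nat_lit 7600) (.f (nat_lit 593) (nat_lit 496) (nat_lit 4560) (.f (nat_lit 625) (nat_lit 657) (nat_lit 7696) (.d (nat_lit 626) (nat_lit 594) (nat_lit 4593) (nat_lit 658) (nat_lit 4625))))))))))) (.a (.f (nat_lit 525) (nat_lit 561) (nat_lit 525) (.f (nat_lit 493) (nat_lit 492) (nat_lit 3564) (.f (nat_lit 496) (nat_lit 497) (nat_lit 2541) (.f (nat_lit 495) (nat_lit 524) (nat_lit 2540) (.f (nat_lit 494) (nat_lit 529) (nat_lit 493) (.f (nat_lit 461) (nat_lit 460) (nat_lit 3532) (.d (nat_lit 429) (nat_lit 397) (nat_lit 4493) (nat_lit 558) (nat_lit 4525)))))))) (.f (nat_lit 525) (nat_lit 561) (nat_lit 525) (.f (nat_lit 496) (nat_lit 497) (nat_lit 2541) (.f (nat_lit 495) (nat_lit 524) (nat_lit 2540) (.f (nat_lit 463) (nat_lit 431) (nat_lit 4527) (.f (nat_lit 557)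 (nat_lit 556) (nat_lit 1548) (.f (nat_lit 558) (nat_lit 529) (nat_lit 1549) (.d (nat_lit 590) (nat_lit 494) (nat_lit 6606) (nat_lit 622) (nat_lit 6638))))))))))))))
noncomputable def s2508 : Cert := .r (nat_lit 5660943638550353179209702393255682723236921506366254693698594152911019002423200424594544230911665682159304027486971164047785410567000862863825786256222176030284700450816) (.p (nat_lit 496) (.a (.d (nat_lit 464) (nat_lit 432) (nat_lit 5551) (nat_lit 591) (nat_lit 5583)) (.a (.f (nat_lit 591) (nat_lit 623) (nat_lit 6639) (.f (nat_lit 494) (nat_lit 462) (nat_lit 7630) (.f (nat_lit 493) (nat_lit 492) (nat_lit 492) (.f (nat_lit 525) (nat_lit 524) (nat_lit 1516) (.f (nat_lit 497) (nat_lit 526) (nat_lit 2541) (.f (nat_lit 498) (nat_lit 499) (nat_lit 1519) (.d (nat_lit 466) (nat_lit 465) (nat_lit 2510) (nat_lit 467) (nat_lit 2511)))))))) (.f (nat_lit 464) (nat_lit 432) (nat_lit 5551) (.f (nat_lit 465) (nat_lit 433) (nat_lit 6576) (.f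 (nat_lit 494) (nat_lit 493) (nat_lit 2509) (.d (nat_lit 466) (nat_lit 467) (nat_lit 1487) (nat_lit 497) (nat_lit 2510))))))))
noncomputable def s2537 : Cert := .r (nat_lit 3773962426139582502986631646264793844340548718132172006003720938849361146555773143298476687185190218548467649586404736686934909373052214328507029863446909475543486300160) (.p (nat_lit 526) (.a (.f (nat_lit 525) (nat_lit 561) (nat_lit 525) (.f (nat_lit 524) (nat_lit 559) (nat_lit 524) (.d (nat_lit 492) (nat_lit 491) (nat_lit 3563) (nat_lit 493) (nat_lit 3564)))) (.a (.p (nat_lit 525) (.a (.f (nat_lit 524) (nat_lit 559) (nat_lit 524) (.d (nat_lit 492) (nat_lit 491) (nat_lit 3563) (nat_lit 493) (nat_lit 3564))) (.a (.f (nat_lit 493) (nat_lit 492) (nat_lit 3564) (.f (nat_lit 557) (nat_lit 556) (nat_lit 1548) (.d (nat_lit 529) (nat_lit 494) (nat_lit 3565) (nat_lit 558) (nat_lit 1549)))) (.f (nat_lit 524) (nat_lit 559) (nat_lit 524) (.d (nat_lit 556) (nat_lit 555) (nat_lit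 1547) (nat_lit 557) (nat_lit 1548)))))) (.a (.f (nat_lit 525) (nat_lit 561) (nat_lit 525) (.f (nat_lit 493) (nat_lit 492) (nat_lit 3564) (.f (nat_lit 557) (nat_lit 556) (nat_lit 1548) (.d (nat_lit 529) (nat_lit 494) (nat_lit 3565) (nat_lit 558) (nat_lit 1549))))) (.a (.p (nat_lit 529) (.a (.f (nat_lit 558) (nat_lit 557) (nat_lit 1549) (.f (nat_lit 559) (nat_lit 530) (nat_lit 1550) (.f (nat_lit 494) (nat_lit 493) (nat_lit 3565) (.d (nat_lit 462) (nat_lit 430) (nat_lit 4526) (nat_lit 591) (nat_lit 4558))))) (.f (nat_lit 561) (nat_lit 562) (nat_lit 526) (.f (nat_lit 497) (nat_lit 498) (nat_lit 2542) (.f (nat_lit 465) (nat_lit 433) (nat_lit 5552) (.f (nat_lit 464) (nat_lit 432) (nat_lit 7600) (.f (nat_lit 593) (nat_lit 496) (nat_lit 4560) (.f (nat_lit 625) (nat_lit 657) (nat_lit 7696) (.d (nat_lit 626) (nat_lit 594) (nat_lit 4593) (nat_lit 658) (nat_lit 4625)))))))))) (.f (nat_lit 525) (nat_lit 561) (nat_lit 525) (.f (nat_lit 557) (nat_lit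 556) (nat_lit 1548) (.f (nat_lit 529) (nat_lit 558) (nat_lit 1549) (.d (nat_lit 497) (nat_lit 496) (nat_lit 2541) (nat_lit 498) (nat_lit 2542))))))))))
noncomputable def s2556 : Cert := .r (nat_lit 3773962426139582502986631646264793844340548718132172006003720938849361146555773143298476687185190218548467649586404736686934909373052214328507029863446909475543486300160) (.p (nat_lit 529) (.a (.p (nat_lit 530) (.a (.d (nat_lit 559) (nat_lit 531) (nat_lit 1551) (nat_lit 558) (nat_lit 1550)) (.f (nat_lit 562) (nat_lit 563) (nat_lit 527) (.f (nat_lit 561) (nat_lit 526) (nat_lit 526) (.f (nat_lit 498) (nat_lit 499) (nat_lit 2543) (.d (nat_lit 466) (nat_lit 434) (nat_lit 5553) (nat_lit 593) (nat_lit 5585))))))) (.a (.p (nat_lit 526) (.a (.d (nat_lit 561) (nat_lit 525) (nat_lit 525) (nat_lit 562) (nat_lit 526)) (.a (.f (nat_lit 557) (nat_lit 558) (nat_lit 1549) (.f (nat_lit 525) (nat_lit 556) (nat_lit 1548) (.d (nat_lit 493) (nat_lit 492) (nat_lit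 3564) (nat_lit 494) (nat_lit 3565)))) (.f (nat_lit 561) (nat_lit 562) (nat_lit 526) (.f (nat_lit 497) (nat_lit 498) (nat_lit 2542) (.f (nat_lit 558) (nat_lit 557) (nat_lit 1549) (.f (nat_lit 494) (nat_lit 493) (nat_lit 3565) (.f (nat_lit 465) (nat_lit 433) (nat_lit 5552) (.f (nat_lit 466) (nat_lit 434) (nat_lit 6577) (.f (nat_lit 495) (nat_lit 496) (nat_lit 2510) (.d (nat_lit 463) (nat_lit 431) (nat_lit 5550) (nat_lit 590) (nat_lit 6606)))))))))))) (.a (.p (nat_lit 530) (.a (.d (nat_lit 559) (nat_lit 531) (nat_lit 1551) (nat_lit 558) (nat_lit 1550)) (.a (.f (nat_lit 563) (nat_lit 562) (nat_lit 527) (.f (nat_lit 531) (nat_lit 564) (nat_lit 528) (.d (nat_lit 499) (nat_lit 498) (nat_lit 2543) (nat_lit 500) (nat_lit 2544)))) (.f (nat_lit 559) (nat_lit 558) (nat_lit 1550) (.f (nat_lit 495) (nat_lit 494) (nat_lit 3566) (.f (nat_lit 562) (nat_lit 563) (nat_lit 527) (.f (nat_lit 498) (nat_lit 499) (nat_lit 2543) (.f (nat_lit 463) (nat_lit 431)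 (nat_lit 4527) (.f (nat_lit 462) (nat_lit 430) (nat_lit 7598) (.f (nat_lit 497) (nat_lit 496) (nat_lit 3534) (.d (nat_lit 465) (nat_lit 433) (nat_lit 4529) (nat_lit 594) (nat_lit 7633)))))))))))) (.a (.p (nat_lit 530) (.a (.d (nat_lit 559) (nat_lit 531) (nat_lit 1551) (nat_lit 558) (nat_lit 1550)) (.a (.f (nat_lit 558) (nat_lit 559) (nat_lit 1550) (.f (nat_lit 526) (nat_lit 557) (nat_lit 1549) (.d (nat_lit 494) (nat_lit 493) (nat_lit 3565) (nat_lit 495) (nat_lit 3566)))) (.f (nat_lit 499) (nat_lit 498) (nat_lit 2543) (.f (nat_lit 531) (nat_lit 500) (nat_lit 2544) (.f (nat_lit 532) (nat_lit 561) (nat_lit 1552) (.d (nat_lit 564) (nat_lit 563) (nat_lit 528) (nat_lit 565) (nat_lit 529)))))))) (.a s181 (.p (nat_lit 530) (.a (.d (nat_lit 559) (nat_lit 531) (nat_lit 1551) (nat_lit 558) (nat_lit 1550)) (.f (nat_lit 562) (nat_lit 563) (nat_lit 527) (.f (nat_lit 526) (nat_lit 561) (nat_lit 526) (.d (nat_lit 494) (nat_lit 493) (nat_lit 3565) (nat_lit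 495) (nat_lit 3566))))))))))))
noncomputable def s2557 : Cert := .r (nat_lit 3773962426139582502986631646264793844340548718132172006003720938849361146555773143298476687185190218548467649586404736686934909373052214328507029863446909475543486300160) (.p (nat_lit 529) (.a (.p (nat_lit 530) (.a (.d (nat_lit 559) (nat_lit 531) (nat_lit 1551) (nat_lit 558) (nat_lit 1550)) (.f (nat_lit 562) (nat_lit 563) (nat_lit 527) (.f (nat_lit 561) (nat_lit 526) (nat_lit 526) (.f (nat_lit 498) (nat_lit 499) (nat_lit 2543) (.d (nat_lit 466) (nat_lit 434) (nat_lit 5553) (nat_lit 593) (nat_lit 5585))))))) (.a s726 (.a s173 (.a s875 s180)))))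
noncomputable def s2570 : Cert := .r (nat_lit 3773962427896970703980067733300160448905385381753147442840407123654343792107272198248276636528565486557800015660592592403154009030555443256434490679465860718068940931072) (.p (nat_lit 530) (.a (.f (nat_lit 495) (nat_lit 494) (nat_lit 3566) (.f (nat_lit 496) (nat_lit 531) (nat_lit 3567) (.f (nat_lit 498) (nat_lit 499) (nat_lit 2543) (.f (nat_lit 497) (nat_lit 526) (nat_lit 2542) (.d (nat_lit 463) (nat_lit 431) (nat_lit 4527) (nat_lit 462) (nat_lit 3534)))))) (.a (.f (nat_lit 499) (nat_lit 498) (nat_lit 2543) (.f (nat_lit 531) (nat_lit 500) (nat_lit 2544) (.f (nat_lit 532) (nat_lit 561) (nat_lit 1552) (.d (nat_lit 564) (nat_lit 563) (nat_lit 528) (nat_lit 565) (nat_lit 529))))) (.a (.f (nat_lit 498) (nat_lit 499) (nat_lit 2543) (.f (nat_lit 526) (nat_lit 497) (nat_lit 2542) (.d (nat_lit 494) (nat_lit 493) (nat_lit 3565) (nat_lit 495) (nat_lit 3566)))) (.a (.f (nat_lit 495) (nat_lit 494) (nat_lit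 3566) (.f (nat_lit 531) (nat_lit 496) (nat_lit 3567) (.f (nat_lit 532) (nat_lit 561) (nat_lit 1552) (.d (nat_lit 500) (nat_lit 499) (nat_lit 2544) (nat_lit 501) (nat_lit 2545))))) (.f (nat_lit 495) (nat_lit 494) (nat_lit 3566) (.f (nat_lit 531) (nat_lit 496) (nat_lit 3567) (.f (nat_lit 532) (nat_lit 561) (nat_lit 1552) (.d (nat_lit 564) (nat_lit 563) (nat_lit 528) (nat_lit 565) (nat_lit 529))))))))))
noncomputable def s2576 : Cert := .r (nat_lit 3773962426139582502986631646264793844340548718132172006003720938849361146555773143298476687185190218548467649586404736686934909373052214328507029863446909475543486300160) (.p (nat_lit 529) (.a s180 (.a (.p (nat_lit 530) (.a (.d (nat_lit 559) (nat_lit 531) (nat_lit 1551) (nat_lit 558) (nat_lit 1550)) (.a (.f (nat_lit 558) (nat_lit 559) (nat_lit 1550) (.f (nat_lit 526) (nat_lit 557) (nat_lit 1549) (.d (nat_lit 494) (nat_lit 493) (nat_lit 3565) (nat_lit 495) (nat_lit 3566)))) (.f (nat_lit 499) (nat_lit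 498) (nat_lit 2543) (.f (nat_lit 531) (nat_lit 500) (nat_lit 2544) (.f (nat_lit 532) (nat_lit 561) (nat_lit 1552) (.d (nat_lit 564) (nat_lit 563) (nat_lit 528) (nat_lit 565) (nat_lit 529)))))))) (.a s1208 (.a (.p (nat_lit 530) (.a (.d (nat_lit 559) (nat_lit 531) (nat_lit 1551) (nat_lit 558) (nat_lit 1550)) (.a (.f (nat_lit 499) (nat_lit 498) (nat_lit 2543) (.f (nat_lit 531) (nat_lit 500) (nat_lit 2544) (.f (nat_lit 532) (nat_lit 561) (nat_lit 1552) (.d (nat_lit 564) (nat_lit 563) (nat_lit 528) (nat_lit 565) (nat_lit 529))))) (.f (nat_lit 559) (nat_lit 558) (nat_lit 1550) (.f (nat_lit 495) (nat_lit 494) (nat_lit 3566) (.f (nat_lit 463) (nat_lit 431) (nat_lit 4527) (.f (nat_lit 464) (nat_lit 432) (nat_lit 6575) (.f (nat_lit 496) (nat_lit 591) (nat_lit 5583) (.f (nat_lit 498) (nat_lit 499) (nat_lit 2543) (.d (nat_lit 462) (nat_lit 430) (nat_lit 7598) (nat_lit 497) (nat_lit 3534))))))))))) (.a s2570 (.a (.p (nat_lit 530) (.a (.d (nat_lit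 559) (nat_lit 531) (nat_lit 1551) (nat_lit 558) (nat_lit 1550)) (.a (.f (nat_lit 558) (nat_lit 559) (nat_lit 1550) (.f (nat_lit 526) (nat_lit 557) (nat_lit 1549) (.f (nat_lit 493) (nat_lit 494) (nat_lit 3565) (.d (nat_lit 525) (nat_lit 492) (nat_lit 3564) (nat_lit 561) (nat_lit 525))))) (.f (nat_lit 499) (nat_lit 498) (nat_lit 2543) (.f (nat_lit 531) (nat_lit 500) (nat_lit 2544) (.f (nat_lit 532) (nat_lit 561) (nat_lit 1552) (.d (nat_lit 564) (nat_lit 563) (nat_lit 528) (nat_lit 565) (nat_lit 529)))))))) (.a s1305 (.p (nat_lit 530) (.a (.d (nat_lit 559) (nat_lit 531) (nat_lit 1551) (nat_lit 558) (nat_lit 1550)) (.a (.f (nat_lit 499) (nat_lit 498) (nat_lit 2543) (.f (nat_lit 531) (nat_lit 500) (nat_lit 2544) (.f (nat_lit 532) (nat_lit 561) (nat_lit 1552) (.d (nat_lit 564) (nat_lit 563) (nat_lit 528) (nat_lit 565) (nat_lit 529))))) (.f (nat_lit 559) (nat_lit 558) (nat_lit 1550) (.f (nat_lit 498) (nat_lit 499) (nat_lit 2543) (.f (nat_lit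 526) (nat_lit 497) (nat_lit 2542) (.d (nat_lit 525) (nat_lit 524) (nat_lit 524) (nat_lit 561) (nat_lit 525))))))))))))))))
noncomputable def s2592 : Cert := .r (nat_lit 3773962426139582502986631646264793844340548718132172006003720938849361146555773143298476687185190218548467649586404736686934909373052214328507029863446909475543486300160) (.p (nat_lit 526) (.a (.f (nat_lit 525) (nat_lit 561) (nat_lit 525) (.f (nat_lit 496) (nat_lit 497) (nat_lit 2541) (.d (nat_lit 524) (nat_lit 495) (nat_lit 2540) (nat_lit 559) (nat_lit 524)))) (.a (.f (nat_lit 525) (nat_lit 561) (nat_lit 525) (.f (nat_lit 524) (nat_lit 559) (nat_lit 524) (.d (nat_lit 492) (nat_lit 491) (nat_lit 3563) (nat_lit 493) (nat_lit 3564)))) (.a (.p (nat_lit 525) (.a (.f (nat_lit 524) (nat_lit 559) (nat_lit 524) (.d (nat_lit 492) (nat_lit 491) (nat_lit 3563) (nat_lit 493) (nat_lit 3564))) (.a (.f (nat_lit 492) (nat_lit 493) (nat_lit 3564) (.f (nat_lit 524) (nat_lit 491) (nat_lit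 3563) (.d (nat_lit 556) (nat_lit 555) (nat_lit 1547) (nat_lit 557) (nat_lit 1548)))) (.a (.f (nat_lit 524) (nat_lit 559) (nat_lit 524) (.d (nat_lit 556) (nat_lit 555) (nat_lit 1547) (nat_lit 557) (nat_lit 1548))) (.f (nat_lit 493) (nat_lit 492) (nat_lit 3564) (.f (nat_lit 494) (nat_lit 529) (nat_lit 3565) (.f (nat_lit 557) (nat_lit 556) (nat_lit 1548) (.d (nat_lit 462) (nat_lit 430) (nat_lit 5549) (nat_lit 589) (nat_lit 6605))))))))) (.a (.f (nat_lit 525) (nat_lit 561) (nat_lit 525) (.f (nat_lit 492) (nat_lit 493) (nat_lit 3564) (.f (nat_lit 524) (nat_lit 491) (nat_lit 3563) (.d (nat_lit 556) (nat_lit 555) (nat_lit 1547) (nat_lit 557) (nat_lit 1548))))) (.p (nat_lit 529) (.a (.f (nat_lit 561) (nat_lit 562) (nat_lit 526) (.f (nat_lit 497) (nat_lit 498) (nat_lit 2542) (.f (nat_lit 465) (nat_lit 433) (nat_lit 5552) (.f (nat_lit 464) (nat_lit 432) (nat_lit 7600) (.f (nat_lit 496) (nat_lit 593) (nat_lit 4560) (.f (nat_lit 494) (nat_lit 493)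 (nat_lit 3565) (.d (nat_lit 466) (nat_lit 434) (nat_lit 6577) (nat_lit 495) (nat_lit 2510)))))))) (.a (.f (nat_lit 494) (nat_lit 493) (nat_lit 3565) (.f (nat_lit 530) (nat_lit 495) (nat_lit 3566) (.d (nat_lit 498) (nat_lit 497) (nat_lit 2542) (nat_lit 499) (nat_lit 2543)))) (.a (.f (nat_lit 561) (nat_lit 562) (nat_lit 526) (.f (nat_lit 494) (nat_lit 493) (nat_lit 3565) (.f (nat_lit 530) (nat_lit 495) (nat_lit 3566) (.d (nat_lit 531) (nat_lit 532) (nat_lit 1552) (nat_lit 559) (nat_lit 1551))))) (.f (nat_lit 561) (nat_lit 562) (nat_lit 526) (.f (nat_lit 497) (nat_lit 498) (nat_lit 2542) (.f (nat_lit 465) (nat_lit 433) (nat_lit 5552) (.f (nat_lit 464) (nat_lit 432) (nat_lit 7600) (.f (nat_lit 593) (nat_lit 496) (nat_lit 4560) (.f (nat_lit 625) (nat_lit 657) (nat_lit 7696) (.d (nat_lit 626) (nat_lit 594) (nat_lit 4593) (nat_lit 658) (nat_lit 4625)))))))))))))))))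
noncomputable def s2593 : Cert := .r (nat_lit 3773962427896970703980067733300160448905385381753147442840407123654343792107272198248276636528565486557800015660592592403154009030555443256434490679465860718068940931072) (.p (nat_lit 530) (.a (.f (nat_lit 562) (nat_lit 563) (nat_lit 527) (.f (nat_lit 526) (nat_lit 561) (nat_lit 526) (.d (nat_lit 494) (nat_lit 493) (nat_lit 3565) (nat_lit 495) (nat_lit 3566)))) (.a (.f (nat_lit 495) (nat_lit 494) (nat_lit 3566) (.f (nat_lit 531) (nat_lit 496) (nat_lit 3567) (.d (nat_lit 563) (nat_lit 562) (nat_lit 527) (nat_lit 564) (nat_lit 528)))) (.a (.f (nat_lit 562) (nat_lit 563) (nat_lit 527) (.f (nat_lit 526) (nat_lit 561) (nat_lit 526) (.f (nat_lit 493) (nat_lit 494) (nat_lit 3565) (.f (nat_lit 525) (nat_lit 492) (nat_lit 3564) (.d (nat_lit 557) (nat_lit 556) (nat_lit 1548) (nat_lit 558) (nat_lit 1549)))))) (.a (.f (nat_lit 495) (nat_lit 494) (nat_lit 3566) (.f (nat_lit 531) (nat_lit 496) (nat_lit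 3567) (.f (nat_lit 532) (nat_lit 561) (nat_lit 1552) (.d (nat_lit 500) (nat_lit 499) (nat_lit 2544) (nat_lit 501) (nat_lit 2545))))) (.f (nat_lit 562) (nat_lit 563) (nat_lit 527) (.f (nat_lit 561) (nat_lit 526) (nat_lit 526) (.f (nat_lit 531) (nat_lit 532) (nat_lit 1552) (.f (nat_lit 496) (nat_lit 495) (nat_lit 3567) (.d (nat_lit 464) (nat_lit 432) (nat_lit 4528) (nat_lit 593) (nat_lit 4560)))))))))))
noncomputable def s2595 : Cert := .r (nat_lit 3773962426139582502986631646264793844340548718132172006003720938849361146555773143298476687185190218548467649586404736686934909373052214328507029863446909475543486300160) (.p (nat_lit 529) (.a (.p (nat_lit 530) (.a (.d (nat_lit 559) (nat_lit 531) (nat_lit 1551) (nat_lit 558) (nat_lit 1550)) (.f (nat_lit 562) (nat_lit 563) (nat_lit 527) (.f (nat_lit 526) (nat_lit 561) (nat_lit 526) (.d (nat_lit 494) (nat_lit 493) (nat_lit 3565) (nat_lit 495) (nat_lit 3566)))))) (.a s518 (.a s1706 (.a (.p (nat_lit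 530) (.a (.d (nat_lit 559) (nat_lit 531) (nat_lit 1551) (nat_lit 558) (nat_lit 1550)) (.a (.f (nat_lit 558) (nat_lit 559) (nat_lit 1550) (.f (nat_lit 526) (nat_lit 557) (nat_lit 1549) (.d (nat_lit 494) (nat_lit 493) (nat_lit 3565) (nat_lit 495) (nat_lit 3566)))) (.f (nat_lit 495) (nat_lit 494) (nat_lit 3566) (.f (nat_lit 531) (nat_lit 496) (nat_lit 3567) (.d (nat_lit 563) (nat_lit 562) (nat_lit 527) (nat_lit 564) (nat_lit 528))))))) (.a s2593 (.a (.p (nat_lit 530) (.a (.d (nat_lit 559) (nat_lit 531) (nat_lit 1551) (nat_lit 558) (nat_lit 1550)) (.a (.f (nat_lit 562) (nat_lit 563) (nat_lit 527) (.f (nat_lit 526) (nat_lit 561) (nat_lit 526) (.f (nat_lit 493) (nat_lit 494) (nat_lit 3565) (.f (nat_lit 525) (nat_lit 492) (nat_lit 3564) (.d (nat_lit 557) (nat_lit 556) (nat_lit 1548) (nat_lit 558) (nat_lit 1549)))))) (.f (nat_lit 531) (nat_lit 559) (nat_lit 1551) (.d (nat_lit 563) (nat_lit 562) (nat_lit 527) (nat_lit 564) (nat_lit 528))))))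 (.a s1305 (.a (.p (nat_lit 530) (.a (.f (nat_lit 562) (nat_lit 563) (nat_lit 527) (.f (nat_lit 526) (nat_lit 561) (nat_lit 526) (.d (nat_lit 494) (nat_lit 493) (nat_lit 3565) (nat_lit 495) (nat_lit 3566)))) (.a (.f (nat_lit 531) (nat_lit 559) (nat_lit 1551) (.d (nat_lit 563) (nat_lit 562) (nat_lit 527) (nat_lit 564) (nat_lit 528))) (.f (nat_lit 495) (nat_lit 494) (nat_lit 3566) (.f (nat_lit 531) (nat_lit 496) (nat_lit 3567) (.f (nat_lit 532) (nat_lit 561) (nat_lit 1552) (.d (nat_lit 500) (nat_lit 499) (nat_lit 2544) (nat_lit 501) (nat_lit 2545)))))))) s232)))))))))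
noncomputable def s2600 : Cert := .r (nat_lit 3773962426359256028110811157144214669911153301084793935608306711949983977249710525167201680853112127049634195345678218651462296830240117944497962465449278380859168129024) (.p (nat_lit 525) (.a (.f (nat_lit 524) (nat_lit 559) (nat_lit 524) (.d (nat_lit 492) (nat_lit 491) (nat_lit 3563) (nat_lit 493) (nat_lit 3564))) (.a (.f (nat_lit 492) (nat_lit 493) (nat_lit 3564) (.f (nat_lit 524) (nat_lit 491) (nat_lit 3563) (.d (nat_lit 556) (nat_lit 555) (nat_lit 1547) (nat_lit 557) (nat_lit 1548)))) (.a (.f (nat_lit 524) (nat_lit 559) (nat_lit 524) (.d (nat_lit 556) (nat_lit 555) (nat_lit 1547) (nat_lit 557) (nat_lit 1548))) (.f (nat_lit 557) (nat_lit 556) (nat_lit 1548) (.f (nat_lit 558) (nat_lit 529) (nat_lit 1549) (.f (nat_lit 493) (nat_lit 492) (nat_lit 3564) (.d (nat_lit 461) (nat_lit 429) (nat_lit 4525) (nat_lit 590) (nat_lit 4557)))))))))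
noncomputable def s2610 : Cert := .r (nat_lit 3773962426139582502986631646264793844340548718132172006003720938849361146555773143298476687185190218548467649586404736686934909373052214328507029863446909475543486300160) (.p (nat_lit 526) (.a (.f (nat_lit 525) (nat_lit 561) (nat_lit 525) (.f (nat_lit 496) (nat_lit 497) (nat_lit 2541) (.d (nat_lit 524) (nat_lit 495) (nat_lit 2540) (nat_lit 559) (nat_lit 524)))) (.a (.f (nat_lit 525) (nat_lit 561) (nat_lit 525) (.f (nat_lit 524) (nat_lit 559) (nat_lit 524) (.d (nat_lit 492) (nat_lit 491) (nat_lit 3563) (nat_lit 493) (nat_lit 3564)))) (.a s2600 (.a (.f (nat_lit 525) (nat_lit 561) (nat_lit 525) (.f (nat_lit 492) (nat_lit 493) (nat_lit 3564) (.f (nat_lit 524) (nat_lit 491) (nat_lit 3563) (.d (nat_lit 556) (nat_lit 555) (nat_lit 1547) (nat_lit 557) (nat_lit 1548))))) (.p (nat_lit 529) (.a (.f (nat_lit 558) (nat_lit 557) (nat_lit 1549) (.f (nat_lit 530) (nat_lit 559) (nat_lit 1550) (.f (nat_lit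 499) (nat_lit 498) (nat_lit 2543) (.f (nat_lit 531) (nat_lit 500) (nat_lit 2544) (.d (nat_lit 563) (nat_lit 562) (nat_lit 527) (nat_lit 564) (nat_lit 528)))))) (.a (.f (nat_lit 561) (nat_lit 562) (nat_lit 526) (.f (nat_lit 497) (nat_lit 498) (nat_lit 2542) (.f (nat_lit 465) (nat_lit 433) (nat_lit 5552) (.f (nat_lit 464) (nat_lit 432) (nat_lit 7600) (.f (nat_lit 593) (nat_lit 496) (nat_lit 4560) (.f (nat_lit 625) (nat_lit 657) (nat_lit 7696) (.d (nat_lit 626) (nat_lit 594) (nat_lit 4593) (nat_lit 658) (nat_lit 4625)))))))) (.a (.f (nat_lit 558) (nat_lit 557) (nat_lit 1549) (.f (nat_lit 530) (nat_lit 559) (nat_lit 1550) (.d (nat_lit 498) (nat_lit 497) (nat_lit 2542) (nat_lit 499) (nat_lit 2543)))) (.f (nat_lit 561) (nat_lit 562) (nat_lit 526) (.f (nat_lit 558) (nat_lit 557) (nat_lit 1549) (.f (nat_lit 559) (nat_lit 530) (nat_lit 1550) (.f (nat_lit 590) (nat_lit 589) (nat_lit 1581) (.d (nat_lit 495) (nat_lit 463) (nat_lit 5582) (nat_lit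 622) (nat_lit 6638)))))))))))))))
noncomputable def s2619 : Cert := .r (nat_lit 3773962426139582502986631646264793844340548718132172006003720938849361146555773143298476687185190218548467649586404736686934909373052214328507029863446909475543486300160) (.p (nat_lit 529) (.a (.p (nat_lit 530) (.a (.d (nat_lit 559) (nat_lit 531) (nat_lit 1551) (nat_lit 558) (nat_lit 1550)) (.f (nat_lit 562) (nat_lit 563) (nat_lit 527) (.f (nat_lit 561) (nat_lit 526) (nat_lit 526) (.f (nat_lit 498) (nat_lit 499) (nat_lit 2543) (.d (nat_lit 466) (nat_lit 434) (nat_lit 5553) (nat_lit 593) (nat_lit 5585))))))) (.a s2618 (.a s173 (.a s181 (.a s180 (.p (nat_lit 530) (.a (.d (nat_lit 559) (nat_lit 531) (nat_lit 1551) (nat_lit 558) (nat_lit 1550)) (.f (nat_lit 562) (nat_lit 563) (nat_lit 527) (.f (nat_lit 526) (nat_lit 561) (nat_lit 526) (.d (nat_lit 494) (nat_lit 493) (nat_lit 3565) (nat_lit 495) (nat_lit 3566))))))))))))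
noncomputable def s2625 : Cert := .r (nat_lit 3773962426139582502986631646264793844340548718132172006003720938849361146555773143298476687185190218548467649586404736686934909373052214328507029863446909475543486300160) (.p (nat_lit 529) (.a (.p (nat_lit 530) (.a (.d (nat_lit 559) (nat_lit 531) (nat_lit 1551) (nat_lit 558) (nat_lit 1550)) (.f (nat_lit 562) (nat_lit 563) (nat_lit 527) (.f (nat_lit 561) (nat_lit 526) (nat_lit 526) (.f (nat_lit 498) (nat_lit 499) (nat_lit 2543) (.d (nat_lit 466) (nat_lit 434) (nat_lit 5553) (nat_lit 593) (nat_lit 5585))))))) (.a (.p (nat_lit 496) (.a (.p (nat_lit 561) (.a (.d (nat_lit 464) (nat_lit 432) (nat_lit 4528) (nat_lit 593) (nat_lit 4560)) (.d (nat_lit 526) (nat_lit 525) (nat_lit 525) (nat_lit 562) (nat_lit 526)))) (.a (.p (nat_lit 464) (.a (.d (nat_lit 559) (nat_lit 432) (nat_lit 5551) (nat_lit 591) (nat_lit 5583)) (.a (.d (nat_lit 561) (nat_lit 432) (nat_lit 4528) (nat_lit 593) (nat_lit 4560)) (.f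 (nat_lit 559) (nat_lit 591) (nat_lit 5583) (.f (nat_lit 561) (nat_lit 593) (nat_lit 4560) (.f (nat_lit 558) (nat_lit 557) (nat_lit 2573) (.f (nat_lit 463) (nat_lit 431) (nat_lit 7599) (.d (nat_lit 590) (nat_lit 495) (nat_lit 5582) (nat_lit 589) (nat_lit 1581))))))))) (.a (.p (nat_lit 464) (.a (.d (nat_lit 559) (nat_lit 432) (nat_lit 5551) (nat_lit 591) (nat_lit 5583)) (.a (.f (nat_lit 431) (nat_lit 463) (nat_lit 7599) (.f (nat_lit 432) (nat_lit 399) (nat_lit 7567) (.d (nat_lit 400) (nat_lit 495) (nat_lit 5519) (nat_lit 497) (nat_lit 4496)))) (.f (nat_lit 559) (nat_lit 591) (nat_lit 5583) (.f (nat_lit 558) (nat_lit 557) (nat_lit 2573) (.f (nat_lit 463) (nat_lit 431) (nat_lit 7599) (.f (nat_lit 495) (nat_lit 590) (nat_lit 5582) (.f (nat_lit 462) (nat_lit 430) (nat_lit 7598) (.d (nat_lit 461) (nat_lit 460) (nat_lit 460) (nat_lit 497) (nat_lit 461)))))))))) (.p (nat_lit 526) (.a (.d (nat_lit 561) (nat_lit 525) (nat_lit 525) (nat_lit 562)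 (nat_lit 526)) (.a (.f (nat_lit 493) (nat_lit 494) (nat_lit 3565) (.f (nat_lit 525) (nat_lit 492) (nat_lit 3564) (.d (nat_lit 524) (nat_lit 495) (nat_lit 2540) (nat_lit 559) (nat_lit 524)))) (.f (nat_lit 561) (nat_lit 562) (nat_lit 526) (.f (nat_lit 593) (nat_lit 625) (nat_lit 7664) (.f (nat_lit 558) (nat_lit 557) (nat_lit 1549) (.f (nat_lit 559) (nat_lit 594) (nat_lit 558) (.f (nat_lit 591) (nat_lit 623) (nat_lit 6639) (.d (nat_lit 494) (nat_lit 462) (nat_lit 4558) (nat_lit 493) (nat_lit 3565)))))))))))))) (.a s173 (.a s875 s180)))))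
noncomputable def s2627 : Cert := .r (nat_lit 3773962426139582502986631646264793844340548718132172006003720938849361146555773143298476687185190218548467649586404736686934909373052214328507029863446909475543486300160) (.p (nat_lit 529) (.a (.p (nat_lit 530) (.a (.d (nat_lit 559) (nat_lit 531) (nat_lit 1551) (nat_lit 558) (nat_lit 1550)) (.f (nat_lit 562) (nat_lit 563) (nat_lit 527) (.f (nat_lit 561) (nat_lit 526) (nat_lit 526) (.f (nat_lit 498) (nat_lit 499) (nat_lit 2543) (.d (nat_lit 466) (nat_lit 434) (nat_lit 5553) (nat_lit 593) (nat_lit 5585))))))) (.a (.p (nat_lit 526) (.a (.d (nat_lit 561) (nat_lit 525) (nat_lit 525) (nat_lit 562) (nat_lit 526)) (.a (.f (nat_lit 497) (nat_lit 498) (nat_lit 2542) (.f (nat_lit 525) (nat_lit 496) (nat_lit 2541) (.d (nat_lit 557) (nat_lit 556) (nat_lit 1548) (nat_lit 558) (nat_lit 1549)))) (.f (nat_lit 561) (nat_lit 562) (nat_lit 526) (.f (nat_lit 497) (nat_lit 498) (nat_lit 2542) (.f (nat_lit 465)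 (nat_lit 433) (nat_lit 5552) (.f (nat_lit 464) (nat_lit 432) (nat_lit 7600) (.f (nat_lit 593) (nat_lit 496) (nat_lit 4560) (.f (nat_lit 625) (nat_lit 657) (nat_lit 7696) (.d (nat_lit 626) (nat_lit 594) (nat_lit 4593) (nat_lit 658) (nat_lit 4625))))))))))) (.a s173 (.a s180 (.a s1003 s232))))))
noncomputable def s2662 : Cert := .r (nat_lit 3773962426139582502986631646264793844340548718132172006003720938849361146555773143298476687185190218548467649586404736686934909373052214328507029863446909475543486300160) (.p (nat_lit 561) (.a (.f (nat_lit 562) (nat_lit 563) (nat_lit 3599) (.d (nat_lit 526) (nat_lit 525) (nat_lit 525) (nat_lit 559) (nat_lit 3598))) (.a (.p (nat_lit 559) (.a (.f (nat_lit 562) (nat_lit 563) (nat_lit 3599) (.f (nat_lit 591) (nat_lit 590) (nat_lit 1582) (.f (nat_lit 623) (nat_lit 655) (nat_lit 6671) (.f (nat_lit 624) (nat_lit 656) (nat_lit 4623) (.f (nat_lit 592) (nat_lit 495) (nat_lit 7663) (.f (nat_lit 594) (nat_lit 595)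 (nat_lit 559) (.d (nat_lit 593) (nat_lit 558) (nat_lit 3630) (nat_lit 622) (nat_lit 1614)))))))) (.a (.f (nat_lit 562) (nat_lit 563) (nat_lit 3599) (.f (nat_lit 594) (nat_lit 595) (nat_lit 559) (.f (nat_lit 530) (nat_lit 531) (nat_lit 2575) (.f (nat_lit 593) (nat_lit 558) (nat_lit 558) (.d (nat_lit 498) (nat_lit 466) (nat_lit 5585) (nat_lit 625) (nat_lit 5617)))))) (.a (.f (nat_lit 562) (nat_lit 563) (nat_lit 3599) (.f (nat_lit 591) (nat_lit 590) (nat_lit 1582) (.f (nat_lit 623) (nat_lit 655) (nat_lit 6671) (.f (nat_lit 624) (nat_lit 656) (nat_lit 4623) (.f (nat_lit 495) (nat_lit 592) (nat_lit 7663) (.f (nat_lit 463) (nat_lit 431) (nat_lit 4527) (.d (nat_lit 462) (nat_lit 430) (nat_lit 7598) (nat_lit 494) (nat_lit 7630)))))))) (.p (nat_lit 558) (.a (.f (nat_lit 557) (nat_lit 556) (nat_lit 2572) (.d (nat_lit 589) (nat_lit 588) (nat_lit 1580) (nat_lit 590) (nat_lit 1581))) (.a (.f (nat_lit 590) (nat_lit 589) (nat_lit 1581) (.f (nat_lit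 495) (nat_lit 463) (nat_lit 5582) (.d (nat_lit 622) (nat_lit 591) (nat_lit 5614) (nat_lit 654) (nat_lit 6670)))) (.f (nat_lit 557) (nat_lit 556) (nat_lit 2572) (.d (nat_lit 593) (nat_lit 592) (nat_lit 557) (nat_lit 594) (nat_lit 558)))))))))) (.a (.p (nat_lit 592) (.a (.f (nat_lit 624) (nat_lit 495) (nat_lit 7663) (.f (nat_lit 657) (nat_lit 625) (nat_lit 4624) (.f (nat_lit 656) (nat_lit 689) (nat_lit 4656) (.d (nat_lit 655) (nat_lit 623) (nat_lit 5647) (nat_lit 687) (nat_lit 5679))))) (.a (.p (nat_lit 591) (.a (.f (nat_lit 562) (nat_lit 563) (nat_lit 3599) (.d (nat_lit 590) (nat_lit 589) (nat_lit 2605) (nat_lit 593) (nat_lit 2606))) (.f (nat_lit 623) (nat_lit 496) (nat_lit 5615) (.d (nat_lit 655) (nat_lit 624) (nat_lit 5647) (nat_lit 687) (nat_lit 6703))))) (.a (.p (nat_lit 496) (.a (.f (nat_lit 591) (nat_lit 623) (nat_lit 5615) (.f (nat_lit 562) (nat_lit 563) (nat_lit 3599) (.d (nat_lit 590) (nat_lit 589) (nat_lit 2605) (nat_lit 593)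 (nat_lit 2606)))) (.f (nat_lit 497) (nat_lit 465) (nat_lit 6608) (.f (nat_lit 526) (nat_lit 525) (nat_lit 525) (.d (nat_lit 495) (nat_lit 463) (nat_lit 7631) (nat_lit 498) (nat_lit 1518)))))) (.f (nat_lit 495) (nat_lit 624) (nat_lit 7663) (.d (nat_lit 463) (nat_lit 431) (nat_lit 4527) (nat_lit 496) (nat_lit 7631))))))) (.p (nat_lit 592) (.a (.f (nat_lit 624) (nat_lit 495) (nat_lit 7663) (.f (nat_lit 656) (nat_lit 559) (nat_lit 7695) (.d (nat_lit 655) (nat_lit 623) (nat_lit 5647) (nat_lit 687) (nat_lit 5679)))) (.a (.f (nat_lit 624) (nat_lit 495) (nat_lit 7663) (.f (nat_lit 657) (nat_lit 625) (nat_lit 4624) (.f (nat_lit 656) (nat_lit 689) (nat_lit 4656) (.d (nat_lit 655) (nat_lit 623) (nat_lit 5647) (nat_lit 687) (nat_lit 5679))))) (.a (.p (nat_lit 624) (.a (.f (nat_lit 656) (nat_lit 559) (nat_lit 7695) (.d (nat_lit 655) (nat_lit 623) (nat_lit 5647) (nat_lit 687) (nat_lit 5679))) (.a (.f (nat_lit 657) (nat_lit 625) (nat_lit 4624) (.f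 (nat_lit 656) (nat_lit 689) (nat_lit 4656) (.d (nat_lit 655) (nat_lit 623) (nat_lit 5647) (nat_lit 687) (nat_lit 5679)))) (.a (.f (nat_lit 657) (nat_lit 625) (nat_lit 4624) (.f (nat_lit 656) (nat_lit 689) (nat_lit 4656) (.f (nat_lit 687) (nat_lit 655) (nat_lit 5679) (.d (nat_lit 688) (nat_lit 593) (nat_lit 6704) (nat_lit 719) (nat_lit 5711))))) (.a (.f (nat_lit 625) (nat_lit 657) (nat_lit 4624) (.f (nat_lit 623) (nat_lit 655) (nat_lit 5647) (.d (nat_lit 496) (nat_lit 591) (nat_lit 5615) (nat_lit 593) (nat_lit 4592)))) (.f (nat_lit 559) (nat_lit 656) (nat_lit 7695) (.f (nat_lit 625) (nat_lit 657) (nat_lit 4624) (.f (nat_lit 593) (nat_lit 496) (nat_lit 4592) (.d (nat_lit 558) (nat_lit 557) (nat_lit 557) (nat_lit 594) (nat_lit 558)))))))))) (.a (.p (nat_lit 496) (.a (.f (nat_lit 593) (nat_lit 625) (nat_lit 4592) (.f (nat_lit 591) (nat_lit 623) (nat_lit 5615) (.f (nat_lit 590) (nat_lit 589) (nat_lit 2605) (.f (nat_lit 558) (nat_lit 557)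 (nat_lit 3629) (.f (nat_lit 559) (nat_lit 594) (nat_lit 558) (.d (nat_lit 622) (nat_lit 621) (nat_lit 1613) (nat_lit 654) (nat_lit 6670))))))) (.f (nat_lit 497) (nat_lit 465) (nat_lit 6608) (.f (nat_lit 526) (nat_lit 525) (nat_lit 525) (.d (nat_lit 495) (nat_lit 463) (nat_lit 7631) (nat_lit 498) (nat_lit 1518)))))) (.f (nat_lit 495) (nat_lit 624) (nat_lit 7663) (.d (nat_lit 463) (nat_lit 431) (nat_lit 4527) (nat_lit 496) (nat_lit 7631))))))))))))
noncomputable def s2664 : Cert := .r (nat_lit 3773962426139582502986631646264793844340548718132172006003720938849361146555773143298476687185190218548467649586404736686934909373052214328507029863446909475543486300160) (.p (nat_lit 526) (.a (.f (nat_lit 525) (nat_lit 561) (nat_lit 525) (.f (nat_lit 524) (nat_lit 559) (nat_lit 524) (.d (nat_lit 492) (nat_lit 491) (nat_lit 3563) (nat_lit 493) (nat_lit 3564)))) (.a (.p (nat_lit 525) (.a (.f (nat_lit 524) (nat_lit 559) (nat_lit 524) (.d (nat_lit 492)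 (nat_lit 491) (nat_lit 3563) (nat_lit 493) (nat_lit 3564))) (.a (.f (nat_lit 493) (nat_lit 492) (nat_lit 3564) (.f (nat_lit 557) (nat_lit 556) (nat_lit 1548) (.d (nat_lit 529) (nat_lit 494) (nat_lit 3565) (nat_lit 558) (nat_lit 1549)))) (.f (nat_lit 524) (nat_lit 559) (nat_lit 524) (.d (nat_lit 556) (nat_lit 555) (nat_lit 1547) (nat_lit 557) (nat_lit 1548)))))) (.a (.f (nat_lit 525) (nat_lit 561) (nat_lit 525) (.f (nat_lit 493) (nat_lit 492) (nat_lit 3564) (.f (nat_lit 557) (nat_lit 556) (nat_lit 1548) (.d (nat_lit 529) (nat_lit 494) (nat_lit 3565) (nat_lit 558) (nat_lit 1549))))) (.a (.p (nat_lit 529) (.a (.f (nat_lit 561) (nat_lit 562) (nat_lit 526) (.f (nat_lit 497) (nat_lit 498) (nat_lit 2542) (.d (nat_lit 465) (nat_lit 433) (nat_lit 5552) (nat_lit 592) (nat_lit 5584)))) (.f (nat_lit 558) (nat_lit 557) (nat_lit 1549) (.f (nat_lit 559) (nat_lit 530) (nat_lit 1550) (.f (nat_lit 494) (nat_lit 493) (nat_lit 3565) (.d (nat_lit 462) (nat_lit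 430) (nat_lit 4526) (nat_lit 591) (nat_lit 4558))))))) (.f (nat_lit 525) (nat_lit 561) (nat_lit 525) (.f (nat_lit 557) (nat_lit 556) (nat_lit 1548) (.f (nat_lit 529) (nat_lit 558) (nat_lit 1549) (.d (nat_lit 497) (nat_lit 496) (nat_lit 2541) (nat_lit 498) (nat_lit 2542))))))))))
noncomputable def s2679 : Cert := .r (nat_lit 3773962426139582502986631646264793844340548718132172006003720938849361146555773143298476687185190218548467649586404736686934909373052214328507029863446909475543486300160) (.p (nat_lit 526) (.a (.f (nat_lit 525) (nat_lit 561) (nat_lit 525) (.f (nat_lit 496) (nat_lit 497) (nat_lit 2541) (.d (nat_lit 524) (nat_lit 495) (nat_lit 2540) (nat_lit 559) (nat_lit 524)))) (.a (.f (nat_lit 525) (nat_lit 561) (nat_lit 525) (.f (nat_lit 524) (nat_lit 559) (nat_lit 524) (.d (nat_lit 492) (nat_lit 491) (nat_lit 3563) (nat_lit 493) (nat_lit 3564)))) (.a s2600 (.a (.f (nat_lit 525) (nat_lit 561) (nat_lit 525) (.f (nat_lit 496) (nat_lit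 497) (nat_lit 2541) (.f (nat_lit 495) (nat_lit 524) (nat_lit 2540) (.d (nat_lit 463) (nat_lit 431) (nat_lit 4527) (nat_lit 592) (nat_lit 7631))))) (.p (nat_lit 529) (.a (.f (nat_lit 561) (nat_lit 562) (nat_lit 526) (.f (nat_lit 497) (nat_lit 498) (nat_lit 2542) (.d (nat_lit 465) (nat_lit 433) (nat_lit 5552) (nat_lit 592) (nat_lit 5584)))) (.a (.f (nat_lit 558) (nat_lit 557) (nat_lit 1549) (.f (nat_lit 530) (nat_lit 559) (nat_lit 1550) (.f (nat_lit 499) (nat_lit 498) (nat_lit 2543) (.f (nat_lit 531) (nat_lit 500) (nat_lit 2544) (.d (nat_lit 563) (nat_lit 562) (nat_lit 527) (nat_lit 564) (nat_lit 528)))))) (.a (.f (nat_lit 497) (nat_lit 498) (nat_lit 2542) (.f (nat_lit 592) (nat_lit 624) (nat_lit 6640) (.d (nat_lit 465) (nat_lit 433) (nat_lit 5552) (nat_lit 496) (nat_lit 6608)))) (.f (nat_lit 558) (nat_lit 557) (nat_lit 1549) (.f (nat_lit 530) (nat_lit 559) (nat_lit 1550) (.f (nat_lit 563) (nat_lit 562) (nat_lit 527) (.f (nat_lit 531)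 (nat_lit 564) (nat_lit 528) (.f (nat_lit 496) (nat_lit 495) (nat_lit 3567) (.f (nat_lit 497) (nat_lit 532) (nat_lit 3568) (.d (nat_lit 465) (nat_lit 433) (nat_lit 5552) (nat_lit 592) (nat_lit 6608)))))))))))))))))
noncomputable def s2682 : Cert := .r (nat_lit 3773962427896970703980067733300160448905385381753147442840407123654343792107272198248276636528565486557800015660592592403154009030555443256434490679465860718068940931072) (.p (nat_lit 496) (.a (.p (nat_lit 464) (.a (.f (nat_lit 431) (nat_lit 463) (nat_lit 7599) (.f (nat_lit 432) (nat_lit 399) (nat_lit 7567) (.d (nat_lit 433) (nat_lit 401) (nat_lit 6544) (nat_lit 465) (nat_lit 6576)))) (.a (.d (nat_lit 561) (nat_lit 432) (nat_lit 4528) (nat_lit 593) (nat_lit 4560)) (.f (nat_lit 561) (nat_lit 593) (nat_lit 4560) (.f (nat_lit 463) (nat_lit 431) (nat_lit 7599) (.f (nat_lit 592) (nat_lit 495) (nat_lit 7631) (.f (nat_lit 624) (nat_lit 656) (nat_lit 6672) (.d (nat_lit 623) (nat_lit 591)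 (nat_lit 5615) (nat_lit 655) (nat_lit 5647))))))))) (.a s576 (.a (.p (nat_lit 464) (.a (.f (nat_lit 431) (nat_lit 463) (nat_lit 7599) (.f (nat_lit 432) (nat_lit 399) (nat_lit 7567) (.d (nat_lit 433) (nat_lit 401) (nat_lit 6544) (nat_lit 465) (nat_lit 6576)))) (.a (.d (nat_lit 561) (nat_lit 432) (nat_lit 4528) (nat_lit 593) (nat_lit 4560)) (.f (nat_lit 561) (nat_lit 593) (nat_lit 4560) (.f (nat_lit 465) (nat_lit 433) (nat_lit 6576) (.f (nat_lit 463) (nat_lit 431) (nat_lit 7599) (.f (nat_lit 562) (nat_lit 563) (nat_lit 3599) (.f (nat_lit 497) (nat_lit 594) (nat_lit 4561) (.d (nat_lit 462) (nat_lit 461) (nat_lit 461) (nat_lit 498) (nat_lit 462)))))))))) (.a s1612 (.a (.p (nat_lit 464) (.a (.d (nat_lit 561) (nat_lit 432) (nat_lit 4528) (nat_lit 593) (nat_lit 4560)) (.a (.f (nat_lit 431) (nat_lit 463) (nat_lit 7599) (.f (nat_lit 432) (nat_lit 399) (nat_lit 7567) (.f (nat_lit 400) (nat_lit 495) (nat_lit 5519) (.d (nat_lit 401) (nat_lit 369)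 (nat_lit 6512) (nat_lit 433) (nat_lit 6544))))) (.f (nat_lit 561) (nat_lit 593) (nat_lit 4560) (.f (nat_lit 463) (nat_lit 431) (nat_lit 7599) (.f (nat_lit 592) (nat_lit 495) (nat_lit 7631) (.f (nat_lit 624) (nat_lit 656) (nat_lit 6672) (.d (nat_lit 623) (nat_lit 591) (nat_lit 5615) (nat_lit 655) (nat_lit 5647))))))))) (.p (nat_lit 464) (.a (.f (nat_lit 431) (nat_lit 463) (nat_lit 7599) (.f (nat_lit 432) (nat_lit 399) (nat_lit 7567) (.d (nat_lit 433) (nat_lit 401) (nat_lit 6544) (nat_lit 465) (nat_lit 6576)))) (.a (.f (nat_lit 431) (nat_lit 463) (nat_lit 7599) (.f (nat_lit 432) (nat_lit 399) (nat_lit 7567) (.f (nat_lit 400) (nat_lit 495) (nat_lit 5519) (.d (nat_lit 401) (nat_lit 369) (nat_lit 6512) (nat_lit 433) (nat_lit 6544))))) (.a (.f (nat_lit 463) (nat_lit 431) (nat_lit 7599) (.f (nat_lit 495) (nat_lit 592) (nat_lit 7631) (.f (nat_lit 494) (nat_lit 493) (nat_lit 493) (.d (nat_lit 465) (nat_lit 433) (nat_lit 6576) (nat_lit 466) (nat_lit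 1486))))) (.a (.f (nat_lit 433) (nat_lit 465) (nat_lit 6576) (.f (nat_lit 432) (nat_lit 401) (nat_lit 6544) (.f (nat_lit 399) (nat_lit 431) (nat_lit 7567) (.d (nat_lit 400) (nat_lit 367) (nat_lit 7535) (nat_lit 495) (nat_lit 5519))))) (.a (.f (nat_lit 431) (nat_lit 463) (nat_lit 7599) (.f (nat_lit 432) (nat_lit 399) (nat_lit 7567) (.d (nat_lit 400) (nat_lit 495) (nat_lit 5519) (nat_lit 497) (nat_lit 4496)))) (.f (nat_lit 433) (nat_lit 465) (nat_lit 6576) (.f (nat_lit 432) (nat_lit 401) (nat_lit 6544) (.f (nat_lit 495) (nat_lit 400) (nat_lit 5519) (.d (nat_lit 592) (nat_lit 463) (nat_lit 7631) (nat_lit 624) (nat_lit 7663)))))))))))))))))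
noncomputable def s2765 : Cert := .r (nat_lit 3773962426139582502986631646264793844340548718132172006003720938849361146555773143298476687185190218548467649586404736686934909373052214328507029863446909475543486300160) (.p (nat_lit 526) (.a (.f (nat_lit 525) (nat_lit 561) (nat_lit 525) (.f (nat_lit 524) (nat_lit 559) (nat_lit 524) (.d (nat_lit 492) (nat_lit 491) (nat_lit 3563) (nat_lit 493) (nat_lit 3564)))) (.a (.p (nat_lit 525) (.a (.f (nat_lit 524) (nat_lit 559) (nat_lit 524) (.d (nat_lit 492) (nat_lit 491) (nat_lit 3563) (nat_lit 493) (nat_lit 3564))) (.a (.f (nat_lit 493) (nat_lit 492) (nat_lit 3564) (.f (nat_lit 557) (nat_lit 556) (nat_lit 1548) (.d (nat_lit 529) (nat_lit 494) (nat_lit 3565) (nat_lit 558) (nat_lit 1549)))) (.f (nat_lit 524) (nat_lit 559) (nat_lit 524) (.d (nat_lit 556) (nat_lit 555) (nat_lit 1547) (nat_lit 557) (nat_lit 1548)))))) (.a (.f (nat_lit 525) (nat_lit 561) (nat_lit 525) (.f (nat_lit 493) (nat_lit 492) (nat_lit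 3564) (.f (nat_lit 557) (nat_lit 556) (nat_lit 1548) (.d (nat_lit 529) (nat_lit 494) (nat_lit 3565) (nat_lit 558) (nat_lit 1549))))) (.a (.p (nat_lit 529) (.a (.f (nat_lit 561) (nat_lit 562) (nat_lit 526) (.f (nat_lit 497) (nat_lit 498) (nat_lit 2542) (.d (nat_lit 465) (nat_lit 433) (nat_lit 5552) (nat_lit 592) (nat_lit 5584)))) (.f (nat_lit 558) (nat_lit 557) (nat_lit 1549) (.f (nat_lit 559) (nat_lit 530) (nat_lit 1550) (.f (nat_lit 494) (nat_lit 493) (nat_lit 3565) (.d (nat_lit 462) (nat_lit 430) (nat_lit 4526) (nat_lit 591) (nat_lit 4558))))))) (.f (nat_lit 561) (nat_lit 525) (nat_lit 525) (.d (nat_lit 562) (nat_lit 529) (nat_lit 526) (nat_lit 559) (nat_lit 3598))))))))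
noncomputable def s2785 : Cert := .r (nat_lit 3773962427896970704184654646293669315781209737804872389853947251532035341449977908754284998803857646238004396430961602225084426788527947694510569213583697783901973905408) (.p (nat_lit 592) (.a (.f (nat_lit 623) (nat_lit 591) (nat_lit 5615) (.f (nat_lit 624) (nat_lit 655) (nat_lit 5647) (.d (nat_lit 625) (nat_lit 593) (nat_lit 4592) (nat_lit 657) (nat_lit 4624)))) (.a (.f (nat_lit 497) (nat_lit 465) (nat_lit 6608) (.f (nat_lit 526) (nat_lit 525) (nat_lit 2541) (.f (nat_lit 562) (nat_lit 561) (nat_lit 526) (.f (nat_lit 563) (nat_lit 530) (nat_lit 527) (.f (nat_lit 593) (nat_lit 625) (nat_lit 4592) (.d (nat_lit 591) (nat_lit 594) (nat_lit 2607) (nat_lit 623) (nat_lit 5615))))))) (.a (.f (nat_lit 623) (nat_lit 591) (nat_lit 5615) (.f (nat_lit 624) (nat_lit 655) (nat_lit 5647) (.f (nat_lit 656) (nat_lit 561) (nat_lit 6672) (.d (nat_lit 657) (nat_lit 625) (nat_lit 4624) (nat_lit 689) (nat_lit 4656)))))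 (.d (nat_lit 497) (nat_lit 465) (nat_lit 6608) (nat_lit 624) (nat_lit 6640))))))
noncomputable def s2793 : Cert := .r (nat_lit 3773962427896970703980067733300160448905385381753147442840407123654343792107272198248276636528565486557800015660592592403154009030555443256434490679465860718068940931072) (.p (nat_lit 496) (.a (.p (nat_lit 561) (.a (.d (nat_lit 464) (nat_lit 432) (nat_lit 4528) (nat_lit 593) (nat_lit 4560)) (.d (nat_lit 526) (nat_lit 525) (nat_lit 525) (nat_lit 562) (nat_lit 526)))) (.a s947 (.a (.p (nat_lit 464) (.a (.f (nat_lit 431) (nat_lit 463) (nat_lit 7599) (.f (nat_lit 432) (nat_lit 399) (nat_lit 7567) (.d (nat_lit 433) (nat_lit 401) (nat_lit 6544) (nat_lit 465) (nat_lit 6576)))) (.a (.f (nat_lit 431) (nat_lit 463) (nat_lit 7599) (.f (nat_lit 432) (nat_lit 399) (nat_lit 7567) (.f (nat_lit 400) (nat_lit 497) (nat_lit 4496) (.d (nat_lit 401) (nat_lit 369) (nat_lit 6512) (nat_lit 433) (nat_lit 6544))))) (.a (.f (nat_lit 465)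 (nat_lit 433) (nat_lit 6576) (.f (nat_lit 592) (nat_lit 497) (nat_lit 6608) (.f (nat_lit 623) (nat_lit 591) (nat_lit 5615) (.f (nat_lit 624) (nat_lit 655) (nat_lit 5647) (.d (nat_lit 625) (nat_lit 593) (nat_lit 4592) (nat_lit 657) (nat_lit 4624)))))) (.f (nat_lit 431) (nat_lit 463) (nat_lit 7599) (.f (nat_lit 432) (nat_lit 399) (nat_lit 7567) (.f (nat_lit 497) (nat_lit 400) (nat_lit 4496) (.d (nat_lit 592) (nat_lit 465) (nat_lit 6608) (nat_lit 624) (nat_lit 6640))))))))) (.a s2785 (.p (nat_lit 526) (.a (.d (nat_lit 561) (nat_lit 525) (nat_lit 525) (nat_lit 562) (nat_lit 526)) (.a (.f (nat_lit 493) (nat_lit 494) (nat_lit 3565) (.f (nat_lit 525) (nat_lit 492) (nat_lit 3564) (.d (nat_lit 557) (nat_lit 556) (nat_lit 1548) (nat_lit 558) (nat_lit 1549)))) (.f (nat_lit 561) (nat_lit 562) (nat_lit 526) (.f (nat_lit 464) (nat_lit 432) (nat_lit 4528) (.f (nat_lit 465) (nat_lit 433) (nat_lit 6576) (.f (nat_lit 592) (nat_lit 497) (nat_lit 6608)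 (.f (nat_lit 624) (nat_lit 656) (nat_lit 6672) (.d (nat_lit 623) (nat_lit 591) (nat_lit 5615) (nat_lit 655) (nat_lit 5647)))))))))))))))
noncomputable def s2794 : Cert := .r (nat_lit 3773962426139582502986631646264793844340548718132172006003720938849361146555773143298476687185190218548467649586404736686934909373052214328507029863446909475543486300160) (.p (nat_lit 529) (.a (.p (nat_lit 526) (.a (.d (nat_lit 561) (nat_lit 525) (nat_lit 525) (nat_lit 562) (nat_lit 526)) (.a (.f (nat_lit 497) (nat_lit 498) (nat_lit 2542) (.f (nat_lit 496) (nat_lit 525) (nat_lit 2541) (.d (nat_lit 465) (nat_lit 433) (nat_lit 5552) (nat_lit 592) (nat_lit 6608)))) (.f (nat_lit 561) (nat_lit 562) (nat_lit 526) (.f (nat_lit 497) (nat_lit 498) (nat_lit 2542) (.d (nat_lit 465) (nat_lit 433) (nat_lit 5552) (nat_lit 592) (nat_lit 5584))))))) (.a (.p (nat_lit 526) (.a (.d (nat_lit 561) (nat_lit 525) (nat_lit 525) (nat_lit 562) (nat_lit 526)) (.a (.f (nat_lit 557)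 (nat_lit 558) (nat_lit 1549) (.f (nat_lit 525) (nat_lit 556) (nat_lit 1548) (.d (nat_lit 493) (nat_lit 492) (nat_lit 3564) (nat_lit 494) (nat_lit 3565)))) (.f (nat_lit 561) (nat_lit 562) (nat_lit 526) (.f (nat_lit 497) (nat_lit 498) (nat_lit 2542) (.d (nat_lit 465) (nat_lit 433) (nat_lit 5552) (nat_lit 592) (nat_lit 5584))))))) (.a s1641 (.a s1001 (.a (.p (nat_lit 526) (.a (.f (nat_lit 497) (nat_lit 498) (nat_lit 2542) (.f (nat_lit 496) (nat_lit 525) (nat_lit 2541) (.d (nat_lit 465) (nat_lit 433) (nat_lit 5552) (nat_lit 592) (nat_lit 6608)))) (.a (.f (nat_lit 557) (nat_lit 558) (nat_lit 1549) (.f (nat_lit 525) (nat_lit 556) (nat_lit 1548) (.d (nat_lit 493) (nat_lit 492) (nat_lit 3564) (nat_lit 494) (nat_lit 3565)))) (.f (nat_lit 497) (nat_lit 498) (nat_lit 2542) (.f (nat_lit 592) (nat_lit 624) (nat_lit 6640) (.d (nat_lit 465) (nat_lit 433) (nat_lit 5552) (nat_lit 496) (nat_lit 6608))))))) s2793))))))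
noncomputable def s2796 : Cert := .r (nat_lit 3773962426139582502986631646264793844340548718132172006003720938849361146555773143298476687185190218548467649586404736686934909373052214328507029863446909475543486300160) (.p (nat_lit 529) (.a (.p (nat_lit 530) (.a (.d (nat_lit 559) (nat_lit 531) (nat_lit 1551) (nat_lit 558) (nat_lit 1550)) (.f (nat_lit 562) (nat_lit 563) (nat_lit 527) (.f (nat_lit 561) (nat_lit 526) (nat_lit 526) (.f (nat_lit 498) (nat_lit 499) (nat_lit 2543) (.d (nat_lit 466) (nat_lit 434) (nat_lit 5553) (nat_lit 593) (nat_lit 5585))))))) (.a s735 (.a s1645 (.a s894 (.a s1001 (.a (.p (nat_lit 530) (.a (.d (nat_lit 559) (nat_lit 531) (nat_lit 1551) (nat_lit 558) (nat_lit 1550)) (.a (.f (nat_lit 558) (nat_lit 559) (nat_lit 1550) (.f (nat_lit 526) (nat_lit 557) (nat_lit 1549) (.f (nat_lit 493) (nat_lit 494) (nat_lit 3565) (.d (nat_lit 525) (nat_lit 492) (nat_lit 3564) (nat_lit 561) (nat_lit 525))))) (.f (nat_lit 499) (nat_lit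 498) (nat_lit 2543) (.f (nat_lit 531) (nat_lit 500) (nat_lit 2544) (.f (nat_lit 532) (nat_lit 561) (nat_lit 1552) (.d (nat_lit 564) (nat_lit 563) (nat_lit 528) (nat_lit 565) (nat_lit 529)))))))) (.a s1010 (.p (nat_lit 530) (.a (.d (nat_lit 559) (nat_lit 531) (nat_lit 1551) (nat_lit 558) (nat_lit 1550)) (.a (.f (nat_lit 562) (nat_lit 563) (nat_lit 527) (.f (nat_lit 526) (nat_lit 561) (nat_lit 526) (.f (nat_lit 493) (nat_lit 494) (nat_lit 3565) (.f (nat_lit 525) (nat_lit 492) (nat_lit 3564) (.d (nat_lit 557) (nat_lit 556) (nat_lit 1548) (nat_lit 558) (nat_lit 1549)))))) (.f (nat_lit 531) (nat_lit 559) (nat_lit 1551) (.d (nat_lit 563) (nat_lit 562) (nat_lit 527) (nat_lit 564) (nat_lit 528))))))))))))))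
noncomputable def s2798 : Cert := .r (nat_lit 3773962426139582502986631646264793844340548718132172006003720938849361146555773143298476687185190218548467649586404736686934909373052214328507029863446909475543486300160) (.p (nat_lit 526) (.a (.f (nat_lit 525) (nat_lit 561) (nat_lit 525) (.f (nat_lit 524) (nat_lit 559) (nat_lit 524) (.d (nat_lit 492) (nat_lit 491) (nat_lit 3563) (nat_lit 493) (nat_lit 3564)))) (.a (.p (nat_lit 525) (.a (.f (nat_lit 524) (nat_lit 559) (nat_lit 524) (.d (nat_lit 492) (nat_lit 491) (nat_lit 3563) (nat_lit 493) (nat_lit 3564))) (.a (.f (nat_lit 493) (nat_lit 492) (nat_lit 3564) (.f (nat_lit 557) (nat_lit 556) (nat_lit 1548) (.d (nat_lit 529) (nat_lit 494) (nat_lit 3565) (nat_lit 558) (nat_lit 1549)))) (.f (nat_lit 524) (nat_lit 559) (nat_lit 524) (.d (nat_lit 556) (nat_lit 555) (nat_lit 1547) (nat_lit 557) (nat_lit 1548)))))) (.a (.f (nat_lit 525) (nat_lit 561) (nat_lit 525) (.f (nat_lit 493) (nat_lit 492) (nat_lit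 3564) (.f (nat_lit 557) (nat_lit 556) (nat_lit 1548) (.d (nat_lit 529) (nat_lit 494) (nat_lit 3565) (nat_lit 558) (nat_lit 1549))))) (.a (.p (nat_lit 529) (.a (.f (nat_lit 497) (nat_lit 498) (nat_lit 2542) (.f (nat_lit 592) (nat_lit 624) (nat_lit 6640) (.d (nat_lit 465) (nat_lit 433) (nat_lit 5552) (nat_lit 496) (nat_lit 6608)))) (.f (nat_lit 558) (nat_lit 557) (nat_lit 1549) (.f (nat_lit 559) (nat_lit 530) (nat_lit 1550) (.f (nat_lit 494) (nat_lit 493) (nat_lit 3565) (.d (nat_lit 462) (nat_lit 430) (nat_lit 4526) (nat_lit 591) (nat_lit 4558))))))) (.f (nat_lit 525) (nat_lit 561) (nat_lit 525) (.f (nat_lit 557) (nat_lit 556) (nat_lit 1548) (.f (nat_lit 529) (nat_lit 558) (nat_lit 1549) (.d (nat_lit 497) (nat_lit 496) (nat_lit 2541) (nat_lit 498) (nat_lit 2542))))))))))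
noncomputable def s2806 : Cert := .r (nat_lit 3773962427896970703980067733300160448905385381753147442840407123654343792107272198248276636528565486557800015660592592403154009030555443256434490679465860718068940931072) (.p (nat_lit 530) (.a (.f (nat_lit 531) (nat_lit 559) (nat_lit 1551) (.d (nat_lit 563) (nat_lit 562) (nat_lit 527) (nat_lit 564) (nat_lit 528))) (.a (.f (nat_lit 563) (nat_lit 562) (nat_lit 527) (.f (nat_lit 531) (nat_lit 564) (nat_lit 528) (.f (nat_lit 532) (nat_lit 561) (nat_lit 1552) (.d (nat_lit 500) (nat_lit 499) (nat_lit 2544) (nat_lit 501) (nat_lit 2545))))) (.a (.f (nat_lit 562) (nat_lit 563) (nat_lit 527) (.f (nat_lit 526) (nat_lit 561) (nat_lit 526) (.f (nat_lit 493) (nat_lit 494) (nat_lit 3565) (.f (nat_lit 525) (nat_lit 492) (nat_lit 3564) (.f (nat_lit 524) (nat_lit 559) (nat_lit 524) (.d (nat_lit 556) (nat_lit 555) (nat_lit 1547) (nat_lit 557) (nat_lit 1548))))))) (.f (nat_lit 531) (nat_lit 559) (nat_lit 1551)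 (.f (nat_lit 532) (nat_lit 561) (nat_lit 1552) (.d (nat_lit 500) (nat_lit 499) (nat_lit 2544) (nat_lit 501) (nat_lit 2545))))))))
noncomputable def s2807 : Cert := .r (nat_lit 3773962426139582502986631646264793844340548718132172006003720938849361146555773143298476687185190218548467649586404736686934909373052214328507029863446909475543486300160) (.p (nat_lit 529) (.a (.p (nat_lit 530) (.a (.d (nat_lit 559) (nat_lit 531) (nat_lit 1551) (nat_lit 558) (nat_lit 1550)) (.a (.f (nat_lit 562) (nat_lit 563) (nat_lit 527) (.f (nat_lit 526) (nat_lit 561) (nat_lit 526) (.f (nat_lit 493) (nat_lit 494) (nat_lit 3565) (.f (nat_lit 525) (nat_lit 492) (nat_lit 3564) (.d (nat_lit 557) (nat_lit 556) (nat_lit 1548) (nat_lit 558) (nat_lit 1549)))))) (.f (nat_lit 531) (nat_lit 559) (nat_lit 1551) (.d (nat_lit 563) (nat_lit 562) (nat_lit 527) (nat_lit 564) (nat_lit 528)))))) (.a s558 (.a s1676 (.a s1305 (.a s2793 s2806))))))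
noncomputable def s2819 : Cert := .r (nat_lit 3773962426139582502986631646264793844340548718132172006003720938849361146555773143298476687185190218548467649586404736686934909373052214328507029863446909475543486300160) (.p (nat_lit 496) (.a (.p (nat_lit 561) (.a (.f (nat_lit 464) (nat_lit 593) (nat_lit 4560) (.f (nat_lit 432) (nat_lit 559) (nat_lit 5551) (.d (nat_lit 431) (nat_lit 399) (nat_lit 7567) (nat_lit 463) (nat_lit 7599)))) (.a (.f (nat_lit 526) (nat_lit 525) (nat_lit 525) (.d (nat_lit 562) (nat_lit 559) (nat_lit 3598) (nat_lit 563) (nat_lit 3599))) (.f (nat_lit 464) (nat_lit 593) (nat_lit 4560) (.f (nat_lit 431) (nat_lit 463) (nat_lit 7599) (.f (nat_lit 432) (nat_lit 399) (nat_lit 7567) (.d (nat_lit 433) (nat_lit 401) (nat_lit 6544) (nat_lit 465) (nat_lit 6576)))))))) (.a (.p (nat_lit 464) (.a (.f (nat_lit 561) (nat_lit 593) (nat_lit 4560) (.f (nat_lit 432) (nat_lit 529) (nat_lit 4528) (.d (nat_lit 431) (nat_lit 399) (nat_lit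 7567) (nat_lit 463) (nat_lit 7599)))) (.a (.f (nat_lit 433) (nat_lit 465) (nat_lit 6576) (.f (nat_lit 432) (nat_lit 401) (nat_lit 6544) (.d (nat_lit 431) (nat_lit 399) (nat_lit 7567) (nat_lit 463) (nat_lit 7599)))) (.a (.f (nat_lit 465) (nat_lit 433) (nat_lit 6576) (.f (nat_lit 497) (nat_lit 592) (nat_lit 6608) (.f (nat_lit 498) (nat_lit 499) (nat_lit 1519) (.d (nat_lit 463) (nat_lit 431) (nat_lit 7599) (nat_lit 462) (nat_lit 462))))) (.f (nat_lit 561) (nat_lit 593) (nat_lit 4560) (.f (nat_lit 432) (nat_lit 529) (nat_lit 4528) (.d (nat_lit 433) (nat_lit 401) (nat_lit 6544) (nat_lit 465) (nat_lit 6576)))))))) (.a (.p (nat_lit 464) (.a (.f (nat_lit 433) (nat_lit 465) (nat_lit 6576) (.f (nat_lit 432) (nat_lit 401) (nat_lit 6544) (.d (nat_lit 431) (nat_lit 399) (nat_lit 7567) (nat_lit 463) (nat_lit 7599)))) (.a (.f (nat_lit 432) (nat_lit 559) (nat_lit 5551) (.d (nat_lit 431) (nat_lit 399) (nat_lit 7567) (nat_lit 463) (nat_lit 7599))) (.a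 (.f (nat_lit 465) (nat_lit 433) (nat_lit 6576) (.f (nat_lit 497) (nat_lit 592) (nat_lit 6608) (.f (nat_lit 498) (nat_lit 499) (nat_lit 1519) (.d (nat_lit 463) (nat_lit 431) (nat_lit 7599) (nat_lit 462) (nat_lit 462))))) (.f (nat_lit 432) (nat_lit 559) (nat_lit 5551) (.d (nat_lit 433) (nat_lit 401) (nat_lit 6544) (nat_lit 465) (nat_lit 6576))))))) (.a (.p (nat_lit 497) (.a (.f (nat_lit 526) (nat_lit 525) (nat_lit 2541) (.d (nat_lit 498) (nat_lit 499) (nat_lit 1519) (nat_lit 529) (nat_lit 2542))) (.a (.f (nat_lit 592) (nat_lit 465) (nat_lit 6608) (.f (nat_lit 624) (nat_lit 529) (nat_lit 6640) (.d (nat_lit 625) (nat_lit 593) (nat_lit 4592) (nat_lit 657) (nat_lit 4624)))) (.f (nat_lit 592) (nat_lit 465) (nat_lit 6608) (.f (nat_lit 625) (nat_lit 593) (nat_lit 4592) (.f (nat_lit 624) (nat_lit 657) (nat_lit 4624) (.f (nat_lit 655) (nat_lit 623) (nat_lit 5647) (.d (nat_lit 656) (nat_lit 559) (nat_lit 7695) (nat_lit 687) (nat_lit 5679)))))))))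 (.p (nat_lit 561) (.a (.f (nat_lit 464) (nat_lit 593) (nat_lit 4560) (.d (nat_lit 432) (nat_lit 529) (nat_lit 4528) (nat_lit 559) (nat_lit 5551))) (.a (.f (nat_lit 526) (nat_lit 525) (nat_lit 525) (.d (nat_lit 562) (nat_lit 559) (nat_lit 3598) (nat_lit 563) (nat_lit 3599))) (.f (nat_lit 464) (nat_lit 593) (nat_lit 4560) (.f (nat_lit 529) (nat_lit 432) (nat_lit 4528) (.d (nat_lit 526) (nat_lit 525) (nat_lit 525) (nat_lit 562) (nat_lit 526))))))))))))
noncomputable def s2842 : Cert := .r (nat_lit 3773962426139582502986631646264793844340548718132172006003720938849361146555773143298476687185190218548467649586404736686934909373052214328507029863446909475543486300160) (.p (nat_lit 496) (.a (.p (nat_lit 561) (.a (.f (nat_lit 464) (nat_lit 593) (nat_lit 4560) (.d (nat_lit 559) (nat_lit 432) (nat_lit 5551) (nat_lit 591) (nat_lit 5583))) (.a (.f (nat_lit 526) (nat_lit 525) (nat_lit 525) (.d (nat_lit 562) (nat_lit 559) (nat_lit 3598) (nat_lit 563)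 (nat_lit 3599))) (.f (nat_lit 593) (nat_lit 464) (nat_lit 4560) (.d (nat_lit 625) (nat_lit 592) (nat_lit 4592) (nat_lit 657) (nat_lit 7696)))))) (.a (.p (nat_lit 464) (.a (.d (nat_lit 559) (nat_lit 432) (nat_lit 5551) (nat_lit 591) (nat_lit 5583)) (.a (.f (nat_lit 463) (nat_lit 431) (nat_lit 7599) (.f (nat_lit 592) (nat_lit 495) (nat_lit 7631) (.f (nat_lit 623) (nat_lit 591) (nat_lit 5615) (.f (nat_lit 624) (nat_lit 655) (nat_lit 5647) (.d (nat_lit 625) (nat_lit 593) (nat_lit 4592) (nat_lit 657) (nat_lit 4624)))))) (.f (nat_lit 432) (nat_lit 559) (nat_lit 5551) (.d (nat_lit 431) (nat_lit 399) (nat_lit 7567) (nat_lit 463) (nat_lit 7599)))))) (.a (.p (nat_lit 593) (.a (.f (nat_lit 592) (nat_lit 625) (nat_lit 4592) (.d (nat_lit 495) (nat_lit 463) (nat_lit 7631) (nat_lit 624) (nat_lit 7663))) (.a (.f (nat_lit 464) (nat_lit 561) (nat_lit 4560) (.f (nat_lit 431) (nat_lit 463) (nat_lit 7599) (.f (nat_lit 432) (nat_lit 399) (nat_lit 7567) (.f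 (nat_lit 400) (nat_lit 495) (nat_lit 5519) (.d (nat_lit 401) (nat_lit 369) (nat_lit 6512) (nat_lit 433) (nat_lit 6544)))))) (.f (nat_lit 561) (nat_lit 464) (nat_lit 4560) (.d (nat_lit 625) (nat_lit 592) (nat_lit 4592) (nat_lit 657) (nat_lit 7696)))))) (.a (.p (nat_lit 561) (.a (.f (nat_lit 464) (nat_lit 593) (nat_lit 4560) (.d (nat_lit 559) (nat_lit 432) (nat_lit 5551) (nat_lit 591) (nat_lit 5583))) (.a (.f (nat_lit 464) (nat_lit 593) (nat_lit 4560) (.f (nat_lit 431) (nat_lit 463) (nat_lit 7599) (.f (nat_lit 432) (nat_lit 399) (nat_lit 7567) (.f (nat_lit 400) (nat_lit 495) (nat_lit 5519) (.d (nat_lit 401) (nat_lit 369) (nat_lit 6512) (nat_lit 433) (nat_lit 6544)))))) (.f (nat_lit 526) (nat_lit 525) (nat_lit 525) (.d (nat_lit 562) (nat_lit 559) (nat_lit 3598) (nat_lit 563) (nat_lit 3599)))))) (.a s997 (.p (nat_lit 464) (.a (.d (nat_lit 559) (nat_lit 432) (nat_lit 5551) (nat_lit 591) (nat_lit 5583)) (.a (.f (nat_lit 431) (nat_lit 463)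 (nat_lit 7599) (.f (nat_lit 432) (nat_lit 399) (nat_lit 7567) (.f (nat_lit 400) (nat_lit 495) (nat_lit 5519) (.d (nat_lit 401) (nat_lit 369) (nat_lit 6512) (nat_lit 433) (nat_lit 6544))))) (.f (nat_lit 559) (nat_lit 591) (nat_lit 5583) (.f (nat_lit 463) (nat_lit 431) (nat_lit 7599) (.f (nat_lit 495) (nat_lit 592) (nat_lit 7631) (.f (nat_lit 462) (nat_lit 430) (nat_lit 7598) (.d (nat_lit 461) (nat_lit 460) (nat_lit 460) (nat_lit 497) (nat_lit 461)))))))))))))))
noncomputable def s2843 : Cert := .r (nat_lit 3773962426139582502986631646264793844340548718132172006003720938849361146555773143298476687185190218548467649586404736686934909373052214328507029863446909475543486300160) (.p (nat_lit 529) (.a (.p (nat_lit 530) (.a (.d (nat_lit 559) (nat_lit 531) (nat_lit 1551) (nat_lit 558) (nat_lit 1550)) (.a (.f (nat_lit 559) (nat_lit 558) (nat_lit 1550) (.f (nat_lit 495) (nat_lit 494) (nat_lit 3566) (.d (nat_lit 463) (nat_lit 431) (nat_lit 4527)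 (nat_lit 592) (nat_lit 4559)))) (.f (nat_lit 495) (nat_lit 494) (nat_lit 3566) (.f (nat_lit 496) (nat_lit 531) (nat_lit 3567) (.d (nat_lit 463) (nat_lit 431) (nat_lit 4527) (nat_lit 592) (nat_lit 7631))))))) (.a s476 (.a (.p (nat_lit 530) (.a (.f (nat_lit 495) (nat_lit 494) (nat_lit 3566) (.f (nat_lit 496) (nat_lit 531) (nat_lit 3567) (.d (nat_lit 463) (nat_lit 431) (nat_lit 4527) (nat_lit 592) (nat_lit 7631)))) (.a (.f (nat_lit 499) (nat_lit 498) (nat_lit 2543) (.f (nat_lit 531) (nat_lit 500) (nat_lit 2544) (.f (nat_lit 532) (nat_lit 561) (nat_lit 1552) (.d (nat_lit 564) (nat_lit 563) (nat_lit 528) (nat_lit 565) (nat_lit 529))))) (.f (nat_lit 495) (nat_lit 494) (nat_lit 3566) (.f (nat_lit 592) (nat_lit 624) (nat_lit 7663) (.d (nat_lit 463) (nat_lit 431) (nat_lit 4527) (nat_lit 496) (nat_lit 7631))))))) (.a s180 (.a (.p (nat_lit 530) (.a (.d (nat_lit 559) (nat_lit 531) (nat_lit 1551) (nat_lit 558) (nat_lit 1550)) (.a (.f (nat_lit 558)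 (nat_lit 559) (nat_lit 1550) (.f (nat_lit 526) (nat_lit 557) (nat_lit 1549) (.f (nat_lit 493) (nat_lit 494) (nat_lit 3565) (.d (nat_lit 525) (nat_lit 492) (nat_lit 3564) (nat_lit 561) (nat_lit 525))))) (.f (nat_lit 499) (nat_lit 498) (nat_lit 2543) (.f (nat_lit 531) (nat_lit 500) (nat_lit 2544) (.f (nat_lit 532) (nat_lit 561) (nat_lit 1552) (.d (nat_lit 564) (nat_lit 563) (nat_lit 528) (nat_lit 565) (nat_lit 529)))))))) (.p (nat_lit 530) (.a (.d (nat_lit 559) (nat_lit 531) (nat_lit 1551) (nat_lit 558) (nat_lit 1550)) (.a (.f (nat_lit 499) (nat_lit 498) (nat_lit 2543) (.f (nat_lit 531) (nat_lit 500) (nat_lit 2544) (.f (nat_lit 532) (nat_lit 561) (nat_lit 1552) (.d (nat_lit 564) (nat_lit 563) (nat_lit 528) (nat_lit 565) (nat_lit 529))))) (.f (nat_lit 559) (nat_lit 558) (nat_lit 1550) (.f (nat_lit 498) (nat_lit 499) (nat_lit 2543) (.f (nat_lit 526) (nat_lit 497) (nat_lit 2542) (.d (nat_lit 525) (nat_lit 524) (nat_lit 524) (nat_lit 561)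 (nat_lit 525))))))))))))))
noncomputable def s2844 : Cert := .r (nat_lit 3773962426139582502986631646264793844340548718132172006003720938849361146555773143298476687185190218548467649586404736686934909373052214328507029863446909475543486300160) (.p (nat_lit 529) (.a (.p (nat_lit 530) (.a (.f (nat_lit 495) (nat_lit 494) (nat_lit 3566) (.f (nat_lit 496) (nat_lit 531) (nat_lit 3567) (.d (nat_lit 463) (nat_lit 431) (nat_lit 4527) (nat_lit 592) (nat_lit 7631)))) (.f (nat_lit 562) (nat_lit 563) (nat_lit 527) (.f (nat_lit 561) (nat_lit 526) (nat_lit 526) (.f (nat_lit 498) (nat_lit 499) (nat_lit 2543) (.d (nat_lit 466) (nat_lit 434) (nat_lit 5553) (nat_lit 593) (nat_lit 5585))))))) (.a s875 (.a s743 (.a (.p (nat_lit 530) (.a (.f (nat_lit 495) (nat_lit 494) (nat_lit 3566) (.f (nat_lit 496) (nat_lit 531) (nat_lit 3567) (.d (nat_lit 463) (nat_lit 431) (nat_lit 4527) (nat_lit 592) (nat_lit 7631)))) (.a (.f (nat_lit 563) (nat_lit 562) (nat_lit 527)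 (.f (nat_lit 531) (nat_lit 564) (nat_lit 528) (.d (nat_lit 499) (nat_lit 498) (nat_lit 2543) (nat_lit 500) (nat_lit 2544)))) (.f (nat_lit 495) (nat_lit 494) (nat_lit 3566) (.f (nat_lit 592) (nat_lit 624) (nat_lit 7663) (.d (nat_lit 463) (nat_lit 431) (nat_lit 4527) (nat_lit 496) (nat_lit 7631))))))) (.a s1010 (.a (.p (nat_lit 530) (.a (.f (nat_lit 495) (nat_lit 494) (nat_lit 3566) (.f (nat_lit 496) (nat_lit 531) (nat_lit 3567) (.d (nat_lit 463) (nat_lit 431) (nat_lit 4527) (nat_lit 592) (nat_lit 7631)))) (.a (.f (nat_lit 499) (nat_lit 498) (nat_lit 2543) (.f (nat_lit 531) (nat_lit 500) (nat_lit 2544) (.f (nat_lit 532) (nat_lit 561) (nat_lit 1552) (.d (nat_lit 564) (nat_lit 563) (nat_lit 528) (nat_lit 565) (nat_lit 529))))) (.f (nat_lit 495) (nat_lit 494) (nat_lit 3566) (.f (nat_lit 592) (nat_lit 624) (nat_lit 7663) (.d (nat_lit 463) (nat_lit 431) (nat_lit 4527) (nat_lit 496) (nat_lit 7631))))))) (.p (nat_lit 530) (.a (.f (nat_lit 495)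 (nat_lit 494) (nat_lit 3566) (.f (nat_lit 496) (nat_lit 531) (nat_lit 3567) (.d (nat_lit 463) (nat_lit 431) (nat_lit 4527) (nat_lit 592) (nat_lit 7631)))) (.a (.f (nat_lit 562) (nat_lit 563) (nat_lit 527) (.f (nat_lit 526) (nat_lit 561) (nat_lit 526) (.d (nat_lit 494) (nat_lit 493) (nat_lit 3565) (nat_lit 495) (nat_lit 3566)))) (.f (nat_lit 531) (nat_lit 559) (nat_lit 1551) (.d (nat_lit 563) (nat_lit 562) (nat_lit 527) (nat_lit 564) (nat_lit 528)))))))))))))
noncomputable def s2845 : Cert := .r (nat_lit 3773962426139582502986631646264793844340548718132172006003720938849361146555773143298476687185190218548467649586404736686934909373052214328507029863446909475543486300160) (.p (nat_lit 529) (.a (.p (nat_lit 530) (.a (.d (nat_lit 559) (nat_lit 531) (nat_lit 1551) (nat_lit 558) (nat_lit 1550)) (.a (.f (nat_lit 559) (nat_lit 558) (nat_lit 1550) (.f (nat_lit 495) (nat_lit 494) (nat_lit 3566) (.d (nat_lit 463) (nat_lit 431) (nat_lit 4527) (nat_lit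 592) (nat_lit 4559)))) (.f (nat_lit 495) (nat_lit 494) (nat_lit 3566) (.f (nat_lit 496) (nat_lit 531) (nat_lit 3567) (.d (nat_lit 463) (nat_lit 431) (nat_lit 4527) (nat_lit 592) (nat_lit 7631))))))) (.a (.p (nat_lit 530) (.a (.d (nat_lit 559) (nat_lit 531) (nat_lit 1551) (nat_lit 558) (nat_lit 1550)) (.a (.f (nat_lit 559) (nat_lit 558) (nat_lit 1550) (.f (nat_lit 495) (nat_lit 494) (nat_lit 3566) (.d (nat_lit 463) (nat_lit 431) (nat_lit 4527) (nat_lit 592) (nat_lit 4559)))) (.f (nat_lit 562) (nat_lit 563) (nat_lit 527) (.f (nat_lit 561) (nat_lit 526) (nat_lit 526) (.f (nat_lit 498) (nat_lit 499) (nat_lit 2543) (.d (nat_lit 466) (nat_lit 434) (nat_lit 5553) (nat_lit 593) (nat_lit 5585)))))))) (.a s752 (.a (.p (nat_lit 530) (.a (.f (nat_lit 495) (nat_lit 494) (nat_lit 3566) (.f (nat_lit 496) (nat_lit 531) (nat_lit 3567) (.d (nat_lit 463) (nat_lit 431) (nat_lit 4527) (nat_lit 592) (nat_lit 7631)))) (.f (nat_lit 562) (nat_lit 563) (nat_lit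 527) (.f (nat_lit 561) (nat_lit 526) (nat_lit 526) (.f (nat_lit 498) (nat_lit 499) (nat_lit 2543) (.d (nat_lit 466) (nat_lit 434) (nat_lit 5553) (nat_lit 593) (nat_lit 5585))))))) (.p (nat_lit 530) (.a (.d (nat_lit 559) (nat_lit 531) (nat_lit 1551) (nat_lit 558) (nat_lit 1550)) (.f (nat_lit 562) (nat_lit 563) (nat_lit 527) (.f (nat_lit 561) (nat_lit 526) (nat_lit 526) (.f (nat_lit 498) (nat_lit 499) (nat_lit 2543) (.d (nat_lit 466) (nat_lit 434) (nat_lit 5553) (nat_lit 593) (nat_lit 5585))))))))))))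
noncomputable def s2846 : Cert := .r (nat_lit 3773962426139582502986631646264793844340548718132172006003720938849361146555773143298476687185190218548467649586404736686934909373052214328507029863446909475543486300160) (.p (nat_lit 529) (.a (.p (nat_lit 530) (.a (.d (nat_lit 559) (nat_lit 531) (nat_lit 1551) (nat_lit 558) (nat_lit 1550)) (.a (.f (nat_lit 559) (nat_lit 558) (nat_lit 1550) (.f (nat_lit 495) (nat_lit 494) (nat_lit 3566) (.d (nat_lit 463) (nat_lit 431) (nat_lit 4527) (nat_lit 592) (nat_lit 4559)))) (.f (nat_lit 495) (nat_lit 494) (nat_lit 3566) (.f (nat_lit 496) (nat_lit 531) (nat_lit 3567) (.d (nat_lit 463) (nat_lit 431) (nat_lit 4527) (nat_lit 592) (nat_lit 7631))))))) (.a s476 (.a s528 (.a s180 (.a s735 (.a s743 s744)))))))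
noncomputable def s2853 : Cert := .r (nat_lit 3773962426139582502986631646264793844340548718132172006003720938849361146555773143298476687185190218548467649586404736686934909373052214328507029863446909475543486300160) (.p (nat_lit 592) (.a (.f (nat_lit 624) (nat_lit 495) (nat_lit 7663) (.f (nat_lit 656) (nat_lit 559) (nat_lit 7695) (.d (nat_lit 655) (nat_lit 623) (nat_lit 5647) (nat_lit 687) (nat_lit 5679)))) (.a (.f (nat_lit 624) (nat_lit 495) (nat_lit 7663) (.f (nat_lit 657) (nat_lit 625) (nat_lit 4624) (.f (nat_lit 656) (nat_lit 689) (nat_lit 4656) (.d (nat_lit 655) (nat_lit 623) (nat_lit 5647) (nat_lit 687) (nat_lit 5679))))) (.a s1345 (.a (.p (nat_lit 496) (.a (.f (nat_lit 497) (nat_lit 465) (nat_lit 6608) (.f (nat_lit 526) (nat_lit 525) (nat_lit 2541) (.d (nat_lit 495) (nat_lit 463) (nat_lit 7631) (nat_lit 498) (nat_lit 1518)))) (.a (.f (nat_lit 591) (nat_lit 623) (nat_lit 5615) (.f (nat_lit 464) (nat_lit 559) (nat_lit 5583) (.f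 (nat_lit 431) (nat_lit 463) (nat_lit 7599) (.f (nat_lit 432) (nat_lit 399) (nat_lit 7567) (.d (nat_lit 433) (nat_lit 401) (nat_lit 6544) (nat_lit 465) (nat_lit 6576)))))) (.a (.f (nat_lit 495) (nat_lit 463) (nat_lit 7631) (.f (nat_lit 591) (nat_lit 623) (nat_lit 5615) (.f (nat_lit 559) (nat_lit 464) (nat_lit 5583) (.f (nat_lit 590) (nat_lit 622) (nat_lit 5614) (.d (nat_lit 561) (nat_lit 562) (nat_lit 1582) (nat_lit 589) (nat_lit 2605)))))) (.f (nat_lit 591) (nat_lit 623) (nat_lit 5615) (.f (nat_lit 464) (nat_lit 559) (nat_lit 5583) (.d (nat_lit 465) (nat_lit 433) (nat_lit 6576) (nat_lit 497) (nat_lit 6608)))))))) (.f (nat_lit 624) (nat_lit 495) (nat_lit 7663) (.f (nat_lit 656) (nat_lit 559) (nat_lit 7695) (.d (nat_lit 657) (nat_lit 625) (nat_lit 4624) (nat_lit 689) (nat_lit 4656)))))))))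
noncomputable def s2855 : Cert := .r (nat_lit 3773962426139582502986631646264793844340548718132172006003720938849361146555773143298476687185190218548467649586404736686934909373052214328507029863446909475543486300160) (.p (nat_lit 529) (.a (.p (nat_lit 530) (.a (.d (nat_lit 559) (nat_lit 531) (nat_lit 1551) (nat_lit 558) (nat_lit 1550)) (.a (.f (nat_lit 559) (nat_lit 558) (nat_lit 1550) (.f (nat_lit 495) (nat_lit 494) (nat_lit 3566) (.d (nat_lit 463) (nat_lit 431) (nat_lit 4527) (nat_lit 592) (nat_lit 4559)))) (.f (nat_lit 495) (nat_lit 494) (nat_lit 3566) (.f (nat_lit 496) (nat_lit 531) (nat_lit 3567) (.d (nat_lit 463) (nat_lit 431) (nat_lit 4527) (nat_lit 592) (nat_lit 7631))))))) (.a (.p (nat_lit 530) (.a (.d (nat_lit 559) (nat_lit 531) (nat_lit 1551) (nat_lit 558) (nat_lit 1550)) (.a (.f (nat_lit 559) (nat_lit 558) (nat_lit 1550) (.f (nat_lit 495) (nat_lit 494) (nat_lit 3566) (.d (nat_lit 463) (nat_lit 431) (nat_lit 4527) (nat_lit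 592) (nat_lit 4559)))) (.f (nat_lit 562) (nat_lit 563) (nat_lit 527) (.f (nat_lit 526) (nat_lit 561) (nat_lit 526) (.d (nat_lit 494) (nat_lit 493) (nat_lit 3565) (nat_lit 495) (nat_lit 3566))))))) (.a s476 (.a s528 (.a (.p (nat_lit 530) (.a (.d (nat_lit 559) (nat_lit 531) (nat_lit 1551) (nat_lit 558) (nat_lit 1550)) (.f (nat_lit 562) (nat_lit 563) (nat_lit 527) (.f (nat_lit 526) (nat_lit 561) (nat_lit 526) (.d (nat_lit 494) (nat_lit 493) (nat_lit 3565) (nat_lit 495) (nat_lit 3566)))))) (.a (.p (nat_lit 530) (.a (.d (nat_lit 559) (nat_lit 531) (nat_lit 1551) (nat_lit 558) (nat_lit 1550)) (.a (.f (nat_lit 562) (nat_lit 563) (nat_lit 527) (.f (nat_lit 526) (nat_lit 561) (nat_lit 526) (.f (nat_lit 493) (nat_lit 494) (nat_lit 3565) (.f (nat_lit 525) (nat_lit 492) (nat_lit 3564) (.d (nat_lit 557) (nat_lit 556) (nat_lit 1548) (nat_lit 558) (nat_lit 1549)))))) (.f (nat_lit 531) (nat_lit 559) (nat_lit 1551) (.d (nat_lit 563) (nat_lit 562) (nat_lit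 527) (nat_lit 564) (nat_lit 528)))))) (.a (.p (nat_lit 530) (.a (.f (nat_lit 495) (nat_lit 494) (nat_lit 3566) (.f (nat_lit 496) (nat_lit 531) (nat_lit 3567) (.d (nat_lit 463) (nat_lit 431) (nat_lit 4527) (nat_lit 592) (nat_lit 7631)))) (.a (.f (nat_lit 562) (nat_lit 563) (nat_lit 527) (.f (nat_lit 526) (nat_lit 561) (nat_lit 526) (.d (nat_lit 494) (nat_lit 493) (nat_lit 3565) (nat_lit 495) (nat_lit 3566)))) (.f (nat_lit 531) (nat_lit 559) (nat_lit 1551) (.d (nat_lit 563) (nat_lit 562) (nat_lit 527) (nat_lit 564) (nat_lit 528)))))) (.p (nat_lit 530) (.a (.d (nat_lit 559) (nat_lit 531) (nat_lit 1551) (nat_lit 558) (nat_lit 1550)) (.a (.f (nat_lit 563) (nat_lit 562) (nat_lit 527) (.f (nat_lit 531) (nat_lit 564) (nat_lit 528) (.f (nat_lit 532) (nat_lit 561) (nat_lit 1552) (.d (nat_lit 500) (nat_lit 499) (nat_lit 2544) (nat_lit 501) (nat_lit 2545))))) (.f (nat_lit 559) (nat_lit 558) (nat_lit 1550) (.f (nat_lit 562) (nat_lit 563) (nat_lit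 527) (.f (nat_lit 561) (nat_lit 526) (nat_lit 526) (.f (nat_lit 591) (nat_lit 590) (nat_lit 1582) (.d (nat_lit 496) (nat_lit 464) (nat_lit 5583) (nat_lit 623) (nat_lit 6639)))))))))))))))))
noncomputable def s2869 : Cert := .r (nat_lit 3773962427896970703980067733300160448905385381753147442840407123654343792107272198248276636528565486557800015660592592403154009030555443256434490679465860718068940931072) (.p (nat_lit 496) (.a (.p (nat_lit 561) (.a (.d (nat_lit 464) (nat_lit 432) (nat_lit 4528) (nat_lit 593) (nat_lit 4560)) (.d (nat_lit 526) (nat_lit 525) (nat_lit 525) (nat_lit 562) (nat_lit 526)))) (.a (.p (nat_lit 464) (.a (.f (nat_lit 431) (nat_lit 463) (nat_lit 7599) (.f (nat_lit 432) (nat_lit 399) (nat_lit 7567) (.d (nat_lit 433) (nat_lit 401) (nat_lit 6544) (nat_lit 465) (nat_lit 6576)))) (.a (.d (nat_lit 561) (nat_lit 432) (nat_lit 4528) (nat_lit 593) (nat_lit 4560)) (.f (nat_lit 561) (nat_lit 593) (nat_lit 4560) (.f (nat_lit 463)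 (nat_lit 431) (nat_lit 7599) (.f (nat_lit 592) (nat_lit 495) (nat_lit 7631) (.f (nat_lit 624) (nat_lit 656) (nat_lit 6672) (.d (nat_lit 623) (nat_lit 591) (nat_lit 5615) (nat_lit 655) (nat_lit 5647))))))))) (.a s900 (.a s2785 (.p (nat_lit 530) (.a (.f (nat_lit 563) (nat_lit 562) (nat_lit 527) (.f (nat_lit 531) (nat_lit 564) (nat_lit 528) (.f (nat_lit 500) (nat_lit 499) (nat_lit 2544) (.d (nat_lit 532) (nat_lit 497) (nat_lit 3568) (nat_lit 501) (nat_lit 2545))))) (.a (.f (nat_lit 495) (nat_lit 531) (nat_lit 3567) (.d (nat_lit 463) (nat_lit 431) (nat_lit 4527) (nat_lit 592) (nat_lit 7631))) (.f (nat_lit 562) (nat_lit 563) (nat_lit 527) (.f (nat_lit 526) (nat_lit 561) (nat_lit 526) (.f (nat_lit 497) (nat_lit 525) (nat_lit 2541) (.d (nat_lit 465) (nat_lit 433) (nat_lit 4529) (nat_lit 592) (nat_lit 6608)))))))))))))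
noncomputable def s2870 : Cert := .r (nat_lit 3773962426139582502986631646264793844340548718132172006003720938849361146555773143298476687185190218548467649586404736686934909373052214328507029863446909475543486300160) (.p (nat_lit 529) (.a s197 (.a (.p (nat_lit 526) (.a (.d (nat_lit 561) (nat_lit 525) (nat_lit 525) (nat_lit 562) (nat_lit 526)) (.a (.f (nat_lit 557) (nat_lit 558) (nat_lit 1549) (.f (nat_lit 525) (nat_lit 556) (nat_lit 1548) (.d (nat_lit 493) (nat_lit 492) (nat_lit 3564) (nat_lit 494) (nat_lit 3565)))) (.f (nat_lit 494) (nat_lit 493) (nat_lit 3565) (.f (nat_lit 495) (nat_lit 530) (nat_lit 3566) (.f (nat_lit 558) (nat_lit 557) (nat_lit 1549) (.d (nat_lit 463) (nat_lit 431) (nat_lit 5550) (nat_lit 590) (nat_lit 6606)))))))) (.a s528 (.a (.p (nat_lit 530) (.a (.f (nat_lit 495) (nat_lit 494) (nat_lit 3566) (.f (nat_lit 496) (nat_lit 531) (nat_lit 3567) (.d (nat_lit 463) (nat_lit 431) (nat_lit 4527) (nat_lit 592) (nat_lit 7631))))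 (.a (.f (nat_lit 563) (nat_lit 562) (nat_lit 527) (.f (nat_lit 531) (nat_lit 564) (nat_lit 528) (.f (nat_lit 532) (nat_lit 561) (nat_lit 1552) (.d (nat_lit 500) (nat_lit 499) (nat_lit 2544) (nat_lit 501) (nat_lit 2545))))) (.f (nat_lit 495) (nat_lit 494) (nat_lit 3566) (.f (nat_lit 592) (nat_lit 624) (nat_lit 7663) (.d (nat_lit 463) (nat_lit 431) (nat_lit 4527) (nat_lit 496) (nat_lit 7631))))))) (.a s1331 (.a s2793 (.a s2869 s2593))))))))
noncomputable def s2873 : Cert := .r (nat_lit 3773962426139582502986631646264793844340548718132172006003720938849361146555773143298476687185190218548467649586404736686934909373052214328507029863446909475543486300160) (.p (nat_lit 529) (.a (.p (nat_lit 530) (.a (.d (nat_lit 559) (nat_lit 531) (nat_lit 1551) (nat_lit 558) (nat_lit 1550)) (.a (.f (nat_lit 559) (nat_lit 558) (nat_lit 1550) (.f (nat_lit 495) (nat_lit 494) (nat_lit 3566) (.d (nat_lit 463) (nat_lit 431) (nat_lit 4527) (nat_lit 592) (nat_lit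 4559)))) (.f (nat_lit 495) (nat_lit 494) (nat_lit 3566) (.f (nat_lit 496) (nat_lit 531) (nat_lit 3567) (.d (nat_lit 463) (nat_lit 431) (nat_lit 4527) (nat_lit 592) (nat_lit 7631))))))) (.a s476 (.a s1331 (.a s1305 (.a (.p (nat_lit 530) (.a (.f (nat_lit 495) (nat_lit 494) (nat_lit 3566) (.f (nat_lit 496) (nat_lit 531) (nat_lit 3567) (.d (nat_lit 463) (nat_lit 431) (nat_lit 4527) (nat_lit 592) (nat_lit 7631)))) (.a (.f (nat_lit 531) (nat_lit 559) (nat_lit 1551) (.f (nat_lit 532) (nat_lit 561) (nat_lit 1552) (.d (nat_lit 500) (nat_lit 499) (nat_lit 2544) (nat_lit 501) (nat_lit 2545)))) (.f (nat_lit 495) (nat_lit 494) (nat_lit 3566) (.f (nat_lit 592) (nat_lit 624) (nat_lit 7663) (.d (nat_lit 463) (nat_lit 431) (nat_lit 4527) (nat_lit 496) (nat_lit 7631))))))) (.p (nat_lit 496) (.a (.p (nat_lit 464) (.a (.d (nat_lit 559) (nat_lit 432) (nat_lit 5551) (nat_lit 591) (nat_lit 5583)) (.a (.f (nat_lit 431) (nat_lit 463) (nat_lit 7599) (.f (nat_lit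 432) (nat_lit 399) (nat_lit 7567) (.d (nat_lit 433) (nat_lit 401) (nat_lit 6544) (nat_lit 465) (nat_lit 6576)))) (.f (nat_lit 559) (nat_lit 591) (nat_lit 5583) (.f (nat_lit 463) (nat_lit 431) (nat_lit 7599) (.f (nat_lit 495) (nat_lit 592) (nat_lit 7631) (.d (nat_lit 558) (nat_lit 557) (nat_lit 2573) (nat_lit 590) (nat_lit 5582)))))))) (.a (.p (nat_lit 464) (.a (.f (nat_lit 431) (nat_lit 463) (nat_lit 7599) (.f (nat_lit 432) (nat_lit 399) (nat_lit 7567) (.d (nat_lit 433) (nat_lit 401) (nat_lit 6544) (nat_lit 465) (nat_lit 6576)))) (.a (.d (nat_lit 561) (nat_lit 432) (nat_lit 4528) (nat_lit 593) (nat_lit 4560)) (.f (nat_lit 561) (nat_lit 593) (nat_lit 4560) (.f (nat_lit 463) (nat_lit 431) (nat_lit 7599) (.f (nat_lit 592) (nat_lit 495) (nat_lit 7631) (.f (nat_lit 624) (nat_lit 656) (nat_lit 6672) (.d (nat_lit 623) (nat_lit 591) (nat_lit 5615) (nat_lit 655) (nat_lit 5647))))))))) (.a (.p (nat_lit 464) (.a (.d (nat_lit 559) (nat_lit 432)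 (nat_lit 5551) (nat_lit 591) (nat_lit 5583)) (.a (.f (nat_lit 431) (nat_lit 463) (nat_lit 7599) (.f (nat_lit 432) (nat_lit 399) (nat_lit 7567) (.d (nat_lit 433) (nat_lit 401) (nat_lit 6544) (nat_lit 465) (nat_lit 6576)))) (.f (nat_lit 559) (nat_lit 591) (nat_lit 5583) (.f (nat_lit 561) (nat_lit 593) (nat_lit 4560) (.f (nat_lit 558) (nat_lit 557) (nat_lit 2573) (.f (nat_lit 463) (nat_lit 431) (nat_lit 7599) (.d (nat_lit 590) (nat_lit 495) (nat_lit 5582) (nat_lit 589) (nat_lit 1581))))))))) (.a (.p (nat_lit 464) (.a (.d (nat_lit 559) (nat_lit 432) (nat_lit 5551) (nat_lit 591) (nat_lit 5583)) (.a (.f (nat_lit 431) (nat_lit 463) (nat_lit 7599) (.f (nat_lit 432) (nat_lit 399) (nat_lit 7567) (.d (nat_lit 433) (nat_lit 401) (nat_lit 6544) (nat_lit 465) (nat_lit 6576)))) (.f (nat_lit 591) (nat_lit 559) (nat_lit 5583) (.f (nat_lit 592) (nat_lit 623) (nat_lit 5615) (.d (nat_lit 593) (nat_lit 561) (nat_lit 4560) (nat_lit 625) (nat_lit 4592)))))))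 (.a (.p (nat_lit 592) (.a (.d (nat_lit 495) (nat_lit 463) (nat_lit 7631) (nat_lit 624) (nat_lit 7663)) (.a (.f (nat_lit 623) (nat_lit 591) (nat_lit 5615) (.f (nat_lit 624) (nat_lit 655) (nat_lit 5647) (.d (nat_lit 625) (nat_lit 593) (nat_lit 4592) (nat_lit 657) (nat_lit 4624)))) (.f (nat_lit 495) (nat_lit 463) (nat_lit 7631) (.f (nat_lit 530) (nat_lit 531) (nat_lit 3567) (.f (nat_lit 558) (nat_lit 559) (nat_lit 1550) (.f (nat_lit 557) (nat_lit 526) (nat_lit 1549) (.f (nat_lit 591) (nat_lit 623) (nat_lit 5615) (.d (nat_lit 593) (nat_lit 590) (nat_lit 3629) (nat_lit 625) (nat_lit 4592)))))))))) (.a (.p (nat_lit 464) (.a (.d (nat_lit 559) (nat_lit 432) (nat_lit 5551) (nat_lit 591) (nat_lit 5583)) (.a (.d (nat_lit 561) (nat_lit 432) (nat_lit 4528) (nat_lit 593) (nat_lit 4560)) (.f (nat_lit 591) (nat_lit 559) (nat_lit 5583) (.f (nat_lit 592) (nat_lit 623) (nat_lit 5615) (.d (nat_lit 593) (nat_lit 561) (nat_lit 4560) (nat_lit 625) (nat_lit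 4592))))))) (.p (nat_lit 464) (.a (.d (nat_lit 561) (nat_lit 432) (nat_lit 4528) (nat_lit 593) (nat_lit 4560)) (.a (.f (nat_lit 431) (nat_lit 463) (nat_lit 7599) (.f (nat_lit 432) (nat_lit 399) (nat_lit 7567) (.f (nat_lit 400) (nat_lit 495) (nat_lit 5519) (.d (nat_lit 401) (nat_lit 369) (nat_lit 6512) (nat_lit 433) (nat_lit 6544))))) (.f (nat_lit 561) (nat_lit 593) (nat_lit 4560) (.f (nat_lit 463) (nat_lit 431) (nat_lit 7599) (.f (nat_lit 592) (nat_lit 495) (nat_lit 7631) (.d (nat_lit 624) (nat_lit 497) (nat_lit 6640) (nat_lit 656) (nat_lit 6672)))))))))))))))))))))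
noncomputable def s2874 : Cert := .r (nat_lit 3773962426139582502986631646264793844340548718132172006003720938849361146555773143298476687185190218548467649586404736686934909373052214328507029863446909475543486300160) (.p (nat_lit 529) (.a (.p (nat_lit 530) (.a (.f (nat_lit 495) (nat_lit 494) (nat_lit 3566) (.f (nat_lit 496) (nat_lit 531) (nat_lit 3567) (.d (nat_lit 463) (nat_lit 431) (nat_lit 4527) (nat_lit 592) (nat_lit 7631)))) (.a (.f (nat_lit 562) (nat_lit 563) (nat_lit 527) (.f (nat_lit 526) (nat_lit 561) (nat_lit 526) (.d (nat_lit 494) (nat_lit 493) (nat_lit 3565) (nat_lit 495) (nat_lit 3566)))) (.f (nat_lit 531) (nat_lit 559) (nat_lit 1551) (.d (nat_lit 563) (nat_lit 562) (nat_lit 527) (nat_lit 564) (nat_lit 528)))))) (.a s2806 (.a s590 (.a (.p (nat_lit 530) (.a (.f (nat_lit 495) (nat_lit 494) (nat_lit 3566) (.f (nat_lit 496) (nat_lit 531) (nat_lit 3567) (.d (nat_lit 463) (nat_lit 431) (nat_lit 4527) (nat_lit 592) (nat_lit 7631))))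 (.a (.f (nat_lit 531) (nat_lit 559) (nat_lit 1551) (.d (nat_lit 563) (nat_lit 562) (nat_lit 527) (nat_lit 564) (nat_lit 528))) (.f (nat_lit 495) (nat_lit 494) (nat_lit 3566) (.f (nat_lit 592) (nat_lit 624) (nat_lit 7663) (.d (nat_lit 463) (nat_lit 431) (nat_lit 4527) (nat_lit 496) (nat_lit 7631))))))) (.a (.p (nat_lit 530) (.a (.f (nat_lit 495) (nat_lit 494) (nat_lit 3566) (.f (nat_lit 496) (nat_lit 531) (nat_lit 3567) (.d (nat_lit 463) (nat_lit 431) (nat_lit 4527) (nat_lit 592) (nat_lit 7631)))) (.a (.f (nat_lit 563) (nat_lit 562) (nat_lit 527) (.f (nat_lit 531) (nat_lit 564) (nat_lit 528) (.f (nat_lit 532) (nat_lit 561) (nat_lit 1552) (.d (nat_lit 500) (nat_lit 499) (nat_lit 2544) (nat_lit 501) (nat_lit 2545))))) (.f (nat_lit 495) (nat_lit 494) (nat_lit 3566) (.f (nat_lit 592) (nat_lit 624) (nat_lit 7663) (.d (nat_lit 463) (nat_lit 431) (nat_lit 4527) (nat_lit 496) (nat_lit 7631))))))) (.a (.p (nat_lit 530) (.a (.f (nat_lit 495) (nat_lit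 494) (nat_lit 3566) (.f (nat_lit 496) (nat_lit 531) (nat_lit 3567) (.d (nat_lit 463) (nat_lit 431) (nat_lit 4527) (nat_lit 592) (nat_lit 7631)))) (.a (.f (nat_lit 531) (nat_lit 559) (nat_lit 1551) (.f (nat_lit 532) (nat_lit 561) (nat_lit 1552) (.d (nat_lit 500) (nat_lit 499) (nat_lit 2544) (nat_lit 501) (nat_lit 2545)))) (.f (nat_lit 495) (nat_lit 494) (nat_lit 3566) (.f (nat_lit 592) (nat_lit 624) (nat_lit 7663) (.d (nat_lit 463) (nat_lit 431) (nat_lit 4527) (nat_lit 496) (nat_lit 7631))))))) s2869)))))))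
noncomputable def s2875 : Cert := .r (nat_lit 3773962426139582502986631646264793844340548718132172006003720938849361146555773143298476687185190218548467649586404736686934909373052214328507029863446909475543486300160) (.p (nat_lit 529) (.a (.p (nat_lit 530) (.a (.d (nat_lit 559) (nat_lit 531) (nat_lit 1551) (nat_lit 558) (nat_lit 1550)) (.f (nat_lit 562) (nat_lit 563) (nat_lit 527) (.f (nat_lit 526) (nat_lit 561) (nat_lit 526) (.d (nat_lit 494) (nat_lit 493) (nat_lit 3565) (nat_lit 495) (nat_lit 3566)))))) (.a s607 (.a s1676 (.a (.p (nat_lit 530) (.a (.d (nat_lit 559) (nat_lit 531) (nat_lit 1551) (nat_lit 558) (nat_lit 1550)) (.a (.f (nat_lit 558) (nat_lit 559) (nat_lit 1550) (.f (nat_lit 526) (nat_lit 557) (nat_lit 1549) (.d (nat_lit 494) (nat_lit 493) (nat_lit 3565) (nat_lit 495) (nat_lit 3566)))) (.f (nat_lit 495) (nat_lit 494) (nat_lit 3566) (.f (nat_lit 531) (nat_lit 496) (nat_lit 3567) (.d (nat_lit 563) (nat_lit 562) (nat_lit 527)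 (nat_lit 564) (nat_lit 528))))))) (.a s2593 (.a s1305 (.p (nat_lit 530) (.a (.f (nat_lit 562) (nat_lit 563) (nat_lit 527) (.f (nat_lit 526) (nat_lit 561) (nat_lit 526) (.d (nat_lit 494) (nat_lit 493) (nat_lit 3565) (nat_lit 495) (nat_lit 3566)))) (.a (.f (nat_lit 531) (nat_lit 559) (nat_lit 1551) (.d (nat_lit 563) (nat_lit 562) (nat_lit 527) (nat_lit 564) (nat_lit 528))) (.f (nat_lit 495) (nat_lit 494) (nat_lit 3566) (.f (nat_lit 531) (nat_lit 496) (nat_lit 3567) (.f (nat_lit 532) (nat_lit 561) (nat_lit 1552) (.d (nat_lit 500) (nat_lit 499) (nat_lit 2544) (nat_lit 501) (nat_lit 2545)))))))))))))))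
noncomputable def s2876 : Cert := .r (nat_lit 3773962426139582502986631646264793844340548718132172006003720938849361146555773143298476687185190218548467649586404736686934909373052214328507029863446909475543486300160) (.p (nat_lit 529) (.a (.p (nat_lit 530) (.a (.d (nat_lit 559) (nat_lit 531) (nat_lit 1551) (nat_lit 558) (nat_lit 1550)) (.a (.f (nat_lit 559) (nat_lit 558) (nat_lit 1550) (.f (nat_lit 495) (nat_lit 494) (nat_lit 3566) (.d (nat_lit 463) (nat_lit 431) (nat_lit 4527) (nat_lit 592) (nat_lit 4559)))) (.f (nat_lit 495) (nat_lit 494) (nat_lit 3566) (.f (nat_lit 496) (nat_lit 531) (nat_lit 3567) (.d (nat_lit 463) (nat_lit 431) (nat_lit 4527) (nat_lit 592) (nat_lit 7631))))))) (.a (.p (nat_lit 530) (.a (.d (nat_lit 559) (nat_lit 531) (nat_lit 1551) (nat_lit 558) (nat_lit 1550)) (.a (.f (nat_lit 559) (nat_lit 558) (nat_lit 1550) (.f (nat_lit 495) (nat_lit 494) (nat_lit 3566) (.d (nat_lit 463) (nat_lit 431) (nat_lit 4527) (nat_lit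 592) (nat_lit 4559)))) (.f (nat_lit 562) (nat_lit 563) (nat_lit 527) (.f (nat_lit 526) (nat_lit 561) (nat_lit 526) (.d (nat_lit 494) (nat_lit 493) (nat_lit 3565) (nat_lit 495) (nat_lit 3566))))))) (.a s612 (.a s197 (.a (.p (nat_lit 530) (.a (.d (nat_lit 559) (nat_lit 531) (nat_lit 1551) (nat_lit 558) (nat_lit 1550)) (.f (nat_lit 562) (nat_lit 563) (nat_lit 527) (.f (nat_lit 526) (nat_lit 561) (nat_lit 526) (.d (nat_lit 494) (nat_lit 493) (nat_lit 3565) (nat_lit 495) (nat_lit 3566)))))) (.a (.p (nat_lit 530) (.a (.d (nat_lit 559) (nat_lit 531) (nat_lit 1551) (nat_lit 558) (nat_lit 1550)) (.a (.f (nat_lit 562) (nat_lit 563) (nat_lit 527) (.f (nat_lit 526) (nat_lit 561) (nat_lit 526) (.f (nat_lit 493) (nat_lit 494) (nat_lit 3565) (.f (nat_lit 525) (nat_lit 492) (nat_lit 3564) (.d (nat_lit 557) (nat_lit 556) (nat_lit 1548) (nat_lit 558) (nat_lit 1549)))))) (.f (nat_lit 531) (nat_lit 559) (nat_lit 1551) (.d (nat_lit 563) (nat_lit 562) (nat_lit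 527) (nat_lit 564) (nat_lit 528)))))) (.a (.p (nat_lit 530) (.a (.f (nat_lit 495) (nat_lit 494) (nat_lit 3566) (.f (nat_lit 496) (nat_lit 531) (nat_lit 3567) (.d (nat_lit 463) (nat_lit 431) (nat_lit 4527) (nat_lit 592) (nat_lit 7631)))) (.a (.f (nat_lit 562) (nat_lit 563) (nat_lit 527) (.f (nat_lit 526) (nat_lit 561) (nat_lit 526) (.d (nat_lit 494) (nat_lit 493) (nat_lit 3565) (nat_lit 495) (nat_lit 3566)))) (.f (nat_lit 531) (nat_lit 559) (nat_lit 1551) (.d (nat_lit 563) (nat_lit 562) (nat_lit 527) (nat_lit 564) (nat_lit 528)))))) s1676))))))))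
noncomputable def s2877 : Cert := .r (nat_lit 3773962426139582502986631646264793844340548718132172006003720938849361146555773143298476687185190218548467649586404736686934909373052214328507029863446909475543486300160) (.p (nat_lit 529) (.a (.p (nat_lit 530) (.a (.d (nat_lit 559) (nat_lit 531) (nat_lit 1551) (nat_lit 558) (nat_lit 1550)) (.a (.f (nat_lit 559) (nat_lit 558) (nat_lit 1550) (.f (nat_lit 495) (nat_lit 494) (nat_lit 3566) (.d (nat_lit 463) (nat_lit 431) (nat_lit 4527) (nat_lit 592) (nat_lit 4559)))) (.f (nat_lit 495) (nat_lit 494) (nat_lit 3566) (.f (nat_lit 496) (nat_lit 531) (nat_lit 3567) (.d (nat_lit 463) (nat_lit 431) (nat_lit 4527) (nat_lit 592) (nat_lit 7631))))))) (.a (.p (nat_lit 530) (.a (.d (nat_lit 559) (nat_lit 531) (nat_lit 1551) (nat_lit 558) (nat_lit 1550)) (.a (.f (nat_lit 559) (nat_lit 558) (nat_lit 1550) (.f (nat_lit 495) (nat_lit 494) (nat_lit 3566) (.d (nat_lit 463) (nat_lit 431) (nat_lit 4527) (nat_lit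 592) (nat_lit 4559)))) (.f (nat_lit 562) (nat_lit 563) (nat_lit 527) (.f (nat_lit 526) (nat_lit 561) (nat_lit 526) (.d (nat_lit 494) (nat_lit 493) (nat_lit 3565) (nat_lit 495) (nat_lit 3566))))))) (.a s590 (.a (.p (nat_lit 530) (.a (.f (nat_lit 495) (nat_lit 494) (nat_lit 3566) (.f (nat_lit 496) (nat_lit 531) (nat_lit 3567) (.d (nat_lit 463) (nat_lit 431) (nat_lit 4527) (nat_lit 592) (nat_lit 7631)))) (.a (.f (nat_lit 563) (nat_lit 562) (nat_lit 527) (.f (nat_lit 531) (nat_lit 564) (nat_lit 528) (.f (nat_lit 532) (nat_lit 561) (nat_lit 1552) (.d (nat_lit 500) (nat_lit 499) (nat_lit 2544) (nat_lit 501) (nat_lit 2545))))) (.f (nat_lit 495) (nat_lit 494) (nat_lit 3566) (.f (nat_lit 592) (nat_lit 624) (nat_lit 7663) (.d (nat_lit 463) (nat_lit 431) (nat_lit 4527) (nat_lit 496) (nat_lit 7631))))))) (.a (.p (nat_lit 530) (.a (.d (nat_lit 559) (nat_lit 531) (nat_lit 1551) (nat_lit 558) (nat_lit 1550)) (.f (nat_lit 562) (nat_lit 563) (nat_lit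 527) (.f (nat_lit 526) (nat_lit 561) (nat_lit 526) (.d (nat_lit 494) (nat_lit 493) (nat_lit 3565) (nat_lit 495) (nat_lit 3566)))))) s1676))))))
noncomputable def s2878 : Cert := .r (nat_lit 3773962426139582502986631646264793844340548718132172006003720938849361146555773143298476687185190218548467649586404736686934909373052214328507029863446909475543486300160) (.p (nat_lit 529) (.a (.p (nat_lit 530) (.a (.d (nat_lit 559) (nat_lit 531) (nat_lit 1551) (nat_lit 558) (nat_lit 1550)) (.f (nat_lit 562) (nat_lit 563) (nat_lit 527) (.f (nat_lit 526) (nat_lit 561) (nat_lit 526) (.d (nat_lit 494) (nat_lit 493) (nat_lit 3565) (nat_lit 495) (nat_lit 3566)))))) (.a s613 (.a s1676 (.a (.p (nat_lit 530) (.a (.d (nat_lit 559) (nat_lit 531) (nat_lit 1551) (nat_lit 558) (nat_lit 1550)) (.a (.f (nat_lit 558) (nat_lit 559) (nat_lit 1550) (.f (nat_lit 526) (nat_lit 557) (nat_lit 1549) (.d (nat_lit 494) (nat_lit 493) (nat_lit 3565) (nat_lit 495) (nat_lit 3566))))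 (.f (nat_lit 495) (nat_lit 494) (nat_lit 3566) (.f (nat_lit 531) (nat_lit 496) (nat_lit 3567) (.d (nat_lit 563) (nat_lit 562) (nat_lit 527) (nat_lit 564) (nat_lit 528))))))) (.a s2593 (.a s1305 (.p (nat_lit 530) (.a (.f (nat_lit 562) (nat_lit 563) (nat_lit 527) (.f (nat_lit 526) (nat_lit 561) (nat_lit 526) (.d (nat_lit 494) (nat_lit 493) (nat_lit 3565) (nat_lit 495) (nat_lit 3566)))) (.a (.f (nat_lit 531) (nat_lit 559) (nat_lit 1551) (.d (nat_lit 563) (nat_lit 562) (nat_lit 527) (nat_lit 564) (nat_lit 528))) (.f (nat_lit 495) (nat_lit 494) (nat_lit 3566) (.f (nat_lit 531) (nat_lit 496) (nat_lit 3567) (.f (nat_lit 532) (nat_lit 561) (nat_lit 1552) (.d (nat_lit 500) (nat_lit 499) (nat_lit 2544) (nat_lit 501) (nat_lit 2545)))))))))))))))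
noncomputable def s2879 : Cert := .r (nat_lit 3773962426139582502986631646264793844340548718132172006003720938849361146555773143298476687185190218548467649586404736686934909373052214328507029863446909475543486300160) (.p (nat_lit 529) (.a (.p (nat_lit 530) (.a (.d (nat_lit 559) (nat_lit 531) (nat_lit 1551) (nat_lit 558) (nat_lit 1550)) (.a (.f (nat_lit 559) (nat_lit 558) (nat_lit 1550) (.f (nat_lit 495) (nat_lit 494) (nat_lit 3566) (.d (nat_lit 463) (nat_lit 431) (nat_lit 4527) (nat_lit 592) (nat_lit 4559)))) (.f (nat_lit 495) (nat_lit 494) (nat_lit 3566) (.f (nat_lit 496) (nat_lit 531) (nat_lit 3567) (.d (nat_lit 463) (nat_lit 431) (nat_lit 4527) (nat_lit 592) (nat_lit 7631))))))) (.a (.p (nat_lit 530) (.a (.d (nat_lit 559) (nat_lit 531) (nat_lit 1551) (nat_lit 558) (nat_lit 1550)) (.a (.f (nat_lit 559) (nat_lit 558) (nat_lit 1550) (.f (nat_lit 495) (nat_lit 494) (nat_lit 3566) (.d (nat_lit 463) (nat_lit 431) (nat_lit 4527) (nat_lit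 592) (nat_lit 4559)))) (.f (nat_lit 562) (nat_lit 563) (nat_lit 527) (.f (nat_lit 526) (nat_lit 561) (nat_lit 526) (.d (nat_lit 494) (nat_lit 493) (nat_lit 3565) (nat_lit 495) (nat_lit 3566))))))) (.a s614 (.a s197 (.a (.p (nat_lit 530) (.a (.d (nat_lit 559) (nat_lit 531) (nat_lit 1551) (nat_lit 558) (nat_lit 1550)) (.f (nat_lit 562) (nat_lit 563) (nat_lit 527) (.f (nat_lit 526) (nat_lit 561) (nat_lit 526) (.d (nat_lit 494) (nat_lit 493) (nat_lit 3565) (nat_lit 495) (nat_lit 3566)))))) (.a (.p (nat_lit 530) (.a (.d (nat_lit 559) (nat_lit 531) (nat_lit 1551) (nat_lit 558) (nat_lit 1550)) (.a (.f (nat_lit 562) (nat_lit 563) (nat_lit 527) (.f (nat_lit 526) (nat_lit 561) (nat_lit 526) (.f (nat_lit 493) (nat_lit 494) (nat_lit 3565) (.f (nat_lit 525) (nat_lit 492) (nat_lit 3564) (.d (nat_lit 557) (nat_lit 556) (nat_lit 1548) (nat_lit 558) (nat_lit 1549)))))) (.f (nat_lit 531) (nat_lit 559) (nat_lit 1551) (.d (nat_lit 563) (nat_lit 562) (nat_lit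 527) (nat_lit 564) (nat_lit 528)))))) (.a (.p (nat_lit 530) (.a (.f (nat_lit 495) (nat_lit 494) (nat_lit 3566) (.f (nat_lit 496) (nat_lit 531) (nat_lit 3567) (.d (nat_lit 463) (nat_lit 431) (nat_lit 4527) (nat_lit 592) (nat_lit 7631)))) (.a (.f (nat_lit 562) (nat_lit 563) (nat_lit 527) (.f (nat_lit 526) (nat_lit 561) (nat_lit 526) (.d (nat_lit 494) (nat_lit 493) (nat_lit 3565) (nat_lit 495) (nat_lit 3566)))) (.f (nat_lit 531) (nat_lit 559) (nat_lit 1551) (.d (nat_lit 563) (nat_lit 562) (nat_lit 527) (nat_lit 564) (nat_lit 528)))))) s1676))))))))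
noncomputable def s2899 : Cert := .r (nat_lit 3773962427896970703980067733300160448905385381753147442840407123654343792107272198248276636528565486557800015660592592403154009030555443256434490679465860718068940931072) (.p (nat_lit 530) (.a (.f (nat_lit 498) (nat_lit 499) (nat_lit 2543) (.f (nat_lit 497) (nat_lit 526) (nat_lit 2542) (.f (nat_lit 592) (nat_lit 624) (nat_lit 6640) (.d (nat_lit 465) (nat_lit 433) (nat_lit 5552) (nat_lit 561) (nat_lit 5584))))) (.a (.f (nat_lit 499) (nat_lit 498) (nat_lit 2543) (.f (nat_lit 531) (nat_lit 500) (nat_lit 2544) (.f (nat_lit 532) (nat_lit 561) (nat_lit 1552) (.d (nat_lit 564) (nat_lit 563) (nat_lit 528) (nat_lit 565) (nat_lit 529))))) (.a (.f (nat_lit 498) (nat_lit 499) (nat_lit 2543) (.f (nat_lit 526) (nat_lit 497) (nat_lit 2542) (.d (nat_lit 494) (nat_lit 493) (nat_lit 3565) (nat_lit 495) (nat_lit 3566)))) (.a (.f (nat_lit 531) (nat_lit 559) (nat_lit 1551) (.f (nat_lit 532) (nat_lit 561) (nat_lit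 1552) (.d (nat_lit 500) (nat_lit 499) (nat_lit 2544) (nat_lit 501) (nat_lit 2545)))) (.f (nat_lit 495) (nat_lit 494) (nat_lit 3566) (.f (nat_lit 592) (nat_lit 624) (nat_lit 7663) (.d (nat_lit 463) (nat_lit 431) (nat_lit 4527) (nat_lit 559) (nat_lit 4559)))))))))
noncomputable def s2934 : Cert := .r (nat_lit 3773962426139582503191218559258302711216373074183896953017261066727052695898478853804485049460482378228672030356773746508865327131024718766583108397564746541376519274496) (.p (nat_lit 464) (.a (.f (nat_lit 433) (nat_lit 465) (nat_lit 6576) (.f (nat_lit 432) (nat_lit 401) (nat_lit 6544) (.d (nat_lit 431) (nat_lit 399) (nat_lit 7567) (nat_lit 463) (nat_lit 7599)))) (.a (.f (nat_lit 431) (nat_lit 463) (nat_lit 7599) (.f (nat_lit 432) (nat_lit 399) (nat_lit 7567) (.f (nat_lit 400) (nat_lit 495) (nat_lit 5519) (.d (nat_lit 401) (nat_lit 369) (nat_lit 6512) (nat_lit 433) (nat_lit 6544))))) (.a (.p (nat_lit 497) (.a (.f (nat_lit 498) (nat_lit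 499) (nat_lit 1519) (.d (nat_lit 526) (nat_lit 495) (nat_lit 1518) (nat_lit 525) (nat_lit 2541))) (.a (.f (nat_lit 463) (nat_lit 431) (nat_lit 7599) (.f (nat_lit 498) (nat_lit 499) (nat_lit 1519) (.d (nat_lit 462) (nat_lit 461) (nat_lit 461) (nat_lit 465) (nat_lit 462)))) (.f (nat_lit 465) (nat_lit 433) (nat_lit 6576) (.f (nat_lit 463) (nat_lit 431) (nat_lit 7599) (.f (nat_lit 462) (nat_lit 461) (nat_lit 461) (.f (nat_lit 494) (nat_lit 493) (nat_lit 1485) (.f (nat_lit 495) (nat_lit 466) (nat_lit 2510) (.d (nat_lit 430) (nat_lit 398) (nat_lit 4494) (nat_lit 429) (nat_lit 3501)))))))))) (.a (.f (nat_lit 433) (nat_lit 465) (nat_lit 6576) (.f (nat_lit 432) (nat_lit 401) (nat_lit 6544) (.f (nat_lit 399) (nat_lit 431) (nat_lit 7567) (.d (nat_lit 400) (nat_lit 367) (nat_lit 7535) (nat_lit 495) (nat_lit 5519))))) (.a (.p (nat_lit 497) (.a (.f (nat_lit 498) (nat_lit 499) (nat_lit 1519) (.d (nat_lit 526) (nat_lit 495) (nat_lit 1518) (nat_lit 525)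 (nat_lit 2541))) (.a (.f (nat_lit 463) (nat_lit 431) (nat_lit 7599) (.f (nat_lit 498) (nat_lit 499) (nat_lit 1519) (.d (nat_lit 462) (nat_lit 461) (nat_lit 461) (nat_lit 465) (nat_lit 462)))) (.f (nat_lit 431) (nat_lit 463) (nat_lit 7599) (.f (nat_lit 432) (nat_lit 399) (nat_lit 7567) (.f (nat_lit 400) (nat_lit 495) (nat_lit 5519) (.f (nat_lit 368) (nat_lit 465) (nat_lit 4464) (.d (nat_lit 369) (nat_lit 337) (nat_lit 6480) (nat_lit 401) (nat_lit 6512))))))))) s2933))))))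
noncomputable def s2961 : Cert := .r (nat_lit 3773962426139582503191218559258302711216373074183896953017261066727052695898478853804485049460482378228672030356773746508865327131024718766583108397564746541376519274496) (.p (nat_lit 464) (.a (.f (nat_lit 465) (nat_lit 433) (nat_lit 6576) (.f (nat_lit 497) (nat_lit 592) (nat_lit 6608) (.f (nat_lit 498) (nat_lit 499) (nat_lit 1519) (.d (nat_lit 526) (nat_lit 495) (nat_lit 1518) (nat_lit 525) (nat_lit 2541))))) (.a (.f (nat_lit 433) (nat_lit 465) (nat_lit 6576) (.f (nat_lit 432) (nat_lit 401) (nat_lit 6544) (.f (nat_lit 399) (nat_lit 431) (nat_lit 7567) (.d (nat_lit 400) (nat_lit 367) (nat_lit 7535) (nat_lit 495) (nat_lit 5519))))) (.a (.f (nat_lit 465) (nat_lit 433) (nat_lit 6576) (.f (nat_lit 592) (nat_lit 497) (nat_lit 6608) (.d (nat_lit 593) (nat_lit 561) (nat_lit 4560) (nat_lit 625) (nat_lit 4592)))) (.f (nat_lit 593) (nat_lit 561) (nat_lit 4560) (.f (nat_lit 592) (nat_lit 625) (nat_lit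 4592) (.f (nat_lit 623) (nat_lit 591) (nat_lit 5615) (.d (nat_lit 624) (nat_lit 495) (nat_lit 7663) (nat_lit 655) (nat_lit 5647)))))))))
noncomputable def s3014 : Cert := .r (nat_lit 878694100496718043517683302282418331810487718418343092402491322775749527474899974671687634004666183037093927858109549828751614463963730408009475621262727315456) (.p (nat_lit 527) (.a (.p (nat_lit 560) (.a s22 (.a s46 (.a s70 (.a s96 (.a s103 (.a s138 (.a s157 (.a s182 (.a s198 (.a s208 (.a s222 (.a s233 (.a s236 (.a s241 s248))))))))))))))) (.a (.p (nat_lit 529) (.a (.p (nat_lit 530) (.a (.f (nat_lit 562) (nat_lit 563) (nat_lit 527) (.f (nat_lit 498) (nat_lit 499) (nat_lit 2543) (.d (nat_lit 526) (nat_lit 497) (nat_lit 2542) (nat_lit 561) (nat_lit 526)))) (.a (.f (nat_lit 558) (nat_lit 559) (nat_lit 1550) (.f (nat_lit 526) (nat_lit 557) (nat_lit 1549) (.d (nat_lit 494) (nat_lit 493) (nat_lit 3565) (nat_lit 495) (nat_lit 3566)))) (.f (nat_lit 559) (nat_lit 558) (nat_lit 1550) (.f (nat_lit 531) (nat_lit 560) (nat_lit 1551) (.d (nat_lit 499) (nat_lit 498) (nat_lit 2543) (nat_lit 500) (nat_lit 2544))))))) (.a (.p (nat_lit 526) (.a (.f (nat_lit 557) (nat_lit 558) (nat_lit 1549) (.f (nat_lit 525) (nat_lit 556) (nat_lit 1548) (.d (nat_lit 493) (nat_lit 492) (nat_lit 3564) (nat_lit 494) (nat_lit 3565)))) (.a (.p (nat_lit 560) (.a (.f (nat_lit 561) (nat_lit 562) (nat_lit 526) (.f (nat_lit 497) (nat_lit 498) (nat_lit 2542) (.d (nat_lit 465) (nat_lit 433) (nat_lit 5552) (nat_lit 592) (nat_lit 5584)))) (.a s275 (.f (nat_lit 561) (nat_lit 562) (nat_lit 526) (.f (nat_lit 558) (nat_lit 557) (nat_lit 1549) (.f (nat_lit 494) (nat_lit 493) (nat_lit 3565) (.f (nat_lit 497) (nat_lit 498) (nat_lit 2542) (.f (nat_lit 465) (nat_lit 433) (nat_lit 5552) (.f (nat_lit 464) (nat_lit 432) (nat_lit 7600) (.f (nat_lit 466) (nat_lit 434) (nat_lit 6577) (.f (nat_lit 463) (nat_lit 495) (nat_lit 1486) (.d (nat_lit 431) (nat_lit 430) (nat_lit 3502) (nat_lit 462) (nat_lit 6574))))))))))))) (.f (nat_lit 561) (nat_lit 562) (nat_lit 526) (.f (nat_lit 497) (nat_lit 498) (nat_lit 2542) (.f (nat_lit 560) (nat_lit 525) (nat_lit 525) (.d (nat_lit 465) (nat_lit 433) (nat_lit 5552) (nat_lit 592) (nat_lit 5584)))))))) (.a (.p (nat_lit 530) (.a (.f (nat_lit 562) (nat_lit 563) (nat_lit 527) (.f (nat_lit 498) (nat_lit 499) (nat_lit 2543) (.d (nat_lit 526) (nat_lit 497) (nat_lit 2542) (nat_lit 561) (nat_lit 526)))) (.a (.f (nat_lit 558) (nat_lit 559) (nat_lit 1550) (.f (nat_lit 526) (nat_lit 557) (nat_lit 1549) (.d (nat_lit 494) (nat_lit 493) (nat_lit 3565) (nat_lit 495) (nat_lit 3566)))) (.f (nat_lit 499) (nat_lit 498) (nat_lit 2543) (.f (nat_lit 531) (nat_lit 500) (nat_lit 2544) (.d (nat_lit 563) (nat_lit 562) (nat_lit 527) (nat_lit 564) (nat_lit 528))))))) (.a (.p (nat_lit 530) (.a (.f (nat_lit 558) (nat_lit 559) (nat_lit 1550) (.f (nat_lit 526) (nat_lit 557) (nat_lit 1549) (.d (nat_lit 494) (nat_lit 493) (nat_lit 3565) (nat_lit 495) (nat_lit 3566)))) (.a (.f (nat_lit 559) (nat_lit 558) (nat_lit 1550) (.f (nat_lit 531) (nat_lit 560) (nat_lit 1551) (.d (nat_lit 499) (nat_lit 498) (nat_lit 2543) (nat_lit 500) (nat_lit 2544)))) (.f (nat_lit 499) (nat_lit 498) (nat_lit 2543) (.f (nat_lit 531) (nat_lit 500) (nat_lit 2544) (.d (nat_lit 563) (nat_lit 562) (nat_lit 527) (nat_lit 564) (nat_lit 528))))))) (.a (.p (nat_lit 530) (.a (.f (nat_lit 559) (nat_lit 558) (nat_lit 1550) (.f (nat_lit 531) (nat_lit 560) (nat_lit 1551) (.d (nat_lit 499) (nat_lit 498) (nat_lit 2543) (nat_lit 500) (nat_lit 2544)))) (.a (.f (nat_lit 499) (nat_lit 498) (nat_lit 2543) (.f (nat_lit 531) (nat_lit 500) (nat_lit 2544) (.d (nat_lit 563) (nat_lit 562) (nat_lit 527) (nat_lit 564) (nat_lit 528)))) (.a (.p (nat_lit 560) (.a (.f (nat_lit 559) (nat_lit 558) (nat_lit 1550) (.f (nat_lit 495) (nat_lit 494) (nat_lit 3566) (.d (nat_lit 463) (nat_lit 431) (nat_lit 4527) (nat_lit 592) (nat_lit 4559)))) (.a (.f (nat_lit 559) (nat_lit 558) (nat_lit 1550) (.f (nat_lit 562) (nat_lit 563) (nat_lit 527) (.f (nat_lit 498) (nat_lit 499) (nat_lit 2543) (.f (nat_lit 495) (nat_lit 494) (nat_lit 3566) (.f (nat_lit 463) (nat_lit 431) (nat_lit 4527) (.f (nat_lit 462) (nat_lit 430) (nat_lit 7598) (.f (nat_lit 464) (nat_lit 432) (nat_lit 6575) (.f (nat_lit 465) (nat_lit 497) (nat_lit 462) (.d (nat_lit 433) (nat_lit 434) (nat_lit 2478) (nat_lit 466) (nat_lit 7601)))))))))) s317))) (.f (nat_lit 559) (nat_lit 558) (nat_lit 1550) (.f (nat_lit 531) (nat_lit 560) (nat_lit 1551) (.d (nat_lit 563) (nat_lit 562) (nat_lit 527) (nat_lit 564) (nat_lit 528)))))))) (.a s329 (.a (.p (nat_lit 530) (.a (.f (nat_lit 562) (nat_lit 563) (nat_lit 527) (.f (nat_lit 498) (nat_lit 499) (nat_lit 2543) (.d (nat_lit 526) (nat_lit 497) (nat_lit 2542) (nat_lit 561) (nat_lit 526)))) (.a (.f (nat_lit 559) (nat_lit 558) (nat_lit 1550) (.f (nat_lit 531) (nat_lit 560) (nat_lit 1551) (.d (nat_lit 499) (nat_lit 498) (nat_lit 2543) (nat_lit 500) (nat_lit 2544)))) (.f (nat_lit 559) (nat_lit 558) (nat_lit 1550) (.f (nat_lit 531) (nat_lit 560) (nat_lit 1551) (.d (nat_lit 563) (nat_lit 562) (nat_lit 527) (nat_lit 564) (nat_lit 528))))))) (.a (.p (nat_lit 530) (.a (.f (nat_lit 558) (nat_lit 559) (nat_lit 1550) (.f (nat_lit 526) (nat_lit 557) (nat_lit 1549) (.d (nat_lit 494) (nat_lit 493) (nat_lit 3565) (nat_lit 495) (nat_lit 3566)))) (.a (.f (nat_lit 559) (nat_lit 558) (nat_lit 1550) (.f (nat_lit 531) (nat_lit 560) (nat_lit 1551) (.d (nat_lit 499) (nat_lit 498) (nat_lit 2543) (nat_lit 500) (nat_lit 2544)))) (.f (nat_lit 498) (nat_lit 499) (nat_lit 2543) (.f (nat_lit 526) (nat_lit 497) (nat_lit 2542) (.d (nat_lit 494) (nat_lit 493) (nat_lit 3565) (nat_lit 495) (nat_lit 3566))))))) (.p (nat_lit 530) (.a (.f (nat_lit 558) (nat_lit 559) (nat_lit 1550) (.f (nat_lit 526) (nat_lit 557) (nat_lit 1549) (.d (nat_lit 494) (nat_lit 493) (nat_lit 3565) (nat_lit 495) (nat_lit 3566)))) (.a (.f (nat_lit 559) (nat_lit 558) (nat_lit 1550) (.f (nat_lit 531) (nat_lit 560) (nat_lit 1551) (.d (nat_lit 563) (nat_lit 562) (nat_lit 527) (nat_lit 564) (nat_lit 528)))) (.f (nat_lit 562) (nat_lit 563) (nat_lit 527) (.f (nat_lit 526) (nat_lit 561) (nat_lit 526) (.d (nat_lit 494) (nat_lit 493) (nat_lit 3565) (nat_lit 495) (nat_lit 3566)))))))))))))))) (.a (.p (nat_lit 560) (.a s70 (.a s402 (.a s615 (.a s642 (.a s674 (.a s707 (.a s157 (.a s709 (.a s208 (.a s753 (.a s783 (.a s784 s785))))))))))))) (.a (.p (nat_lit 529) (.a (.p (nat_lit 530) (.a (.f (nat_lit 562) (nat_lit 563) (nat_lit 527) (.f (nat_lit 498) (nat_lit 499) (nat_lit 2543) (.d (nat_lit 526) (nat_lit 497) (nat_lit 2542) (nat_lit 561) (nat_lit 526)))) (.a (.f (nat_lit 558) (nat_lit 559) (nat_lit 1550) (.f (nat_lit 526) (nat_lit 557) (nat_lit 1549) (.d (nat_lit 494) (nat_lit 493) (nat_lit 3565) (nat_lit 495) (nat_lit 3566)))) (.f (nat_lit 499) (nat_lit 498) (nat_lit 2543) (.f (nat_lit 531) (nat_lit 500) (nat_lit 2544) (.d (nat_lit 563) (nat_lit 562) (nat_lit 527) (nat_lit 564) (nat_lit 528))))))) (.a (.p (nat_lit 526) (.a (.f (nat_lit 557) (nat_lit 558) (nat_lit 1549) (.f (nat_lit 525) (nat_lit 556) (nat_lit 1548) (.d (nat_lit 493) (nat_lit 492) (nat_lit 3564) (nat_lit 494) (nat_lit 3565)))) (.a s814 (.a (.f (nat_lit 493) (nat_lit 494) (nat_lit 3565) (.f (nat_lit 525) (nat_lit 492) (nat_lit 3564) (.d (nat_lit 497) (nat_lit 496) (nat_lit 2541) (nat_lit 498) (nat_lit 2542)))) (.f (nat_lit 497) (nat_lit 498) (nat_lit 2542) (.f (nat_lit 525) (nat_lit 496) (nat_lit 2541) (.d (nat_lit 557) (nat_lit 556) (nat_lit 1548) (nat_lit 558) (nat_lit 1549)))))))) (.a (.p (nat_lit 530) (.a (.f (nat_lit 558) (nat_lit 559) (nat_lit 1550) (.f (nat_lit 526) (nat_lit 557) (nat_lit 1549) (.d (nat_lit 494) (nat_lit 493) (nat_lit 3565) (nat_lit 495) (nat_lit 3566)))) (.f (nat_lit 499) (nat_lit 498) (nat_lit 2543) (.f (nat_lit 531) (nat_lit 500) (nat_lit 2544) (.d (nat_lit 563) (nat_lit 562) (nat_lit 527) (nat_lit 564) (nat_lit 528)))))) (.a (.p (nat_lit 530) (.a (.f (nat_lit 499) (nat_lit 498) (nat_lit 2543) (.f (nat_lit 531) (nat_lit 500) (nat_lit 2544) (.d (nat_lit 563) (nat_lit 562) (nat_lit 527) (nat_lit 564) (nat_lit 528)))) (.a (.p (nat_lit 496) (.a (.f (nat_lit 495) (nat_lit 494) (nat_lit 3566) (.f (nat_lit 559) (nat_lit 558) (nat_lit 1550) (.d (nat_lit 464) (nat_lit 432) (nat_lit 5551) (nat_lit 591) (nat_lit 6607)))) (.a (.p (nat_lit 561) (.a (.f (nat_lit 593) (nat_lit 625) (nat_lit 7664) (.d (nat_lit 464) (nat_lit 432) (nat_lit 4528) (nat_lit 497) (nat_lit 7632))) (.a (.f (nat_lit 498) (nat_lit 499) (nat_lit 2543) (.f (nat_lit 593) (nat_lit 625) (nat_lit 7664) (.d (nat_lit 466) (nat_lit 434) (nat_lit 5553) (nat_lit 562) (nat_lit 5585)))) (.f (nat_lit 495) (nat_lit 494) (nat_lit 3566) (.f (nat_lit 498) (nat_lit 499) (nat_lit 2543) (.f (nat_lit 562) (nat_lit 563) (nat_lit 527) (.f (nat_lit 466) (nat_lit 434) (nat_lit 5553) (.d (nat_lit 467) (nat_lit 435) (nat_lit 6578) (nat_lit 497) (nat_lit 2511))))))))) (.a s843 (.f (nat_lit 495) (nat_lit 494) (nat_lit 3566) (.f (nat_lit 498) (nat_lit 499) (nat_lit 2543) (.f (nat_lit 562) (nat_lit 563) (nat_lit 527) (.f (nat_lit 559) (nat_lit 558) (nat_lit 1550) (.f (nat_lit 591) (nat_lit 623) (nat_lit 6639) (.f (nat_lit 590) (nat_lit 622) (nat_lit 5614) (.f (nat_lit 592) (nat_lit 624) (nat_lit 4591) (.f (nat_lit 593) (nat_lit 561) (nat_lit 2606) (.d (nat_lit 625) (nat_lit 594) (nat_lit 5617) (nat_lit 626) (nat_lit 590)))))))))))))) (.f (nat_lit 495) (nat_lit 494) (nat_lit 3566) (.f (nat_lit 496) (nat_lit 531) (nat_lit 3567) (.f (nat_lit 559) (nat_lit 558) (nat_lit 1550) (.d (nat_lit 464) (nat_lit 432) (nat_lit 5551) (nat_lit 591) (nat_lit 6607)))))))) (.a s329 (.a (.p (nat_lit 530) (.a (.f (nat_lit 562) (nat_lit 563) (nat_lit 527) (.f (nat_lit 498) (nat_lit 499) (nat_lit 2543) (.d (nat_lit 526) (nat_lit 497) (nat_lit 2542) (nat_lit 561) (nat_lit 526)))) (.a (.f (nat_lit 499) (nat_lit 498) (nat_lit 2543) (.f (nat_lit 531) (nat_lit 500) (nat_lit 2544) (.d (nat_lit 563) (nat_lit 562) (nat_lit 527) (nat_lit 564) (nat_lit 528)))) (.a (.f (nat_lit 498) (nat_lit 499) (nat_lit 2543) (.f (nat_lit 526) (nat_lit 497) (nat_lit 2542) (.d (nat_lit 558) (nat_lit 557) (nat_lit 1549) (nat_lit 559) (nat_lit 1550)))) (.f (nat_lit 562) (nat_lit 563) (nat_lit 527) (.f (nat_lit 526) (nat_lit 561) (nat_lit 526) (.d (nat_lit 558) (nat_lit 557) (nat_lit 1549) (nat_lit 559) (nat_lit 1550)))))))) (.a (.p (nat_lit 530) (.a (.f (nat_lit 558) (nat_lit 559) (nat_lit 1550) (.f (nat_lit 526) (nat_lit 557) (nat_lit 1549) (.d (nat_lit 494) (nat_lit 493) (nat_lit 3565) (nat_lit 495) (nat_lit 3566)))) (.a (.f (nat_lit 495) (nat_lit 494) (nat_lit 3566) (.f (nat_lit 496) (nat_lit 531) (nat_lit 3567) (.f (nat_lit 559) (nat_lit 558) (nat_lit 1550) (.d (nat_lit 464) (nat_lit 432) (nat_lit 5551) (nat_lit 591) (nat_lit 6607))))) (.a (.f (nat_lit 498) (nat_lit 499) (nat_lit 2543) (.f (nat_lit 526) (nat_lit 497) (nat_lit 2542) (.d (nat_lit 494) (nat_lit 493) (nat_lit 3565) (nat_lit 495) (nat_lit 3566)))) (.f (nat_lit 498) (nat_lit 499) (nat_lit 2543) (.f (nat_lit 526) (nat_lit 497) (nat_lit 2542) (.d (nat_lit 558) (nat_lit 557) (nat_lit 1549) (nat_lit 559) (nat_lit 1550)))))))) (.p (nat_lit 530) (.a (.f (nat_lit 558) (nat_lit 559) (nat_lit 1550) (.f (nat_lit 526) (nat_lit 557) (nat_lit 1549) (.d (nat_lit 494) (nat_lit 493) (nat_lit 3565) (nat_lit 495) (nat_lit 3566)))) (.a (.f (nat_lit 495) (nat_lit 494) (nat_lit 3566) (.f (nat_lit 496) (nat_lit 531) (nat_lit 3567) (.f (nat_lit 559) (nat_lit 558) (nat_lit 1550) (.d (nat_lit 464) (nat_lit 432) (nat_lit 5551) (nat_lit 591) (nat_lit 6607))))) (.a (.f (nat_lit 562) (nat_lit 563) (nat_lit 527) (.f (nat_lit 526) (nat_lit 561) (nat_lit 526) (.d (nat_lit 494) (nat_lit 493) (nat_lit 3565) (nat_lit 495) (nat_lit 3566)))) (.f (nat_lit 562) (nat_lit 563) (nat_lit 527) (.f (nat_lit 526) (nat_lit 561) (nat_lit 526) (.d (nat_lit 558) (nat_lit 557) (nat_lit 1549) (nat_lit 559) (nat_lit 1550)))))))))))))))) (.a (.p (nat_lit 560) (.a s96 (.a s876 (.a s615 (.a s917 (.a s971 (.a s998 (.a s1000 (.a s1004 (.a s1011 (.a s1013 (.a s1014 (.a s1015 (.a s1016 (.a s1017 (.a s1018 (.a s1019 (.a s1020 s1021)))))))))))))))))) (.a (.p (nat_lit 560) (.a s103 (.a (.p (nat_lit 559) (.a (.p (nat_lit 529) (.a (.d (nat_lit 530) (nat_lit 531) (nat_lit 1551) (nat_lit 558) (nat_lit 1550)) (.a (.p (nat_lit 526) (.a (.f (nat_lit 494) (nat_lit 493) (nat_lit 3565) (.f (nat_lit 591) (nat_lit 623) (nat_lit 7662) (.d (nat_lit 462) (nat_lit 430) (nat_lit 4526) (nat_lit 495) (nat_lit 7630)))) (.a (.f (nat_lit 494) (nat_lit 493) (nat_lit 3565) (.f (nat_lit 591) (nat_lit 623) (nat_lit 7662) (.d (nat_lit 462) (nat_lit 430) (nat_lit 4526) (nat_lit 558) (nat_lit 4558)))) (.f (nat_lit 557) (nat_lit 558) (nat_lit 1549) (.d (nat_lit 525) (nat_lit 524) (nat_lit 524) (nat_lit 556) (nat_lit 1548)))))) (.f (nat_lit 530) (nat_lit 531) (nat_lit 1551) (.f (nat_lit 495) (nat_lit 494) (nat_lit 3566) (.d (nat_lit 463) (nat_lit 431) (nat_lit 4527) (nat_lit 592) (nat_lit 4559))))))) (.a (.p (nat_lit 526) (.a (.f (nat_lit 525) (nat_lit 524) (nat_lit 524) (.f (nat_lit 557) (nat_lit 556) (nat_lit 1548) (.f (nat_lit 558) (nat_lit 529) (nat_lit 1549) (.f (nat_lit 493) (nat_lit 492) (nat_lit 3564) (.d (nat_lit 461) (nat_lit 429) (nat_lit 4525) (nat_lit 590) (nat_lit 4557)))))) (.a s1055 (.a (.p (nat_lit 494) (.a (.f (nat_lit 591) (nat_lit 623) (nat_lit 7662) (.d (nat_lit 462) (nat_lit 430) (nat_lit 4526) (nat_lit 495) (nat_lit 7630))) (.a (.f (nat_lit 591) (nat_lit 623) (nat_lit 7662) (.d (nat_lit 462) (nat_lit 430) (nat_lit 4526) (nat_lit 558) (nat_lit 4558))) (.a (.f (nat_lit 529) (nat_lit 493) (nat_lit 3565) (.f (nat_lit 558) (nat_lit 557) (nat_lit 1549) (.f (nat_lit 462) (nat_lit 430) (nat_lit 4526) (.f (nat_lit 463) (nat_lit 431) (nat_lit 6574) (.d (nat_lit 495) (nat_lit 590) (nat_lit 6606) (nat_lit 592) (nat_lit 4559)))))) (.f (nat_lit 529) (nat_lit 493) (nat_lit 3565) (.f (nat_lit 558) (nat_lit 557) (nat_lit 1549) (.f (nat_lit 591) (nat_lit 623) (nat_lit 7662) (.f (nat_lit 497) (nat_lit 498) (nat_lit 2542) (.f (nat_lit 592) (nat_lit 624) (nat_lit 6640) (.f (nat_lit 495) (nat_lit 463) (nat_lit 4559) (.f (nat_lit 590) (nat_lit 622) (nat_lit 5614) (.d (nat_lit 589) (nat_lit 588) (nat_lit 2604) (nat_lit 621) (nat_lit 5613))))))))))))) (.a (.f (nat_lit 525) (nat_lit 524) (nat_lit 524) (.f (nat_lit 493) (nat_lit 492) (nat_lit 3564) (.f (nat_lit 494) (nat_lit 529) (nat_lit 3565) (.f (nat_lit 462) (nat_lit 430) (nat_lit 4526) (.d (nat_lit 557) (nat_lit 556) (nat_lit 1548) (nat_lit 589) (nat_lit 6605)))))) (.a (.f (nat_lit 525) (nat_lit 524) (nat_lit 524) (.f (nat_lit 493) (nat_lit 492) (nat_lit 3564) (.f (nat_lit 494) (nat_lit 529) (nat_lit 3565) (.f (nat_lit 462) (nat_lit 430) (nat_lit 4526) (.d (nat_lit 591) (nat_lit 495) (nat_lit 7630) (nat_lit 558) (nat_lit 4558)))))) (.f (nat_lit 525) (nat_lit 524) (nat_lit 524) (.f (nat_lit 557) (nat_lit 556) (nat_lit 1548) (.f (nat_lit 558) (nat_lit 529) (nat_lit 1549) (.f (nat_lit 589) (nat_lit 588) (nat_lit 1580) (.d (nat_lit 494) (nat_lit 462) (nat_lit 5581) (nat_lit 621) (nat_lit 6637)))))))))))) (.a s1119 (.a s1131 (.a (.p (nat_lit 529) (.a (.d (nat_lit 530) (nat_lit 531) (nat_lit 1551) (nat_lit 558) (nat_lit 1550)) (.a (.p (nat_lit 526) (.a (.f (nat_lit 494) (nat_lit 493) (nat_lit 3565) (.f (nat_lit 591) (nat_lit 623) (nat_lit 7662) (.d (nat_lit 462) (nat_lit 430) (nat_lit 4526) (nat_lit 495) (nat_lit 7630)))) (.a (.f (nat_lit 494) (nat_lit 493) (nat_lit 3565) (.f (nat_lit 591) (nat_lit 623) (nat_lit 7662) (.d (nat_lit 462) (nat_lit 430) (nat_lit 4526) (nat_lit 558) (nat_lit 4558)))) (.f (nat_lit 557) (nat_lit 558) (nat_lit 1549) (.d (nat_lit 525) (nat_lit 524) (nat_lit 524) (nat_lit 556) (nat_lit 1548)))))) (.f (nat_lit 530) (nat_lit 531) (nat_lit 1551) (.f (nat_lit 495) (nat_lit 494) (nat_lit 3566) (.f (nat_lit 463) (nat_lit 431) (nat_lit 4527) (.f (nat_lit 498) (nat_lit 499) (nat_lit 2543) (.f (nat_lit 497) (nat_lit 526) (nat_lit 2542) (.f (nat_lit 465) (nat_lit 433) (nat_lit 5552) (.d (nat_lit 462) (nat_lit 430) (nat_lit 7598) (nat_lit 464) (nat_lit 462))))))))))) (.a (.p (nat_lit 529) (.a (.d (nat_lit 530) (nat_lit 531) (nat_lit 1551) (nat_lit 558) (nat_lit 1550)) (.a (.p (nat_lit 526) (.a (.f (nat_lit 494) (nat_lit 493) (nat_lit 3565) (.f (nat_lit 591) (nat_lit 623) (nat_lit 7662) (.d (nat_lit 462) (nat_lit 430) (nat_lit 4526) (nat_lit 558) (nat_lit 4558)))) (.a (.f (nat_lit 525) (nat_lit 524) (nat_lit 524) (.d (nat_lit 493) (nat_lit 492) (nat_lit 3564) (nat_lit 494) (nat_lit 3565))) (.f (nat_lit 557) (nat_lit 558) (nat_lit 1549) (.d (nat_lit 525) (nat_lit 524) (nat_lit 524) (nat_lit 556) (nat_lit 1548)))))) (.f (nat_lit 530) (nat_lit 531) (nat_lit 1551) (.f (nat_lit 498) (nat_lit 499) (nat_lit 2543) (.f (nat_lit 497) (nat_lit 526) (nat_lit 2542) (.f (nat_lit 562) (nat_lit 563) (nat_lit 527) (.d (nat_lit 465) (nat_lit 433) (nat_lit 4529) (nat_lit 594) (nat_lit 7633))))))))) (.a (.p (nat_lit 592) (.a (.d (nat_lit 495) (nat_lit 463) (nat_lit 4559) (nat_lit 624) (nat_lit 7663)) (.a (.f (nat_lit 624) (nat_lit 656) (nat_lit 7695) (.f (nat_lit 623) (nat_lit 655) (nat_lit 5647) (.f (nat_lit 625) (nat_lit 657) (nat_lit 4624) (.f (nat_lit 529) (nat_lit 497) (nat_lit 6640) (.f (nat_lit 530) (nat_lit 531) (nat_lit 1551) (.f (nat_lit 498) (nat_lit 499) (nat_lit 2543) (.f (nat_lit 562) (nat_lit 563) (nat_lit 527) (.f (nat_lit 594) (nat_lit 593) (nat_lit 5617) (.d (nat_lit 595) (nat_lit 626) (nat_lit 2639) (nat_lit 627) (nat_lit 4594)))))))))) (.p (nat_lit 591) (.a (.f (nat_lit 495) (nat_lit 463) (nat_lit 4559) (.f (nat_lit 623) (nat_lit 655) (nat_lit 6671) (.d (nat_lit 494) (nat_lit 462) (nat_lit 7630) (nat_lit 526) (nat_lit 7662)))) (.a (.f (nat_lit 623) (nat_lit 655) (nat_lit 6671) (.f (nat_lit 622) (nat_lit 654) (nat_lit 5646) (.f (nat_lit 593) (nat_lit 594) (nat_lit 1614) (.d (nat_lit 621) (nat_lit 590) (nat_lit 1613) (nat_lit 620) (nat_lit 2636))))) (.f (nat_lit 495) (nat_lit 463) (nat_lit 4559) (.f (nat_lit 494) (nat_lit 462) (nat_lit 7630) (.f (nat_lit 529) (nat_lit 530) (nat_lit 3566) (.d (nat_lit 493) (nat_lit 492) (nat_lit 492) (nat_lit 526) (nat_lit 3565))))))))))) (.a (.p (nat_lit 495) (.a (.f (nat_lit 463) (nat_lit 431) (nat_lit 4527) (.f (nat_lit 558) (nat_lit 590) (nat_lit 5582) (.d (nat_lit 529) (nat_lit 530) (nat_lit 1550) (nat_lit 557) (nat_lit 2573)))) (.a (.f (nat_lit 463) (nat_lit 431) (nat_lit 4527) (.f (nat_lit 558) (nat_lit 590) (nat_lit 5582) (.d (nat_lit 557) (nat_lit 529) (nat_lit 2573) (nat_lit 556) (nat_lit 2572)))) (.a (.d (nat_lit 463) (nat_lit 431) (nat_lit 4527) (nat_lit 592) (nat_lit 4559)) s1117)))) (.p (nat_lit 529) (.a (.d (nat_lit 530) (nat_lit 531) (nat_lit 1551) (nat_lit 558) (nat_lit 1550)) (.a (.p (nat_lit 526) (.a (.f (nat_lit 557) (nat_lit 558) (nat_lit 1549) (.d (nat_lit 525) (nat_lit 524) (nat_lit 524) (nat_lit 556) (nat_lit 1548))) (.a (.f (nat_lit 558) (nat_lit 557) (nat_lit 1549) (.f (nat_lit 494) (nat_lit 493) (nat_lit 3565) (.f (nat_lit 462) (nat_lit 430) (nat_lit 4526) (.f (nat_lit 463) (nat_lit 431) (nat_lit 6574) (.d (nat_lit 495) (nat_lit 590) (nat_lit 6606) (nat_lit 592) (nat_lit 4559)))))) (.f (nat_lit 525) (nat_lit 524) (nat_lit 524) (.d (nat_lit 493) (nat_lit 492) (nat_lit 3564) (nat_lit 494) (nat_lit 3565)))))) (.f (nat_lit 530) (nat_lit 531) (nat_lit 1551) (.f (nat_lit 495) (nat_lit 494) (nat_lit 3566) (.d (nat_lit 463) (nat_lit 431) (nat_lit 4527) (nat_lit 592) (nat_lit 4559)))))))))))))))) (.a s642 (.a s917 (.a s1178 (.a s1193 (.a s1214 (.a (.p (nat_lit 496) (.a (.p (nat_lit 497) (.a (.f (nat_lit 592) (nat_lit 465) (nat_lit 6608) (.d (nat_lit 495) (nat_lit 463) (nat_lit 7631) (nat_lit 624) (nat_lit 7663))) (.a (.f (nat_lit 526) (nat_lit 525) (nat_lit 2541) (.d (nat_lit 498) (nat_lit 495) (nat_lit 1518) (nat_lit 499) (nat_lit 1519))) (.f (nat_lit 526) (nat_lit 525) (nat_lit 2541) (.d (nat_lit 498) (nat_lit 499) (nat_lit 1519) (nat_lit 529) (nat_lit 2542)))))) (.a s980 (.a (.p (nat_lit 529) (.a (.p (nat_lit 526) (.a (.f (nat_lit 493) (nat_lit 494) (nat_lit 3565) (.f (nat_lit 525) (nat_lit 492) (nat_lit 3564) (.d (nat_lit 557) (nat_lit 556) (nat_lit 1548) (nat_lit 558) (nat_lit 1549)))) (.a (.f (nat_lit 497) (nat_lit 498) (nat_lit 2542) (.f (nat_lit 465) (nat_lit 433) (nat_lit 5552) (.f (nat_lit 494) (nat_lit 493) (nat_lit 3565) (.f (nat_lit 495) (nat_lit 466) (nat_lit 2510) (.f (nat_lit 463) (nat_lit 431) (nat_lit 4527) (.d (nat_lit 558) (nat_lit 557) (nat_lit 1549) (nat_lit 590) (nat_lit 6606))))))) (.d (nat_lit 497) (nat_lit 498) (nat_lit 2542) (nat_lit 525) (nat_lit 2541))))) (.a s1237 (.a (.p (nat_lit 530) (.a (.f (nat_lit 531) (nat_lit 495) (nat_lit 3567) (.d (nat_lit 499) (nat_lit 498) (nat_lit 2543) (nat_lit 500) (nat_lit 2544))) (.a (.f (nat_lit 495) (nat_lit 494) (nat_lit 3566) (.f (nat_lit 463) (nat_lit 431) (nat_lit 4527) (.f (nat_lit 498) (nat_lit 499) (nat_lit 2543) (.f (nat_lit 497) (nat_lit 462) (nat_lit 3534) (.f (nat_lit 465) (nat_lit 433) (nat_lit 5552) (.d (nat_lit 562) (nat_lit 563) (nat_lit 527) (nat_lit 594) (nat_lit 7633))))))) (.a (.f (nat_lit 563) (nat_lit 562) (nat_lit 527) (.f (nat_lit 531) (nat_lit 564) (nat_lit 528) (.d (nat_lit 499) (nat_lit 498) (nat_lit 2543) (nat_lit 500) (nat_lit 2544)))) (.d (nat_lit 495) (nat_lit 494) (nat_lit 3566) (nat_lit 531) (nat_lit 3567)))))) (.a (.p (nat_lit 530) (.a (.f (nat_lit 563) (nat_lit 562) (nat_lit 527) (.f (nat_lit 531) (nat_lit 564) (nat_lit 528) (.d (nat_lit 499) (nat_lit 498) (nat_lit 2543) (nat_lit 500) (nat_lit 2544)))) (.a (.f (nat_lit 498) (nat_lit 499) (nat_lit 2543) (.f (nat_lit 497) (nat_lit 526) (nat_lit 2542) (.f (nat_lit 465) (nat_lit 433) (nat_lit 5552) (.d (nat_lit 562) (nat_lit 563) (nat_lit 527) (nat_lit 594) (nat_lit 7633))))) (.a (.f (nat_lit 498) (nat_lit 499) (nat_lit 2543) (.f (nat_lit 526) (nat_lit 497) (nat_lit 2542) (.f (nat_lit 493) (nat_lit 494) (nat_lit 3565) (.f (nat_lit 525) (nat_lit 492) (nat_lit 3564) (.d (nat_lit 557) (nat_lit 556) (nat_lit 1548) (nat_lit 558) (nat_lit 1549)))))) (.a (.f (nat_lit 563) (nat_lit 562) (nat_lit 527) (.f (nat_lit 531) (nat_lit 564) (nat_lit 528) (.f (nat_lit 500) (nat_lit 499) (nat_lit 2544) (.d (nat_lit 532) (nat_lit 497) (nat_lit 3568) (nat_lit 501) (nat_lit 2545))))) (.f (nat_lit 563) (nat_lit 562) (nat_lit 527) (.f (nat_lit 531) (nat_lit 564) (nat_lit 528) (.f (nat_lit 497) (nat_lit 532) (nat_lit 3568) (.d (nat_lit 526) (nat_lit 498) (nat_lit 2542) (nat_lit 525) (nat_lit 2541)))))))))) (.a (.p (nat_lit 530) (.a (.d (nat_lit 495) (nat_lit 494) (nat_lit 3566) (nat_lit 531) (nat_lit 3567)) (.a (.f (nat_lit 494) (nat_lit 495) (nat_lit 3566) (.f (nat_lit 526) (nat_lit 493) (nat_lit 3565) (.f (nat_lit 525) (nat_lit 497) (nat_lit 2541) (.d (nat_lit 557) (nat_lit 556) (nat_lit 1548) (nat_lit 558) (nat_lit 1549))))) (.f (nat_lit 563) (nat_lit 562) (nat_lit 527) (.f (nat_lit 531) (nat_lit 564) (nat_lit 528) (.f (nat_lit 500) (nat_lit 499) (nat_lit 2544) (.d (nat_lit 532) (nat_lit 497) (nat_lit 3568) (nat_lit 501) (nat_lit 2545)))))))) (.p (nat_lit 530) (.a (.f (nat_lit 531) (nat_lit 495) (nat_lit 3567) (.d (nat_lit 499) (nat_lit 498) (nat_lit 2543) (nat_lit 500) (nat_lit 2544))) (.a (.f (nat_lit 498) (nat_lit 499) (nat_lit 2543) (.f (nat_lit 497) (nat_lit 526) (nat_lit 2542) (.f (nat_lit 465) (nat_lit 433) (nat_lit 5552) (.d (nat_lit 562) (nat_lit 563) (nat_lit 527) (nat_lit 594) (nat_lit 7633))))) (.a (.f (nat_lit 563) (nat_lit 562) (nat_lit 527) (.f (nat_lit 531) (nat_lit 564) (nat_lit 528) (.f (nat_lit 500) (nat_lit 499) (nat_lit 2544) (.d (nat_lit 532) (nat_lit 497) (nat_lit 3568) (nat_lit 501) (nat_lit 2545))))) (.f (nat_lit 563) (nat_lit 562) (nat_lit 527) (.f (nat_lit 531) (nat_lit 564) (nat_lit 528) (.f (nat_lit 497) (nat_lit 532) (nat_lit 3568) (.d (nat_lit 526) (nat_lit 498) (nat_lit 2542) (nat_lit 525) (nat_lit 2541))))))))))))))) (.a (.p (nat_lit 497) (.a (.f (nat_lit 526) (nat_lit 525) (nat_lit 2541) (.d (nat_lit 498) (nat_lit 499) (nat_lit 1519) (nat_lit 529) (nat_lit 2542))) (.f (nat_lit 592) (nat_lit 465) (nat_lit 6608) (.f (nat_lit 623) (nat_lit 591) (nat_lit 5615) (.f (nat_lit 624) (nat_lit 655) (nat_lit 5647) (.d (nat_lit 625) (nat_lit 593) (nat_lit 4592) (nat_lit 657) (nat_lit 4624))))))) (.p (nat_lit 529) (.a s1237 (.a (.p (nat_lit 526) (.a (.f (nat_lit 493) (nat_lit 494) (nat_lit 3565) (.f (nat_lit 525) (nat_lit 492) (nat_lit 3564) (.d (nat_lit 557) (nat_lit 556) (nat_lit 1548) (nat_lit 558) (nat_lit 1549)))) (.a (.f (nat_lit 497) (nat_lit 498) (nat_lit 2542) (.f (nat_lit 592) (nat_lit 624) (nat_lit 6640) (.f (nat_lit 463) (nat_lit 495) (nat_lit 7631) (.f (nat_lit 431) (nat_lit 464) (nat_lit 7599) (.f (nat_lit 494) (nat_lit 493) (nat_lit 3565) (.d (nat_lit 558) (nat_lit 462) (nat_lit 6574) (nat_lit 557) (nat_lit 1549))))))) (.d (nat_lit 497) (nat_lit 498) (nat_lit 2542) (nat_lit 525) (nat_lit 2541))))) (.a (.p (nat_lit 530) (.a (.f (nat_lit 531) (nat_lit 495) (nat_lit 3567) (.d (nat_lit 499) (nat_lit 498) (nat_lit 2543) (nat_lit 500) (nat_lit 2544))) (.a (.f (nat_lit 495) (nat_lit 494) (nat_lit 3566) (.d (nat_lit 463) (nat_lit 431) (nat_lit 4527) (nat_lit 592) (nat_lit 7631))) (.f (nat_lit 563) (nat_lit 562) (nat_lit 527) (.f (nat_lit 531) (nat_lit 564) (nat_lit 528) (.d (nat_lit 499) (nat_lit 498) (nat_lit 2543) (nat_lit 500) (nat_lit 2544))))))) (.a (.p (nat_lit 530) (.a (.f (nat_lit 563) (nat_lit 562) (nat_lit 527) (.f (nat_lit 531) (nat_lit 564) (nat_lit 528) (.d (nat_lit 499) (nat_lit 498) (nat_lit 2543) (nat_lit 500) (nat_lit 2544)))) (.a (.f (nat_lit 498) (nat_lit 499) (nat_lit 2543) (.f (nat_lit 526) (nat_lit 497) (nat_lit 2542) (.f (nat_lit 493) (nat_lit 494) (nat_lit 3565) (.f (nat_lit 525) (nat_lit 492) (nat_lit 3564) (.d (nat_lit 557) (nat_lit 556) (nat_lit 1548) (nat_lit 558) (nat_lit 1549)))))) (.a (.f (nat_lit 563) (nat_lit 562) (nat_lit 527) (.f (nat_lit 531) (nat_lit 564) (nat_lit 528) (.f (nat_lit 500) (nat_lit 499) (nat_lit 2544) (.d (nat_lit 532) (nat_lit 497) (nat_lit 3568) (nat_lit 501) (nat_lit 2545))))) (.f (nat_lit 563) (nat_lit 562) (nat_lit 527) (.f (nat_lit 531) (nat_lit 564) (nat_lit 528) (.f (nat_lit 497) (nat_lit 532) (nat_lit 3568) (.d (nat_lit 526) (nat_lit 498) (nat_lit 2542) (nat_lit 525) (nat_lit 2541))))))))) (.a (.p (nat_lit 530) (.a (.d (nat_lit 495) (nat_lit 494) (nat_lit 3566) (nat_lit 531) (nat_lit 3567)) (.a (.f (nat_lit 494) (nat_lit 495) (nat_lit 3566) (.f (nat_lit 526) (nat_lit 493) (nat_lit 3565) (.f (nat_lit 525) (nat_lit 497) (nat_lit 2541) (.d (nat_lit 557) (nat_lit 556) (nat_lit 1548) (nat_lit 558) (nat_lit 1549))))) (.f (nat_lit 563) (nat_lit 562) (nat_lit 527) (.f (nat_lit 531) (nat_lit 564) (nat_lit 528) (.f (nat_lit 500) (nat_lit 499) (nat_lit 2544) (.d (nat_lit 532) (nat_lit 497) (nat_lit 3568) (nat_lit 501) (nat_lit 2545)))))))) (.p (nat_lit 530) (.a (.f (nat_lit 531) (nat_lit 495) (nat_lit 3567) (.d (nat_lit 499) (nat_lit 498) (nat_lit 2543) (nat_lit 500) (nat_lit 2544))) (.a (.f (nat_lit 498) (nat_lit 499) (nat_lit 2543) (.f (nat_lit 526) (nat_lit 497) (nat_lit 2542) (.f (nat_lit 557) (nat_lit 558) (nat_lit 1549) (.f (nat_lit 525) (nat_lit 556) (nat_lit 1548) (.f (nat_lit 495) (nat_lit 524) (nat_lit 2540) (.d (nat_lit 463) (nat_lit 431) (nat_lit 4527) (nat_lit 592) (nat_lit 7631))))))) (.a (.f (nat_lit 563) (nat_lit 562) (nat_lit 527) (.f (nat_lit 531) (nat_lit 564) (nat_lit 528) (.d (nat_lit 499) (nat_lit 498) (nat_lit 2543) (nat_lit 500) (nat_lit 2544)))) (.a (.f (nat_lit 563) (nat_lit 562) (nat_lit 527) (.f (nat_lit 531) (nat_lit 564) (nat_lit 528) (.f (nat_lit 500) (nat_lit 499) (nat_lit 2544) (.d (nat_lit 532) (nat_lit 497) (nat_lit 3568) (nat_lit 501) (nat_lit 2545))))) (.f (nat_lit 563) (nat_lit 562) (nat_lit 527) (.f (nat_lit 531) (nat_lit 564) (nat_lit 528) (.f (nat_lit 497) (nat_lit 532) (nat_lit 3568) (.d (nat_lit 526) (nat_lit 498) (nat_lit 2542) (nat_lit 525) (nat_lit 2541))))))))))))))))))))) (.a s1309 (.a s1317 (.a s1335 (.a s1337 (.a s1355 s1361)))))))))))))) (.a (.p (nat_lit 560) (.a s138 (.a (.p (nat_lit 559) (.a s1119 (.a s1363 (.a s1379 (.a s1386 (.a s1408 (.a s1416 (.a s1421 s1428)))))))) (.a s674 (.a s971 (.a s1178 (.a (.p (nat_lit 496) (.a (.p (nat_lit 464) (.a (.d (nat_lit 559) (nat_lit 432) (nat_lit 5551) (nat_lit 591) (nat_lit 5583)) (.f (nat_lit 463) (nat_lit 431) (nat_lit 7599) (.f (nat_lit 495) (nat_lit 592) (nat_lit 7631) (.f (nat_lit 465) (nat_lit 433) (nat_lit 6576) (.d (nat_lit 466) (nat_lit 467) (nat_lit 1487) (nat_lit 494) (nat_lit 1486))))))) (.a (.p (nat_lit 464) (.a (.d (nat_lit 559) (nat_lit 432) (nat_lit 5551) (nat_lit 591) (nat_lit 5583)) (.a (.f (nat_lit 433) (nat_lit 465) (nat_lit 6576) (.f (nat_lit 432) (nat_lit 401) (nat_lit 6544) (.d (nat_lit 431) (nat_lit 399) (nat_lit 7567) (nat_lit 463) (nat_lit 7599)))) (.f (nat_lit 559) (nat_lit 591) (nat_lit 5583) (.f (nat_lit 463) (nat_lit 431) (nat_lit 7599) (.f (nat_lit 465) (nat_lit 433) (nat_lit 6576) (.f (nat_lit 561) (nat_lit 593) (nat_lit 4560) (.f (nat_lit 562) (nat_lit 563) (nat_lit 3599) (.f (nat_lit 530) (nat_lit 531) (nat_lit 2575) (.f (nat_lit 594) (nat_lit 595) (nat_lit 559) (.f (nat_lit 498) (nat_lit 497) (nat_lit 7633) (.d (nat_lit 499) (nat_lit 466) (nat_lit 463) (nat_lit 467) (nat_lit 6610))))))))))))) (.a s980 (.a s1449 (.a (.p (nat_lit 464) (.a (.d (nat_lit 559) (nat_lit 432) (nat_lit 5551) (nat_lit 591) (nat_lit 5583)) (.a (.f (nat_lit 463) (nat_lit 431) (nat_lit 7599) (.f (nat_lit 592) (nat_lit 495) (nat_lit 7631) (.f (nat_lit 623) (nat_lit 591) (nat_lit 5615) (.f (nat_lit 624) (nat_lit 655) (nat_lit 5647) (.d (nat_lit 625) (nat_lit 593) (nat_lit 4592) (nat_lit 657) (nat_lit 4624)))))) (.f (nat_lit 432) (nat_lit 559) (nat_lit 5551) (.d (nat_lit 431) (nat_lit 399) (nat_lit 7567) (nat_lit 463) (nat_lit 7599)))))) (.a (.p (nat_lit 464) (.a (.d (nat_lit 559) (nat_lit 432) (nat_lit 5551) (nat_lit 591) (nat_lit 5583)) (.a (.f (nat_lit 433) (nat_lit 465) (nat_lit 6576) (.f (nat_lit 432) (nat_lit 401) (nat_lit 6544) (.f (nat_lit 399) (nat_lit 431) (nat_lit 7567) (.d (nat_lit 400) (nat_lit 367) (nat_lit 7535) (nat_lit 495) (nat_lit 5519))))) (.f (nat_lit 591) (nat_lit 559) (nat_lit 5583) (.f (nat_lit 592) (nat_lit 623) (nat_lit 5615) (.f (nat_lit 624) (nat_lit 495) (nat_lit 7663) (.d (nat_lit 625) (nat_lit 593) (nat_lit 4592) (nat_lit 657) (nat_lit 4624)))))))) s1455))))))) (.a s1540 (.a s1596 (.a s1678 (.a s1695 (.a s1696 (.a s1704 (.a s1708 (.a s1733 (.a s1735 (.a s1746 (.a s1756 s1758)))))))))))))))))) (.a (.p (nat_lit 559) (.a (.p (nat_lit 495) (.a s1773 (.a s1789 (.a s1794 (.a (.p (nat_lit 592) (.a (.f (nat_lit 591) (nat_lit 624) (nat_lit 4591) (.f (nat_lit 590) (nat_lit 622) (nat_lit 5614) (.f (nat_lit 558) (nat_lit 463) (nat_lit 5582) (.d (nat_lit 557) (nat_lit 556) (nat_lit 556) (nat_lit 593) (nat_lit 3629))))) (.a (.f (nat_lit 463) (nat_lit 560) (nat_lit 4559) (.f (nat_lit 462) (nat_lit 430) (nat_lit 7598) (.f (nat_lit 591) (nat_lit 494) (nat_lit 7630) (.d (nat_lit 590) (nat_lit 558) (nat_lit 5582) (nat_lit 622) (nat_lit 5614))))) (.a (.d (nat_lit 624) (nat_lit 560) (nat_lit 7663) (nat_lit 591) (nat_lit 4591)) (.d (nat_lit 560) (nat_lit 463) (nat_lit 4559) (nat_lit 624) (nat_lit 7663)))))) (.a s1808 (.a (.p (nat_lit 464) (.a (.f (nat_lit 463) (nat_lit 432) (nat_lit 6575) (.d (nat_lit 560) (nat_lit 431) (nat_lit 4527) (nat_lit 592) (nat_lit 4559))) (.a (.f (nat_lit 591) (nat_lit 496) (nat_lit 6607) (.f (nat_lit 590) (nat_lit 622) (nat_lit 5614) (.f (nat_lit 558) (nat_lit 463) (nat_lit 5582) (.f (nat_lit 592) (nat_lit 624) (nat_lit 4591) (.d (nat_lit 557) (nat_lit 556) (nat_lit 556) (nat_lit 593) (nat_lit 3629)))))) (.d (nat_lit 496) (nat_lit 432) (nat_lit 5551) (nat_lit 591) (nat_lit 6607))))) (.a s1821 (.a s1833 s1838))))))))) (.a (.p (nat_lit 526) (.a (.p (nat_lit 560) (.a (.d (nat_lit 525) (nat_lit 524) (nat_lit 524) (nat_lit 561) (nat_lit 525)) (.a s1055 (.p (nat_lit 558) (.a (.f (nat_lit 557) (nat_lit 556) (nat_lit 2572) (.f (nat_lit 589) (nat_lit 588) (nat_lit 1580) (.f (nat_lit 494) (nat_lit 462) (nat_lit 5581) (.d (nat_lit 621) (nat_lit 590) (nat_lit 5613) (nat_lit 653) (nat_lit 6669))))) (.a (.f (nat_lit 557) (nat_lit 556) (nat_lit 2572) (.f (nat_lit 592) (nat_lit 593) (nat_lit 557) (.d (nat_lit 495) (nat_lit 463) (nat_lit 4559) (nat_lit 624) (nat_lit 7663)))) (.f (nat_lit 561) (nat_lit 562) (nat_lit 3598) (.f (nat_lit 590) (nat_lit 589) (nat_lit 1581) (.d (nat_lit 495) (nat_lit 463) (nat_lit 5582) (nat_lit 622) (nat_lit 6638)))))))))) (.a (.p (nat_lit 495) (.a (.p (nat_lit 463) (.a (.d (nat_lit 558) (nat_lit 431) (nat_lit 5550) (nat_lit 590) (nat_lit 5582)) (.a (.f (nat_lit 430) (nat_lit 462) (nat_lit 7598) (.f (nat_lit 431) (nat_lit 398) (nat_lit 7566) (.d (nat_lit 432) (nat_lit 400) (nat_lit 6543) (nat_lit 464) (nat_lit 6575)))) (.f (nat_lit 558) (nat_lit 590) (nat_lit 5582) (.f (nat_lit 462) (nat_lit 430) (nat_lit 7598) (.f (nat_lit 494) (nat_lit 591) (nat_lit 7630) (.d (nat_lit 557) (nat_lit 556) (nat_lit 2572) (nat_lit 589) (nat_lit 5581)))))))) (.a (.p (nat_lit 463) (.a (.d (nat_lit 558) (nat_lit 431) (nat_lit 5550) (nat_lit 590) (nat_lit 5582)) (.a (.f (nat_lit 430) (nat_lit 462) (nat_lit 7598) (.f (nat_lit 431) (nat_lit 398) (nat_lit 7566) (.f (nat_lit 399) (nat_lit 494) (nat_lit 5518) (.d (nat_lit 400) (nat_lit 368) (nat_lit 6511) (nat_lit 432) (nat_lit 6543))))) (.f (nat_lit 558) (nat_lit 590) (nat_lit 5582) (.f (nat_lit 462) (nat_lit 430) (nat_lit 7598) (.f (nat_lit 494) (nat_lit 591) (nat_lit 7630) (.d (nat_lit 557) (nat_lit 556) (nat_lit 2572) (nat_lit 589) (nat_lit 5581)))))))) (.a s1880 (.a (.p (nat_lit 463) (.a (.d (nat_lit 558) (nat_lit 431) (nat_lit 5550) (nat_lit 590) (nat_lit 5582)) (.a (.f (nat_lit 462) (nat_lit 430) (nat_lit 7598) (.f (nat_lit 591) (nat_lit 494) (nat_lit 7630) (.f (nat_lit 622) (nat_lit 590) (nat_lit 5614) (.f (nat_lit 623) (nat_lit 654) (nat_lit 5646) (.d (nat_lit 624) (nat_lit 592) (nat_lit 4591) (nat_lit 656) (nat_lit 4623)))))) (.f (nat_lit 462) (nat_lit 430) (nat_lit 7598) (.f (nat_lit 494) (nat_lit 591) (nat_lit 7630) (.d (nat_lit 431) (nat_lit 399) (nat_lit 5518) (nat_lit 558) (nat_lit 5550))))))) (.a s1905 (.a (.p (nat_lit 591) (.a (.f (nat_lit 622) (nat_lit 590) (nat_lit 5614) (.f (nat_lit 623) (nat_lit 654) (nat_lit 5646) (.d (nat_lit 624) (nat_lit 592) (nat_lit 4591) (nat_lit 656) (nat_lit 4623)))) (.a (.d (nat_lit 494) (nat_lit 462) (nat_lit 7630) (nat_lit 623) (nat_lit 7662)) (.f (nat_lit 494) (nat_lit 462) (nat_lit 7630) (.f (nat_lit 493) (nat_lit 492) (nat_lit 492) (.f (nat_lit 590) (nat_lit 622) (nat_lit 5614) (.f (nat_lit 558) (nat_lit 461) (nat_lit 7629) (.f (nat_lit 557) (nat_lit 556) (nat_lit 2572) (.d (nat_lit 592) (nat_lit 593) (nat_lit 3629) (nat_lit 624) (nat_lit 4591)))))))))) (.a (.p (nat_lit 463) (.a (.d (nat_lit 558) (nat_lit 431) (nat_lit 5550) (nat_lit 590) (nat_lit 5582)) (.a (.f (nat_lit 430) (nat_lit 462) (nat_lit 7598) (.f (nat_lit 431) (nat_lit 398) (nat_lit 7566) (.d (nat_lit 432) (nat_lit 400) (nat_lit 6543) (nat_lit 464) (nat_lit 6575)))) (.f (nat_lit 558) (nat_lit 590) (nat_lit 5582) (.f (nat_lit 557) (nat_lit 556) (nat_lit 2572) (.f (nat_lit 462) (nat_lit 430) (nat_lit 7598) (.f (nat_lit 494) (nat_lit 589) (nat_lit 5581) (.f (nat_lit 493) (nat_lit 492) (nat_lit 492) (.d (nat_lit 464) (nat_lit 432) (nat_lit 6575) (nat_lit 465) (nat_lit 1485)))))))))) (.a (.p (nat_lit 463) (.a (.d (nat_lit 558) (nat_lit 431) (nat_lit 5550) (nat_lit 590) (nat_lit 5582)) (.a (.f (nat_lit 432) (nat_lit 464) (nat_lit 6575) (.f (nat_lit 431) (nat_lit 400) (nat_lit 6543) (.f (nat_lit 398) (nat_lit 430) (nat_lit 7566) (.d (nat_lit 399) (nat_lit 366) (nat_lit 7534) (nat_lit 494) (nat_lit 5518))))) (.f (nat_lit 590) (nat_lit 558) (nat_lit 5582) (.f (nat_lit 591) (nat_lit 622) (nat_lit 5614) (.f (nat_lit 623) (nat_lit 494) (nat_lit 7662) (.d (nat_lit 624) (nat_lit 592) (nat_lit 4591) (nat_lit 656) (nat_lit 4623)))))))) s1930))))))))) (.a (.p (nat_lit 495) (.a (.p (nat_lit 463) (.a (.d (nat_lit 558) (nat_lit 431) (nat_lit 5550) (nat_lit 590) (nat_lit 5582)) (.a (.f (nat_lit 430) (nat_lit 462) (nat_lit 7598) (.f (nat_lit 431) (nat_lit 398) (nat_lit 7566) (.d (nat_lit 432) (nat_lit 400) (nat_lit 6543) (nat_lit 464) (nat_lit 6575)))) (.f (nat_lit 558) (nat_lit 590) (nat_lit 5582) (.f (nat_lit 462) (nat_lit 430) (nat_lit 7598) (.f (nat_lit 494) (nat_lit 591) (nat_lit 7630) (.d (nat_lit 557) (nat_lit 556) (nat_lit 2572) (nat_lit 589) (nat_lit 5581)))))))) (.a (.p (nat_lit 463) (.a (.d (nat_lit 558) (nat_lit 431) (nat_lit 5550) (nat_lit 590) (nat_lit 5582)) (.a (.f (nat_lit 430) (nat_lit 462) (nat_lit 7598) (.f (nat_lit 431) (nat_lit 398) (nat_lit 7566) (.f (nat_lit 399) (nat_lit 494) (nat_lit 5518) (.d (nat_lit 400) (nat_lit 368) (nat_lit 6511) (nat_lit 432) (nat_lit 6543))))) (.f (nat_lit 558) (nat_lit 590) (nat_lit 5582) (.f (nat_lit 462) (nat_lit 430) (nat_lit 7598) (.f (nat_lit 494) (nat_lit 591) (nat_lit 7630) (.d (nat_lit 557) (nat_lit 556) (nat_lit 2572) (nat_lit 589) (nat_lit 5581)))))))) (.a (.p (nat_lit 560) (.a (.f (nat_lit 463) (nat_lit 431) (nat_lit 4527) (.f (nat_lit 462) (nat_lit 430) (nat_lit 7598) (.f (nat_lit 494) (nat_lit 591) (nat_lit 7630) (.f (nat_lit 493) (nat_lit 492) (nat_lit 492) (.d (nat_lit 464) (nat_lit 432) (nat_lit 6575) (nat_lit 465) (nat_lit 1485)))))) (.d (nat_lit 525) (nat_lit 524) (nat_lit 524) (nat_lit 561) (nat_lit 525)))) (.a (.p (nat_lit 560) (.a (.f (nat_lit 463) (nat_lit 431) (nat_lit 4527) (.f (nat_lit 558) (nat_lit 590) (nat_lit 5582) (.f (nat_lit 525) (nat_lit 524) (nat_lit 524) (.f (nat_lit 557) (nat_lit 556) (nat_lit 1548) (.f (nat_lit 462) (nat_lit 430) (nat_lit 7598) (.d (nat_lit 494) (nat_lit 589) (nat_lit 5581) (nat_lit 591) (nat_lit 7630))))))) (.a (.f (nat_lit 463) (nat_lit 431) (nat_lit 4527) (.f (nat_lit 558) (nat_lit 590) (nat_lit 5582) (.f (nat_lit 462) (nat_lit 430) (nat_lit 7598) (.f (nat_lit 494) (nat_lit 591) (nat_lit 7630) (.d (nat_lit 557) (nat_lit 556) (nat_lit 2572) (nat_lit 589) (nat_lit 5581)))))) (.d (nat_lit 525) (nat_lit 524) (nat_lit 524) (nat_lit 561) (nat_lit 525))))) (.a (.p (nat_lit 525) (.a (.f (nat_lit 556) (nat_lit 557) (nat_lit 1548) (.f (nat_lit 524) (nat_lit 555) (nat_lit 1547) (.d (nat_lit 492) (nat_lit 491) (nat_lit 3563) (nat_lit 493) (nat_lit 3564)))) (.a (.f (nat_lit 492) (nat_lit 493) (nat_lit 3564) (.f (nat_lit 524) (nat_lit 491) (nat_lit 3563) (.f (nat_lit 558) (nat_lit 523) (nat_lit 523) (.d (nat_lit 463) (nat_lit 431) (nat_lit 5550) (nat_lit 590) (nat_lit 5582))))) (.a (.f (nat_lit 556) (nat_lit 557) (nat_lit 1548) (.f (nat_lit 524) (nat_lit 555) (nat_lit 1547) (.f (nat_lit 558) (nat_lit 523) (nat_lit 523) (.d (nat_lit 463) (nat_lit 431) (nat_lit 5550) (nat_lit 590) (nat_lit 5582))))) (.f (nat_lit 560) (nat_lit 561) (nat_lit 525) (.f (nat_lit 463) (nat_lit 431) (nat_lit 4527) (.f (nat_lit 590) (nat_lit 558) (nat_lit 5582) (.f (nat_lit 622) (nat_lit 591) (nat_lit 5614) (.f (nat_lit 557) (nat_lit 556) (nat_lit 1548) (.d (nat_lit 493) (nat_lit 492) (nat_lit 3564) (nat_lit 589) (nat_lit 4589))))))))))) (.a s1979 (.p (nat_lit 463) (.a (.d (nat_lit 558) (nat_lit 431) (nat_lit 5550) (nat_lit 590) (nat_lit 5582)) (.a (.f (nat_lit 430) (nat_lit 462) (nat_lit 7598) (.f (nat_lit 431) (nat_lit 398) (nat_lit 7566) (.d (nat_lit 432) (nat_lit 400) (nat_lit 6543) (nat_lit 464) (nat_lit 6575)))) (.f (nat_lit 558) (nat_lit 590) (nat_lit 5582) (.f (nat_lit 557) (nat_lit 556) (nat_lit 2572) (.f (nat_lit 462) (nat_lit 430) (nat_lit 7598) (.f (nat_lit 494) (nat_lit 589) (nat_lit 5581) (.f (nat_lit 493) (nat_lit 492) (nat_lit 492) (.d (nat_lit 464) (nat_lit 432) (nat_lit 6575) (nat_lit 465) (nat_lit 1485))))))))))))))))) (.a (.p (nat_lit 560) (.a (.d (nat_lit 525) (nat_lit 524) (nat_lit 524) (nat_lit 561) (nat_lit 525)) (.a s1055 s1994))) (.a (.p (nat_lit 525) (.a (.d (nat_lit 560) (nat_lit 524) (nat_lit 524) (nat_lit 561) (nat_lit 525)) (.a (.f (nat_lit 556) (nat_lit 557) (nat_lit 1548) (.f (nat_lit 524) (nat_lit 555) (nat_lit 1547) (.d (nat_lit 492) (nat_lit 491) (nat_lit 3563) (nat_lit 493) (nat_lit 3564)))) s2011))) (.a (.p (nat_lit 560) (.a (.d (nat_lit 525) (nat_lit 524) (nat_lit 524) (nat_lit 561) (nat_lit 525)) (.a (.p (nat_lit 592) (.a (.f (nat_lit 525) (nat_lit 524) (nat_lit 524) (.f (nat_lit 557) (nat_lit 556) (nat_lit 1548) (.f (nat_lit 558) (nat_lit 593) (nat_lit 557) (.f (nat_lit 493) (nat_lit 492) (nat_lit 3564) (.d (nat_lit 461) (nat_lit 429) (nat_lit 4525) (nat_lit 590) (nat_lit 4557)))))) (.d (nat_lit 495) (nat_lit 463) (nat_lit 4559) (nat_lit 624) (nat_lit 7663)))) (.p (nat_lit 558) (.a (.f (nat_lit 557) (nat_lit 556) (nat_lit 2572) (.f (nat_lit 592) (nat_lit 593) (nat_lit 557) (.d (nat_lit 495) (nat_lit 463) (nat_lit 4559) (nat_lit 624) (nat_lit 7663)))) (.a (.f (nat_lit 561) (nat_lit 562) (nat_lit 3598) (.f (nat_lit 590) (nat_lit 589) (nat_lit 1581) (.d (nat_lit 495) (nat_lit 463) (nat_lit 5582) (nat_lit 622) (nat_lit 6638)))) (.f (nat_lit 557) (nat_lit 556) (nat_lit 2572) (.f (nat_lit 561) (nat_lit 562) (nat_lit 3598) (.d (nat_lit 589) (nat_lit 588) (nat_lit 1580) (nat_lit 590) (nat_lit 1581)))))))))) (.a (.p (nat_lit 495) (.a s1880 (.a s1930 (.a (.p (nat_lit 463) (.a (.d (nat_lit 558) (nat_lit 431) (nat_lit 5550) (nat_lit 590) (nat_lit 5582)) (.a (.f (nat_lit 462) (nat_lit 430) (nat_lit 7598) (.f (nat_lit 591) (nat_lit 494) (nat_lit 7630) (.f (nat_lit 622) (nat_lit 590) (nat_lit 5614) (.f (nat_lit 623) (nat_lit 654) (nat_lit 5646) (.d (nat_lit 624) (nat_lit 592) (nat_lit 4591) (nat_lit 656) (nat_lit 4623)))))) (.f (nat_lit 462) (nat_lit 430) (nat_lit 7598) (.f (nat_lit 494) (nat_lit 591) (nat_lit 7630) (.d (nat_lit 431) (nat_lit 399) (nat_lit 5518) (nat_lit 558) (nat_lit 5550))))))) (.a (.p (nat_lit 560) (.a (.d (nat_lit 463) (nat_lit 431) (nat_lit 4527) (nat_lit 592) (nat_lit 4559)) (.d (nat_lit 525) (nat_lit 524) (nat_lit 524) (nat_lit 561) (nat_lit 525)))) s2026))))) (.a (.p (nat_lit 560) (.a (.d (nat_lit 525) (nat_lit 524) (nat_lit 524) (nat_lit 561) (nat_lit 525)) (.a (.p (nat_lit 592) (.a (.f (nat_lit 525) (nat_lit 524) (nat_lit 524) (.f (nat_lit 557) (nat_lit 556) (nat_lit 1548) (.f (nat_lit 558) (nat_lit 593) (nat_lit 557) (.f (nat_lit 589) (nat_lit 588) (nat_lit 1580) (.d (nat_lit 494) (nat_lit 462) (nat_lit 5581) (nat_lit 621) (nat_lit 6637)))))) (.d (nat_lit 495) (nat_lit 463) (nat_lit 4559) (nat_lit 624) (nat_lit 7663)))) (.p (nat_lit 558) (.a (.f (nat_lit 557) (nat_lit 556) (nat_lit 2572) (.f (nat_lit 589) (nat_lit 588) (nat_lit 1580) (.f (nat_lit 494) (nat_lit 462) (nat_lit 5581) (.d (nat_lit 621) (nat_lit 590) (nat_lit 5613) (nat_lit 653) (nat_lit 6669))))) (.a (.f (nat_lit 557) (nat_lit 556) (nat_lit 2572) (.f (nat_lit 592) (nat_lit 593) (nat_lit 557) (.d (nat_lit 495) (nat_lit 463) (nat_lit 4559) (nat_lit 624) (nat_lit 7663)))) (.f (nat_lit 561) (nat_lit 562) (nat_lit 3598) (.f (nat_lit 590) (nat_lit 589) (nat_lit 1581) (.d (nat_lit 495) (nat_lit 463) (nat_lit 5582) (nat_lit 622) (nat_lit 6638)))))))))) (.a (.p (nat_lit 592) (.a (.p (nat_lit 560) (.a (.f (nat_lit 525) (nat_lit 524) (nat_lit 524) (.f (nat_lit 557) (nat_lit 556) (nat_lit 1548) (.f (nat_lit 558) (nat_lit 593) (nat_lit 557) (.f (nat_lit 589) (nat_lit 588) (nat_lit 1580) (.d (nat_lit 494) (nat_lit 462) (nat_lit 5581) (nat_lit 621) (nat_lit 6637)))))) (.d (nat_lit 495) (nat_lit 463) (nat_lit 4559) (nat_lit 624) (nat_lit 7663)))) (.a s2046 (.a (.p (nat_lit 560) (.a (.f (nat_lit 525) (nat_lit 524) (nat_lit 524) (.f (nat_lit 557) (nat_lit 556) (nat_lit 1548) (.f (nat_lit 558) (nat_lit 593) (nat_lit 557) (.f (nat_lit 589) (nat_lit 588) (nat_lit 1580) (.d (nat_lit 494) (nat_lit 462) (nat_lit 5581) (nat_lit 621) (nat_lit 6637)))))) (.a (.f (nat_lit 624) (nat_lit 656) (nat_lit 7695) (.f (nat_lit 623) (nat_lit 655) (nat_lit 5647) (.f (nat_lit 591) (nat_lit 494) (nat_lit 7662) (.f (nat_lit 622) (nat_lit 654) (nat_lit 5646) (.d (nat_lit 593) (nat_lit 594) (nat_lit 1614) (nat_lit 621) (nat_lit 2637)))))) (.d (nat_lit 525) (nat_lit 524) (nat_lit 524) (nat_lit 561) (nat_lit 525))))) (.a (.p (nat_lit 525) (.a (.f (nat_lit 556) (nat_lit 557) (nat_lit 1548) (.f (nat_lit 524) (nat_lit 555) (nat_lit 1547) (.d (nat_lit 492) (nat_lit 491) (nat_lit 3563) (nat_lit 493) (nat_lit 3564)))) (.a (.f (nat_lit 492) (nat_lit 493) (nat_lit 3564) (.f (nat_lit 524) (nat_lit 491) (nat_lit 3563) (.f (nat_lit 523) (nat_lit 558) (nat_lit 523) (.d (nat_lit 555) (nat_lit 554) (nat_lit 1546) (nat_lit 556) (nat_lit 1547))))) (.a (.f (nat_lit 556) (nat_lit 557) (nat_lit 1548) (.f (nat_lit 524) (nat_lit 555) (nat_lit 1547) (.f (nat_lit 523) (nat_lit 558) (nat_lit 523) (.d (nat_lit 491) (nat_lit 490) (nat_lit 3562) (nat_lit 492) (nat_lit 3563))))) (.a (.f (nat_lit 560) (nat_lit 561) (nat_lit 525) (.f (nat_lit 557) (nat_lit 556) (nat_lit 1548) (.f (nat_lit 558) (nat_lit 593) (nat_lit 557) (.f (nat_lit 589) (nat_lit 588) (nat_lit 1580) (.d (nat_lit 494) (nat_lit 462) (nat_lit 5581) (nat_lit 621) (nat_lit 6637)))))) (.d (nat_lit 560) (nat_lit 524) (nat_lit 524) (nat_lit 561) (nat_lit 525))))))) (.p (nat_lit 560) (.a (.d (nat_lit 495) (nat_lit 463) (nat_lit 4559) (nat_lit 624) (nat_lit 7663)) (.d (nat_lit 525) (nat_lit 524) (nat_lit 524) (nat_lit 561) (nat_lit 525))))))))) (.p (nat_lit 592) (.a (.p (nat_lit 591) (.a (.f (nat_lit 623) (nat_lit 494) (nat_lit 7662) (.d (nat_lit 624) (nat_lit 495) (nat_lit 4591) (nat_lit 656) (nat_lit 4623))) (.a (.f (nat_lit 623) (nat_lit 494) (nat_lit 7662) (.f (nat_lit 558) (nat_lit 655) (nat_lit 7694) (.f (nat_lit 557) (nat_lit 556) (nat_lit 2572) (.d (nat_lit 593) (nat_lit 590) (nat_lit 3629) (nat_lit 594) (nat_lit 3630))))) (.f (nat_lit 495) (nat_lit 624) (nat_lit 4591) (.f (nat_lit 590) (nat_lit 622) (nat_lit 5614) (.f (nat_lit 558) (nat_lit 463) (nat_lit 5582) (.d (nat_lit 557) (nat_lit 556) (nat_lit 556) (nat_lit 593) (nat_lit 3629)))))))) (.a (.p (nat_lit 560) (.a (.f (nat_lit 525) (nat_lit 524) (nat_lit 524) (.f (nat_lit 557) (nat_lit 556) (nat_lit 1548) (.f (nat_lit 558) (nat_lit 593) (nat_lit 557) (.f (nat_lit 493) (nat_lit 492) (nat_lit 3564) (.d (nat_lit 461) (nat_lit 429) (nat_lit 4525) (nat_lit 590) (nat_lit 4557)))))) (.a (.f (nat_lit 624) (nat_lit 656) (nat_lit 7695) (.f (nat_lit 623) (nat_lit 655) (nat_lit 5647) (.f (nat_lit 591) (nat_lit 494) (nat_lit 7662) (.f (nat_lit 622) (nat_lit 654) (nat_lit 5646) (.d (nat_lit 593) (nat_lit 594) (nat_lit 1614) (nat_lit 621) (nat_lit 2637)))))) (.d (nat_lit 525) (nat_lit 524) (nat_lit 524) (nat_lit 561) (nat_lit 525))))) (.a (.p (nat_lit 525) (.a (.f (nat_lit 556) (nat_lit 557) (nat_lit 1548) (.f (nat_lit 524) (nat_lit 555) (nat_lit 1547) (.d (nat_lit 492) (nat_lit 491) (nat_lit 3563) (nat_lit 493) (nat_lit 3564)))) (.a (.f (nat_lit 492) (nat_lit 493) (nat_lit 3564) (.f (nat_lit 524) (nat_lit 491) (nat_lit 3563) (.f (nat_lit 523) (nat_lit 558) (nat_lit 523) (.d (nat_lit 555) (nat_lit 554) (nat_lit 1546) (nat_lit 556) (nat_lit 1547))))) (.a (.f (nat_lit 556) (nat_lit 557) (nat_lit 1548) (.f (nat_lit 524) (nat_lit 555) (nat_lit 1547) (.f (nat_lit 523) (nat_lit 558) (nat_lit 523) (.d (nat_lit 491) (nat_lit 490) (nat_lit 3562) (nat_lit 492) (nat_lit 3563))))) (.a (.f (nat_lit 560) (nat_lit 561) (nat_lit 525) (.f (nat_lit 495) (nat_lit 463) (nat_lit 4559) (.f (nat_lit 557) (nat_lit 556) (nat_lit 1548) (.f (nat_lit 558) (nat_lit 593) (nat_lit 557) (.f (nat_lit 590) (nat_lit 622) (nat_lit 6638) (.d (nat_lit 493) (nat_lit 461) (nat_lit 4557) (nat_lit 492) (nat_lit 3564))))))) (.d (nat_lit 560) (nat_lit 524) (nat_lit 524) (nat_lit 561) (nat_lit 525))))))) (.a s2098 (.p (nat_lit 560) (.a (.d (nat_lit 495) (nat_lit 463) (nat_lit 4559) (nat_lit 624) (nat_lit 7663)) (.d (nat_lit 525) (nat_lit 524) (nat_lit 524) (nat_lit 561) (nat_lit 525))))))))))))))))))) (.a s2133 (.a (.p (nat_lit 495) (.a s1773 (.a s1789 (.a s1794 (.a (.p (nat_lit 592) (.a (.f (nat_lit 591) (nat_lit 624) (nat_lit 4591) (.f (nat_lit 590) (nat_lit 622) (nat_lit 5614) (.f (nat_lit 558) (nat_lit 463) (nat_lit 5582) (.d (nat_lit 557) (nat_lit 556) (nat_lit 556) (nat_lit 593) (nat_lit 3629))))) (.a (.f (nat_lit 463) (nat_lit 560) (nat_lit 4559) (.f (nat_lit 462) (nat_lit 430) (nat_lit 7598) (.f (nat_lit 591) (nat_lit 494) (nat_lit 7630) (.d (nat_lit 590) (nat_lit 558) (nat_lit 5582) (nat_lit 622) (nat_lit 5614))))) (.a (.d (nat_lit 624) (nat_lit 560) (nat_lit 7663) (nat_lit 591) (nat_lit 4591)) (.d (nat_lit 560) (nat_lit 463) (nat_lit 4559) (nat_lit 624) (nat_lit 7663)))))) (.a s1808 (.a (.p (nat_lit 464) (.a (.f (nat_lit 463) (nat_lit 432) (nat_lit 6575) (.d (nat_lit 560) (nat_lit 431) (nat_lit 4527) (nat_lit 592) (nat_lit 4559))) (.a (.f (nat_lit 591) (nat_lit 496) (nat_lit 6607) (.f (nat_lit 590) (nat_lit 622) (nat_lit 5614) (.f (nat_lit 558) (nat_lit 463) (nat_lit 5582) (.f (nat_lit 592) (nat_lit 624) (nat_lit 4591) (.d (nat_lit 557) (nat_lit 556) (nat_lit 556) (nat_lit 593) (nat_lit 3629)))))) (.d (nat_lit 496) (nat_lit 432) (nat_lit 5551) (nat_lit 591) (nat_lit 6607))))) (.a s2143 (.a s2153 s1838))))))))) (.a (.p (nat_lit 591) (.a (.f (nat_lit 623) (nat_lit 496) (nat_lit 6639) (.f (nat_lit 526) (nat_lit 494) (nat_lit 7662) (.d (nat_lit 655) (nat_lit 558) (nat_lit 7694) (nat_lit 560) (nat_lit 6671)))) (.a (.p (nat_lit 495) (.a (.f (nat_lit 590) (nat_lit 622) (nat_lit 5614) (.f (nat_lit 463) (nat_lit 558) (nat_lit 5582) (.d (nat_lit 462) (nat_lit 430) (nat_lit 7598) (nat_lit 494) (nat_lit 7630)))) (.a (.f (nat_lit 494) (nat_lit 462) (nat_lit 7630) (.f (nat_lit 623) (nat_lit 526) (nat_lit 7662) (.d (nat_lit 622) (nat_lit 590) (nat_lit 5614) (nat_lit 654) (nat_lit 5646)))) (.a (.f (nat_lit 590) (nat_lit 622) (nat_lit 5614) (.f (nat_lit 463) (nat_lit 558) (nat_lit 5582) (.f (nat_lit 431) (nat_lit 560) (nat_lit 4527) (.d (nat_lit 430) (nat_lit 398) (nat_lit 7566) (nat_lit 462) (nat_lit 7598))))) (.a (.f (nat_lit 494) (nat_lit 462) (nat_lit 7630) (.f (nat_lit 623) (nat_lit 526) (nat_lit 7662) (.f (nat_lit 655) (nat_lit 560) (nat_lit 6671) (.d (nat_lit 654) (nat_lit 622) (nat_lit 5646) (nat_lit 686) (nat_lit 5678))))) (.a (.f (nat_lit 590) (nat_lit 622) (nat_lit 5614) (.f (nat_lit 463) (nat_lit 558) (nat_lit 5582) (.f (nat_lit 560) (nat_lit 431) (nat_lit 4527) (.f (nat_lit 561) (nat_lit 562) (nat_lit 1582) (.f (nat_lit 623) (nat_lit 655) (nat_lit 6671) (.d (nat_lit 526) (nat_lit 494) (nat_lit 7662) (nat_lit 525) (nat_lit 525))))))) (.f (nat_lit 494) (nat_lit 462) (nat_lit 7630) (.f (nat_lit 623) (nat_lit 526) (nat_lit 7662) (.f (nat_lit 655) (nat_lit 560) (nat_lit 6671) (.d (nat_lit 656) (nat_lit 624) (nat_lit 4623) (nat_lit 688) (nat_lit 4655))))))))))) (.a (.f (nat_lit 623) (nat_lit 496) (nat_lit 6639) (.f (nat_lit 494) (nat_lit 526) (nat_lit 7662) (.f (nat_lit 495) (nat_lit 462) (nat_lit 7630) (.d (nat_lit 622) (nat_lit 590) (nat_lit 5614) (nat_lit 654) (nat_lit 5646))))) (.a (.f (nat_lit 623) (nat_lit 496) (nat_lit 6639) (.f (nat_lit 655) (nat_lit 560) (nat_lit 6671) (.d (nat_lit 654) (nat_lit 622) (nat_lit 5646) (nat_lit 686) (nat_lit 5678)))) (.p (nat_lit 495) (.a (.f (nat_lit 590) (nat_lit 622) (nat_lit 5614) (.f (nat_lit 463) (nat_lit 558) (nat_lit 5582) (.d (nat_lit 462) (nat_lit 430) (nat_lit 7598) (nat_lit 494) (nat_lit 7630)))) (.a (.f (nat_lit 496) (nat_lit 464) (nat_lit 6607) (.f (nat_lit 494) (nat_lit 462) (nat_lit 7630) (.f (nat_lit 493) (nat_lit 492) (nat_lit 492) (.f (nat_lit 525) (nat_lit 524) (nat_lit 1516) (.f (nat_lit 497) (nat_lit 526) (nat_lit 2541) (.f (nat_lit 498) (nat_lit 499) (nat_lit 1519) (.d (nat_lit 466) (nat_lit 465) (nat_lit 2510) (nat_lit 467) (nat_lit 2511)))))))) (.a (.f (nat_lit 590) (nat_lit 622) (nat_lit 5614) (.f (nat_lit 463) (nat_lit 558) (nat_lit 5582) (.f (nat_lit 431) (nat_lit 560) (nat_lit 4527) (.d (nat_lit 430) (nat_lit 398) (nat_lit 7566) (nat_lit 462) (nat_lit 7598))))) (.f (nat_lit 496) (nat_lit 464) (nat_lit 6607) (.f (nat_lit 590) (nat_lit 622) (nat_lit 5614) (.f (nat_lit 463) (nat_lit 558) (nat_lit 5582) (.d (nat_lit 431) (nat_lit 399) (nat_lit 4495) (nat_lit 560) (nat_lit 4527)))))))))))))) (.a (.p (nat_lit 560) (.a s2191 (.a s2202 (.a s2203 (.a s2212 (.a s2219 (.a s2220 (.a s2227 s2236)))))))) (.a (.p (nat_lit 495) (.a s1773 (.a s1789 (.a s1794 (.a (.p (nat_lit 592) (.a (.f (nat_lit 591) (nat_lit 624) (nat_lit 4591) (.f (nat_lit 590) (nat_lit 622) (nat_lit 5614) (.f (nat_lit 558) (nat_lit 463) (nat_lit 5582) (.d (nat_lit 557) (nat_lit 556) (nat_lit 556) (nat_lit 593) (nat_lit 3629))))) (.a (.f (nat_lit 463) (nat_lit 560) (nat_lit 4559) (.f (nat_lit 462) (nat_lit 430) (nat_lit 7598) (.f (nat_lit 591) (nat_lit 494) (nat_lit 7630) (.d (nat_lit 590) (nat_lit 558) (nat_lit 5582) (nat_lit 622) (nat_lit 5614))))) (.a (.d (nat_lit 624) (nat_lit 560) (nat_lit 7663) (nat_lit 591) (nat_lit 4591)) (.d (nat_lit 560) (nat_lit 463) (nat_lit 4559) (nat_lit 624) (nat_lit 7663)))))) (.a s1808 (.a (.p (nat_lit 464) (.a (.f (nat_lit 463) (nat_lit 432) (nat_lit 6575) (.d (nat_lit 560) (nat_lit 431) (nat_lit 4527) (nat_lit 592) (nat_lit 4559))) (.a (.f (nat_lit 591) (nat_lit 496) (nat_lit 6607) (.f (nat_lit 590) (nat_lit 622) (nat_lit 5614) (.f (nat_lit 558) (nat_lit 463) (nat_lit 5582) (.f (nat_lit 592) (nat_lit 624) (nat_lit 4591) (.d (nat_lit 557) (nat_lit 556) (nat_lit 556) (nat_lit 593) (nat_lit 3629)))))) (.d (nat_lit 496) (nat_lit 432) (nat_lit 5551) (nat_lit 591) (nat_lit 6607))))) (.a s2246 (.a s2255 s1838))))))))) (.a (.p (nat_lit 560) (.a s1131 (.a s1379 (.a s2258 (.a s2191 (.a s1421 (.a s2261 (.p (nat_lit 561) (.a (.f (nat_lit 562) (nat_lit 563) (nat_lit 3599) (.f (nat_lit 594) (nat_lit 595) (nat_lit 559) (.f (nat_lit 530) (nat_lit 531) (nat_lit 2575) (.f (nat_lit 593) (nat_lit 558) (nat_lit 558) (.d (nat_lit 498) (nat_lit 466) (nat_lit 5585) (nat_lit 625) (nat_lit 5617)))))) (.a (.d (nat_lit 526) (nat_lit 525) (nat_lit 525) (nat_lit 562) (nat_lit 3598)) (.p (nat_lit 593) (.a (.f (nat_lit 558) (nat_lit 594) (nat_lit 558) (.d (nat_lit 557) (nat_lit 556) (nat_lit 2572) (nat_lit 592) (nat_lit 557))) (.a (.f (nat_lit 525) (nat_lit 526) (nat_lit 525) (.f (nat_lit 558) (nat_lit 594) (nat_lit 558) (.d (nat_lit 557) (nat_lit 524) (nat_lit 3596) (nat_lit 556) (nat_lit 2572)))) (.f (nat_lit 625) (nat_lit 657) (nat_lit 7696) (.f (nat_lit 592) (nat_lit 496) (nat_lit 4592) (.d (nat_lit 495) (nat_lit 463) (nat_lit 4559) (nat_lit 624) (nat_lit 7663))))))))))))))))) (.a (.p (nat_lit 495) (.a s1794 (.a s1833 (.a s2295 (.a (.p (nat_lit 464) (.a (.f (nat_lit 463) (nat_lit 432) (nat_lit 6575) (.f (nat_lit 462) (nat_lit 430) (nat_lit 7598) (.f (nat_lit 494) (nat_lit 591) (nat_lit 7630) (.d (nat_lit 465) (nat_lit 466) (nat_lit 1486) (nat_lit 493) (nat_lit 1485))))) (.a (.d (nat_lit 496) (nat_lit 432) (nat_lit 5551) (nat_lit 591) (nat_lit 6607)) (.a (.f (nat_lit 591) (nat_lit 496) (nat_lit 6607) (.f (nat_lit 494) (nat_lit 462) (nat_lit 7630) (.f (nat_lit 623) (nat_lit 526) (nat_lit 7662) (.d (nat_lit 622) (nat_lit 590) (nat_lit 5614) (nat_lit 654) (nat_lit 5646))))) (.d (nat_lit 432) (nat_lit 463) (nat_lit 6575) (nat_lit 496) (nat_lit 5551)))))) (.a (.p (nat_lit 591) (.a (.f (nat_lit 590) (nat_lit 622) (nat_lit 5614) (.f (nat_lit 463) (nat_lit 558) (nat_lit 5582) (.d (nat_lit 462) (nat_lit 430) (nat_lit 7598) (nat_lit 494) (nat_lit 7630)))) (.d (nat_lit 496) (nat_lit 464) (nat_lit 6607) (nat_lit 623) (nat_lit 6639)))) (.a (.p (nat_lit 464) (.a (.d (nat_lit 496) (nat_lit 432) (nat_lit 5551) (nat_lit 591) (nat_lit 6607)) (.a (.f (nat_lit 463) (nat_lit 432) (nat_lit 6575) (.f (nat_lit 558) (nat_lit 590) (nat_lit 5582) (.f (nat_lit 430) (nat_lit 462) (nat_lit 7598) (.d (nat_lit 431) (nat_lit 398) (nat_lit 7566) (nat_lit 526) (nat_lit 5550))))) (.f (nat_lit 591) (nat_lit 496) (nat_lit 6607) (.f (nat_lit 590) (nat_lit 622) (nat_lit 5614) (.f (nat_lit 463) (nat_lit 558) (nat_lit 5582) (.f (nat_lit 430) (nat_lit 462) (nat_lit 7598) (.d (nat_lit 431) (nat_lit 398) (nat_lit 7566) (nat_lit 560) (nat_lit 4527))))))))) (.a s2312 (.a s2318 (.p (nat_lit 464) (.a (.f (nat_lit 463) (nat_lit 432) (nat_lit 6575) (.d (nat_lit 560) (nat_lit 431) (nat_lit 4527) (nat_lit 592) (nat_lit 4559))) (.a (.d (nat_lit 496) (nat_lit 432) (nat_lit 5551) (nat_lit 591) (nat_lit 6607)) (.f (nat_lit 591) (nat_lit 496) (nat_lit 6607) (.f (nat_lit 590) (nat_lit 622) (nat_lit 5614) (.f (nat_lit 463) (nat_lit 558) (nat_lit 5582) (.d (nat_lit 560) (nat_lit 431) (nat_lit 4527) (nat_lit 592) (nat_lit 4559))))))))))))))))) (.a s2339 (.a (.p (nat_lit 560) (.a s2258 (.a s2202 (.a s2203 (.a s2212 (.a (.p (nat_lit 496) (.a (.d (nat_lit 464) (nat_lit 432) (nat_lit 5551) (nat_lit 591) (nat_lit 5583)) (.a (.p (nat_lit 495) (.a (.f (nat_lit 591) (nat_lit 623) (nat_lit 6639) (.f (nat_lit 590) (nat_lit 622) (nat_lit 5614) (.f (nat_lit 561) (nat_lit 562) (nat_lit 1582) (.d (nat_lit 589) (nat_lit 558) (nat_lit 1581) (nat_lit 588) (nat_lit 2604))))) (.d (nat_lit 463) (nat_lit 431) (nat_lit 4527) (nat_lit 592) (nat_lit 7631)))) (.f (nat_lit 464) (nat_lit 432) (nat_lit 5551) (.f (nat_lit 465) (nat_lit 433) (nat_lit 6576) (.f (nat_lit 497) (nat_lit 592) (nat_lit 6608) (.f (nat_lit 463) (nat_lit 431) (nat_lit 7599) (.d (nat_lit 462) (nat_lit 461) (nat_lit 461) (nat_lit 498) (nat_lit 462))))))))) (.a s2227 s2261))))))) (.a (.p (nat_lit 560) (.a s2191 (.a s2202 (.a s2345 (.a s2346 (.a s2219 (.a s2220 (.a s2227 s2236)))))))) (.a (.p (nat_lit 560) (.a s2261 (.a (.p (nat_lit 496) (.a (.f (nat_lit 464) (nat_lit 432) (nat_lit 5551) (.f (nat_lit 561) (nat_lit 593) (nat_lit 4560) (.d (nat_lit 526) (nat_lit 525) (nat_lit 525) (nat_lit 562) (nat_lit 3598)))) (.a (.f (nat_lit 464) (nat_lit 432) (nat_lit 5551) (.f (nat_lit 463) (nat_lit 431) (nat_lit 7599) (.f (nat_lit 495) (nat_lit 592) (nat_lit 7631) (.f (nat_lit 465) (nat_lit 433) (nat_lit 6576) (.d (nat_lit 466) (nat_lit 467) (nat_lit 1487) (nat_lit 494) (nat_lit 1486)))))) (.p (nat_lit 495) (.a (.f (nat_lit 463) (nat_lit 431) (nat_lit 4527) (.f (nat_lit 462) (nat_lit 430) (nat_lit 7598) (.f (nat_lit 497) (nat_lit 498) (nat_lit 3534) (.d (nat_lit 461) (nat_lit 460) (nat_lit 460) (nat_lit 494) (nat_lit 3533))))) (.a (.d (nat_lit 463) (nat_lit 431) (nat_lit 4527) (nat_lit 592) (nat_lit 7631)) (.f (nat_lit 592) (nat_lit 624) (nat_lit 7663) (.f (nat_lit 497) (nat_lit 465) (nat_lit 6608) (.d (nat_lit 498) (nat_lit 499) (nat_lit 1519) (nat_lit 526) (nat_lit 1518)))))))))) (.a (.p (nat_lit 496) (.a (.f (nat_lit 464) (nat_lit 432) (nat_lit 5551) (.f (nat_lit 463) (nat_lit 431) (nat_lit 7599) (.f (nat_lit 495) (nat_lit 592) (nat_lit 7631) (.f (nat_lit 465) (nat_lit 433) (nat_lit 6576) (.d (nat_lit 466) (nat_lit 467) (nat_lit 1487) (nat_lit 494) (nat_lit 1486)))))) (.a (.f (nat_lit 464) (nat_lit 432) (nat_lit 5551) (.f (nat_lit 463) (nat_lit 431) (nat_lit 7599) (.f (nat_lit 465) (nat_lit 433) (nat_lit 6576) (.f (nat_lit 561) (nat_lit 593) (nat_lit 4560) (.f (nat_lit 562) (nat_lit 563) (nat_lit 3599) (.f (nat_lit 530) (nat_lit 531) (nat_lit 2575) (.f (nat_lit 594) (nat_lit 595) (nat_lit 559) (.f (nat_lit 498) (nat_lit 497) (nat_lit 7633) (.d (nat_lit 499) (nat_lit 466) (nat_lit 463) (nat_lit 467) (nat_lit 6610)))))))))) (.a (.p (nat_lit 495) (.a (.f (nat_lit 463) (nat_lit 431) (nat_lit 4527) (.f (nat_lit 462) (nat_lit 430) (nat_lit 7598) (.f (nat_lit 497) (nat_lit 498) (nat_lit 3534) (.d (nat_lit 461) (nat_lit 460) (nat_lit 460) (nat_lit 494) (nat_lit 3533))))) (.a (.d (nat_lit 463) (nat_lit 431) (nat_lit 4527) (nat_lit 592) (nat_lit 7631)) (.f (nat_lit 592) (nat_lit 624) (nat_lit 7663) (.f (nat_lit 593) (nat_lit 625) (nat_lit 4592) (.f (nat_lit 558) (nat_lit 557) (nat_lit 557) (.d (nat_lit 594) (nat_lit 561) (nat_lit 558) (nat_lit 595) (nat_lit 3631)))))))) (.f (nat_lit 464) (nat_lit 432) (nat_lit 5551) (.f (nat_lit 465) (nat_lit 433) (nat_lit 6576) (.f (nat_lit 592) (nat_lit 497) (nat_lit 6608) (.d (nat_lit 624) (nat_lit 495) (nat_lit 7663) (nat_lit 656) (nat_lit 7695))))))))) (.a (.p (nat_lit 496) (.a (.f (nat_lit 464) (nat_lit 432) (nat_lit 5551) (.f (nat_lit 463) (nat_lit 431) (nat_lit 7599) (.f (nat_lit 495) (nat_lit 592) (nat_lit 7631) (.f (nat_lit 465) (nat_lit 433) (nat_lit 6576) (.d (nat_lit 466) (nat_lit 467) (nat_lit 1487) (nat_lit 494) (nat_lit 1486)))))) (.a s2362 (.a (.f (nat_lit 464) (nat_lit 432) (nat_lit 5551) (.f (nat_lit 465) (nat_lit 433) (nat_lit 6576) (.f (nat_lit 497) (nat_lit 592) (nat_lit 6608) (.f (nat_lit 463) (nat_lit 431) (nat_lit 7599) (.d (nat_lit 462) (nat_lit 461) (nat_lit 461) (nat_lit 498) (nat_lit 462)))))) (.a (.p (nat_lit 495) (.a (.f (nat_lit 463) (nat_lit 431) (nat_lit 4527) (.f (nat_lit 462) (nat_lit 430) (nat_lit 7598) (.f (nat_lit 497) (nat_lit 498) (nat_lit 3534) (.d (nat_lit 461) (nat_lit 460) (nat_lit 460) (nat_lit 494) (nat_lit 3533))))) (.a (.d (nat_lit 463) (nat_lit 431) (nat_lit 4527) (nat_lit 592) (nat_lit 7631)) (.f (nat_lit 592) (nat_lit 624) (nat_lit 7663) (.f (nat_lit 497) (nat_lit 465) (nat_lit 6608) (.d (nat_lit 498) (nat_lit 499) (nat_lit 1519) (nat_lit 526) (nat_lit 1518))))))) (.a (.f (nat_lit 464) (nat_lit 432) (nat_lit 5551) (.f (nat_lit 463) (nat_lit 431) (nat_lit 7599) (.f (nat_lit 495) (nat_lit 592) (nat_lit 7631) (.f (nat_lit 462) (nat_lit 430) (nat_lit 7598) (.d (nat_lit 461) (nat_lit 460) (nat_lit 460) (nat_lit 497) (nat_lit 461)))))) (.f (nat_lit 464) (nat_lit 432) (nat_lit 5551) (.f (nat_lit 465) (nat_lit 433) (nat_lit 6576) (.f (nat_lit 592) (nat_lit 497) (nat_lit 6608) (.d (nat_lit 624) (nat_lit 495) (nat_lit 7663) (nat_lit 656) (nat_lit 7695))))))))))) (.a s2368 (.a s2236 (.a (.p (nat_lit 496) (.a (.f (nat_lit 464) (nat_lit 432) (nat_lit 5551) (.f (nat_lit 561) (nat_lit 593) (nat_lit 4560) (.d (nat_lit 526) (nat_lit 525) (nat_lit 525) (nat_lit 562) (nat_lit 3598)))) (.a (.f (nat_lit 464) (nat_lit 432) (nat_lit 5551) (.f (nat_lit 463) (nat_lit 431) (nat_lit 7599) (.f (nat_lit 495) (nat_lit 592) (nat_lit 7631) (.f (nat_lit 465) (nat_lit 433) (nat_lit 6576) (.d (nat_lit 466) (nat_lit 467) (nat_lit 1487) (nat_lit 494) (nat_lit 1486)))))) (.p (nat_lit 495) (.a (.d (nat_lit 463) (nat_lit 431) (nat_lit 4527) (nat_lit 592) (nat_lit 7631)) (.a (.f (nat_lit 463) (nat_lit 431) (nat_lit 4527) (.f (nat_lit 558) (nat_lit 590) (nat_lit 5582) (.f (nat_lit 557) (nat_lit 556) (nat_lit 2572) (.f (nat_lit 525) (nat_lit 524) (nat_lit 3596) (.f (nat_lit 526) (nat_lit 561) (nat_lit 525) (.f (nat_lit 462) (nat_lit 430) (nat_lit 7598) (.d (nat_lit 589) (nat_lit 494) (nat_lit 5581) (nat_lit 588) (nat_lit 1580)))))))) (.f (nat_lit 592) (nat_lit 624) (nat_lit 7663) (.f (nat_lit 593) (nat_lit 625) (nat_lit 4592) (.f (nat_lit 558) (nat_lit 557) (nat_lit 557) (.d (nat_lit 594) (nat_lit 561) (nat_lit 558) (nat_lit 595) (nat_lit 3631))))))))))) (.p (nat_lit 496) (.a (.f (nat_lit 464) (nat_lit 432) (nat_lit 5551) (.f (nat_lit 561) (nat_lit 593) (nat_lit 4560) (.d (nat_lit 526) (nat_lit 525) (nat_lit 525) (nat_lit 562) (nat_lit 3598)))) (.a (.f (nat_lit 464) (nat_lit 432) (nat_lit 5551) (.f (nat_lit 465) (nat_lit 433) (nat_lit 6576) (.f (nat_lit 497) (nat_lit 592) (nat_lit 6608) (.f (nat_lit 463) (nat_lit 431) (nat_lit 7599) (.d (nat_lit 462) (nat_lit 461) (nat_lit 461) (nat_lit 498) (nat_lit 462)))))) (.p (nat_lit 495) (.a (.f (nat_lit 463) (nat_lit 431) (nat_lit 4527) (.f (nat_lit 462) (nat_lit 430) (nat_lit 7598) (.f (nat_lit 497) (nat_lit 498) (nat_lit 3534) (.d (nat_lit 461) (nat_lit 460) (nat_lit 460) (nat_lit 494) (nat_lit 3533))))) (.a (.d (nat_lit 463) (nat_lit 431) (nat_lit 4527) (nat_lit 592) (nat_lit 7631)) (.f (nat_lit 592) (nat_lit 624) (nat_lit 7663) (.f (nat_lit 497) (nat_lit 465) (nat_lit 6608) (.d (nat_lit 498) (nat_lit 499) (nat_lit 1519) (nat_lit 526) (nat_lit 1518)))))))))))))))))) (.a (.p (nat_lit 560) (.a s2258 (.a s2202 (.a s2203 (.a s2346 (.a (.p (nat_lit 496) (.a (.d (nat_lit 464) (nat_lit 432) (nat_lit 5551) (nat_lit 591) (nat_lit 5583)) (.a (.p (nat_lit 495) (.a (.f (nat_lit 591) (nat_lit 623) (nat_lit 6639) (.f (nat_lit 590) (nat_lit 622) (nat_lit 5614) (.f (nat_lit 561) (nat_lit 562) (nat_lit 1582) (.d (nat_lit 589) (nat_lit 558) (nat_lit 1581) (nat_lit 588) (nat_lit 2604))))) (.d (nat_lit 463) (nat_lit 431) (nat_lit 4527) (nat_lit 592) (nat_lit 7631)))) (.f (nat_lit 464) (nat_lit 432) (nat_lit 5551) (.f (nat_lit 463) (nat_lit 431) (nat_lit 7599) (.f (nat_lit 495) (nat_lit 592) (nat_lit 7631) (.f (nat_lit 465) (nat_lit 433) (nat_lit 6576) (.d (nat_lit 466) (nat_lit 467) (nat_lit 1487) (nat_lit 494) (nat_lit 1486))))))))) (.a s2227 s2261))))))) (.a s2399 s2437)))))))))))))))) (.a (.p (nat_lit 560) (.a s182 (.a s2441 (.a s707 (.a s1000 (.a s1540 (.a s1214 (.a s2495 (.a (.p (nat_lit 559) (.a s2258 (.a s2220 (.a s1505 (.a (.p (nat_lit 496) (.a (.d (nat_lit 464) (nat_lit 432) (nat_lit 5551) (nat_lit 591) (nat_lit 5583)) (.a (.p (nat_lit 495) (.a (.f (nat_lit 463) (nat_lit 431) (nat_lit 4527) (.f (nat_lit 591) (nat_lit 623) (nat_lit 6639) (.d (nat_lit 462) (nat_lit 430) (nat_lit 7598) (nat_lit 494) (nat_lit 7630)))) (.a (.f (nat_lit 463) (nat_lit 431) (nat_lit 4527) (.f (nat_lit 591) (nat_lit 623) (nat_lit 6639) (.d (nat_lit 590) (nat_lit 558) (nat_lit 5582) (nat_lit 622) (nat_lit 5614)))) (.a (.f (nat_lit 591) (nat_lit 623) (nat_lit 6639) (.f (nat_lit 494) (nat_lit 462) (nat_lit 7630) (.f (nat_lit 493) (nat_lit 492) (nat_lit 492) (.f (nat_lit 525) (nat_lit 524) (nat_lit 1516) (.f (nat_lit 497) (nat_lit 526) (nat_lit 2541) (.f (nat_lit 498) (nat_lit 499) (nat_lit 1519) (.d (nat_lit 466) (nat_lit 465) (nat_lit 2510) (nat_lit 467) (nat_lit 2511)))))))) (.f (nat_lit 463) (nat_lit 431) (nat_lit 4527) (.f (nat_lit 462) (nat_lit 430) (nat_lit 7598) (.f (nat_lit 497) (nat_lit 498) (nat_lit 3534) (.d (nat_lit 461) (nat_lit 460) (nat_lit 460) (nat_lit 494) (nat_lit 3533))))))))) s2362))) (.a (.p (nat_lit 495) (.a (.f (nat_lit 463) (nat_lit 431) (nat_lit 4527) (.f (nat_lit 464) (nat_lit 432) (nat_lit 6575) (.f (nat_lit 591) (nat_lit 496) (nat_lit 5583) (.d (nat_lit 462) (nat_lit 430) (nat_lit 7598) (nat_lit 494) (nat_lit 7630))))) (.a (.f (nat_lit 463) (nat_lit 431) (nat_lit 4527) (.f (nat_lit 462) (nat_lit 430) (nat_lit 7598) (.f (nat_lit 591) (nat_lit 494) (nat_lit 7630) (.f (nat_lit 623) (nat_lit 655) (nat_lit 6671) (.d (nat_lit 622) (nat_lit 590) (nat_lit 5614) (nat_lit 654) (nat_lit 5646)))))) (.a (.f (nat_lit 463) (nat_lit 431) (nat_lit 4527) (.f (nat_lit 464) (nat_lit 432) (nat_lit 6575) (.f (nat_lit 496) (nat_lit 591) (nat_lit 5583) (.f (nat_lit 462) (nat_lit 430) (nat_lit 7598) (.d (nat_lit 461) (nat_lit 460) (nat_lit 460) (nat_lit 497) (nat_lit 461)))))) (.a s2508 (.a s1533 (.f (nat_lit 463) (nat_lit 431) (nat_lit 4527) (.f (nat_lit 464) (nat_lit 432) (nat_lit 6575) (.f (nat_lit 496) (nat_lit 591) (nat_lit 5583) (.f (nat_lit 561) (nat_lit 593) (nat_lit 4560) (.d (nat_lit 526) (nat_lit 525) (nat_lit 525) (nat_lit 562) (nat_lit 3598)))))))))))) (.a s2368 (.p (nat_lit 495) (.a (.f (nat_lit 463) (nat_lit 431) (nat_lit 4527) (.f (nat_lit 464) (nat_lit 432) (nat_lit 6575) (.f (nat_lit 591) (nat_lit 496) (nat_lit 5583) (.d (nat_lit 462) (nat_lit 430) (nat_lit 7598) (nat_lit 494) (nat_lit 7630))))) (.a (.f (nat_lit 463) (nat_lit 431) (nat_lit 4527) (.f (nat_lit 462) (nat_lit 430) (nat_lit 7598) (.f (nat_lit 494) (nat_lit 591) (nat_lit 7630) (.f (nat_lit 464) (nat_lit 432) (nat_lit 6575) (.d (nat_lit 465) (nat_lit 466) (nat_lit 1486) (nat_lit 493) (nat_lit 1485)))))) (.a (.f (nat_lit 463) (nat_lit 431) (nat_lit 4527) (.f (nat_lit 462) (nat_lit 430) (nat_lit 7598) (.f (nat_lit 591) (nat_lit 494) (nat_lit 7630) (.d (nat_lit 623) (nat_lit 496) (nat_lit 6639) (nat_lit 655) (nat_lit 6671))))) (.a (.f (nat_lit 463) (nat_lit 431) (nat_lit 4527) (.f (nat_lit 464) (nat_lit 432) (nat_lit 6575) (.f (nat_lit 496) (nat_lit 591) (nat_lit 5583) (.f (nat_lit 462) (nat_lit 430) (nat_lit 7598) (.d (nat_lit 461) (nat_lit 460) (nat_lit 460) (nat_lit 497) (nat_lit 461)))))) (.a s2508 (.a s1533 (.f (nat_lit 463) (nat_lit 431) (nat_lit 4527) (.f (nat_lit 464) (nat_lit 432) (nat_lit 6575) (.f (nat_lit 496) (nat_lit 591) (nat_lit 5583) (.f (nat_lit 561) (nat_lit 593) (nat_lit 4560) (.d (nat_lit 526) (nat_lit 525) (nat_lit 525) (nat_lit 562) (nat_lit 3598)))))))))))))))))))) (.a s2537 (.a s2556 (.a s2557 (.a s2576 (.a s2592 (.a s2595 (.a s2610 (.a s2619 (.a s2625 s2627)))))))))))))))))) (.a (.p (nat_lit 560) (.a s22 (.a s46 (.a s402 (.a s876 (.a s1695 (.a s103 (.a (.p (nat_lit 529) (.a (.p (nat_lit 526) (.a (.d (nat_lit 561) (nat_lit 525) (nat_lit 525) (nat_lit 562) (nat_lit 526)) (.a (.f (nat_lit 497) (nat_lit 498) (nat_lit 2542) (.f (nat_lit 496) (nat_lit 525) (nat_lit 2541) (.d (nat_lit 465) (nat_lit 433) (nat_lit 5552) (nat_lit 592) (nat_lit 6608)))) (.f (nat_lit 561) (nat_lit 562) (nat_lit 526) (.f (nat_lit 497) (nat_lit 498) (nat_lit 2542) (.d (nat_lit 465) (nat_lit 433) (nat_lit 5552) (nat_lit 592) (nat_lit 5584))))))) (.a (.p (nat_lit 526) (.a (.d (nat_lit 561) (nat_lit 525) (nat_lit 525) (nat_lit 562) (nat_lit 526)) (.a (.f (nat_lit 557) (nat_lit 558) (nat_lit 1549) (.f (nat_lit 525) (nat_lit 556) (nat_lit 1548) (.d (nat_lit 493) (nat_lit 492) (nat_lit 3564) (nat_lit 494) (nat_lit 3565)))) (.f (nat_lit 561) (nat_lit 562) (nat_lit 526) (.f (nat_lit 497) (nat_lit 498) (nat_lit 2542) (.d (nat_lit 465) (nat_lit 433) (nat_lit 5552) (nat_lit 592) (nat_lit 5584))))))) (.a (.p (nat_lit 530) (.a (.f (nat_lit 495) (nat_lit 494) (nat_lit 3566) (.f (nat_lit 496) (nat_lit 531) (nat_lit 3567) (.d (nat_lit 463) (nat_lit 431) (nat_lit 4527) (nat_lit 592) (nat_lit 7631)))) (.f (nat_lit 562) (nat_lit 563) (nat_lit 527) (.f (nat_lit 561) (nat_lit 526) (nat_lit 526) (.f (nat_lit 498) (nat_lit 499) (nat_lit 2543) (.d (nat_lit 466) (nat_lit 434) (nat_lit 5553) (nat_lit 593) (nat_lit 5585))))))) (.a (.p (nat_lit 530) (.a (.f (nat_lit 495) (nat_lit 494) (nat_lit 3566) (.f (nat_lit 496) (nat_lit 531) (nat_lit 3567) (.d (nat_lit 463) (nat_lit 431) (nat_lit 4527) (nat_lit 592) (nat_lit 7631)))) (.a (.f (nat_lit 563) (nat_lit 562) (nat_lit 527) (.f (nat_lit 531) (nat_lit 564) (nat_lit 528) (.d (nat_lit 499) (nat_lit 498) (nat_lit 2543) (nat_lit 500) (nat_lit 2544)))) (.f (nat_lit 495) (nat_lit 494) (nat_lit 3566) (.f (nat_lit 592) (nat_lit 624) (nat_lit 7663) (.d (nat_lit 463) (nat_lit 431) (nat_lit 4527) (nat_lit 496) (nat_lit 7631))))))) (.a s181 (.a (.p (nat_lit 526) (.a (.f (nat_lit 497) (nat_lit 498) (nat_lit 2542) (.f (nat_lit 496) (nat_lit 525) (nat_lit 2541) (.d (nat_lit 465) (nat_lit 433) (nat_lit 5552) (nat_lit 592) (nat_lit 6608)))) (.a (.f (nat_lit 557) (nat_lit 558) (nat_lit 1549) (.f (nat_lit 525) (nat_lit 556) (nat_lit 1548) (.d (nat_lit 493) (nat_lit 492) (nat_lit 3564) (nat_lit 494) (nat_lit 3565)))) (.f (nat_lit 497) (nat_lit 498) (nat_lit 2542) (.f (nat_lit 592) (nat_lit 624) (nat_lit 6640) (.d (nat_lit 465) (nat_lit 433) (nat_lit 5552) (nat_lit 496) (nat_lit 6608))))))) s1331))))))) (.a s2662 (.a s2556 (.a s2664 (.a (.p (nat_lit 529) (.a (.p (nat_lit 530) (.a (.d (nat_lit 559) (nat_lit 531) (nat_lit 1551) (nat_lit 558) (nat_lit 1550)) (.a (.f (nat_lit 559) (nat_lit 558) (nat_lit 1550) (.f (nat_lit 495) (nat_lit 494) (nat_lit 3566) (.d (nat_lit 463) (nat_lit 431) (nat_lit 4527) (nat_lit 592) (nat_lit 4559)))) (.f (nat_lit 495) (nat_lit 494) (nat_lit 3566) (.f (nat_lit 496) (nat_lit 531) (nat_lit 3567) (.d (nat_lit 463) (nat_lit 431) (nat_lit 4527) (nat_lit 592) (nat_lit 7631))))))) (.a (.p (nat_lit 530) (.a (.d (nat_lit 559) (nat_lit 531) (nat_lit 1551) (nat_lit 558) (nat_lit 1550)) (.a (.f (nat_lit 559) (nat_lit 558) (nat_lit 1550) (.f (nat_lit 495) (nat_lit 494) (nat_lit 3566) (.d (nat_lit 463) (nat_lit 431) (nat_lit 4527) (nat_lit 592) (nat_lit 4559)))) (.f (nat_lit 498) (nat_lit 499) (nat_lit 2543) (.f (nat_lit 497) (nat_lit 526) (nat_lit 2542) (.f (nat_lit 592) (nat_lit 624) (nat_lit 6640) (.d (nat_lit 465) (nat_lit 433) (nat_lit 5552) (nat_lit 561) (nat_lit 5584)))))))) (.a (.p (nat_lit 526) (.a (.f (nat_lit 497) (nat_lit 498) (nat_lit 2542) (.f (nat_lit 496) (nat_lit 525) (nat_lit 2541) (.d (nat_lit 465) (nat_lit 433) (nat_lit 5552) (nat_lit 592) (nat_lit 6608)))) (.a (.f (nat_lit 557) (nat_lit 558) (nat_lit 1549) (.f (nat_lit 525) (nat_lit 556) (nat_lit 1548) (.d (nat_lit 493) (nat_lit 492) (nat_lit 3564) (nat_lit 494) (nat_lit 3565)))) (.f (nat_lit 497) (nat_lit 498) (nat_lit 2542) (.f (nat_lit 592) (nat_lit 624) (nat_lit 6640) (.d (nat_lit 465) (nat_lit 433) (nat_lit 5552) (nat_lit 496) (nat_lit 6608))))))) (.a (.p (nat_lit 530) (.a (.d (nat_lit 559) (nat_lit 531) (nat_lit 1551) (nat_lit 558) (nat_lit 1550)) (.a (.f (nat_lit 558) (nat_lit 559) (nat_lit 1550) (.f (nat_lit 526) (nat_lit 557) (nat_lit 1549) (.d (nat_lit 494) (nat_lit 493) (nat_lit 3565) (nat_lit 495) (nat_lit 3566)))) (.f (nat_lit 499) (nat_lit 498) (nat_lit 2543) (.f (nat_lit 531) (nat_lit 500) (nat_lit 2544) (.f (nat_lit 532) (nat_lit 561) (nat_lit 1552) (.d (nat_lit 564) (nat_lit 563) (nat_lit 528) (nat_lit 565) (nat_lit 529)))))))) (.a s234 (.p (nat_lit 530) (.a (.d (nat_lit 559) (nat_lit 531) (nat_lit 1551) (nat_lit 558) (nat_lit 1550)) (.f (nat_lit 498) (nat_lit 499) (nat_lit 2543) (.f (nat_lit 497) (nat_lit 526) (nat_lit 2542) (.f (nat_lit 592) (nat_lit 624) (nat_lit 6640) (.d (nat_lit 465) (nat_lit 433) (nat_lit 5552) (nat_lit 561) (nat_lit 5584))))))))))))) (.a s1337 (.a (.p (nat_lit 529) (.a (.p (nat_lit 530) (.a (.d (nat_lit 559) (nat_lit 531) (nat_lit 1551) (nat_lit 558) (nat_lit 1550)) (.a (.f (nat_lit 559) (nat_lit 558) (nat_lit 1550) (.f (nat_lit 495) (nat_lit 494) (nat_lit 3566) (.d (nat_lit 463) (nat_lit 431) (nat_lit 4527) (nat_lit 592) (nat_lit 4559)))) (.f (nat_lit 495) (nat_lit 494) (nat_lit 3566) (.f (nat_lit 496) (nat_lit 531) (nat_lit 3567) (.d (nat_lit 463) (nat_lit 431) (nat_lit 4527) (nat_lit 592) (nat_lit 7631))))))) (.a (.p (nat_lit 530) (.a (.d (nat_lit 559) (nat_lit 531) (nat_lit 1551) (nat_lit 558) (nat_lit 1550)) (.a (.f (nat_lit 559) (nat_lit 558) (nat_lit 1550) (.f (nat_lit 495) (nat_lit 494) (nat_lit 3566) (.d (nat_lit 463) (nat_lit 431) (nat_lit 4527) (nat_lit 592) (nat_lit 4559)))) (.f (nat_lit 562) (nat_lit 563) (nat_lit 527) (.f (nat_lit 526) (nat_lit 561) (nat_lit 526) (.d (nat_lit 494) (nat_lit 493) (nat_lit 3565) (nat_lit 495) (nat_lit 3566))))))) (.a s443 (.a s528 (.a (.p (nat_lit 530) (.a (.d (nat_lit 559) (nat_lit 531) (nat_lit 1551) (nat_lit 558) (nat_lit 1550)) (.f (nat_lit 562) (nat_lit 563) (nat_lit 527) (.f (nat_lit 526) (nat_lit 561) (nat_lit 526) (.d (nat_lit 494) (nat_lit 493) (nat_lit 3565) (nat_lit 495) (nat_lit 3566)))))) (.a (.p (nat_lit 530) (.a (.d (nat_lit 559) (nat_lit 531) (nat_lit 1551) (nat_lit 558) (nat_lit 1550)) (.a (.f (nat_lit 562) (nat_lit 563) (nat_lit 527) (.f (nat_lit 526) (nat_lit 561) (nat_lit 526) (.f (nat_lit 493) (nat_lit 494) (nat_lit 3565) (.f (nat_lit 525) (nat_lit 492) (nat_lit 3564) (.d (nat_lit 557) (nat_lit 556) (nat_lit 1548) (nat_lit 558) (nat_lit 1549)))))) (.f (nat_lit 531) (nat_lit 559) (nat_lit 1551) (.d (nat_lit 563) (nat_lit 562) (nat_lit 527) (nat_lit 564) (nat_lit 528)))))) (.a (.p (nat_lit 530) (.a (.f (nat_lit 495) (nat_lit 494) (nat_lit 3566) (.f (nat_lit 496) (nat_lit 531) (nat_lit 3567) (.d (nat_lit 463) (nat_lit 431) (nat_lit 4527) (nat_lit 592) (nat_lit 7631)))) (.a (.f (nat_lit 562) (nat_lit 563) (nat_lit 527) (.f (nat_lit 526) (nat_lit 561) (nat_lit 526) (.d (nat_lit 494) (nat_lit 493) (nat_lit 3565) (nat_lit 495) (nat_lit 3566)))) (.f (nat_lit 531) (nat_lit 559) (nat_lit 1551) (.d (nat_lit 563) (nat_lit 562) (nat_lit 527) (nat_lit 564) (nat_lit 528)))))) s1676)))))))) s2679)))))))))))))) (.a (.p (nat_lit 529) (.a s329 (.a (.p (nat_lit 560) (.a (.p (nat_lit 526) (.a (.d (nat_lit 561) (nat_lit 525) (nat_lit 525) (nat_lit 562) (nat_lit 526)) (.a (.f (nat_lit 497) (nat_lit 498) (nat_lit 2542) (.f (nat_lit 496) (nat_lit 525) (nat_lit 2541) (.d (nat_lit 465) (nat_lit 433) (nat_lit 5552) (nat_lit 592) (nat_lit 6608)))) (.f (nat_lit 561) (nat_lit 562) (nat_lit 526) (.f (nat_lit 497) (nat_lit 498) (nat_lit 2542) (.d (nat_lit 465) (nat_lit 433) (nat_lit 5552) (nat_lit 592) (nat_lit 5584))))))) (.a (.p (nat_lit 526) (.a (.d (nat_lit 561) (nat_lit 525) (nat_lit 525) (nat_lit 562) (nat_lit 526)) (.a (.f (nat_lit 557) (nat_lit 558) (nat_lit 1549) (.f (nat_lit 525) (nat_lit 556) (nat_lit 1548) (.d (nat_lit 493) (nat_lit 492) (nat_lit 3564) (nat_lit 494) (nat_lit 3565)))) (.f (nat_lit 561) (nat_lit 562) (nat_lit 526) (.f (nat_lit 497) (nat_lit 498) (nat_lit 2542) (.d (nat_lit 465) (nat_lit 433) (nat_lit 5552) (nat_lit 592) (nat_lit 5584))))))) (.a s2682 (.a s528 (.a (.p (nat_lit 526) (.a (.f (nat_lit 497) (nat_lit 498) (nat_lit 2542) (.f (nat_lit 496) (nat_lit 525) (nat_lit 2541) (.d (nat_lit 465) (nat_lit 433) (nat_lit 5552) (nat_lit 592) (nat_lit 6608)))) (.a (.f (nat_lit 557) (nat_lit 558) (nat_lit 1549) (.f (nat_lit 525) (nat_lit 556) (nat_lit 1548) (.d (nat_lit 493) (nat_lit 492) (nat_lit 3564) (nat_lit 494) (nat_lit 3565)))) (.f (nat_lit 497) (nat_lit 498) (nat_lit 2542) (.f (nat_lit 592) (nat_lit 624) (nat_lit 6640) (.d (nat_lit 465) (nat_lit 433) (nat_lit 5552) (nat_lit 496) (nat_lit 6608))))))) s165)))))) (.a (.p (nat_lit 560) (.a (.p (nat_lit 530) (.a (.f (nat_lit 495) (nat_lit 494) (nat_lit 3566) (.f (nat_lit 496) (nat_lit 531) (nat_lit 3567) (.d (nat_lit 463) (nat_lit 431) (nat_lit 4527) (nat_lit 592) (nat_lit 7631)))) (.a (.f (nat_lit 563) (nat_lit 562) (nat_lit 527) (.f (nat_lit 531) (nat_lit 564) (nat_lit 528) (.d (nat_lit 499) (nat_lit 498) (nat_lit 2543) (nat_lit 500) (nat_lit 2544)))) (.f (nat_lit 495) (nat_lit 494) (nat_lit 3566) (.f (nat_lit 592) (nat_lit 624) (nat_lit 7663) (.d (nat_lit 463) (nat_lit 431) (nat_lit 4527) (nat_lit 496) (nat_lit 7631))))))) (.a (.p (nat_lit 530) (.a (.f (nat_lit 563) (nat_lit 562) (nat_lit 527) (.f (nat_lit 531) (nat_lit 564) (nat_lit 528) (.d (nat_lit 499) (nat_lit 498) (nat_lit 2543) (nat_lit 500) (nat_lit 2544)))) (.a s317 (.a (.f (nat_lit 499) (nat_lit 498) (nat_lit 2543) (.f (nat_lit 531) (nat_lit 500) (nat_lit 2544) (.f (nat_lit 532) (nat_lit 561) (nat_lit 1552) (.d (nat_lit 564) (nat_lit 563) (nat_lit 528) (nat_lit 565) (nat_lit 529))))) (.a (.f (nat_lit 563) (nat_lit 562) (nat_lit 527) (.f (nat_lit 531) (nat_lit 564) (nat_lit 528) (.f (nat_lit 532) (nat_lit 561) (nat_lit 1552) (.d (nat_lit 500) (nat_lit 499) (nat_lit 2544) (nat_lit 501) (nat_lit 2545))))) (.a s2694 s1753)))))) (.a s2682 (.a (.p (nat_lit 530) (.a (.f (nat_lit 563) (nat_lit 562) (nat_lit 527) (.f (nat_lit 531) (nat_lit 564) (nat_lit 528) (.d (nat_lit 499) (nat_lit 498) (nat_lit 2543) (nat_lit 500) (nat_lit 2544)))) (.a (.p (nat_lit 497) (.a (.f (nat_lit 498) (nat_lit 499) (nat_lit 2543) (.f (nat_lit 562) (nat_lit 563) (nat_lit 527) (.d (nat_lit 465) (nat_lit 433) (nat_lit 4529) (nat_lit 594) (nat_lit 7633)))) (.a (.f (nat_lit 498) (nat_lit 499) (nat_lit 2543) (.f (nat_lit 562) (nat_lit 563) (nat_lit 527) (.f (nat_lit 594) (nat_lit 626) (nat_lit 7665) (.f (nat_lit 593) (nat_lit 625) (nat_lit 5617) (.f (nat_lit 466) (nat_lit 561) (nat_lit 5585) (.f (nat_lit 434) (nat_lit 402) (nat_lit 5521) (.d (nat_lit 435) (nat_lit 403) (nat_lit 6546) (nat_lit 467) (nat_lit 6578)))))))) (.a (.f (nat_lit 498) (nat_lit 499) (nat_lit 2543) (.f (nat_lit 465) (nat_lit 433) (nat_lit 5552) (.f (nat_lit 495) (nat_lit 494) (nat_lit 3566) (.f (nat_lit 463) (nat_lit 431) (nat_lit 4527) (.d (nat_lit 462) (nat_lit 464) (nat_lit 462) (nat_lit 496) (nat_lit 3534)))))) (.f (nat_lit 562) (nat_lit 563) (nat_lit 527) (.f (nat_lit 465) (nat_lit 433) (nat_lit 5552) (.d (nat_lit 594) (nat_lit 561) (nat_lit 4561) (nat_lit 626) (nat_lit 7665)))))))) (.a (.f (nat_lit 499) (nat_lit 498) (nat_lit 2543) (.f (nat_lit 531) (nat_lit 500) (nat_lit 2544) (.f (nat_lit 532) (nat_lit 561) (nat_lit 1552) (.d (nat_lit 564) (nat_lit 563) (nat_lit 528) (nat_lit 565) (nat_lit 529))))) (.a (.f (nat_lit 495) (nat_lit 494) (nat_lit 3566) (.f (nat_lit 531) (nat_lit 496) (nat_lit 3567) (.d (nat_lit 563) (nat_lit 562) (nat_lit 527) (nat_lit 564) (nat_lit 528)))) (.f (nat_lit 495) (nat_lit 494) (nat_lit 3566) (.f (nat_lit 531) (nat_lit 496) (nat_lit 3567) (.f (nat_lit 532) (nat_lit 561) (nat_lit 1552) (.d (nat_lit 500) (nat_lit 499) (nat_lit 2544) (nat_lit 501) (nat_lit 2545)))))))))) (.a (.p (nat_lit 530) (.a (.f (nat_lit 495) (nat_lit 494) (nat_lit 3566) (.f (nat_lit 496) (nat_lit 531) (nat_lit 3567) (.d (nat_lit 463) (nat_lit 431) (nat_lit 4527) (nat_lit 592) (nat_lit 7631)))) (.a (.f (nat_lit 499) (nat_lit 498) (nat_lit 2543) (.f (nat_lit 531) (nat_lit 500) (nat_lit 2544) (.f (nat_lit 532) (nat_lit 561) (nat_lit 1552) (.d (nat_lit 564) (nat_lit 563) (nat_lit 528) (nat_lit 565) (nat_lit 529))))) (.f (nat_lit 495) (nat_lit 494) (nat_lit 3566) (.f (nat_lit 592) (nat_lit 624) (nat_lit 7663) (.d (nat_lit 463) (nat_lit 431) (nat_lit 4527) (nat_lit 496) (nat_lit 7631))))))) (.a (.p (nat_lit 530) (.a (.f (nat_lit 495) (nat_lit 494) (nat_lit 3566) (.f (nat_lit 496) (nat_lit 531) (nat_lit 3567) (.d (nat_lit 463) (nat_lit 431) (nat_lit 4527) (nat_lit 592) (nat_lit 7631)))) (.a (.f (nat_lit 563) (nat_lit 562) (nat_lit 527) (.f (nat_lit 531) (nat_lit 564) (nat_lit 528) (.f (nat_lit 532) (nat_lit 561) (nat_lit 1552) (.d (nat_lit 500) (nat_lit 499) (nat_lit 2544) (nat_lit 501) (nat_lit 2545))))) (.f (nat_lit 495) (nat_lit 494) (nat_lit 3566) (.f (nat_lit 592) (nat_lit 624) (nat_lit 7663) (.d (nat_lit 463) (nat_lit 431) (nat_lit 4527) (nat_lit 496) (nat_lit 7631))))))) (.a s2703 s1755)))))))) (.a (.p (nat_lit 530) (.a (.f (nat_lit 499) (nat_lit 498) (nat_lit 2543) (.f (nat_lit 531) (nat_lit 500) (nat_lit 2544) (.d (nat_lit 563) (nat_lit 562) (nat_lit 527) (nat_lit 564) (nat_lit 528)))) (.a (.f (nat_lit 562) (nat_lit 563) (nat_lit 527) (.f (nat_lit 526) (nat_lit 561) (nat_lit 526) (.d (nat_lit 494) (nat_lit 493) (nat_lit 3565) (nat_lit 495) (nat_lit 3566)))) (.f (nat_lit 495) (nat_lit 494) (nat_lit 3566) (.f (nat_lit 531) (nat_lit 496) (nat_lit 3567) (.d (nat_lit 499) (nat_lit 498) (nat_lit 2543) (nat_lit 500) (nat_lit 2544))))))) (.a (.p (nat_lit 530) (.a (.f (nat_lit 499) (nat_lit 498) (nat_lit 2543) (.f (nat_lit 531) (nat_lit 500) (nat_lit 2544) (.d (nat_lit 563) (nat_lit 562) (nat_lit 527) (nat_lit 564) (nat_lit 528)))) (.a (.f (nat_lit 498) (nat_lit 499) (nat_lit 2543) (.f (nat_lit 526) (nat_lit 497) (nat_lit 2542) (.d (nat_lit 494) (nat_lit 493) (nat_lit 3565) (nat_lit 495) (nat_lit 3566)))) (.f (nat_lit 495) (nat_lit 494) (nat_lit 3566) (.f (nat_lit 531) (nat_lit 496) (nat_lit 3567) (.d (nat_lit 563) (nat_lit 562) (nat_lit 527) (nat_lit 564) (nat_lit 528))))))) (.a (.p (nat_lit 530) (.a (.f (nat_lit 562) (nat_lit 563) (nat_lit 527) (.f (nat_lit 498) (nat_lit 499) (nat_lit 2543) (.d (nat_lit 526) (nat_lit 497) (nat_lit 2542) (nat_lit 561) (nat_lit 526)))) (.a (.f (nat_lit 499) (nat_lit 498) (nat_lit 2543) (.f (nat_lit 531) (nat_lit 500) (nat_lit 2544) (.d (nat_lit 563) (nat_lit 562) (nat_lit 527) (nat_lit 564) (nat_lit 528)))) (.a (.f (nat_lit 498) (nat_lit 499) (nat_lit 2543) (.f (nat_lit 526) (nat_lit 497) (nat_lit 2542) (.f (nat_lit 493) (nat_lit 494) (nat_lit 3565) (.f (nat_lit 525) (nat_lit 492) (nat_lit 3564) (.d (nat_lit 557) (nat_lit 556) (nat_lit 1548) (nat_lit 558) (nat_lit 1549)))))) (.f (nat_lit 562) (nat_lit 563) (nat_lit 527) (.f (nat_lit 526) (nat_lit 561) (nat_lit 526) (.f (nat_lit 493) (nat_lit 494) (nat_lit 3565) (.f (nat_lit 525) (nat_lit 492) (nat_lit 3564) (.d (nat_lit 557) (nat_lit 556) (nat_lit 1548) (nat_lit 558) (nat_lit 1549)))))))))) (.a (.p (nat_lit 530) (.a (.f (nat_lit 498) (nat_lit 499) (nat_lit 2543) (.f (nat_lit 526) (nat_lit 497) (nat_lit 2542) (.d (nat_lit 494) (nat_lit 493) (nat_lit 3565) (nat_lit 495) (nat_lit 3566)))) (.a (.f (nat_lit 495) (nat_lit 494) (nat_lit 3566) (.f (nat_lit 531) (nat_lit 496) (nat_lit 3567) (.d (nat_lit 499) (nat_lit 498) (nat_lit 2543) (nat_lit 500) (nat_lit 2544)))) (.a (.f (nat_lit 498) (nat_lit 499) (nat_lit 2543) (.f (nat_lit 526) (nat_lit 497) (nat_lit 2542) (.f (nat_lit 493) (nat_lit 494) (nat_lit 3565) (.f (nat_lit 525) (nat_lit 492) (nat_lit 3564) (.d (nat_lit 557) (nat_lit 556) (nat_lit 1548) (nat_lit 558) (nat_lit 1549)))))) (.a (.f (nat_lit 495) (nat_lit 494) (nat_lit 3566) (.f (nat_lit 531) (nat_lit 496) (nat_lit 3567) (.f (nat_lit 500) (nat_lit 499) (nat_lit 2544) (.f (nat_lit 532) (nat_lit 501) (nat_lit 2545) (.d (nat_lit 564) (nat_lit 563) (nat_lit 528) (nat_lit 565) (nat_lit 529)))))) (.a (.f (nat_lit 499) (nat_lit 498) (nat_lit 2543) (.f (nat_lit 531) (nat_lit 500) (nat_lit 2544) (.f (nat_lit 564) (nat_lit 563) (nat_lit 528) (.f (nat_lit 532) (nat_lit 565) (nat_lit 529) (.d (nat_lit 496) (nat_lit 495) (nat_lit 3567) (nat_lit 497) (nat_lit 3568)))))) (.f (nat_lit 494) (nat_lit 495) (nat_lit 3566) (.f (nat_lit 526) (nat_lit 493) (nat_lit 3565) (.f (nat_lit 557) (nat_lit 558) (nat_lit 1549) (.f (nat_lit 525) (nat_lit 556) (nat_lit 1548) (.d (nat_lit 497) (nat_lit 496) (nat_lit 2541) (nat_lit 498) (nat_lit 2542)))))))))))) (.a s2753 (.a (.p (nat_lit 530) (.a (.f (nat_lit 562) (nat_lit 563) (nat_lit 527) (.f (nat_lit 498) (nat_lit 499) (nat_lit 2543) (.d (nat_lit 526) (nat_lit 497) (nat_lit 2542) (nat_lit 561) (nat_lit 526)))) (.a (.f (nat_lit 499) (nat_lit 498) (nat_lit 2543) (.f (nat_lit 531) (nat_lit 500) (nat_lit 2544) (.d (nat_lit 563) (nat_lit 562) (nat_lit 527) (nat_lit 564) (nat_lit 528)))) (.a (.f (nat_lit 499) (nat_lit 498) (nat_lit 2543) (.f (nat_lit 531) (nat_lit 500) (nat_lit 2544) (.f (nat_lit 564) (nat_lit 563) (nat_lit 528) (.f (nat_lit 532) (nat_lit 565) (nat_lit 529) (.d (nat_lit 496) (nat_lit 495) (nat_lit 3567) (nat_lit 497) (nat_lit 3568)))))) (.a (.f (nat_lit 562) (nat_lit 563) (nat_lit 527) (.f (nat_lit 526) (nat_lit 561) (nat_lit 526) (.f (nat_lit 557) (nat_lit 558) (nat_lit 1549) (.f (nat_lit 525) (nat_lit 556) (nat_lit 1548) (.f (nat_lit 492) (nat_lit 493) (nat_lit 3564) (.f (nat_lit 524) (nat_lit 491) (nat_lit 3563) (.d (nat_lit 496) (nat_lit 495) (nat_lit 2540) (nat_lit 497) (nat_lit 2541)))))))) (.f (nat_lit 498) (nat_lit 499) (nat_lit 2543) (.f (nat_lit 526) (nat_lit 497) (nat_lit 2542) (.f (nat_lit 561) (nat_lit 562) (nat_lit 526) (.f (nat_lit 525) (nat_lit 560) (nat_lit 525) (.d (nat_lit 557) (nat_lit 556) (nat_lit 1548) (nat_lit 558) (nat_lit 1549))))))))))) (.a (.p (nat_lit 530) (.a (.f (nat_lit 498) (nat_lit 499) (nat_lit 2543) (.f (nat_lit 526) (nat_lit 497) (nat_lit 2542) (.d (nat_lit 494) (nat_lit 493) (nat_lit 3565) (nat_lit 495) (nat_lit 3566)))) (.a (.f (nat_lit 495) (nat_lit 494) (nat_lit 3566) (.f (nat_lit 531) (nat_lit 496) (nat_lit 3567) (.d (nat_lit 499) (nat_lit 498) (nat_lit 2543) (nat_lit 500) (nat_lit 2544)))) (.a (.f (nat_lit 498) (nat_lit 499) (nat_lit 2543) (.f (nat_lit 526) (nat_lit 497) (nat_lit 2542) (.f (nat_lit 493) (nat_lit 494) (nat_lit 3565) (.f (nat_lit 525) (nat_lit 492) (nat_lit 3564) (.d (nat_lit 557) (nat_lit 556) (nat_lit 1548) (nat_lit 558) (nat_lit 1549)))))) (.a (.f (nat_lit 495) (nat_lit 494) (nat_lit 3566) (.f (nat_lit 531) (nat_lit 496) (nat_lit 3567) (.f (nat_lit 500) (nat_lit 499) (nat_lit 2544) (.f (nat_lit 532) (nat_lit 501) (nat_lit 2545) (.f (nat_lit 561) (nat_lit 560) (nat_lit 1552) (.d (nat_lit 562) (nat_lit 526) (nat_lit 526) (nat_lit 533) (nat_lit 1553))))))) (.a (.f (nat_lit 498) (nat_lit 499) (nat_lit 2543) (.f (nat_lit 526) (nat_lit 497) (nat_lit 2542) (.f (nat_lit 561) (nat_lit 562) (nat_lit 526) (.f (nat_lit 525) (nat_lit 560) (nat_lit 525) (.d (nat_lit 557) (nat_lit 556) (nat_lit 1548) (nat_lit 558) (nat_lit 1549)))))) (.f (nat_lit 494) (nat_lit 495) (nat_lit 3566) (.f (nat_lit 526) (nat_lit 493) (nat_lit 3565) (.f (nat_lit 557) (nat_lit 558) (nat_lit 1549) (.f (nat_lit 525) (nat_lit 556) (nat_lit 1548) (.d (nat_lit 497) (nat_lit 496) (nat_lit 2541) (nat_lit 498) (nat_lit 2542)))))))))))) (.a (.p (nat_lit 530) (.a (.f (nat_lit 562) (nat_lit 563) (nat_lit 527) (.f (nat_lit 498) (nat_lit 499) (nat_lit 2543) (.d (nat_lit 526) (nat_lit 497) (nat_lit 2542) (nat_lit 561) (nat_lit 526)))) (.a (.f (nat_lit 499) (nat_lit 498) (nat_lit 2543) (.f (nat_lit 531) (nat_lit 500) (nat_lit 2544) (.d (nat_lit 563) (nat_lit 562) (nat_lit 527) (nat_lit 564) (nat_lit 528)))) (.a (.f (nat_lit 495) (nat_lit 494) (nat_lit 3566) (.f (nat_lit 531) (nat_lit 496) (nat_lit 3567) (.d (nat_lit 499) (nat_lit 498) (nat_lit 2543) (nat_lit 500) (nat_lit 2544)))) (.f (nat_lit 495) (nat_lit 494) (nat_lit 3566) (.f (nat_lit 531) (nat_lit 496) (nat_lit 3567) (.d (nat_lit 563) (nat_lit 562) (nat_lit 527) (nat_lit 564) (nat_lit 528)))))))) s2762)))))))))))) (.a (.p (nat_lit 560) (.a s208 (.a s2765 (.a s1678 (.a s1011 (.a s1309 (.a s2794 (.a (.p (nat_lit 559) (.a s2191 (.a s2202 (.a s2203 (.a s2212 (.a s2219 (.a s2220 (.a s2227 s2236)))))))) (.a s2537 (.a s2796 (.a s2798 (.a s2807 s2819)))))))))))) (.a (.p (nat_lit 560) (.a s222 (.a s876 (.a s753 (.a s1696 (.a s1317 (.a s1004 (.a s2842 (.a s2557 (.a s2796 (.a s2843 (.a s2844 (.a s2845 s2846))))))))))))) (.a (.p (nat_lit 560) (.a s103 (.a s2765 (.a s783 (.a s1704 (.a s1013 (.a (.p (nat_lit 529) (.a (.p (nat_lit 526) (.a (.d (nat_lit 561) (nat_lit 525) (nat_lit 525) (nat_lit 562) (nat_lit 526)) (.a (.f (nat_lit 497) (nat_lit 498) (nat_lit 2542) (.f (nat_lit 496) (nat_lit 525) (nat_lit 2541) (.d (nat_lit 465) (nat_lit 433) (nat_lit 5552) (nat_lit 592) (nat_lit 6608)))) (.f (nat_lit 561) (nat_lit 562) (nat_lit 526) (.f (nat_lit 497) (nat_lit 498) (nat_lit 2542) (.d (nat_lit 465) (nat_lit 433) (nat_lit 5552) (nat_lit 592) (nat_lit 5584))))))) (.a (.p (nat_lit 526) (.a (.d (nat_lit 561) (nat_lit 525) (nat_lit 525) (nat_lit 562) (nat_lit 526)) (.a (.f (nat_lit 557) (nat_lit 558) (nat_lit 1549) (.f (nat_lit 525) (nat_lit 556) (nat_lit 1548) (.d (nat_lit 493) (nat_lit 492) (nat_lit 3564) (nat_lit 494) (nat_lit 3565)))) (.f (nat_lit 561) (nat_lit 562) (nat_lit 526) (.f (nat_lit 497) (nat_lit 498) (nat_lit 2542) (.d (nat_lit 465) (nat_lit 433) (nat_lit 5552) (nat_lit 592) (nat_lit 5584))))))) (.a (.p (nat_lit 530) (.a (.f (nat_lit 495) (nat_lit 494) (nat_lit 3566) (.f (nat_lit 496) (nat_lit 531) (nat_lit 3567) (.d (nat_lit 463) (nat_lit 431) (nat_lit 4527) (nat_lit 592) (nat_lit 7631)))) (.a (.f (nat_lit 563) (nat_lit 562) (nat_lit 527) (.f (nat_lit 531) (nat_lit 564) (nat_lit 528) (.d (nat_lit 499) (nat_lit 498) (nat_lit 2543) (nat_lit 500) (nat_lit 2544)))) (.f (nat_lit 495) (nat_lit 494) (nat_lit 3566) (.f (nat_lit 592) (nat_lit 624) (nat_lit 7663) (.d (nat_lit 463) (nat_lit 431) (nat_lit 4527) (nat_lit 496) (nat_lit 7631))))))) (.a s2439 (.a (.p (nat_lit 526) (.a (.f (nat_lit 497) (nat_lit 498) (nat_lit 2542) (.f (nat_lit 496) (nat_lit 525) (nat_lit 2541) (.d (nat_lit 465) (nat_lit 433) (nat_lit 5552) (nat_lit 592) (nat_lit 6608)))) (.a (.f (nat_lit 557) (nat_lit 558) (nat_lit 1549) (.f (nat_lit 525) (nat_lit 556) (nat_lit 1548) (.d (nat_lit 493) (nat_lit 492) (nat_lit 3564) (nat_lit 494) (nat_lit 3565)))) (.f (nat_lit 497) (nat_lit 498) (nat_lit 2542) (.f (nat_lit 592) (nat_lit 624) (nat_lit 6640) (.d (nat_lit 465) (nat_lit 433) (nat_lit 5552) (nat_lit 496) (nat_lit 6608))))))) s1331)))))) (.a s2853 (.a s1214 s2855))))))))) (.a (.p (nat_lit 560) (.a s233 (.a (.p (nat_lit 529) (.a (.p (nat_lit 530) (.a (.d (nat_lit 559) (nat_lit 531) (nat_lit 1551) (nat_lit 558) (nat_lit 1550)) (.a (.f (nat_lit 559) (nat_lit 558) (nat_lit 1550) (.f (nat_lit 495) (nat_lit 494) (nat_lit 3566) (.d (nat_lit 463) (nat_lit 431) (nat_lit 4527) (nat_lit 592) (nat_lit 4559)))) (.f (nat_lit 562) (nat_lit 563) (nat_lit 527) (.f (nat_lit 526) (nat_lit 561) (nat_lit 526) (.d (nat_lit 494) (nat_lit 493) (nat_lit 3565) (nat_lit 495) (nat_lit 3566))))))) (.a s443 (.a (.p (nat_lit 530) (.a (.d (nat_lit 559) (nat_lit 531) (nat_lit 1551) (nat_lit 558) (nat_lit 1550)) (.a (.f (nat_lit 559) (nat_lit 558) (nat_lit 1550) (.f (nat_lit 495) (nat_lit 494) (nat_lit 3566) (.d (nat_lit 463) (nat_lit 431) (nat_lit 4527) (nat_lit 592) (nat_lit 4559)))) (.f (nat_lit 563) (nat_lit 562) (nat_lit 527) (.f (nat_lit 531) (nat_lit 564) (nat_lit 528) (.f (nat_lit 532) (nat_lit 561) (nat_lit 1552) (.d (nat_lit 500) (nat_lit 499) (nat_lit 2544) (nat_lit 501) (nat_lit 2545)))))))) (.a s476 (.a (.p (nat_lit 526) (.a (.d (nat_lit 561) (nat_lit 525) (nat_lit 525) (nat_lit 562) (nat_lit 526)) (.a (.f (nat_lit 557) (nat_lit 558) (nat_lit 1549) (.f (nat_lit 525) (nat_lit 556) (nat_lit 1548) (.d (nat_lit 493) (nat_lit 492) (nat_lit 3564) (nat_lit 494) (nat_lit 3565)))) (.f (nat_lit 494) (nat_lit 493) (nat_lit 3565) (.f (nat_lit 495) (nat_lit 530) (nat_lit 3566) (.f (nat_lit 558) (nat_lit 557) (nat_lit 1549) (.d (nat_lit 463) (nat_lit 431) (nat_lit 5550) (nat_lit 590) (nat_lit 6606)))))))) (.a (.p (nat_lit 530) (.a (.d (nat_lit 559) (nat_lit 531) (nat_lit 1551) (nat_lit 558) (nat_lit 1550)) (.a (.f (nat_lit 562) (nat_lit 563) (nat_lit 527) (.f (nat_lit 526) (nat_lit 561) (nat_lit 526) (.f (nat_lit 493) (nat_lit 494) (nat_lit 3565) (.f (nat_lit 525) (nat_lit 492) (nat_lit 3564) (.d (nat_lit 557) (nat_lit 556) (nat_lit 1548) (nat_lit 558) (nat_lit 1549)))))) (.f (nat_lit 531) (nat_lit 559) (nat_lit 1551) (.d (nat_lit 563) (nat_lit 562) (nat_lit 527) (nat_lit 564) (nat_lit 528)))))) (.a s2806 (.p (nat_lit 530) (.a (.d (nat_lit 559) (nat_lit 531) (nat_lit 1551) (nat_lit 558) (nat_lit 1550)) (.a (.f (nat_lit 563) (nat_lit 562) (nat_lit 527) (.f (nat_lit 531) (nat_lit 564) (nat_lit 528) (.f (nat_lit 532) (nat_lit 561) (nat_lit 1552) (.d (nat_lit 500) (nat_lit 499) (nat_lit 2544) (nat_lit 501) (nat_lit 2545))))) (.f (nat_lit 559) (nat_lit 558) (nat_lit 1550) (.f (nat_lit 562) (nat_lit 563) (nat_lit 527) (.f (nat_lit 561) (nat_lit 526) (nat_lit 526) (.f (nat_lit 594) (nat_lit 595) (nat_lit 559) (.d (nat_lit 497) (nat_lit 465) (nat_lit 4561) (nat_lit 626) (nat_lit 7665))))))))))))))))) (.a s615 (.a s1708 (.a s1335 (.a s2870 (.a s998 (.a s2595 (.a s2807 (.a s2842 (.a s2873 (.a s2874 (.a s2855 (.a s2875 (.a s2876 (.a s2877 (.a s2878 s2879)))))))))))))))))) (.a (.p (nat_lit 560) (.a s236 (.a (.p (nat_lit 529) (.a (.p (nat_lit 530) (.a (.d (nat_lit 559) (nat_lit 531) (nat_lit 1551) (nat_lit 558) (nat_lit 1550)) (.a (.f (nat_lit 559) (nat_lit 558) (nat_lit 1550) (.f (nat_lit 495) (nat_lit 494) (nat_lit 3566) (.d (nat_lit 463) (nat_lit 431) (nat_lit 4527) (nat_lit 592) (nat_lit 4559)))) (.f (nat_lit 498) (nat_lit 499) (nat_lit 2543) (.f (nat_lit 497) (nat_lit 526) (nat_lit 2542) (.f (nat_lit 592) (nat_lit 624) (nat_lit 6640) (.d (nat_lit 465) (nat_lit 433) (nat_lit 5552) (nat_lit 561) (nat_lit 5584)))))))) (.a (.p (nat_lit 526) (.a (.f (nat_lit 557) (nat_lit 558) (nat_lit 1549) (.f (nat_lit 525) (nat_lit 556) (nat_lit 1548) (.d (nat_lit 493) (nat_lit 492) (nat_lit 3564) (nat_lit 494) (nat_lit 3565)))) (.f (nat_lit 497) (nat_lit 498) (nat_lit 2542) (.f (nat_lit 592) (nat_lit 624) (nat_lit 6640) (.d (nat_lit 465) (nat_lit 433) (nat_lit 5552) (nat_lit 561) (nat_lit 5584)))))) (.a (.p (nat_lit 530) (.a (.d (nat_lit 559) (nat_lit 531) (nat_lit 1551) (nat_lit 558) (nat_lit 1550)) (.a (.f (nat_lit 499) (nat_lit 498) (nat_lit 2543) (.f (nat_lit 531) (nat_lit 500) (nat_lit 2544) (.f (nat_lit 532) (nat_lit 561) (nat_lit 1552) (.d (nat_lit 564) (nat_lit 563) (nat_lit 528) (nat_lit 565) (nat_lit 529))))) (.f (nat_lit 559) (nat_lit 558) (nat_lit 1550) (.f (nat_lit 495) (nat_lit 494) (nat_lit 3566) (.d (nat_lit 463) (nat_lit 431) (nat_lit 4527) (nat_lit 592) (nat_lit 4559))))))) (.a (.p (nat_lit 526) (.a (.f (nat_lit 557) (nat_lit 558) (nat_lit 1549) (.f (nat_lit 525) (nat_lit 556) (nat_lit 1548) (.d (nat_lit 493) (nat_lit 492) (nat_lit 3564) (nat_lit 494) (nat_lit 3565)))) (.a (.f (nat_lit 558) (nat_lit 557) (nat_lit 1549) (.f (nat_lit 494) (nat_lit 493) (nat_lit 3565) (.d (nat_lit 530) (nat_lit 495) (nat_lit 3566) (nat_lit 559) (nat_lit 1550)))) (.a (.f (nat_lit 493) (nat_lit 494) (nat_lit 3565) (.f (nat_lit 525) (nat_lit 492) (nat_lit 3564) (.f (nat_lit 524) (nat_lit 559) (nat_lit 524) (.d (nat_lit 556) (nat_lit 555) (nat_lit 1547) (nat_lit 557) (nat_lit 1548))))) (.a (.f (nat_lit 557) (nat_lit 558) (nat_lit 1549) (.f (nat_lit 525) (nat_lit 556) (nat_lit 1548) (.f (nat_lit 492) (nat_lit 493) (nat_lit 3564) (.d (nat_lit 524) (nat_lit 491) (nat_lit 3563) (nat_lit 559) (nat_lit 524))))) (.a (.f (nat_lit 493) (nat_lit 494) (nat_lit 3565) (.f (nat_lit 525) (nat_lit 492) (nat_lit 3564) (.f (nat_lit 559) (nat_lit 524) (nat_lit 524) (.d (nat_lit 530) (nat_lit 531) (nat_lit 1551) (nat_lit 558) (nat_lit 1550))))) (.f (nat_lit 557) (nat_lit 558) (nat_lit 1549) (.f (nat_lit 525) (nat_lit 556) (nat_lit 1548) (.f (nat_lit 559) (nat_lit 524) (nat_lit 524) (.f (nat_lit 530) (nat_lit 531) (nat_lit 1551) (.f (nat_lit 495) (nat_lit 494) (nat_lit 3566) (.d (nat_lit 463) (nat_lit 431) (nat_lit 4527) (nat_lit 592) (nat_lit 4559))))))))))))) (.a (.p (nat_lit 530) (.a (.d (nat_lit 559) (nat_lit 531) (nat_lit 1551) (nat_lit 558) (nat_lit 1550)) (.a (.f (nat_lit 558) (nat_lit 559) (nat_lit 1550) (.f (nat_lit 526) (nat_lit 557) (nat_lit 1549) (.d (nat_lit 494) (nat_lit 493) (nat_lit 3565) (nat_lit 495) (nat_lit 3566)))) (.f (nat_lit 499) (nat_lit 498) (nat_lit 2543) (.f (nat_lit 531) (nat_lit 500) (nat_lit 2544) (.f (nat_lit 532) (nat_lit 561) (nat_lit 1552) (.d (nat_lit 564) (nat_lit 563) (nat_lit 528) (nat_lit 565) (nat_lit 529)))))))) (.a s2899 (.p (nat_lit 530) (.a (.d (nat_lit 559) (nat_lit 531) (nat_lit 1551) (nat_lit 558) (nat_lit 1550)) (.f (nat_lit 498) (nat_lit 499) (nat_lit 2543) (.f (nat_lit 497) (nat_lit 526) (nat_lit 2542) (.f (nat_lit 592) (nat_lit 624) (nat_lit 6640) (.d (nat_lit 465) (nat_lit 433) (nat_lit 5552) (nat_lit 561) (nat_lit 5584)))))))))))))) (.a s642 (.a s1178 (.a s1014 (.a (.p (nat_lit 529) (.a (.p (nat_lit 526) (.a (.f (nat_lit 497) (nat_lit 498) (nat_lit 2542) (.f (nat_lit 496) (nat_lit 525) (nat_lit 2541) (.d (nat_lit 465) (nat_lit 433) (nat_lit 5552) (nat_lit 592) (nat_lit 6608)))) (.a (.f (nat_lit 557) (nat_lit 558) (nat_lit 1549) (.f (nat_lit 525) (nat_lit 556) (nat_lit 1548) (.d (nat_lit 493) (nat_lit 492) (nat_lit 3564) (nat_lit 494) (nat_lit 3565)))) (.f (nat_lit 497) (nat_lit 498) (nat_lit 2542) (.f (nat_lit 592) (nat_lit 624) (nat_lit 6640) (.d (nat_lit 465) (nat_lit 433) (nat_lit 5552) (nat_lit 496) (nat_lit 6608))))))) (.a (.p (nat_lit 526) (.a (.f (nat_lit 557) (nat_lit 558) (nat_lit 1549) (.f (nat_lit 525) (nat_lit 556) (nat_lit 1548) (.d (nat_lit 493) (nat_lit 492) (nat_lit 3564) (nat_lit 494) (nat_lit 3565)))) (.f (nat_lit 497) (nat_lit 498) (nat_lit 2542) (.f (nat_lit 592) (nat_lit 624) (nat_lit 6640) (.d (nat_lit 465) (nat_lit 433) (nat_lit 5552) (nat_lit 561) (nat_lit 5584)))))) (.a (.p (nat_lit 530) (.a (.f (nat_lit 495) (nat_lit 494) (nat_lit 3566) (.f (nat_lit 496) (nat_lit 531) (nat_lit 3567) (.d (nat_lit 463) (nat_lit 431) (nat_lit 4527) (nat_lit 592) (nat_lit 7631)))) (.a (.f (nat_lit 499) (nat_lit 498) (nat_lit 2543) (.f (nat_lit 531) (nat_lit 500) (nat_lit 2544) (.f (nat_lit 532) (nat_lit 561) (nat_lit 1552) (.d (nat_lit 564) (nat_lit 563) (nat_lit 528) (nat_lit 565) (nat_lit 529))))) (.f (nat_lit 495) (nat_lit 494) (nat_lit 3566) (.f (nat_lit 592) (nat_lit 624) (nat_lit 7663) (.d (nat_lit 463) (nat_lit 431) (nat_lit 4527) (nat_lit 496) (nat_lit 7631))))))) (.a s2570 (.a (.p (nat_lit 526) (.a (.f (nat_lit 497) (nat_lit 498) (nat_lit 2542) (.f (nat_lit 496) (nat_lit 525) (nat_lit 2541) (.d (nat_lit 465) (nat_lit 433) (nat_lit 5552) (nat_lit 592) (nat_lit 6608)))) (.a (.f (nat_lit 497) (nat_lit 498) (nat_lit 2542) (.f (nat_lit 592) (nat_lit 624) (nat_lit 6640) (.d (nat_lit 465) (nat_lit 433) (nat_lit 5552) (nat_lit 561) (nat_lit 5584)))) (.f (nat_lit 525) (nat_lit 561) (nat_lit 525) (.d (nat_lit 557) (nat_lit 556) (nat_lit 1548) (nat_lit 558) (nat_lit 1549)))))) s1331)))))) (.a s1193 (.a s2576 (.a s2798 (.a s2843 (.a s1355 s2873)))))))))))) (.a (.p (nat_lit 560) (.a s70 (.a (.p (nat_lit 529) (.a s45 (.a (.p (nat_lit 526) (.a (.d (nat_lit 561) (nat_lit 525) (nat_lit 525) (nat_lit 562) (nat_lit 526)) (.a (.f (nat_lit 493) (nat_lit 494) (nat_lit 3565) (.f (nat_lit 525) (nat_lit 492) (nat_lit 3564) (.f (nat_lit 524) (nat_lit 559) (nat_lit 524) (.d (nat_lit 556) (nat_lit 555) (nat_lit 1547) (nat_lit 557) (nat_lit 1548))))) (.f (nat_lit 561) (nat_lit 562) (nat_lit 526) (.f (nat_lit 497) (nat_lit 498) (nat_lit 2542) (.d (nat_lit 465) (nat_lit 433) (nat_lit 5552) (nat_lit 592) (nat_lit 5584))))))) (.a (.p (nat_lit 530) (.a (.f (nat_lit 563) (nat_lit 562) (nat_lit 527) (.f (nat_lit 531) (nat_lit 564) (nat_lit 528) (.d (nat_lit 499) (nat_lit 498) (nat_lit 2543) (nat_lit 500) (nat_lit 2544)))) (.f (nat_lit 495) (nat_lit 494) (nat_lit 3566) (.f (nat_lit 592) (nat_lit 624) (nat_lit 7663) (.d (nat_lit 463) (nat_lit 431) (nat_lit 4527) (nat_lit 559) (nat_lit 4559)))))) (.a s875 (.a s2899 (.a s1010 s2806))))))) (.a s674 (.a s1015 (.a s1337 (.a s709 (.a s157 (.a s2592 (.a s208 (.a s2844 (.a s1355 (.a s2874 s2853))))))))))))) (.a (.p (nat_lit 560) (.a s22 (.a s46 (.a s70 (.a s1735 (.a s1004 (.a s103 (.a (.p (nat_lit 496) (.a (.p (nat_lit 464) (.a (.d (nat_lit 559) (nat_lit 432) (nat_lit 5551) (nat_lit 591) (nat_lit 5583)) (.f (nat_lit 463) (nat_lit 431) (nat_lit 7599) (.f (nat_lit 495) (nat_lit 592) (nat_lit 7631) (.f (nat_lit 465) (nat_lit 433) (nat_lit 6576) (.d (nat_lit 466) (nat_lit 467) (nat_lit 1487) (nat_lit 494) (nat_lit 1486))))))) (.a s2934 (.a (.p (nat_lit 561) (.a (.f (nat_lit 464) (nat_lit 593) (nat_lit 4560) (.d (nat_lit 559) (nat_lit 432) (nat_lit 5551) (nat_lit 591) (nat_lit 5583))) (.a (.f (nat_lit 526) (nat_lit 525) (nat_lit 525) (.d (nat_lit 562) (nat_lit 559) (nat_lit 3598) (nat_lit 563) (nat_lit 3599))) (.f (nat_lit 464) (nat_lit 593) (nat_lit 4560) (.f (nat_lit 431) (nat_lit 463) (nat_lit 7599) (.f (nat_lit 432) (nat_lit 399) (nat_lit 7567) (.d (nat_lit 433) (nat_lit 401) (nat_lit 6544) (nat_lit 465) (nat_lit 6576)))))))) (.a (.p (nat_lit 561) (.a (.f (nat_lit 526) (nat_lit 525) (nat_lit 525) (.d (nat_lit 562) (nat_lit 559) (nat_lit 3598) (nat_lit 563) (nat_lit 3599))) (.a (.p (nat_lit 592) (.a (.d (nat_lit 495) (nat_lit 463) (nat_lit 7631) (nat_lit 624) (nat_lit 7663)) (.f (nat_lit 591) (nat_lit 623) (nat_lit 5615) (.f (nat_lit 562) (nat_lit 563) (nat_lit 3599) (.d (nat_lit 590) (nat_lit 559) (nat_lit 1582) (nat_lit 589) (nat_lit 2605)))))) (.a (.p (nat_lit 592) (.a (.d (nat_lit 495) (nat_lit 463) (nat_lit 7631) (nat_lit 624) (nat_lit 7663)) (.f (nat_lit 591) (nat_lit 623) (nat_lit 5615) (.f (nat_lit 562) (nat_lit 563) (nat_lit 3599) (.d (nat_lit 590) (nat_lit 589) (nat_lit 2605) (nat_lit 593) (nat_lit 2606)))))) (.p (nat_lit 497) (.a (.f (nat_lit 526) (nat_lit 525) (nat_lit 525) (.d (nat_lit 498) (nat_lit 495) (nat_lit 1518) (nat_lit 499) (nat_lit 1519))) (.a (.f (nat_lit 592) (nat_lit 465) (nat_lit 6608) (.d (nat_lit 495) (nat_lit 463) (nat_lit 7631) (nat_lit 624) (nat_lit 7663))) (.f (nat_lit 592) (nat_lit 465) (nat_lit 6608) (.f (nat_lit 623) (nat_lit 591) (nat_lit 5615) (.f (nat_lit 624) (nat_lit 655) (nat_lit 5647) (.f (nat_lit 656) (nat_lit 559) (nat_lit 7695) (.f (nat_lit 688) (nat_lit 593) (nat_lit 6704) (.d (nat_lit 689) (nat_lit 657) (nat_lit 4656) (nat_lit 721) (nat_lit 4688)))))))))))))) (.a (.p (nat_lit 561) (.a (.f (nat_lit 464) (nat_lit 593) (nat_lit 4560) (.d (nat_lit 559) (nat_lit 432) (nat_lit 5551) (nat_lit 591) (nat_lit 5583))) (.a (.f (nat_lit 464) (nat_lit 593) (nat_lit 4560) (.f (nat_lit 431) (nat_lit 463) (nat_lit 7599) (.f (nat_lit 432) (nat_lit 399) (nat_lit 7567) (.f (nat_lit 400) (nat_lit 495) (nat_lit 5519) (.d (nat_lit 401) (nat_lit 369) (nat_lit 6512) (nat_lit 433) (nat_lit 6544)))))) (.f (nat_lit 526) (nat_lit 525) (nat_lit 525) (.d (nat_lit 562) (nat_lit 559) (nat_lit 3598) (nat_lit 563) (nat_lit 3599)))))) (.p (nat_lit 464) (.a (.d (nat_lit 559) (nat_lit 432) (nat_lit 5551) (nat_lit 591) (nat_lit 5583)) (.f (nat_lit 465) (nat_lit 433) (nat_lit 6576) (.f (nat_lit 497) (nat_lit 592) (nat_lit 6608) (.f (nat_lit 498) (nat_lit 499) (nat_lit 1519) (.d (nat_lit 526) (nat_lit 495) (nat_lit 1518) (nat_lit 525) (nat_lit 2541))))))))))))) (.a s182 (.a s2664 (.a s236 (.a s2679 s2855)))))))))))) (.a (.p (nat_lit 560) (.a s208 (.a (.p (nat_lit 526) (.a (.f (nat_lit 525) (nat_lit 561) (nat_lit 525) (.f (nat_lit 524) (nat_lit 559) (nat_lit 524) (.d (nat_lit 492) (nat_lit 491) (nat_lit 3563) (nat_lit 493) (nat_lit 3564)))) (.a s2600 (.a (.f (nat_lit 525) (nat_lit 561) (nat_lit 525) (.f (nat_lit 492) (nat_lit 493) (nat_lit 3564) (.f (nat_lit 524) (nat_lit 491) (nat_lit 3563) (.d (nat_lit 556) (nat_lit 555) (nat_lit 1547) (nat_lit 557) (nat_lit 1548))))) (.p (nat_lit 529) (.a (.f (nat_lit 561) (nat_lit 562) (nat_lit 526) (.f (nat_lit 497) (nat_lit 498) (nat_lit 2542) (.d (nat_lit 465) (nat_lit 433) (nat_lit 5552) (nat_lit 592) (nat_lit 5584)))) (.a (.f (nat_lit 558) (nat_lit 557) (nat_lit 1549) (.f (nat_lit 530) (nat_lit 559) (nat_lit 1550) (.f (nat_lit 499) (nat_lit 498) (nat_lit 2543) (.f (nat_lit 531) (nat_lit 500) (nat_lit 2544) (.d (nat_lit 563) (nat_lit 562) (nat_lit 527) (nat_lit 564) (nat_lit 528)))))) (.a (.f (nat_lit 558) (nat_lit 557) (nat_lit 1549) (.f (nat_lit 530) (nat_lit 559) (nat_lit 1550) (.d (nat_lit 498) (nat_lit 497) (nat_lit 2542) (nat_lit 499) (nat_lit 2543)))) (.f (nat_lit 561) (nat_lit 562) (nat_lit 526) (.f (nat_lit 558) (nat_lit 557) (nat_lit 1549) (.f (nat_lit 559) (nat_lit 530) (nat_lit 1550) (.f (nat_lit 590) (nat_lit 589) (nat_lit 1581) (.d (nat_lit 495) (nat_lit 463) (nat_lit 5582) (nat_lit 622) (nat_lit 6638)))))))))))))) (.a s1678 (.a s1016 (.a s642 (.a s1193 (.a (.p (nat_lit 496) (.a (.p (nat_lit 497) (.a (.f (nat_lit 592) (nat_lit 465) (nat_lit 6608) (.d (nat_lit 495) (nat_lit 463) (nat_lit 7631) (nat_lit 624) (nat_lit 7663))) (.a (.f (nat_lit 526) (nat_lit 525) (nat_lit 2541) (.d (nat_lit 498) (nat_lit 495) (nat_lit 1518) (nat_lit 499) (nat_lit 1519))) (.f (nat_lit 526) (nat_lit 525) (nat_lit 2541) (.d (nat_lit 498) (nat_lit 499) (nat_lit 1519) (nat_lit 529) (nat_lit 2542)))))) (.a s660 (.a (.p (nat_lit 561) (.a (.f (nat_lit 464) (nat_lit 593) (nat_lit 4560) (.f (nat_lit 529) (nat_lit 432) (nat_lit 4528) (.d (nat_lit 526) (nat_lit 525) (nat_lit 525) (nat_lit 562) (nat_lit 526)))) (.a (.f (nat_lit 464) (nat_lit 593) (nat_lit 4560) (.f (nat_lit 431) (nat_lit 463) (nat_lit 7599) (.f (nat_lit 432) (nat_lit 399) (nat_lit 7567) (.d (nat_lit 433) (nat_lit 401) (nat_lit 6544) (nat_lit 465) (nat_lit 6576))))) (.f (nat_lit 526) (nat_lit 525) (nat_lit 525) (.d (nat_lit 562) (nat_lit 529) (nat_lit 526) (nat_lit 563) (nat_lit 3599)))))) (.a (.p (nat_lit 497) (.a (.f (nat_lit 592) (nat_lit 465) (nat_lit 6608) (.d (nat_lit 495) (nat_lit 463) (nat_lit 7631) (nat_lit 624) (nat_lit 7663))) (.a (.f (nat_lit 526) (nat_lit 525) (nat_lit 2541) (.d (nat_lit 498) (nat_lit 495) (nat_lit 1518) (nat_lit 499) (nat_lit 1519))) (.f (nat_lit 592) (nat_lit 465) (nat_lit 6608) (.f (nat_lit 623) (nat_lit 591) (nat_lit 5615) (.f (nat_lit 624) (nat_lit 655) (nat_lit 5647) (.d (nat_lit 625) (nat_lit 593) (nat_lit 4592) (nat_lit 657) (nat_lit 4624)))))))) (.p (nat_lit 561) (.a (.f (nat_lit 464) (nat_lit 593) (nat_lit 4560) (.f (nat_lit 529) (nat_lit 432) (nat_lit 4528) (.d (nat_lit 526) (nat_lit 525) (nat_lit 525) (nat_lit 562) (nat_lit 526)))) (.a (.f (nat_lit 593) (nat_lit 464) (nat_lit 4560) (.d (nat_lit 625) (nat_lit 592) (nat_lit 4592) (nat_lit 657) (nat_lit 7696))) (.f (nat_lit 526) (nat_lit 525) (nat_lit 525) (.d (nat_lit 562) (nat_lit 529) (nat_lit 526) (nat_lit 563) (nat_lit 3599))))))))))) (.a s2610 (.a s2842 s248)))))))))) (.a (.p (nat_lit 560) (.a s241 (.a s876 (.a s642 (.a s1178 (.a s2662 (.a s1004 (.a s2625 (.a s2796 (.a s2844 (.a s1013 s2855))))))))))) (.a (.p (nat_lit 560) (.a s70 (.a s2765 (.a s1178 (.a s1018 (.a s1193 (.a s2495 s2846))))))) (.a (.p (nat_lit 560) (.a s248 (.a s2765 (.a s784 (.a s1733 (.a s1017 (.a s1309 (.a (.p (nat_lit 496) (.a (.p (nat_lit 561) (.a (.f (nat_lit 464) (nat_lit 593) (nat_lit 4560) (.d (nat_lit 559) (nat_lit 432) (nat_lit 5551) (nat_lit 591) (nat_lit 5583))) (.a (.f (nat_lit 526) (nat_lit 525) (nat_lit 525) (.d (nat_lit 562) (nat_lit 559) (nat_lit 3598) (nat_lit 563) (nat_lit 3599))) (.f (nat_lit 593) (nat_lit 464) (nat_lit 4560) (.d (nat_lit 625) (nat_lit 592) (nat_lit 4592) (nat_lit 657) (nat_lit 7696)))))) (.a (.p (nat_lit 464) (.a (.d (nat_lit 559) (nat_lit 432) (nat_lit 5551) (nat_lit 591) (nat_lit 5583)) (.a (.f (nat_lit 433) (nat_lit 465) (nat_lit 6576) (.f (nat_lit 432) (nat_lit 401) (nat_lit 6544) (.f (nat_lit 399) (nat_lit 431) (nat_lit 7567) (.d (nat_lit 400) (nat_lit 367) (nat_lit 7535) (nat_lit 495) (nat_lit 5519))))) (.f (nat_lit 591) (nat_lit 559) (nat_lit 5583) (.f (nat_lit 592) (nat_lit 623) (nat_lit 5615) (.f (nat_lit 624) (nat_lit 495) (nat_lit 7663) (.d (nat_lit 625) (nat_lit 593) (nat_lit 4592) (nat_lit 657) (nat_lit 4624)))))))) (.a s2961 (.a (.p (nat_lit 561) (.a (.f (nat_lit 464) (nat_lit 593) (nat_lit 4560) (.d (nat_lit 559) (nat_lit 432) (nat_lit 5551) (nat_lit 591) (nat_lit 5583))) (.a (.f (nat_lit 464) (nat_lit 593) (nat_lit 4560) (.f (nat_lit 433) (nat_lit 465) (nat_lit 6576) (.f (nat_lit 432) (nat_lit 401) (nat_lit 6544) (.f (nat_lit 399) (nat_lit 431) (nat_lit 7567) (.d (nat_lit 400) (nat_lit 367) (nat_lit 7535) (nat_lit 495) (nat_lit 5519)))))) (.f (nat_lit 526) (nat_lit 525) (nat_lit 525) (.d (nat_lit 562) (nat_lit 559) (nat_lit 3598) (nat_lit 563) (nat_lit 3599)))))) (.a (.p (nat_lit 497) (.a (.f (nat_lit 526) (nat_lit 525) (nat_lit 2541) (.d (nat_lit 498) (nat_lit 495) (nat_lit 1518) (nat_lit 499) (nat_lit 1519))) (.f (nat_lit 592) (nat_lit 465) (nat_lit 6608) (.f (nat_lit 623) (nat_lit 591) (nat_lit 5615) (.f (nat_lit 624) (nat_lit 655) (nat_lit 5647) (.d (nat_lit 625) (nat_lit 593) (nat_lit 4592) (nat_lit 657) (nat_lit 4624))))))) (.a (.p (nat_lit 464) (.a (.d (nat_lit 559) (nat_lit 432) (nat_lit 5551) (nat_lit 591) (nat_lit 5583)) (.f (nat_lit 465) (nat_lit 433) (nat_lit 6576) (.f (nat_lit 497) (nat_lit 592) (nat_lit 6608) (.f (nat_lit 498) (nat_lit 499) (nat_lit 1519) (.d (nat_lit 526) (nat_lit 495) (nat_lit 1518) (nat_lit 525) (nat_lit 2541))))))) (.p (nat_lit 561) (.a (.f (nat_lit 526) (nat_lit 525) (nat_lit 525) (.d (nat_lit 562) (nat_lit 559) (nat_lit 3598) (nat_lit 563) (nat_lit 3599))) (.f (nat_lit 593) (nat_lit 464) (nat_lit 4560) (.d (nat_lit 625) (nat_lit 592) (nat_lit 4592) (nat_lit 657) (nat_lit 7696)))))))))))) (.a (.p (nat_lit 496) (.a (.p (nat_lit 497) (.a (.f (nat_lit 526) (nat_lit 525) (nat_lit 2541) (.d (nat_lit 498) (nat_lit 499) (nat_lit 1519) (nat_lit 529) (nat_lit 2542))) (.f (nat_lit 592) (nat_lit 465) (nat_lit 6608) (.f (nat_lit 623) (nat_lit 591) (nat_lit 5615) (.f (nat_lit 624) (nat_lit 655) (nat_lit 5647) (.d (nat_lit 625) (nat_lit 593) (nat_lit 4592) (nat_lit 657) (nat_lit 4624))))))) (.a (.p (nat_lit 464) (.a (.f (nat_lit 561) (nat_lit 593) (nat_lit 4560) (.f (nat_lit 432) (nat_lit 529) (nat_lit 4528) (.d (nat_lit 433) (nat_lit 401) (nat_lit 6544) (nat_lit 465) (nat_lit 6576)))) (.a (.f (nat_lit 433) (nat_lit 465) (nat_lit 6576) (.f (nat_lit 432) (nat_lit 401) (nat_lit 6544) (.f (nat_lit 399) (nat_lit 431) (nat_lit 7567) (.d (nat_lit 400) (nat_lit 367) (nat_lit 7535) (nat_lit 495) (nat_lit 5519))))) (.a (.f (nat_lit 561) (nat_lit 593) (nat_lit 4560) (.f (nat_lit 432) (nat_lit 529) (nat_lit 4528) (.f (nat_lit 400) (nat_lit 495) (nat_lit 5519) (.d (nat_lit 399) (nat_lit 367) (nat_lit 7535) (nat_lit 431) (nat_lit 7567))))) (.f (nat_lit 465) (nat_lit 433) (nat_lit 6576) (.f (nat_lit 592) (nat_lit 497) (nat_lit 6608) (.d (nat_lit 593) (nat_lit 561) (nat_lit 4560) (nat_lit 625) (nat_lit 4592)))))))) (.a (.p (nat_lit 561) (.a (.f (nat_lit 464) (nat_lit 593) (nat_lit 4560) (.f (nat_lit 529) (nat_lit 432) (nat_lit 4528) (.d (nat_lit 526) (nat_lit 525) (nat_lit 525) (nat_lit 562) (nat_lit 526)))) (.a (.f (nat_lit 593) (nat_lit 464) (nat_lit 4560) (.d (nat_lit 625) (nat_lit 592) (nat_lit 4592) (nat_lit 657) (nat_lit 7696))) (.f (nat_lit 526) (nat_lit 525) (nat_lit 525) (.d (nat_lit 562) (nat_lit 529) (nat_lit 526) (nat_lit 563) (nat_lit 3599)))))) (.a s2961 (.a (.p (nat_lit 561) (.a (.f (nat_lit 464) (nat_lit 593) (nat_lit 4560) (.f (nat_lit 529) (nat_lit 432) (nat_lit 4528) (.d (nat_lit 526) (nat_lit 525) (nat_lit 525) (nat_lit 562) (nat_lit 526)))) (.a (.f (nat_lit 464) (nat_lit 593) (nat_lit 4560) (.f (nat_lit 432) (nat_lit 529) (nat_lit 4528) (.d (nat_lit 433) (nat_lit 401) (nat_lit 6544) (nat_lit 465) (nat_lit 6576)))) (.a (.f (nat_lit 464) (nat_lit 593) (nat_lit 4560) (.f (nat_lit 433) (nat_lit 465) (nat_lit 6576) (.f (nat_lit 432) (nat_lit 401) (nat_lit 6544) (.f (nat_lit 399) (nat_lit 431) (nat_lit 7567) (.d (nat_lit 400) (nat_lit 367) (nat_lit 7535) (nat_lit 495) (nat_lit 5519)))))) (.f (nat_lit 526) (nat_lit 525) (nat_lit 525) (.d (nat_lit 562) (nat_lit 529) (nat_lit 526) (nat_lit 563) (nat_lit 3599))))))) (.p (nat_lit 497) (.a (.f (nat_lit 526) (nat_lit 525) (nat_lit 2541) (.d (nat_lit 498) (nat_lit 495) (nat_lit 1518) (nat_lit 499) (nat_lit 1519))) (.f (nat_lit 465) (nat_lit 592) (nat_lit 6608) (.d (nat_lit 433) (nat_lit 401) (nat_lit 5520) (nat_lit 464) (nat_lit 6576))))))))))) (.a s2537 (.a s2796 (.a s2798 (.a s2875 s2592))))))))))))) (.a (.p (nat_lit 560) (.a s233 (.a s402 (.a s1756 (.a s642 (.a s998 (.a s2495 (.a s2537 (.a s2853 (.a s753 s2664)))))))))) (.a (.p (nat_lit 560) (.a s22 (.a s46 (.a s785 (.a s1746 (.a s1019 (.a s103 (.a (.p (nat_lit 496) (.a (.p (nat_lit 561) (.a (.f (nat_lit 464) (nat_lit 593) (nat_lit 4560) (.f (nat_lit 432) (nat_lit 559) (nat_lit 5551) (.d (nat_lit 431) (nat_lit 399) (nat_lit 7567) (nat_lit 463) (nat_lit 7599)))) (.a (.f (nat_lit 526) (nat_lit 525) (nat_lit 525) (.d (nat_lit 562) (nat_lit 559) (nat_lit 3598) (nat_lit 563) (nat_lit 3599))) (.f (nat_lit 464) (nat_lit 593) (nat_lit 4560) (.f (nat_lit 431) (nat_lit 463) (nat_lit 7599) (.f (nat_lit 432) (nat_lit 399) (nat_lit 7567) (.d (nat_lit 433) (nat_lit 401) (nat_lit 6544) (nat_lit 465) (nat_lit 6576)))))))) (.a s1455 (.a (.p (nat_lit 593) (.a (.f (nat_lit 592) (nat_lit 625) (nat_lit 4592) (.d (nat_lit 495) (nat_lit 463) (nat_lit 7631) (nat_lit 624) (nat_lit 7663))) (.a (.f (nat_lit 464) (nat_lit 561) (nat_lit 4560) (.f (nat_lit 431) (nat_lit 463) (nat_lit 7599) (.f (nat_lit 432) (nat_lit 399) (nat_lit 7567) (.f (nat_lit 400) (nat_lit 495) (nat_lit 5519) (.d (nat_lit 401) (nat_lit 369) (nat_lit 6512) (nat_lit 433) (nat_lit 6544)))))) (.f (nat_lit 561) (nat_lit 464) (nat_lit 4560) (.d (nat_lit 625) (nat_lit 592) (nat_lit 4592) (nat_lit 657) (nat_lit 7696)))))) (.a (.p (nat_lit 497) (.a (.f (nat_lit 592) (nat_lit 465) (nat_lit 6608) (.d (nat_lit 495) (nat_lit 463) (nat_lit 7631) (nat_lit 624) (nat_lit 7663))) (.a (.f (nat_lit 526) (nat_lit 525) (nat_lit 2541) (.d (nat_lit 498) (nat_lit 495) (nat_lit 1518) (nat_lit 499) (nat_lit 1519))) (.f (nat_lit 592) (nat_lit 465) (nat_lit 6608) (.f (nat_lit 625) (nat_lit 593) (nat_lit 4592) (.f (nat_lit 624) (nat_lit 657) (nat_lit 4624) (.f (nat_lit 655) (nat_lit 623) (nat_lit 5647) (.d (nat_lit 656) (nat_lit 559) (nat_lit 7695) (nat_lit 687) (nat_lit 5679))))))))) (.p (nat_lit 561) (.a (.f (nat_lit 526) (nat_lit 525) (nat_lit 525) (.d (nat_lit 562) (nat_lit 559) (nat_lit 3598) (nat_lit 563) (nat_lit 3599))) (.f (nat_lit 593) (nat_lit 464) (nat_lit 4560) (.d (nat_lit 625) (nat_lit 592) (nat_lit 4592) (nat_lit 657) (nat_lit 7696)))))))))) (.a s198 (.a s2441 (.a s2819 (.a s2845 (.a s2876 (.a s2592 (.a s241 s2495))))))))))))))) (.a (.p (nat_lit 560) (.a s22 (.a (.p (nat_lit 529) (.a (.p (nat_lit 530) (.a (.d (nat_lit 559) (nat_lit 531) (nat_lit 1551) (nat_lit 558) (nat_lit 1550)) (.a (.f (nat_lit 559) (nat_lit 558) (nat_lit 1550) (.f (nat_lit 495) (nat_lit 494) (nat_lit 3566) (.d (nat_lit 463) (nat_lit 431) (nat_lit 4527) (nat_lit 592) (nat_lit 4559)))) (.f (nat_lit 562) (nat_lit 563) (nat_lit 527) (.f (nat_lit 561) (nat_lit 526) (nat_lit 526) (.f (nat_lit 498) (nat_lit 499) (nat_lit 2543) (.d (nat_lit 466) (nat_lit 434) (nat_lit 5553) (nat_lit 593) (nat_lit 5585)))))))) (.a s2985 (.a (.p (nat_lit 530) (.a (.d (nat_lit 559) (nat_lit 531) (nat_lit 1551) (nat_lit 558) (nat_lit 1550)) (.a (.f (nat_lit 559) (nat_lit 558) (nat_lit 1550) (.f (nat_lit 495) (nat_lit 494) (nat_lit 3566) (.d (nat_lit 463) (nat_lit 431) (nat_lit 4527) (nat_lit 592) (nat_lit 4559)))) (.f (nat_lit 563) (nat_lit 562) (nat_lit 527) (.f (nat_lit 531) (nat_lit 564) (nat_lit 528) (.d (nat_lit 499) (nat_lit 498) (nat_lit 2543) (nat_lit 500) (nat_lit 2544))))))) (.a s45 (.a (.p (nat_lit 530) (.a (.d (nat_lit 559) (nat_lit 531) (nat_lit 1551) (nat_lit 558) (nat_lit 1550)) (.f (nat_lit 562) (nat_lit 563) (nat_lit 527) (.f (nat_lit 561) (nat_lit 526) (nat_lit 526) (.f (nat_lit 498) (nat_lit 499) (nat_lit 2543) (.d (nat_lit 466) (nat_lit 434) (nat_lit 5553) (nat_lit 593) (nat_lit 5585))))))) (.a (.p (nat_lit 530) (.a (.d (nat_lit 559) (nat_lit 531) (nat_lit 1551) (nat_lit 558) (nat_lit 1550)) (.a (.f (nat_lit 559) (nat_lit 558) (nat_lit 1550) (.f (nat_lit 495) (nat_lit 494) (nat_lit 3566) (.d (nat_lit 463) (nat_lit 431) (nat_lit 4527) (nat_lit 592) (nat_lit 4559)))) (.f (nat_lit 498) (nat_lit 499) (nat_lit 2543) (.f (nat_lit 497) (nat_lit 526) (nat_lit 2542) (.f (nat_lit 592) (nat_lit 624) (nat_lit 6640) (.d (nat_lit 465) (nat_lit 433) (nat_lit 5552) (nat_lit 561) (nat_lit 5584)))))))) (.p (nat_lit 530) (.a (.d (nat_lit 559) (nat_lit 531) (nat_lit 1551) (nat_lit 558) (nat_lit 1550)) (.a (.f (nat_lit 559) (nat_lit 558) (nat_lit 1550) (.f (nat_lit 495) (nat_lit 494) (nat_lit 3566) (.d (nat_lit 463) (nat_lit 431) (nat_lit 4527) (nat_lit 592) (nat_lit 4559)))) (.f (nat_lit 562) (nat_lit 563) (nat_lit 527) (.f (nat_lit 526) (nat_lit 561) (nat_lit 526) (.d (nat_lit 494) (nat_lit 493) (nat_lit 3565) (nat_lit 495) (nat_lit 3566)))))))))))))) (.a s70 (.a s674 (.a s1015 (.a s1355 (.a s157 (.a s709 (.a s2619 (.a s208 (.a s2844 (.a s1704 (.a s2877 (.a s248 s2853))))))))))))))) (.a (.p (nat_lit 560) (.a s22 (.a s402 (.a s138 (.a s998 (.a s642 (.a s709 (.a s2627 (.a s208 (.a s2842 (.a s2853 s248))))))))))) (.a (.p (nat_lit 560) (.a s248 (.a s2765 (.a s642 (.a s1178 (.a s1020 (.a (.p (nat_lit 592) (.a (.f (nat_lit 624) (nat_lit 495) (nat_lit 7663) (.f (nat_lit 656) (nat_lit 559) (nat_lit 7695) (.d (nat_lit 655) (nat_lit 623) (nat_lit 5647) (nat_lit 687) (nat_lit 5679)))) (.a (.f (nat_lit 624) (nat_lit 495) (nat_lit 7663) (.f (nat_lit 625) (nat_lit 657) (nat_lit 4624) (.f (nat_lit 593) (nat_lit 496) (nat_lit 4592) (.f (nat_lit 623) (nat_lit 655) (nat_lit 5647) (.d (nat_lit 594) (nat_lit 595) (nat_lit 1615) (nat_lit 622) (nat_lit 2638)))))) (.a s1345 (.a (.p (nat_lit 496) (.a (.f (nat_lit 591) (nat_lit 623) (nat_lit 5615) (.f (nat_lit 559) (nat_lit 464) (nat_lit 5583) (.f (nat_lit 593) (nat_lit 625) (nat_lit 4592) (.d (nat_lit 558) (nat_lit 557) (nat_lit 557) (nat_lit 594) (nat_lit 3630))))) (.f (nat_lit 497) (nat_lit 465) (nat_lit 6608) (.f (nat_lit 526) (nat_lit 525) (nat_lit 2541) (.d (nat_lit 495) (nat_lit 463) (nat_lit 7631) (nat_lit 498) (nat_lit 1518)))))) (.f (nat_lit 624) (nat_lit 495) (nat_lit 7663) (.f (nat_lit 656) (nat_lit 559) (nat_lit 7695) (.d (nat_lit 657) (nat_lit 625) (nat_lit 4624) (nat_lit 689) (nat_lit 4656))))))))) (.a s1596 (.a s2537 (.a s2878 s2592)))))))))) (.a (.p (nat_lit 560) (.a s22 (.a s2441 (.a s70 (.a s1704 (.a s1004 (.a s1361 (.a s157 (.a s208 (.a s784 (.a s2855 s2664))))))))))) (.a (.p (nat_lit 560) (.a s103 (.a s402 (.a s1178 (.a s233 (.a s1193 (.a s2870 (.a s2537 (.a s208 s753))))))))) (.a (.p (nat_lit 560) (.a s22 (.a s46 (.a s70 (.a s138 (.a s998 (.a s103 (.a s198 (.a s2495 (.a s2794 (.a s248 (.a s1004 s642)))))))))))) (.a (.p (nat_lit 560) (.a s22 (.a s46 (.a s70 (.a s1758 (.a s1004 (.a s103 (.a (.p (nat_lit 496) (.a (.p (nat_lit 464) (.a (.d (nat_lit 559) (nat_lit 432) (nat_lit 5551) (nat_lit 591) (nat_lit 5583)) (.f (nat_lit 463) (nat_lit 431) (nat_lit 7599) (.f (nat_lit 495) (nat_lit 592) (nat_lit 7631) (.f (nat_lit 465) (nat_lit 433) (nat_lit 6576) (.d (nat_lit 466) (nat_lit 467) (nat_lit 1487) (nat_lit 494) (nat_lit 1486))))))) (.a s2934 (.a (.p (nat_lit 561) (.a (.f (nat_lit 464) (nat_lit 593) (nat_lit 4560) (.d (nat_lit 559) (nat_lit 432) (nat_lit 5551) (nat_lit 591) (nat_lit 5583))) (.a (.f (nat_lit 526) (nat_lit 525) (nat_lit 525) (.d (nat_lit 562) (nat_lit 559) (nat_lit 3598) (nat_lit 563) (nat_lit 3599))) (.f (nat_lit 464) (nat_lit 593) (nat_lit 4560) (.f (nat_lit 431) (nat_lit 463) (nat_lit 7599) (.f (nat_lit 432) (nat_lit 399) (nat_lit 7567) (.d (nat_lit 433) (nat_lit 401) (nat_lit 6544) (nat_lit 465) (nat_lit 6576)))))))) (.a (.p (nat_lit 497) (.a (.f (nat_lit 592) (nat_lit 465) (nat_lit 6608) (.d (nat_lit 495) (nat_lit 463) (nat_lit 7631) (nat_lit 624) (nat_lit 7663))) (.a (.f (nat_lit 526) (nat_lit 525) (nat_lit 2541) (.d (nat_lit 498) (nat_lit 495) (nat_lit 1518) (nat_lit 499) (nat_lit 1519))) (.p (nat_lit 562) (.a (.f (nat_lit 561) (nat_lit 563) (nat_lit 3599) (.d (nat_lit 526) (nat_lit 525) (nat_lit 2541) (nat_lit 559) (nat_lit 3598))) (.a (.f (nat_lit 561) (nat_lit 563) (nat_lit 3599) (.f (nat_lit 592) (nat_lit 465) (nat_lit 6608) (.f (nat_lit 593) (nat_lit 625) (nat_lit 4592) (.f (nat_lit 498) (nat_lit 499) (nat_lit 1519) (.f (nat_lit 530) (nat_lit 466) (nat_lit 5585) (.f (nat_lit 559) (nat_lit 531) (nat_lit 2575) (.d (nat_lit 558) (nat_lit 557) (nat_lit 557) (nat_lit 594) (nat_lit 558)))))))) (.f (nat_lit 465) (nat_lit 592) (nat_lit 6608) (.f (nat_lit 498) (nat_lit 499) (nat_lit 1519) (.f (nat_lit 530) (nat_lit 594) (nat_lit 7633) (.d (nat_lit 433) (nat_lit 401) (nat_lit 4497) (nat_lit 466) (nat_lit 7601))))))))))) (.p (nat_lit 561) (.a (.f (nat_lit 464) (nat_lit 593) (nat_lit 4560) (.d (nat_lit 559) (nat_lit 432) (nat_lit 5551) (nat_lit 591) (nat_lit 5583))) (.a (.f (nat_lit 526) (nat_lit 525) (nat_lit 525) (.d (nat_lit 562) (nat_lit 559) (nat_lit 3598) (nat_lit 563) (nat_lit 3599))) (.f (nat_lit 593) (nat_lit 464) (nat_lit 4560) (.d (nat_lit 625) (nat_lit 592) (nat_lit 4592) (nat_lit 657) (nat_lit 7696))))))))))) (.a s1309 (.a s182 (.a s2610 (.a s236 (.a s2876 s2495))))))))))))) (.a (.p (nat_lit 560) (.a s22 (.a s46 (.a s70 (.a s1178 (.a s1021 (.a s157 (.a s198 (.a s208 (.a s182 (.a s103 (.a s248 (.a s2879 s642))))))))))))) (.p (nat_lit 560) (.a s22 (.a (.p (nat_lit 529) (.a (.p (nat_lit 530) (.a (.d (nat_lit 559) (nat_lit 531) (nat_lit 1551) (nat_lit 558) (nat_lit 1550)) (.a (.f (nat_lit 559) (nat_lit 558) (nat_lit 1550) (.f (nat_lit 495) (nat_lit 494) (nat_lit 3566) (.d (nat_lit 463) (nat_lit 431) (nat_lit 4527) (nat_lit 592) (nat_lit 4559)))) (.f (nat_lit 562) (nat_lit 563) (nat_lit 527) (.f (nat_lit 561) (nat_lit 526) (nat_lit 526) (.f (nat_lit 498) (nat_lit 499) (nat_lit 2543) (.d (nat_lit 466) (nat_lit 434) (nat_lit 5553) (nat_lit 593) (nat_lit 5585)))))))) (.a s443 (.a (.p (nat_lit 530) (.a (.d (nat_lit 559) (nat_lit 531) (nat_lit 1551) (nat_lit 558) (nat_lit 1550)) (.a (.f (nat_lit 559) (nat_lit 558) (nat_lit 1550) (.f (nat_lit 495) (nat_lit 494) (nat_lit 3566) (.d (nat_lit 463) (nat_lit 431) (nat_lit 4527) (nat_lit 592) (nat_lit 4559)))) (.f (nat_lit 563) (nat_lit 562) (nat_lit 527) (.f (nat_lit 531) (nat_lit 564) (nat_lit 528) (.d (nat_lit 499) (nat_lit 498) (nat_lit 2543) (nat_lit 500) (nat_lit 2544))))))) (.a s45 (.a (.p (nat_lit 530) (.a (.d (nat_lit 559) (nat_lit 531) (nat_lit 1551) (nat_lit 558) (nat_lit 1550)) (.f (nat_lit 562) (nat_lit 563) (nat_lit 527) (.f (nat_lit 561) (nat_lit 526) (nat_lit 526) (.f (nat_lit 498) (nat_lit 499) (nat_lit 2543) (.d (nat_lit 466) (nat_lit 434) (nat_lit 5553) (nat_lit 593) (nat_lit 5585))))))) (.p (nat_lit 530) (.a (.d (nat_lit 559) (nat_lit 531) (nat_lit 1551) (nat_lit 558) (nat_lit 1550)) (.a (.f (nat_lit 559) (nat_lit 558) (nat_lit 1550) (.f (nat_lit 495) (nat_lit 494) (nat_lit 3566) (.d (nat_lit 463) (nat_lit 431) (nat_lit 4527) (nat_lit 592) (nat_lit 4559)))) (.f (nat_lit 498) (nat_lit 499) (nat_lit 2543) (.f (nat_lit 497) (nat_lit 526) (nat_lit 2542) (.f (nat_lit 592) (nat_lit 624) (nat_lit 6640) (.d (nat_lit 465) (nat_lit 433) (nat_lit 5552) (nat_lit 561) (nat_lit 5584)))))))))))))) (.a s70 (.a s138 (.a s96 (.a s157 (.a s642 (.a s709 (.a s208 (.a s707 (.a s222 (.a s1704 (.a s248 s998)))))))))))))))))))))))))))))))))))))))))))))))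
end Vale.Agent.Lib.P062.Part3
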