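import Vale.Agent.Lib.P062.Part3.K_0

set_option maxRecDepth 100000
set_option linter.all false

namespace Vale.Agent.Lib.P062.Part3
open Vale.Agent.Lib.P062 Vale.Agent.Lib.P062.V2

noncomputable def s32915 : Cert := .r (nat_lit 3773962427896970703980067733300160448905385381753147442840407123654343792107272198248276636528565486557800015660592592403154009030555443256434490679465860718068940931072) (.p (nat_lit 530) (.a (.f (nat_lit 562) (nat_lit 563) (nat_lit 527) (.f (nat_lit 561) (nat_lit 526) (nat_lit 526) (.f (nat_lit 498) (nat_lit 499) (nat_lit 2543) (.d (nat_lit 466) (nat_lit 434) (nat_lit 5553) (nat_lit 593) (nat_lit 5585))))) (.a (.f (nat_lit 563) (nat_lit 562) (nat_lit 527) (.f (nat_lit 531) (nat_lit 564) (nat_lit 528) (.d (nat_lit 499) (nat_lit 498) (nat_lit 2543) (nat_lit 500) (nat_lit 2544)))) (.a (.f (nat_lit 498) (nat_lit 499) (nat_lit 2543) (.f (nat_lit 497) (nat_lit 526) (nat_lit 2542) (.f (nat_lit 592) (nat_lit 624)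 (nat_lit 6640) (.d (nat_lit 465) (nat_lit 433) (nat_lit 5552) (nat_lit 561) (nat_lit 5584))))) (.f (nat_lit 562) (nat_lit 563) (nat_lit 527) (.f (nat_lit 526) (nat_lit 561) (nat_lit 526) (.d (nat_lit 494) (nat_lit 493) (nat_lit 3565) (nat_lit 495) (nat_lit 3566))))))))
noncomputable def s32931 : Cert := .r (nat_lit 3773962427457623653731708711541318797764176215847903583631235577453098130719397434510826649192721669555466924142045628474099234116179636024452625475461122907437577273344) (.p (nat_lit 496) (.a (.p (nat_lit 559) (.a (.f (nat_lit 464) (nat_lit 591) (nat_lit 5583) (.d (nat_lit 432) (nat_lit 527) (nat_lit 5551) (nat_lit 561) (nat_lit 4528))) (.a (.f (nat_lit 464) (nat_lit 591) (nat_lit 5583) (.d (nat_lit 561) (nat_lit 432) (nat_lit 4528) (nat_lit 593) (nat_lit 4560))) (.a (.f (nat_lit 464) (nat_lit 591) (nat_lit 5583) (.f (nat_lit 432) (nat_lit 527) (nat_lit 5551) (.d (nat_lit 431) (nat_lit 399) (nat_lit 7567) (nat_lit 463)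 (nat_lit 7599)))) (.f (nat_lit 530) (nat_lit 531) (nat_lit 1551) (.d (nat_lit 558) (nat_lit 527) (nat_lit 1550) (nat_lit 557) (nat_lit 2573))))))) (.a (.p (nat_lit 592) (.a (.d (nat_lit 497) (nat_lit 465) (nat_lit 6608) (nat_lit 624) (nat_lit 6640)) (.a (.f (nat_lit 495) (nat_lit 463) (nat_lit 7631) (.f (nat_lit 624) (nat_lit 527) (nat_lit 7663) (.d (nat_lit 623) (nat_lit 591) (nat_lit 5615) (nat_lit 655) (nat_lit 5647)))) (.f (nat_lit 497) (nat_lit 465) (nat_lit 6608) (.f (nat_lit 495) (nat_lit 463) (nat_lit 7631) (.d (nat_lit 494) (nat_lit 493) (nat_lit 493) (nat_lit 530) (nat_lit 494))))))) (.a (.p (nat_lit 592) (.a (.d (nat_lit 497) (nat_lit 465) (nat_lit 6608) (nat_lit 624) (nat_lit 6640)) (.a (.f (nat_lit 495) (nat_lit 463) (nat_lit 7631) (.f (nat_lit 624) (nat_lit 527) (nat_lit 7663) (.d (nat_lit 623) (nat_lit 591) (nat_lit 5615) (nat_lit 655) (nat_lit 5647)))) (.f (nat_lit 593) (nat_lit 625) (nat_lit 4592) (.f (nat_lit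 464) (nat_lit 561) (nat_lit 4560) (.d (nat_lit 463) (nat_lit 431) (nat_lit 7599) (nat_lit 495) (nat_lit 7631))))))) (.a (.p (nat_lit 559) (.a (.f (nat_lit 464) (nat_lit 591) (nat_lit 5583) (.d (nat_lit 561) (nat_lit 432) (nat_lit 4528) (nat_lit 593) (nat_lit 4560))) (.a (.f (nat_lit 464) (nat_lit 591) (nat_lit 5583) (.f (nat_lit 465) (nat_lit 433) (nat_lit 6576) (.f (nat_lit 497) (nat_lit 592) (nat_lit 6608) (.f (nat_lit 463) (nat_lit 431) (nat_lit 7599) (.d (nat_lit 462) (nat_lit 461) (nat_lit 461) (nat_lit 498) (nat_lit 462)))))) (.f (nat_lit 530) (nat_lit 531) (nat_lit 1551) (.d (nat_lit 558) (nat_lit 557) (nat_lit 2573) (nat_lit 561) (nat_lit 2574)))))) (.a (.p (nat_lit 592) (.a (.d (nat_lit 497) (nat_lit 465) (nat_lit 6608) (nat_lit 624) (nat_lit 6640)) (.f (nat_lit 593) (nat_lit 625) (nat_lit 4592) (.f (nat_lit 464) (nat_lit 561) (nat_lit 4560) (.d (nat_lit 463) (nat_lit 431) (nat_lit 7599) (nat_lit 495) (nat_lit 7631))))))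 (.p (nat_lit 559) (.a (.f (nat_lit 464) (nat_lit 591) (nat_lit 5583) (.d (nat_lit 432) (nat_lit 527) (nat_lit 5551) (nat_lit 561) (nat_lit 4528))) (.a (.f (nat_lit 464) (nat_lit 591) (nat_lit 5583) (.d (nat_lit 561) (nat_lit 432) (nat_lit 4528) (nat_lit 593) (nat_lit 4560))) (.f (nat_lit 530) (nat_lit 531) (nat_lit 1551) (.d (nat_lit 558) (nat_lit 527) (nat_lit 1550) (nat_lit 557) (nat_lit 2573))))))))))))
noncomputable def s32932 : Cert := .r (nat_lit 3773962427896970703980067733300160448905385381753147442840407123654343792107272198248276636528565486557800015660592592403154009030555443256434490679465860718068940931072) (.p (nat_lit 530) (.a (.d (nat_lit 559) (nat_lit 531) (nat_lit 1551) (nat_lit 558) (nat_lit 1550)) (.a (.f (nat_lit 563) (nat_lit 562) (nat_lit 527) (.f (nat_lit 531) (nat_lit 564) (nat_lit 528) (.d (nat_lit 499) (nat_lit 498) (nat_lit 2543) (nat_lit 500) (nat_lit 2544)))) (.p (nat_lit 561) (.a (.f (nat_lit 562)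 (nat_lit 563) (nat_lit 527) (.f (nat_lit 498) (nat_lit 499) (nat_lit 2543) (.d (nat_lit 466) (nat_lit 434) (nat_lit 5553) (nat_lit 593) (nat_lit 5585)))) (.a (.f (nat_lit 498) (nat_lit 499) (nat_lit 2543) (.f (nat_lit 593) (nat_lit 625) (nat_lit 6641) (.d (nat_lit 466) (nat_lit 434) (nat_lit 5553) (nat_lit 497) (nat_lit 6609)))) (.f (nat_lit 559) (nat_lit 558) (nat_lit 1550) (.f (nat_lit 562) (nat_lit 563) (nat_lit 527) (.f (nat_lit 591) (nat_lit 590) (nat_lit 1582) (.d (nat_lit 496) (nat_lit 464) (nat_lit 5583) (nat_lit 623) (nat_lit 6639)))))))))))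
noncomputable def s32939 : Cert := .r (nat_lit 3773962427896970703980067733300160448905385381753147442840407123654343792107272198248276636528565486557800015660592592403154009030555443256434490679465860718068940931072) (.p (nat_lit 530) (.a (.f (nat_lit 562) (nat_lit 563) (nat_lit 527) (.f (nat_lit 561) (nat_lit 526) (nat_lit 526) (.f (nat_lit 498) (nat_lit 499) (nat_lit 2543) (.d (nat_lit 466) (nat_lit 434) (nat_lit 5553) (nat_lit 593) (nat_lit 5585))))) (.a (.f (nat_lit 563) (nat_lit 562) (nat_lit 527) (.f (nat_lit 531) (nat_lit 564) (nat_lit 528) (.d (nat_lit 499) (nat_lit 498) (nat_lit 2543) (nat_lit 500) (nat_lit 2544)))) (.a (.f (nat_lit 495) (nat_lit 494) (nat_lit 3566) (.f (nat_lit 496) (nat_lit 531) (nat_lit 3567) (.f (nat_lit 498) (nat_lit 499) (nat_lit 2543) (.f (nat_lit 497) (nat_lit 526) (nat_lit 2542) (.d (nat_lit 463) (nat_lit 431) (nat_lit 4527) (nat_lit 462) (nat_lit 3534)))))) (.f (nat_lit 562) (nat_lit 563) (nat_lit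 527) (.f (nat_lit 526) (nat_lit 561) (nat_lit 526) (.d (nat_lit 494) (nat_lit 493) (nat_lit 3565) (nat_lit 495) (nat_lit 3566))))))))
noncomputable def s32941 : Cert := .r (nat_lit 3773962427457623653936295624534827664640000571899628530644775705330789680062103145016835011468013829235671304912414638296029651874152140462528704009578959973270610247680) (.p (nat_lit 592) (.a (.d (nat_lit 497) (nat_lit 465) (nat_lit 6608) (nat_lit 624) (nat_lit 6640)) (.a (.f (nat_lit 495) (nat_lit 463) (nat_lit 7631) (.f (nat_lit 624) (nat_lit 527) (nat_lit 7663) (.d (nat_lit 623) (nat_lit 591) (nat_lit 5615) (nat_lit 655) (nat_lit 5647)))) (.f (nat_lit 497) (nat_lit 465) (nat_lit 6608) (.f (nat_lit 495) (nat_lit 463) (nat_lit 7631) (.f (nat_lit 494) (nat_lit 493) (nat_lit 493) (.f (nat_lit 526) (nat_lit 525) (nat_lit 1517) (.f (nat_lit 527) (nat_lit 498) (nat_lit 2542) (.f (nat_lit 591) (nat_lit 623) (nat_lit 5615) (.d (nat_lit 462) (nat_lit 461)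 (nat_lit 3533) (nat_lit 559) (nat_lit 7630)))))))))))
noncomputable def s32943 : Cert := .r (nat_lit 3773962427457623653731708711541318797764176215847903583631235577453098130719397434510826649192721669555466924142045628474099234116179636024452625475461122907437577273344) (.p (nat_lit 496) (.a (.p (nat_lit 592) (.a (.d (nat_lit 497) (nat_lit 465) (nat_lit 6608) (nat_lit 624) (nat_lit 6640)) (.a (.f (nat_lit 495) (nat_lit 463) (nat_lit 7631) (.f (nat_lit 624) (nat_lit 527) (nat_lit 7663) (.d (nat_lit 623) (nat_lit 591) (nat_lit 5615) (nat_lit 655) (nat_lit 5647)))) (.f (nat_lit 593) (nat_lit 625) (nat_lit 4592) (.f (nat_lit 464) (nat_lit 561) (nat_lit 4560) (.d (nat_lit 463) (nat_lit 431) (nat_lit 7599) (nat_lit 495) (nat_lit 7631))))))) (.a (.p (nat_lit 592) (.a (.d (nat_lit 497) (nat_lit 465) (nat_lit 6608) (nat_lit 624) (nat_lit 6640)) (.f (nat_lit 593) (nat_lit 625) (nat_lit 4592) (.f (nat_lit 561) (nat_lit 464) (nat_lit 4560)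 (.f (nat_lit 591) (nat_lit 623) (nat_lit 5615) (.d (nat_lit 562) (nat_lit 563) (nat_lit 1583) (nat_lit 590) (nat_lit 2606))))))) (.a s32941 (.a (.p (nat_lit 592) (.a (.f (nat_lit 495) (nat_lit 463) (nat_lit 7631) (.f (nat_lit 624) (nat_lit 527) (nat_lit 7663) (.d (nat_lit 623) (nat_lit 591) (nat_lit 5615) (nat_lit 655) (nat_lit 5647)))) (.a (.f (nat_lit 593) (nat_lit 625) (nat_lit 4592) (.f (nat_lit 561) (nat_lit 464) (nat_lit 4560) (.f (nat_lit 591) (nat_lit 623) (nat_lit 5615) (.d (nat_lit 562) (nat_lit 563) (nat_lit 1583) (nat_lit 590) (nat_lit 2606))))) (.f (nat_lit 593) (nat_lit 625) (nat_lit 4592) (.f (nat_lit 464) (nat_lit 561) (nat_lit 4560) (.d (nat_lit 463) (nat_lit 431) (nat_lit 7599) (nat_lit 495) (nat_lit 7631))))))) (.a s31298 (.p (nat_lit 592) (.a (.d (nat_lit 497) (nat_lit 465) (nat_lit 6608) (nat_lit 624) (nat_lit 6640)) (.f (nat_lit 593) (nat_lit 625) (nat_lit 4592) (.f (nat_lit 464) (nat_lit 561) (nat_lit 4560)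 (.d (nat_lit 463) (nat_lit 431) (nat_lit 7599) (nat_lit 495) (nat_lit 7631))))))))))))
noncomputable def s32954 : Cert := .r (nat_lit 3773962427457623653731708711541318797764176215847903583631235577453098130719397434510826649192721669555466924142045628474099234116179636024452625475461122907437577273344) (.p (nat_lit 496) (.a (.p (nat_lit 559) (.a (.f (nat_lit 464) (nat_lit 591) (nat_lit 5583) (.d (nat_lit 561) (nat_lit 432) (nat_lit 4528) (nat_lit 593) (nat_lit 4560))) (.a (.f (nat_lit 464) (nat_lit 591) (nat_lit 5583) (.f (nat_lit 465) (nat_lit 433) (nat_lit 6576) (.f (nat_lit 497) (nat_lit 592) (nat_lit 6608) (.f (nat_lit 463) (nat_lit 431) (nat_lit 7599) (.d (nat_lit 462) (nat_lit 461) (nat_lit 461) (nat_lit 498) (nat_lit 462)))))) (.f (nat_lit 530) (nat_lit 531) (nat_lit 1551) (.d (nat_lit 558) (nat_lit 557) (nat_lit 2573) (nat_lit 561) (nat_lit 2574)))))) (.a (.p (nat_lit 592) (.a (.d (nat_lit 497) (nat_lit 465) (nat_lit 6608)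 (nat_lit 624) (nat_lit 6640)) (.f (nat_lit 593) (nat_lit 625) (nat_lit 4592) (.f (nat_lit 464) (nat_lit 561) (nat_lit 4560) (.d (nat_lit 463) (nat_lit 431) (nat_lit 7599) (nat_lit 495) (nat_lit 7631)))))) (.a (.p (nat_lit 592) (.a (.d (nat_lit 497) (nat_lit 465) (nat_lit 6608) (nat_lit 624) (nat_lit 6640)) (.f (nat_lit 591) (nat_lit 623) (nat_lit 5615) (.f (nat_lit 559) (nat_lit 464) (nat_lit 5583) (.f (nat_lit 593) (nat_lit 625) (nat_lit 4592) (.d (nat_lit 558) (nat_lit 557) (nat_lit 557) (nat_lit 594) (nat_lit 3630))))))) (.a (.p (nat_lit 559) (.a (.f (nat_lit 464) (nat_lit 591) (nat_lit 5583) (.d (nat_lit 561) (nat_lit 432) (nat_lit 4528) (nat_lit 593) (nat_lit 4560))) (.a (.f (nat_lit 464) (nat_lit 591) (nat_lit 5583) (.f (nat_lit 431) (nat_lit 463) (nat_lit 7599) (.f (nat_lit 432) (nat_lit 399) (nat_lit 7567) (.d (nat_lit 433) (nat_lit 401) (nat_lit 6544) (nat_lit 465) (nat_lit 6576))))) (.f (nat_lit 530) (nat_lit 531) (nat_lit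 1551) (.d (nat_lit 558) (nat_lit 557) (nat_lit 2573) (nat_lit 561) (nat_lit 2574)))))) (.a (.p (nat_lit 592) (.a (.d (nat_lit 497) (nat_lit 465) (nat_lit 6608) (nat_lit 624) (nat_lit 6640)) (.a (.f (nat_lit 625) (nat_lit 593) (nat_lit 4592) (.f (nat_lit 624) (nat_lit 657) (nat_lit 4624) (.d (nat_lit 623) (nat_lit 591) (nat_lit 5615) (nat_lit 655) (nat_lit 5647)))) (.f (nat_lit 497) (nat_lit 465) (nat_lit 6608) (.f (nat_lit 495) (nat_lit 463) (nat_lit 7631) (.d (nat_lit 494) (nat_lit 493) (nat_lit 493) (nat_lit 530) (nat_lit 494))))))) (.a (.p (nat_lit 559) (.a (.f (nat_lit 464) (nat_lit 591) (nat_lit 5583) (.f (nat_lit 465) (nat_lit 433) (nat_lit 6576) (.f (nat_lit 497) (nat_lit 592) (nat_lit 6608) (.f (nat_lit 463) (nat_lit 431) (nat_lit 7599) (.d (nat_lit 462) (nat_lit 461) (nat_lit 461) (nat_lit 498) (nat_lit 462)))))) (.f (nat_lit 530) (nat_lit 531) (nat_lit 1551) (.d (nat_lit 558) (nat_lit 557) (nat_lit 2573) (nat_lit 561)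 (nat_lit 2574))))) (.p (nat_lit 559) (.a (.f (nat_lit 464) (nat_lit 591) (nat_lit 5583) (.d (nat_lit 561) (nat_lit 432) (nat_lit 4528) (nat_lit 593) (nat_lit 4560))) (.a (.f (nat_lit 591) (nat_lit 464) (nat_lit 5583) (.d (nat_lit 623) (nat_lit 592) (nat_lit 5615) (nat_lit 655) (nat_lit 6671))) (.f (nat_lit 530) (nat_lit 531) (nat_lit 1551) (.d (nat_lit 558) (nat_lit 557) (nat_lit 2573) (nat_lit 561) (nat_lit 2574)))))))))))))
noncomputable def s32965 : Cert := .r (nat_lit 3773962427896970703980067733300160448905385381753147442840407123654343792107272198248276636528565486557800015660592592403154009030555443256434490679465860718068940931072) (.p (nat_lit 530) (.a (.d (nat_lit 559) (nat_lit 531) (nat_lit 1551) (nat_lit 558) (nat_lit 1550)) (.a (.f (nat_lit 563) (nat_lit 562) (nat_lit 527) (.f (nat_lit 531) (nat_lit 564) (nat_lit 528) (.d (nat_lit 499) (nat_lit 498) (nat_lit 2543) (nat_lit 500) (nat_lit 2544)))) (.f (nat_lit 559) (nat_lit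 558) (nat_lit 1550) (.f (nat_lit 495) (nat_lit 494) (nat_lit 3566) (.f (nat_lit 463) (nat_lit 431) (nat_lit 4527) (.f (nat_lit 464) (nat_lit 432) (nat_lit 6575) (.f (nat_lit 496) (nat_lit 591) (nat_lit 5583) (.f (nat_lit 498) (nat_lit 499) (nat_lit 2543) (.d (nat_lit 462) (nat_lit 430) (nat_lit 7598) (nat_lit 497) (nat_lit 3534)))))))))))
noncomputable def s32966 : Cert := .r (nat_lit 3773962427896970703980067733300160448905385381753147442840407123654343792107272198248276636528565486557800015660592592403154009030555443256434490679465860718068940931072) (.p (nat_lit 526) (.a (.d (nat_lit 561) (nat_lit 525) (nat_lit 525) (nat_lit 562) (nat_lit 526)) (.a (.f (nat_lit 561) (nat_lit 562) (nat_lit 526) (.f (nat_lit 497) (nat_lit 498) (nat_lit 2542) (.f (nat_lit 465) (nat_lit 433) (nat_lit 5552) (.f (nat_lit 464) (nat_lit 432) (nat_lit 7600) (.f (nat_lit 496) (nat_lit 593) (nat_lit 4560) (.f (nat_lit 494) (nat_lit 493) (nat_lit 3565)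 (.d (nat_lit 466) (nat_lit 434) (nat_lit 6577) (nat_lit 495) (nat_lit 2510)))))))) (.f (nat_lit 557) (nat_lit 558) (nat_lit 1549) (.f (nat_lit 525) (nat_lit 556) (nat_lit 1548) (.d (nat_lit 493) (nat_lit 492) (nat_lit 3564) (nat_lit 494) (nat_lit 3565)))))))
noncomputable def s32982 : Cert := .r (nat_lit 3773962431411747105966939907370893658035058708995098316513779493264309083210270308147876535215316022576464747808968303835592208345561901112289412311503763203119850192896) (.p (nat_lit 497) (.a (.f (nat_lit 465) (nat_lit 433) (nat_lit 5552) (.d (nat_lit 592) (nat_lit 561) (nat_lit 5584) (nat_lit 624) (nat_lit 6640))) (.a (.f (nat_lit 465) (nat_lit 433) (nat_lit 5552) (.f (nat_lit 498) (nat_lit 499) (nat_lit 2543) (.d (nat_lit 562) (nat_lit 563) (nat_lit 527) (nat_lit 594) (nat_lit 7633)))) (.f (nat_lit 498) (nat_lit 499) (nat_lit 2543) (.f (nat_lit 562) (nat_lit 563) (nat_lit 527) (.f (nat_lit 594) (nat_lit 626) (nat_lit 7665) (.f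 (nat_lit 593) (nat_lit 625) (nat_lit 5617) (.f (nat_lit 466) (nat_lit 561) (nat_lit 6609) (.f (nat_lit 434) (nat_lit 402) (nat_lit 5521) (.d (nat_lit 435) (nat_lit 403) (nat_lit 6546) (nat_lit 467) (nat_lit 6578)))))))))))
noncomputable def s32984 : Cert := .r (nat_lit 3075429351738513152311891557988464161336707014464200823408719629715123346162149911350906719016331640629828747503383424400630650623873056428033164674419545604096) (.p (nat_lit 530) (.a (.f (nat_lit 559) (nat_lit 558) (nat_lit 1550) (.f (nat_lit 560) (nat_lit 531) (nat_lit 1551) (.f (nat_lit 495) (nat_lit 494) (nat_lit 3566) (.d (nat_lit 463) (nat_lit 431) (nat_lit 4527) (nat_lit 592) (nat_lit 4559))))) (.a (.f (nat_lit 499) (nat_lit 498) (nat_lit 2543) (.f (nat_lit 531) (nat_lit 500) (nat_lit 2544) (.d (nat_lit 563) (nat_lit 562) (nat_lit 527) (nat_lit 564) (nat_lit 528)))) (.p (nat_lit 560) (.a (.f (nat_lit 559) (nat_lit 558) (nat_lit 1550) (.f (nat_lit 495) (nat_lit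 494) (nat_lit 3566) (.d (nat_lit 463) (nat_lit 431) (nat_lit 4527) (nat_lit 592) (nat_lit 4559)))) (.a (.p (nat_lit 561) (.a (.f (nat_lit 562) (nat_lit 563) (nat_lit 527) (.f (nat_lit 498) (nat_lit 499) (nat_lit 2543) (.d (nat_lit 466) (nat_lit 434) (nat_lit 5553) (nat_lit 593) (nat_lit 5585)))) (.a (.f (nat_lit 498) (nat_lit 499) (nat_lit 2543) (.f (nat_lit 593) (nat_lit 625) (nat_lit 6641) (.d (nat_lit 466) (nat_lit 434) (nat_lit 5553) (nat_lit 497) (nat_lit 6609)))) (.f (nat_lit 562) (nat_lit 563) (nat_lit 527) (.f (nat_lit 559) (nat_lit 558) (nat_lit 1550) (.f (nat_lit 594) (nat_lit 595) (nat_lit 559) (.d (nat_lit 497) (nat_lit 465) (nat_lit 4561) (nat_lit 626) (nat_lit 7665)))))))) s32982))))))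
noncomputable def s32986 : Cert := .r (nat_lit 3773962428116644229104247244179581274475989964705769372444992896754966622801209580117001630196487395058966561419866074367681396487743346872425423281468229623384622759936) (.p (nat_lit 495) (.a (.f (nat_lit 494) (nat_lit 493) (nat_lit 3565) (.f (nat_lit 558) (nat_lit 557) (nat_lit 1549) (.d (nat_lit 463) (nat_lit 431) (nat_lit 5550) (nat_lit 590) (nat_lit 6606)))) (.a (.f (nat_lit 592) (nat_lit 624) (nat_lit 7663) (.d (nat_lit 463) (nat_lit 431) (nat_lit 4527) (nat_lit 559) (nat_lit 4559))) (.f (nat_lit 494) (nat_lit 493) (nat_lit 3565) (.f (nat_lit 558) (nat_lit 557) (nat_lit 1549) (.f (nat_lit 590) (nat_lit 622) (nat_lit 6638) (.f (nat_lit 591) (nat_lit 623) (nat_lit 4590) (.f (nat_lit 462) (nat_lit 559) (nat_lit 4558) (.f (nat_lit 430) (nat_lit 398) (nat_lit 4494) (.d (nat_lit 429) (nat_lit 397) (nat_lit 7565) (nat_lit 461) (nat_lit 7597)))))))))))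
noncomputable def s32988 : Cert := .r (nat_lit 3075429351738513152311891557988464161336707014464200823408719629715123346162149911350906719016331640629828747503383424400630650623873056428033164674419545604096) (.p (nat_lit 526) (.a (.f (nat_lit 557) (nat_lit 558) (nat_lit 1549) (.f (nat_lit 525) (nat_lit 556) (nat_lit 1548) (.d (nat_lit 493) (nat_lit 492) (nat_lit 3564) (nat_lit 494) (nat_lit 3565)))) (.a (.p (nat_lit 560) (.a (.f (nat_lit 561) (nat_lit 562) (nat_lit 526) (.f (nat_lit 497) (nat_lit 498) (nat_lit 2542) (.d (nat_lit 465) (nat_lit 433) (nat_lit 5552) (nat_lit 592) (nat_lit 5584)))) (.a (.p (nat_lit 559) (.a (.f (nat_lit 558) (nat_lit 557) (nat_lit 1549) (.f (nat_lit 561) (nat_lit 562) (nat_lit 526) (.f (nat_lit 590) (nat_lit 589) (nat_lit 1581) (.d (nat_lit 495) (nat_lit 463) (nat_lit 5582) (nat_lit 622) (nat_lit 6638))))) (.a (.f (nat_lit 558) (nat_lit 557) (nat_lit 1549) (.f (nat_lit 494) (nat_lit 493) (nat_lit 3565)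 (.d (nat_lit 462) (nat_lit 430) (nat_lit 4526) (nat_lit 591) (nat_lit 4558)))) (.f (nat_lit 494) (nat_lit 493) (nat_lit 3565) (.f (nat_lit 591) (nat_lit 623) (nat_lit 7662) (.d (nat_lit 462) (nat_lit 430) (nat_lit 4526) (nat_lit 495) (nat_lit 7630))))))) s32986))) (.f (nat_lit 561) (nat_lit 562) (nat_lit 526) (.f (nat_lit 497) (nat_lit 498) (nat_lit 2542) (.f (nat_lit 560) (nat_lit 525) (nat_lit 525) (.d (nat_lit 465) (nat_lit 433) (nat_lit 5552) (nat_lit 592) (nat_lit 5584))))))))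
noncomputable def s33002 : Cert := .r (nat_lit 3773962427896970703980067733300160448905385381753147442840407123654343792107272198248276636528565486557800015660592592403154009030555443256434490679465860718068940931072) (.p (nat_lit 530) (.a (.d (nat_lit 559) (nat_lit 531) (nat_lit 1551) (nat_lit 558) (nat_lit 1550)) (.a (.f (nat_lit 563) (nat_lit 562) (nat_lit 527) (.f (nat_lit 531) (nat_lit 564) (nat_lit 528) (.d (nat_lit 499) (nat_lit 498) (nat_lit 2543) (nat_lit 500) (nat_lit 2544)))) (.p (nat_lit 561) (.a (.f (nat_lit 562) (nat_lit 563) (nat_lit 527) (.f (nat_lit 498) (nat_lit 499) (nat_lit 2543) (.d (nat_lit 466) (nat_lit 434) (nat_lit 5553) (nat_lit 593) (nat_lit 5585)))) (.a (.f (nat_lit 498) (nat_lit 499) (nat_lit 2543) (.f (nat_lit 593) (nat_lit 625) (nat_lit 6641) (.d (nat_lit 466) (nat_lit 434) (nat_lit 5553) (nat_lit 497) (nat_lit 6609)))) (.f (nat_lit 562) (nat_lit 563) (nat_lit 527) (.f (nat_lit 559) (nat_lit 558)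 (nat_lit 1550) (.f (nat_lit 594) (nat_lit 595) (nat_lit 559) (.d (nat_lit 497) (nat_lit 465) (nat_lit 4561) (nat_lit 626) (nat_lit 7665)))))))))))
noncomputable def s33004 : Cert := .r (nat_lit 3773962427896970703980067733300160448905385381753147442840407123654343792107272198248276636528565486557800015660592592403154009030555443256434490679465860718068940931072) (.p (nat_lit 530) (.a (.f (nat_lit 563) (nat_lit 562) (nat_lit 527) (.f (nat_lit 531) (nat_lit 564) (nat_lit 528) (.d (nat_lit 499) (nat_lit 498) (nat_lit 2543) (nat_lit 500) (nat_lit 2544)))) (.a s32982 (.a (.p (nat_lit 497) (.a (.f (nat_lit 465) (nat_lit 433) (nat_lit 5552) (.d (nat_lit 592) (nat_lit 561) (nat_lit 5584) (nat_lit 624) (nat_lit 6640))) (.a (.f (nat_lit 465) (nat_lit 433) (nat_lit 5552) (.d (nat_lit 592) (nat_lit 496) (nat_lit 6608) (nat_lit 624) (nat_lit 6640))) (.f (nat_lit 499) (nat_lit 498) (nat_lit 2543) (.f (nat_lit 531) (nat_lit 500) (nat_lit 2544)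 (.d (nat_lit 532) (nat_lit 496) (nat_lit 3568) (nat_lit 561) (nat_lit 1552))))))) (.a (.f (nat_lit 563) (nat_lit 562) (nat_lit 527) (.f (nat_lit 531) (nat_lit 564) (nat_lit 528) (.f (nat_lit 532) (nat_lit 561) (nat_lit 1552) (.d (nat_lit 500) (nat_lit 499) (nat_lit 2544) (nat_lit 501) (nat_lit 2545))))) (.f (nat_lit 563) (nat_lit 562) (nat_lit 527) (.f (nat_lit 531) (nat_lit 564) (nat_lit 528) (.f (nat_lit 532) (nat_lit 561) (nat_lit 1552) (.f (nat_lit 497) (nat_lit 496) (nat_lit 3568) (.f (nat_lit 533) (nat_lit 498) (nat_lit 3569) (.d (nat_lit 501) (nat_lit 500) (nat_lit 2545) (nat_lit 502) (nat_lit 2546))))))))))))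
noncomputable def s33018 : Cert := .r (nat_lit 3773962427896970704184654646293669315781209737804872389853947251532035341449977908754284998803857646238004396430961602225084426788527947694510569213583697783901973905408) (.p (nat_lit 592) (.a (.f (nat_lit 591) (nat_lit 623) (nat_lit 5615) (.f (nat_lit 464) (nat_lit 559) (nat_lit 5583) (.d (nat_lit 561) (nat_lit 432) (nat_lit 4528) (nat_lit 593) (nat_lit 4560)))) (.a (.f (nat_lit 593) (nat_lit 625) (nat_lit 4592) (.f (nat_lit 561) (nat_lit 464) (nat_lit 4560) (.f (nat_lit 562) (nat_lit 563) (nat_lit 3599) (.d (nat_lit 591) (nat_lit 590) (nat_lit 2606) (nat_lit 623) (nat_lit 5615))))) (.a (.f (nat_lit 591) (nat_lit 623) (nat_lit 5615) (.f (nat_lit 559) (nat_lit 464) (nat_lit 5583) (.f (nat_lit 558) (nat_lit 557) (nat_lit 2573) (.d (nat_lit 593) (nat_lit 594) (nat_lit 3630) (nat_lit 625) (nat_lit 4592))))) (.a (.f (nat_lit 623) (nat_lit 591) (nat_lit 5615) (.f (nat_lit 624) (nat_lit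 655) (nat_lit 5647) (.d (nat_lit 625) (nat_lit 593) (nat_lit 4592) (nat_lit 657) (nat_lit 4624)))) (.a (.f (nat_lit 593) (nat_lit 625) (nat_lit 4592) (.f (nat_lit 464) (nat_lit 561) (nat_lit 4560) (.f (nat_lit 432) (nat_lit 559) (nat_lit 5551) (.d (nat_lit 431) (nat_lit 399) (nat_lit 7567) (nat_lit 463) (nat_lit 7599))))) (.f (nat_lit 591) (nat_lit 623) (nat_lit 5615) (.f (nat_lit 464) (nat_lit 559) (nat_lit 5583) (.f (nat_lit 432) (nat_lit 561) (nat_lit 4528) (.d (nat_lit 431) (nat_lit 399) (nat_lit 7567) (nat_lit 463) (nat_lit 7599)))))))))))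
noncomputable def s33024 : Cert := .r (nat_lit 3773962427896970703980067733300160448905385381753147442840407123654343792107272198248276636528565486557800015660592592403154009030555443256434490679465860718068940931072) (.p (nat_lit 496) (.a (.p (nat_lit 592) (.a (.d (nat_lit 497) (nat_lit 465) (nat_lit 6608) (nat_lit 624) (nat_lit 6640)) (.f (nat_lit 591) (nat_lit 623) (nat_lit 5615) (.f (nat_lit 464) (nat_lit 559) (nat_lit 5583) (.d (nat_lit 561) (nat_lit 432) (nat_lit 4528) (nat_lit 593) (nat_lit 4560)))))) (.a (.p (nat_lit 592) (.a (.d (nat_lit 497) (nat_lit 465) (nat_lit 6608) (nat_lit 624) (nat_lit 6640)) (.f (nat_lit 593) (nat_lit 625) (nat_lit 4592) (.f (nat_lit 561) (nat_lit 464) (nat_lit 4560) (.f (nat_lit 562) (nat_lit 563) (nat_lit 3599) (.d (nat_lit 591) (nat_lit 590) (nat_lit 2606) (nat_lit 623) (nat_lit 5615))))))) (.a s33018 (.a (.p (nat_lit 592) (.a (.d (nat_lit 497) (nat_lit 465) (nat_lit 6608) (nat_lit 624) (nat_lit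 6640)) (.f (nat_lit 591) (nat_lit 623) (nat_lit 5615) (.f (nat_lit 559) (nat_lit 464) (nat_lit 5583) (.f (nat_lit 558) (nat_lit 557) (nat_lit 2573) (.d (nat_lit 593) (nat_lit 594) (nat_lit 3630) (nat_lit 625) (nat_lit 4592))))))) (.a (.p (nat_lit 464) (.a (.d (nat_lit 432) (nat_lit 559) (nat_lit 5551) (nat_lit 561) (nat_lit 4528)) (.a (.d (nat_lit 561) (nat_lit 432) (nat_lit 4528) (nat_lit 593) (nat_lit 4560)) (.a (.d (nat_lit 559) (nat_lit 432) (nat_lit 5551) (nat_lit 591) (nat_lit 5583)) (.f (nat_lit 561) (nat_lit 593) (nat_lit 4560) (.f (nat_lit 559) (nat_lit 591) (nat_lit 5583) (.f (nat_lit 562) (nat_lit 563) (nat_lit 3599) (.f (nat_lit 465) (nat_lit 433) (nat_lit 6576) (.d (nat_lit 594) (nat_lit 497) (nat_lit 4561) (nat_lit 595) (nat_lit 559)))))))))) (.a (.p (nat_lit 592) (.a (.d (nat_lit 497) (nat_lit 465) (nat_lit 6608) (nat_lit 624) (nat_lit 6640)) (.a (.f (nat_lit 623) (nat_lit 591) (nat_lit 5615) (.f (nat_lit 624) (nat_lit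 655) (nat_lit 5647) (.d (nat_lit 625) (nat_lit 593) (nat_lit 4592) (nat_lit 657) (nat_lit 4624)))) (.f (nat_lit 497) (nat_lit 465) (nat_lit 6608) (.f (nat_lit 593) (nat_lit 625) (nat_lit 4592) (.f (nat_lit 591) (nat_lit 623) (nat_lit 5615) (.f (nat_lit 498) (nat_lit 499) (nat_lit 1519) (.f (nat_lit 561) (nat_lit 466) (nat_lit 6609) (.d (nat_lit 562) (nat_lit 563) (nat_lit 1583) (nat_lit 590) (nat_lit 2606)))))))))) (.a (.p (nat_lit 592) (.a (.d (nat_lit 497) (nat_lit 465) (nat_lit 6608) (nat_lit 624) (nat_lit 6640)) (.f (nat_lit 593) (nat_lit 625) (nat_lit 4592) (.f (nat_lit 464) (nat_lit 561) (nat_lit 4560) (.f (nat_lit 432) (nat_lit 559) (nat_lit 5551) (.d (nat_lit 431) (nat_lit 399) (nat_lit 7567) (nat_lit 463) (nat_lit 7599))))))) (.p (nat_lit 592) (.a (.d (nat_lit 497) (nat_lit 465) (nat_lit 6608) (nat_lit 624) (nat_lit 6640)) (.f (nat_lit 591) (nat_lit 623) (nat_lit 5615) (.f (nat_lit 464) (nat_lit 559) (nat_lit 5583) (.f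 (nat_lit 432) (nat_lit 561) (nat_lit 4528) (.d (nat_lit 431) (nat_lit 399) (nat_lit 7567) (nat_lit 463) (nat_lit 7599)))))))))))))))
noncomputable def s33030 : Cert := .r (nat_lit 3773962427896970703980067733300160448905385381753147442840407123654343792107272198248276636528565486557800015660592592403154009030555443256434490679465860718068940931072) (.p (nat_lit 559) (.a (.p (nat_lit 561) (.a (.f (nat_lit 558) (nat_lit 557) (nat_lit 2573) (.f (nat_lit 562) (nat_lit 563) (nat_lit 3599) (.d (nat_lit 590) (nat_lit 589) (nat_lit 1581) (nat_lit 591) (nat_lit 1582)))) (.a (.f (nat_lit 558) (nat_lit 557) (nat_lit 2573) (.f (nat_lit 562) (nat_lit 563) (nat_lit 3599) (.d (nat_lit 594) (nat_lit 593) (nat_lit 558) (nat_lit 595) (nat_lit 559)))) (.a (.f (nat_lit 562) (nat_lit 563) (nat_lit 3599) (.f (nat_lit 591) (nat_lit 590) (nat_lit 1582) (.d (nat_lit 496) (nat_lit 464) (nat_lit 5583) (nat_lit 623) (nat_lit 6639)))) (.f (nat_lit 558) (nat_lit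 557) (nat_lit 2573) (.f (nat_lit 593) (nat_lit 594) (nat_lit 558) (.d (nat_lit 496) (nat_lit 464) (nat_lit 4560) (nat_lit 625) (nat_lit 7664)))))))) (.a (.d (nat_lit 530) (nat_lit 531) (nat_lit 1551) (nat_lit 558) (nat_lit 1550)) (.p (nat_lit 496) (.a (.d (nat_lit 464) (nat_lit 432) (nat_lit 5551) (nat_lit 591) (nat_lit 5583)) (.a (.f (nat_lit 530) (nat_lit 531) (nat_lit 1551) (.f (nat_lit 591) (nat_lit 623) (nat_lit 6639) (.f (nat_lit 562) (nat_lit 563) (nat_lit 527) (.f (nat_lit 561) (nat_lit 590) (nat_lit 1582) (.f (nat_lit 593) (nat_lit 625) (nat_lit 7664) (.d (nat_lit 498) (nat_lit 466) (nat_lit 5585) (nat_lit 499) (nat_lit 2543))))))) (.f (nat_lit 464) (nat_lit 432) (nat_lit 5551) (.f (nat_lit 530) (nat_lit 531) (nat_lit 1551) (.f (nat_lit 593) (nat_lit 561) (nat_lit 4560) (.f (nat_lit 625) (nat_lit 592) (nat_lit 4592) (.f (nat_lit 562) (nat_lit 563) (nat_lit 527) (.d (nat_lit 498) (nat_lit 499) (nat_lit 2543) (nat_lit 594)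 (nat_lit 5617)))))))))))))
noncomputable def s33034 : Cert := .r (nat_lit 3773962427896970703980067733300160448905385381753147442840407123654343792107272198248276636528565486557800015660592592403154009030555443256434490679465860718068940931072) (.p (nat_lit 530) (.a (.d (nat_lit 559) (nat_lit 531) (nat_lit 1551) (nat_lit 558) (nat_lit 1550)) (.a (.f (nat_lit 563) (nat_lit 562) (nat_lit 527) (.f (nat_lit 531) (nat_lit 564) (nat_lit 528) (.d (nat_lit 499) (nat_lit 498) (nat_lit 2543) (nat_lit 500) (nat_lit 2544)))) (.p (nat_lit 497) (.a (.f (nat_lit 465) (nat_lit 433) (nat_lit 5552) (.f (nat_lit 498) (nat_lit 499) (nat_lit 2543) (.d (nat_lit 562) (nat_lit 563) (nat_lit 527) (nat_lit 594) (nat_lit 7633)))) (.a (.f (nat_lit 465) (nat_lit 433) (nat_lit 5552) (.d (nat_lit 592) (nat_lit 496) (nat_lit 6608) (nat_lit 624) (nat_lit 6640))) (.f (nat_lit 559) (nat_lit 558) (nat_lit 1550) (.f (nat_lit 498) (nat_lit 499) (nat_lit 2543) (.f (nat_lit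 592) (nat_lit 624) (nat_lit 6640) (.f (nat_lit 562) (nat_lit 563) (nat_lit 527) (.f (nat_lit 594) (nat_lit 626) (nat_lit 7665) (.d (nat_lit 593) (nat_lit 595) (nat_lit 3631) (nat_lit 625) (nat_lit 5617)))))))))))))
noncomputable def s33046 : Cert := .r (nat_lit 3773962427896970703980067733300160448905385381753147442840407123654343792107272198248276636528565486557800015660592592403154009030555443256434490679465860718068940931072) (.p (nat_lit 496) (.a (.p (nat_lit 592) (.a (.d (nat_lit 497) (nat_lit 465) (nat_lit 6608) (nat_lit 624) (nat_lit 6640)) (.f (nat_lit 591) (nat_lit 623) (nat_lit 5615) (.f (nat_lit 464) (nat_lit 559) (nat_lit 5583) (.d (nat_lit 561) (nat_lit 432) (nat_lit 4528) (nat_lit 593) (nat_lit 4560)))))) (.a (.p (nat_lit 592) (.a (.d (nat_lit 497) (nat_lit 465) (nat_lit 6608) (nat_lit 624) (nat_lit 6640)) (.a (.f (nat_lit 623) (nat_lit 591) (nat_lit 5615) (.f (nat_lit 624) (nat_lit 655) (nat_lit 5647) (.d (nat_lit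 625) (nat_lit 593) (nat_lit 4592) (nat_lit 657) (nat_lit 4624)))) (.f (nat_lit 497) (nat_lit 465) (nat_lit 6608) (.f (nat_lit 593) (nat_lit 625) (nat_lit 4592) (.f (nat_lit 464) (nat_lit 561) (nat_lit 4560) (.f (nat_lit 432) (nat_lit 400) (nat_lit 4496) (.d (nat_lit 431) (nat_lit 399) (nat_lit 7567) (nat_lit 463) (nat_lit 7599))))))))) (.a (.p (nat_lit 530) (.a (.f (nat_lit 559) (nat_lit 558) (nat_lit 1550) (.d (nat_lit 464) (nat_lit 432) (nat_lit 5551) (nat_lit 591) (nat_lit 5583))) (.a (.f (nat_lit 499) (nat_lit 498) (nat_lit 2543) (.f (nat_lit 531) (nat_lit 500) (nat_lit 2544) (.f (nat_lit 561) (nat_lit 532) (nat_lit 1552) (.d (nat_lit 464) (nat_lit 432) (nat_lit 4528) (nat_lit 593) (nat_lit 4560))))) (.d (nat_lit 559) (nat_lit 531) (nat_lit 1551) (nat_lit 558) (nat_lit 1550))))) (.a (.p (nat_lit 592) (.a (.d (nat_lit 497) (nat_lit 465) (nat_lit 6608) (nat_lit 624) (nat_lit 6640)) (.f (nat_lit 591) (nat_lit 623) (nat_lit 5615)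 (.f (nat_lit 559) (nat_lit 464) (nat_lit 5583) (.f (nat_lit 558) (nat_lit 557) (nat_lit 2573) (.d (nat_lit 593) (nat_lit 594) (nat_lit 3630) (nat_lit 625) (nat_lit 4592))))))) (.a s14046 (.a (.p (nat_lit 592) (.a (.d (nat_lit 497) (nat_lit 465) (nat_lit 6608) (nat_lit 624) (nat_lit 6640)) (.f (nat_lit 593) (nat_lit 625) (nat_lit 4592) (.f (nat_lit 464) (nat_lit 561) (nat_lit 4560) (.f (nat_lit 432) (nat_lit 559) (nat_lit 5551) (.d (nat_lit 431) (nat_lit 399) (nat_lit 7567) (nat_lit 463) (nat_lit 7599))))))) (.p (nat_lit 592) (.a (.d (nat_lit 497) (nat_lit 465) (nat_lit 6608) (nat_lit 624) (nat_lit 6640)) (.f (nat_lit 591) (nat_lit 623) (nat_lit 5615) (.f (nat_lit 464) (nat_lit 559) (nat_lit 5583) (.f (nat_lit 432) (nat_lit 561) (nat_lit 4528) (.d (nat_lit 431) (nat_lit 399) (nat_lit 7567) (nat_lit 463) (nat_lit 7599))))))))))))))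
noncomputable def s33050 : Cert := .r (nat_lit 3773962431411747105966939907370893658035058708995098316513779493264309083210270308147876535215316022576464747808968303835592208345561901112289412311503763203119850192896) (.p (nat_lit 497) (.a (.f (nat_lit 465) (nat_lit 433) (nat_lit 5552) (.d (nat_lit 592) (nat_lit 561) (nat_lit 5584) (nat_lit 624) (nat_lit 6640))) (.a (.f (nat_lit 465) (nat_lit 433) (nat_lit 5552) (.d (nat_lit 592) (nat_lit 496) (nat_lit 6608) (nat_lit 624) (nat_lit 6640))) (.a (.f (nat_lit 562) (nat_lit 563) (nat_lit 527) (.f (nat_lit 465) (nat_lit 433) (nat_lit 5552) (.d (nat_lit 594) (nat_lit 561) (nat_lit 4561) (nat_lit 626) (nat_lit 7665)))) (.f (nat_lit 559) (nat_lit 558) (nat_lit 1550) (.f (nat_lit 592) (nat_lit 624) (nat_lit 6640) (.f (nat_lit 562) (nat_lit 563) (nat_lit 527) (.f (nat_lit 594) (nat_lit 626) (nat_lit 7665) (.d (nat_lit 595) (nat_lit 561) (nat_lit 559) (nat_lit 593) (nat_lit 3631))))))))))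
noncomputable def s33051 : Cert := .r (nat_lit 3773962427896970703980067733300160448905385381753147442840407123654343792107272198248276636528565486557800015660592592403154009030555443256434490679465860718068940931072) (.p (nat_lit 530) (.a (.d (nat_lit 559) (nat_lit 531) (nat_lit 1551) (nat_lit 558) (nat_lit 1550)) (.a (.f (nat_lit 563) (nat_lit 562) (nat_lit 527) (.f (nat_lit 531) (nat_lit 564) (nat_lit 528) (.f (nat_lit 532) (nat_lit 561) (nat_lit 1552) (.d (nat_lit 500) (nat_lit 499) (nat_lit 2544) (nat_lit 501) (nat_lit 2545))))) s33050)))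
noncomputable def s33053 : Cert := .r (nat_lit 3773962427896970703980067733300160448905385381753147442840407123654343792107272198248276636528565486557800015660592592403154009030555443256434490679465860718068940931072) (.p (nat_lit 530) (.a (.d (nat_lit 559) (nat_lit 531) (nat_lit 1551) (nat_lit 558) (nat_lit 1550)) (.a (.f (nat_lit 563) (nat_lit 562) (nat_lit 527) (.f (nat_lit 531) (nat_lit 564) (nat_lit 528) (.d (nat_lit 499) (nat_lit 498) (nat_lit 2543) (nat_lit 500) (nat_lit 2544)))) (.p (nat_lit 497) (.a (.f (nat_lit 465) (nat_lit 433) (nat_lit 5552) (.d (nat_lit 592) (nat_lit 561) (nat_lit 5584) (nat_lit 624) (nat_lit 6640))) (.a (.f (nat_lit 465) (nat_lit 433) (nat_lit 5552) (.f (nat_lit 498) (nat_lit 499) (nat_lit 2543) (.d (nat_lit 562) (nat_lit 563) (nat_lit 527) (nat_lit 594) (nat_lit 7633)))) (.f (nat_lit 559) (nat_lit 558) (nat_lit 1550) (.f (nat_lit 498) (nat_lit 499) (nat_lit 2543) (.f (nat_lit 562) (nat_lit 563)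 (nat_lit 527) (.f (nat_lit 594) (nat_lit 626) (nat_lit 7665) (.d (nat_lit 595) (nat_lit 561) (nat_lit 559) (nat_lit 627) (nat_lit 4594))))))))))))
noncomputable def s33054 : Cert := .r (nat_lit 3773962427896970703980067733300160448905385381753147442840407123654343792107272198248276636528565486557800015660592592403154009030555443256434490679465860718068940931072) (.p (nat_lit 530) (.a (.d (nat_lit 559) (nat_lit 531) (nat_lit 1551) (nat_lit 558) (nat_lit 1550)) (.a (.f (nat_lit 563) (nat_lit 562) (nat_lit 527) (.f (nat_lit 531) (nat_lit 564) (nat_lit 528) (.f (nat_lit 532) (nat_lit 561) (nat_lit 1552) (.f (nat_lit 497) (nat_lit 496) (nat_lit 3568) (.f (nat_lit 533) (nat_lit 498) (nat_lit 3569) (.d (nat_lit 501) (nat_lit 500) (nat_lit 2545) (nat_lit 502) (nat_lit 2546))))))) s33050)))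
noncomputable def s33063 : Cert := .r (nat_lit 3773962427457623653936295624534827664640000571899628530644775705330789680062103145016835011468013829235671304912414638296029651874152140462528704009578959973270610247680) (.p (nat_lit 464) (.a (.d (nat_lit 561) (nat_lit 432) (nat_lit 4528) (nat_lit 593) (nat_lit 4560)) (.a (.f (nat_lit 559) (nat_lit 591) (nat_lit 5583) (.f (nat_lit 432) (nat_lit 527) (nat_lit 5551) (.d (nat_lit 431) (nat_lit 399) (nat_lit 7567) (nat_lit 463) (nat_lit 7599)))) (.f (nat_lit 561) (nat_lit 593) (nat_lit 4560) (.f (nat_lit 465) (nat_lit 433) (nat_lit 6576) (.f (nat_lit 463) (nat_lit 431) (nat_lit 7599) (.f (nat_lit 559) (nat_lit 591) (nat_lit 5583) (.f (nat_lit 558) (nat_lit 557) (nat_lit 2573) (.f (nat_lit 590) (nat_lit 589) (nat_lit 1581) (.f (nat_lit 495) (nat_lit 527) (nat_lit 5582) (.d (nat_lit 466) (nat_lit 467) (nat_lit 1487) (nat_lit 494) (nat_lit 1486))))))))))))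
noncomputable def s33066 : Cert := .r (nat_lit 3773962427457623653731708711541318797764176215847903583631235577453098130719397434510826649192721669555466924142045628474099234116179636024452625475461122907437577273344) (.p (nat_lit 496) (.a (.p (nat_lit 592) (.a (.d (nat_lit 497) (nat_lit 465) (nat_lit 6608) (nat_lit 624) (nat_lit 6640)) (.a (.f (nat_lit 495) (nat_lit 463) (nat_lit 7631) (.f (nat_lit 624) (nat_lit 527) (nat_lit 7663) (.d (nat_lit 623) (nat_lit 591) (nat_lit 5615) (nat_lit 655) (nat_lit 5647)))) (.f (nat_lit 593) (nat_lit 625) (nat_lit 4592) (.f (nat_lit 464) (nat_lit 561) (nat_lit 4560) (.d (nat_lit 463) (nat_lit 431) (nat_lit 7599) (nat_lit 495) (nat_lit 7631))))))) (.a (.p (nat_lit 592) (.a (.d (nat_lit 497) (nat_lit 465) (nat_lit 6608) (nat_lit 624) (nat_lit 6640)) (.f (nat_lit 593) (nat_lit 625) (nat_lit 4592) (.f (nat_lit 561) (nat_lit 464) (nat_lit 4560) (.f (nat_lit 591) (nat_lit 623) (nat_lit 5615) (.d (nat_lit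 562) (nat_lit 563) (nat_lit 1583) (nat_lit 590) (nat_lit 2606))))))) (.a (.p (nat_lit 592) (.a (.f (nat_lit 495) (nat_lit 463) (nat_lit 7631) (.f (nat_lit 624) (nat_lit 527) (nat_lit 7663) (.d (nat_lit 623) (nat_lit 591) (nat_lit 5615) (nat_lit 655) (nat_lit 5647)))) (.a (.f (nat_lit 593) (nat_lit 625) (nat_lit 4592) (.f (nat_lit 561) (nat_lit 464) (nat_lit 4560) (.f (nat_lit 591) (nat_lit 623) (nat_lit 5615) (.d (nat_lit 562) (nat_lit 563) (nat_lit 1583) (nat_lit 590) (nat_lit 2606))))) (.f (nat_lit 593) (nat_lit 625) (nat_lit 4592) (.f (nat_lit 464) (nat_lit 561) (nat_lit 4560) (.d (nat_lit 463) (nat_lit 431) (nat_lit 7599) (nat_lit 495) (nat_lit 7631))))))) (.a (.p (nat_lit 592) (.a (.d (nat_lit 497) (nat_lit 465) (nat_lit 6608) (nat_lit 624) (nat_lit 6640)) (.f (nat_lit 591) (nat_lit 623) (nat_lit 5615) (.f (nat_lit 559) (nat_lit 464) (nat_lit 5583) (.f (nat_lit 593) (nat_lit 625) (nat_lit 4592) (.d (nat_lit 558) (nat_lit 557)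 (nat_lit 557) (nat_lit 594) (nat_lit 3630))))))) (.a s33063 (.a (.p (nat_lit 592) (.a (.d (nat_lit 497) (nat_lit 465) (nat_lit 6608) (nat_lit 624) (nat_lit 6640)) (.a (.f (nat_lit 495) (nat_lit 463) (nat_lit 7631) (.f (nat_lit 624) (nat_lit 527) (nat_lit 7663) (.d (nat_lit 623) (nat_lit 591) (nat_lit 5615) (nat_lit 655) (nat_lit 5647)))) (.f (nat_lit 497) (nat_lit 465) (nat_lit 6608) (.f (nat_lit 495) (nat_lit 463) (nat_lit 7631) (.f (nat_lit 593) (nat_lit 625) (nat_lit 4592) (.f (nat_lit 591) (nat_lit 623) (nat_lit 5615) (.f (nat_lit 494) (nat_lit 493) (nat_lit 493) (.f (nat_lit 462) (nat_lit 461) (nat_lit 3533) (.f (nat_lit 559) (nat_lit 527) (nat_lit 7630) (.d (nat_lit 558) (nat_lit 557) (nat_lit 557) (nat_lit 594) (nat_lit 3630)))))))))))) (.a (.p (nat_lit 592) (.a (.d (nat_lit 497) (nat_lit 465) (nat_lit 6608) (nat_lit 624) (nat_lit 6640)) (.f (nat_lit 593) (nat_lit 625) (nat_lit 4592) (.f (nat_lit 464) (nat_lit 561) (nat_lit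 4560) (.d (nat_lit 463) (nat_lit 431) (nat_lit 7599) (nat_lit 495) (nat_lit 7631)))))) (.p (nat_lit 592) (.a (.d (nat_lit 497) (nat_lit 465) (nat_lit 6608) (nat_lit 624) (nat_lit 6640)) (.a (.f (nat_lit 495) (nat_lit 463) (nat_lit 7631) (.f (nat_lit 624) (nat_lit 527) (nat_lit 7663) (.d (nat_lit 623) (nat_lit 591) (nat_lit 5615) (nat_lit 655) (nat_lit 5647)))) (.f (nat_lit 465) (nat_lit 497) (nat_lit 6608) (.f (nat_lit 464) (nat_lit 433) (nat_lit 6576) (.d (nat_lit 463) (nat_lit 431) (nat_lit 7599) (nat_lit 495) (nat_lit 7631)))))))))))))))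
noncomputable def s33092 : Cert := .r (nat_lit 3773962431411747105966939907370893658035058708995098316513779493264309083210270308147876535215316022576464747808968303835592208345561901112289412311503763203119850192896) (.p (nat_lit 497) (.a (.f (nat_lit 465) (nat_lit 433) (nat_lit 5552) (.f (nat_lit 498) (nat_lit 499) (nat_lit 2543) (.d (nat_lit 562) (nat_lit 563) (nat_lit 527) (nat_lit 594) (nat_lit 7633)))) (.a (.f (nat_lit 498) (nat_lit 499) (nat_lit 2543) (.f (nat_lit 465) (nat_lit 433) (nat_lit 5552) (.f (nat_lit 495) (nat_lit 494) (nat_lit 3566) (.f (nat_lit 463) (nat_lit 431) (nat_lit 4527) (.d (nat_lit 462) (nat_lit 464) (nat_lit 462) (nat_lit 496) (nat_lit 3534)))))) (.a (.f (nat_lit 562) (nat_lit 563) (nat_lit 527) (.f (nat_lit 465) (nat_lit 433) (nat_lit 5552) (.d (nat_lit 594) (nat_lit 561) (nat_lit 4561) (nat_lit 626) (nat_lit 7665)))) (.f (nat_lit 498) (nat_lit 499) (nat_lit 2543) (.f (nat_lit 562) (nat_lit 563) (nat_lit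 527) (.f (nat_lit 594) (nat_lit 626) (nat_lit 7665) (.f (nat_lit 593) (nat_lit 625) (nat_lit 5617) (.f (nat_lit 466) (nat_lit 561) (nat_lit 6609) (.f (nat_lit 434) (nat_lit 402) (nat_lit 5521) (.d (nat_lit 435) (nat_lit 403) (nat_lit 6546) (nat_lit 467) (nat_lit 6578))))))))))))
noncomputable def s33101 : Cert := .r (nat_lit 3773962427896970703980067733300160448905385381753147442840407123654343792107272198248276636528565486557800015660592592403154009030555443256434490679465860718068940931072) (.p (nat_lit 496) (.a (.p (nat_lit 592) (.a (.d (nat_lit 497) (nat_lit 465) (nat_lit 6608) (nat_lit 624) (nat_lit 6640)) (.f (nat_lit 591) (nat_lit 623) (nat_lit 5615) (.f (nat_lit 464) (nat_lit 559) (nat_lit 5583) (.d (nat_lit 561) (nat_lit 432) (nat_lit 4528) (nat_lit 593) (nat_lit 4560)))))) (.a (.p (nat_lit 592) (.a (.d (nat_lit 497) (nat_lit 465) (nat_lit 6608) (nat_lit 624) (nat_lit 6640)) (.f (nat_lit 593) (nat_lit 625) (nat_lit 4592)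 (.f (nat_lit 561) (nat_lit 464) (nat_lit 4560) (.f (nat_lit 562) (nat_lit 563) (nat_lit 3599) (.d (nat_lit 591) (nat_lit 590) (nat_lit 2606) (nat_lit 623) (nat_lit 5615))))))) (.a (.p (nat_lit 592) (.a (.f (nat_lit 591) (nat_lit 623) (nat_lit 5615) (.f (nat_lit 464) (nat_lit 559) (nat_lit 5583) (.d (nat_lit 561) (nat_lit 432) (nat_lit 4528) (nat_lit 593) (nat_lit 4560)))) (.a (.f (nat_lit 593) (nat_lit 625) (nat_lit 4592) (.f (nat_lit 561) (nat_lit 464) (nat_lit 4560) (.f (nat_lit 562) (nat_lit 563) (nat_lit 3599) (.d (nat_lit 591) (nat_lit 590) (nat_lit 2606) (nat_lit 623) (nat_lit 5615))))) (.a (.f (nat_lit 591) (nat_lit 623) (nat_lit 5615) (.f (nat_lit 559) (nat_lit 464) (nat_lit 5583) (.f (nat_lit 558) (nat_lit 557) (nat_lit 2573) (.d (nat_lit 593) (nat_lit 594) (nat_lit 3630) (nat_lit 625) (nat_lit 4592))))) (.a (.f (nat_lit 623) (nat_lit 591) (nat_lit 5615) (.f (nat_lit 624) (nat_lit 655) (nat_lit 5647) (.d (nat_lit 625)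 (nat_lit 593) (nat_lit 4592) (nat_lit 657) (nat_lit 4624)))) (.a (.f (nat_lit 624) (nat_lit 495) (nat_lit 7663) (.d (nat_lit 625) (nat_lit 593) (nat_lit 4592) (nat_lit 657) (nat_lit 4624))) (.f (nat_lit 624) (nat_lit 495) (nat_lit 7663) (.d (nat_lit 623) (nat_lit 591) (nat_lit 5615) (nat_lit 655) (nat_lit 5647))))))))) (.a (.p (nat_lit 592) (.a (.d (nat_lit 497) (nat_lit 465) (nat_lit 6608) (nat_lit 624) (nat_lit 6640)) (.f (nat_lit 591) (nat_lit 623) (nat_lit 5615) (.f (nat_lit 559) (nat_lit 464) (nat_lit 5583) (.f (nat_lit 558) (nat_lit 557) (nat_lit 2573) (.d (nat_lit 593) (nat_lit 594) (nat_lit 3630) (nat_lit 625) (nat_lit 4592))))))) (.a (.p (nat_lit 464) (.a (.d (nat_lit 432) (nat_lit 559) (nat_lit 5551) (nat_lit 561) (nat_lit 4528)) (.a (.d (nat_lit 561) (nat_lit 432) (nat_lit 4528) (nat_lit 593) (nat_lit 4560)) (.a (.d (nat_lit 559) (nat_lit 432) (nat_lit 5551) (nat_lit 591) (nat_lit 5583)) (.f (nat_lit 561) (nat_lit 593)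 (nat_lit 4560) (.f (nat_lit 559) (nat_lit 591) (nat_lit 5583) (.f (nat_lit 562) (nat_lit 563) (nat_lit 3599) (.f (nat_lit 465) (nat_lit 433) (nat_lit 6576) (.d (nat_lit 594) (nat_lit 497) (nat_lit 4561) (nat_lit 595) (nat_lit 559)))))))))) (.a (.p (nat_lit 592) (.a (.d (nat_lit 497) (nat_lit 465) (nat_lit 6608) (nat_lit 624) (nat_lit 6640)) (.a (.f (nat_lit 623) (nat_lit 591) (nat_lit 5615) (.f (nat_lit 624) (nat_lit 655) (nat_lit 5647) (.d (nat_lit 625) (nat_lit 593) (nat_lit 4592) (nat_lit 657) (nat_lit 4624)))) (.f (nat_lit 497) (nat_lit 465) (nat_lit 6608) (.f (nat_lit 593) (nat_lit 625) (nat_lit 4592) (.f (nat_lit 591) (nat_lit 623) (nat_lit 5615) (.f (nat_lit 498) (nat_lit 499) (nat_lit 1519) (.f (nat_lit 561) (nat_lit 466) (nat_lit 6609) (.d (nat_lit 562) (nat_lit 563) (nat_lit 1583) (nat_lit 590) (nat_lit 2606)))))))))) (.a (.p (nat_lit 592) (.a (.d (nat_lit 497) (nat_lit 465) (nat_lit 6608) (nat_lit 624) (nat_lit 6640))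 (.a (.f (nat_lit 624) (nat_lit 495) (nat_lit 7663) (.d (nat_lit 625) (nat_lit 593) (nat_lit 4592) (nat_lit 657) (nat_lit 4624))) (.f (nat_lit 497) (nat_lit 465) (nat_lit 6608) (.f (nat_lit 593) (nat_lit 625) (nat_lit 4592) (.f (nat_lit 561) (nat_lit 464) (nat_lit 4560) (.d (nat_lit 498) (nat_lit 466) (nat_lit 6609) (nat_lit 499) (nat_lit 1519)))))))) (.p (nat_lit 592) (.a (.d (nat_lit 497) (nat_lit 465) (nat_lit 6608) (nat_lit 624) (nat_lit 6640)) (.a (.f (nat_lit 624) (nat_lit 495) (nat_lit 7663) (.d (nat_lit 623) (nat_lit 591) (nat_lit 5615) (nat_lit 655) (nat_lit 5647))) (.f (nat_lit 497) (nat_lit 465) (nat_lit 6608) (.f (nat_lit 591) (nat_lit 623) (nat_lit 5615) (.f (nat_lit 464) (nat_lit 559) (nat_lit 5583) (.d (nat_lit 432) (nat_lit 400) (nat_lit 4496) (nat_lit 561) (nat_lit 4528))))))))))))))))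
noncomputable def s33102 : Cert := .r (nat_lit 3773962427896970703980067733300160448905385381753147442840407123654343792107272198248276636528565486557800015660592592403154009030555443256434490679465860718068940931072) (.p (nat_lit 530) (.a (.d (nat_lit 559) (nat_lit 531) (nat_lit 1551) (nat_lit 558) (nat_lit 1550)) (.a (.p (nat_lit 497) (.a (.f (nat_lit 465) (nat_lit 433) (nat_lit 5552) (.d (nat_lit 592) (nat_lit 561) (nat_lit 5584) (nat_lit 624) (nat_lit 6640))) (.a (.f (nat_lit 465) (nat_lit 433) (nat_lit 5552) (.d (nat_lit 592) (nat_lit 496) (nat_lit 6608) (nat_lit 624) (nat_lit 6640))) (.f (nat_lit 499) (nat_lit 498) (nat_lit 2543) (.f (nat_lit 531) (nat_lit 500) (nat_lit 2544) (.d (nat_lit 532) (nat_lit 496) (nat_lit 3568) (nat_lit 561) (nat_lit 1552))))))) (.p (nat_lit 496) (.a (.f (nat_lit 559) (nat_lit 558) (nat_lit 1550) (.d (nat_lit 464) (nat_lit 432) (nat_lit 5551) (nat_lit 591) (nat_lit 5583))) (.f (nat_lit 495) (nat_lit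 494) (nat_lit 3566) (.f (nat_lit 592) (nat_lit 624) (nat_lit 7663) (.f (nat_lit 497) (nat_lit 465) (nat_lit 6608) (.f (nat_lit 498) (nat_lit 499) (nat_lit 1519) (.f (nat_lit 593) (nat_lit 625) (nat_lit 4592) (.d (nat_lit 466) (nat_lit 467) (nat_lit 2511) (nat_lit 561) (nat_lit 6609))))))))))))
noncomputable def s33130 : Cert := .r (nat_lit 3075429351738513152311891557988464161336707014464200823408719629715123346162149911350906719016331640629828747503383424400630650623873056428033164674419545604096) (.p (nat_lit 530) (.a (.f (nat_lit 499) (nat_lit 498) (nat_lit 2543) (.f (nat_lit 531) (nat_lit 500) (nat_lit 2544) (.d (nat_lit 563) (nat_lit 562) (nat_lit 527) (nat_lit 564) (nat_lit 528)))) (.a (.f (nat_lit 559) (nat_lit 558) (nat_lit 1550) (.p (nat_lit 591) (.a (.f (nat_lit 495) (nat_lit 494) (nat_lit 3566) (.d (nat_lit 496) (nat_lit 464) (nat_lit 6607) (nat_lit 623) (nat_lit 6639))) (.a (.f (nat_lit 495) (nat_lit 494) (nat_lit 3566)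 (.f (nat_lit 622) (nat_lit 590) (nat_lit 5614) (.f (nat_lit 623) (nat_lit 654) (nat_lit 5646) (.d (nat_lit 624) (nat_lit 592) (nat_lit 4591) (nat_lit 656) (nat_lit 4623))))) (.a (.f (nat_lit 623) (nat_lit 496) (nat_lit 6639) (.f (nat_lit 654) (nat_lit 622) (nat_lit 5646) (.f (nat_lit 655) (nat_lit 686) (nat_lit 5678) (.d (nat_lit 656) (nat_lit 624) (nat_lit 4623) (nat_lit 688) (nat_lit 4655))))) (.f (nat_lit 495) (nat_lit 494) (nat_lit 3566) (.f (nat_lit 464) (nat_lit 496) (nat_lit 6607) (.f (nat_lit 463) (nat_lit 432) (nat_lit 6575) (.f (nat_lit 430) (nat_lit 462) (nat_lit 7598) (.f (nat_lit 431) (nat_lit 398) (nat_lit 7566) (.f (nat_lit 498) (nat_lit 499) (nat_lit 2543) (.f (nat_lit 466) (nat_lit 465) (nat_lit 3502) (.f (nat_lit 562) (nat_lit 563) (nat_lit 527) (.d (nat_lit 561) (nat_lit 434) (nat_lit 5553) (nat_lit 593) (nat_lit 5585))))))))))))))) (.f (nat_lit 495) (nat_lit 494) (nat_lit 3566) (.f (nat_lit 496) (nat_lit 531)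 (nat_lit 3567) (.f (nat_lit 559) (nat_lit 558) (nat_lit 1550) (.d (nat_lit 464) (nat_lit 432) (nat_lit 5551) (nat_lit 591) (nat_lit 6607))))))))
noncomputable def s33148 : Cert := .r (nat_lit 3075429351738513152311891557988464161336707014464200823408719629715123346162149911350906719016331640629828747503383424400630650623873056428033164674419545604096) (.p (nat_lit 526) (.a (.f (nat_lit 557) (nat_lit 558) (nat_lit 1549) (.f (nat_lit 525) (nat_lit 556) (nat_lit 1548) (.d (nat_lit 493) (nat_lit 492) (nat_lit 3564) (nat_lit 494) (nat_lit 3565)))) (.a (.p (nat_lit 559) (.a (.f (nat_lit 558) (nat_lit 557) (nat_lit 1549) (.f (nat_lit 494) (nat_lit 493) (nat_lit 3565) (.d (nat_lit 462) (nat_lit 430) (nat_lit 4526) (nat_lit 591) (nat_lit 4558)))) (.a (.f (nat_lit 558) (nat_lit 557) (nat_lit 1549) (.f (nat_lit 494) (nat_lit 493) (nat_lit 3565) (.f (nat_lit 462) (nat_lit 430) (nat_lit 4526) (.f (nat_lit 463) (nat_lit 431) (nat_lit 6574) (.f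 (nat_lit 590) (nat_lit 495) (nat_lit 5582) (.f (nat_lit 622) (nat_lit 654) (nat_lit 6670) (.d (nat_lit 621) (nat_lit 589) (nat_lit 5613) (nat_lit 653) (nat_lit 5645)))))))) (.a (.f (nat_lit 494) (nat_lit 493) (nat_lit 3565) (.f (nat_lit 591) (nat_lit 623) (nat_lit 7662) (.d (nat_lit 462) (nat_lit 430) (nat_lit 4526) (nat_lit 495) (nat_lit 7630)))) (.p (nat_lit 496) (.a (.f (nat_lit 464) (nat_lit 432) (nat_lit 5551) (.d (nat_lit 591) (nat_lit 495) (nat_lit 6607) (nat_lit 623) (nat_lit 6639))) (.a (.f (nat_lit 561) (nat_lit 562) (nat_lit 526) (.f (nat_lit 464) (nat_lit 432) (nat_lit 4528) (.d (nat_lit 497) (nat_lit 498) (nat_lit 2542) (nat_lit 593) (nat_lit 7632)))) (.f (nat_lit 558) (nat_lit 557) (nat_lit 1549) (.f (nat_lit 497) (nat_lit 498) (nat_lit 2542) (.f (nat_lit 561) (nat_lit 562) (nat_lit 526) (.f (nat_lit 593) (nat_lit 625) (nat_lit 7664) (.f (nat_lit 591) (nat_lit 623) (nat_lit 6639) (.d (nat_lit 592) (nat_lit 594) (nat_lit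 3630) (nat_lit 624) (nat_lit 5616)))))))))))))) (.f (nat_lit 497) (nat_lit 498) (nat_lit 2542) (.f (nat_lit 561) (nat_lit 562) (nat_lit 526) (.f (nat_lit 496) (nat_lit 525) (nat_lit 2541) (.d (nat_lit 464) (nat_lit 432) (nat_lit 4528) (nat_lit 593) (nat_lit 7632))))))))
noncomputable def s33153 : Cert := .r (nat_lit 3075429351738513152311891557988464161336707014464200823408719629715123346162149911350906719016331640629828747503383424400630650623873056428033164674419545604096) (.p (nat_lit 560) (.a s32932 (.a s33002 (.a s33004 (.a s33024 (.a s33030 (.a s33034 (.a s33046 (.a s33051 (.a s33053 s33054))))))))))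
noncomputable def s33156 : Cert := .r (nat_lit 3773962427896970704184654646293669315781209737804872389853947251532035341449977908754284998803857646238004396430961602225084426788527947694510569213583697783901973905408) (.p (nat_lit 592) (.a (.f (nat_lit 591) (nat_lit 623) (nat_lit 5615) (.f (nat_lit 559) (nat_lit 464) (nat_lit 5583) (.f (nat_lit 558) (nat_lit 557) (nat_lit 2573) (.d (nat_lit 593) (nat_lit 594) (nat_lit 3630) (nat_lit 625) (nat_lit 4592))))) (.a (.f (nat_lit 623) (nat_lit 591) (nat_lit 5615) (.f (nat_lit 624) (nat_lit 655) (nat_lit 5647) (.d (nat_lit 625) (nat_lit 593) (nat_lit 4592) (nat_lit 657) (nat_lit 4624)))) (.a (.f (nat_lit 625) (nat_lit 593) (nat_lit 4592) (.f (nat_lit 624) (nat_lit 657) (nat_lit 4624) (.f (nat_lit 655) (nat_lit 623) (nat_lit 5647) (.d (nat_lit 656) (nat_lit 559) (nat_lit 7695) (nat_lit 687) (nat_lit 5679))))) (.a (.f (nat_lit 625) (nat_lit 593) (nat_lit 4592) (.f (nat_lit 624) (nat_lit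 657) (nat_lit 4624) (.f (nat_lit 559) (nat_lit 656) (nat_lit 7695) (.d (nat_lit 464) (nat_lit 432) (nat_lit 5551) (nat_lit 591) (nat_lit 5583))))) (.f (nat_lit 591) (nat_lit 623) (nat_lit 5615) (.f (nat_lit 464) (nat_lit 559) (nat_lit 5583) (.f (nat_lit 431) (nat_lit 463) (nat_lit 7599) (.f (nat_lit 432) (nat_lit 399) (nat_lit 7567) (.d (nat_lit 433) (nat_lit 401) (nat_lit 6544) (nat_lit 465) (nat_lit 6576)))))))))))
noncomputable def s33164 : Cert := .r (nat_lit 3773962427896970703980067733300160448905385381753147442840407123654343792107272198248276636528565486557800015660592592403154009030555443256434490679465860718068940931072) (.p (nat_lit 496) (.a s33018 (.a (.p (nat_lit 526) (.a (.d (nat_lit 561) (nat_lit 525) (nat_lit 525) (nat_lit 562) (nat_lit 526)) (.a (.f (nat_lit 561) (nat_lit 562) (nat_lit 526) (.d (nat_lit 464) (nat_lit 432) (nat_lit 4528) (nat_lit 593) (nat_lit 4560))) (.f (nat_lit 493) (nat_lit 494) (nat_lit 3565)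 (.f (nat_lit 525) (nat_lit 492) (nat_lit 3564) (.d (nat_lit 557) (nat_lit 556) (nat_lit 1548) (nat_lit 558) (nat_lit 1549))))))) (.a s33156 (.a (.p (nat_lit 526) (.a (.d (nat_lit 561) (nat_lit 525) (nat_lit 525) (nat_lit 562) (nat_lit 526)) (.a (.f (nat_lit 561) (nat_lit 562) (nat_lit 526) (.f (nat_lit 593) (nat_lit 625) (nat_lit 7664) (.f (nat_lit 558) (nat_lit 557) (nat_lit 1549) (.f (nat_lit 559) (nat_lit 594) (nat_lit 558) (.f (nat_lit 591) (nat_lit 623) (nat_lit 6639) (.d (nat_lit 494) (nat_lit 462) (nat_lit 4558) (nat_lit 493) (nat_lit 3565))))))) (.f (nat_lit 493) (nat_lit 494) (nat_lit 3565) (.f (nat_lit 525) (nat_lit 492) (nat_lit 3564) (.d (nat_lit 557) (nat_lit 556) (nat_lit 1548) (nat_lit 558) (nat_lit 1549))))))) (.a (.p (nat_lit 526) (.a (.d (nat_lit 561) (nat_lit 525) (nat_lit 525) (nat_lit 562) (nat_lit 526)) (.a (.f (nat_lit 561) (nat_lit 562) (nat_lit 526) (.d (nat_lit 464) (nat_lit 432) (nat_lit 4528) (nat_lit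 593) (nat_lit 4560))) (.f (nat_lit 493) (nat_lit 494) (nat_lit 3565) (.f (nat_lit 525) (nat_lit 492) (nat_lit 3564) (.f (nat_lit 559) (nat_lit 524) (nat_lit 524) (.d (nat_lit 464) (nat_lit 432) (nat_lit 5551) (nat_lit 591) (nat_lit 5583)))))))) (.p (nat_lit 526) (.a (.d (nat_lit 561) (nat_lit 525) (nat_lit 525) (nat_lit 562) (nat_lit 526)) (.a (.f (nat_lit 561) (nat_lit 562) (nat_lit 526) (.f (nat_lit 464) (nat_lit 432) (nat_lit 4528) (.f (nat_lit 591) (nat_lit 559) (nat_lit 5583) (.f (nat_lit 623) (nat_lit 592) (nat_lit 5615) (.f (nat_lit 558) (nat_lit 557) (nat_lit 1549) (.d (nat_lit 494) (nat_lit 493) (nat_lit 3565) (nat_lit 590) (nat_lit 4590))))))) (.f (nat_lit 493) (nat_lit 494) (nat_lit 3565) (.f (nat_lit 525) (nat_lit 492) (nat_lit 3564) (.d (nat_lit 557) (nat_lit 556) (nat_lit 1548) (nat_lit 558) (nat_lit 1549)))))))))))))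
noncomputable def s33165 : Cert := .r (nat_lit 3773962427896970703980067733300160448905385381753147442840407123654343792107272198248276636528565486557800015660592592403154009030555443256434490679465860718068940931072) (.p (nat_lit 526) (.a (.d (nat_lit 561) (nat_lit 525) (nat_lit 525) (nat_lit 562) (nat_lit 526)) (.a (.f (nat_lit 561) (nat_lit 562) (nat_lit 526) (.f (nat_lit 497) (nat_lit 498) (nat_lit 2542) (.f (nat_lit 465) (nat_lit 433) (nat_lit 5552) (.f (nat_lit 464) (nat_lit 432) (nat_lit 7600) (.f (nat_lit 593) (nat_lit 496) (nat_lit 4560) (.f (nat_lit 558) (nat_lit 557) (nat_lit 1549) (.d (nat_lit 594) (nat_lit 559) (nat_lit 558) (nat_lit 626) (nat_lit 4593)))))))) (.f (nat_lit 557) (nat_lit 558) (nat_lit 1549) (.f (nat_lit 525) (nat_lit 556) (nat_lit 1548) (.d (nat_lit 493) (nat_lit 492) (nat_lit 3564) (nat_lit 494) (nat_lit 3565)))))))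
noncomputable def s33175 : Cert := .r (nat_lit 3773962427896970703980067733300160448905385381753147442840407123654343792107272198248276636528565486557800015660592592403154009030555443256434490679465860718068940931072) (.p (nat_lit 526) (.a (.d (nat_lit 561) (nat_lit 525) (nat_lit 525) (nat_lit 562) (nat_lit 526)) (.a (.p (nat_lit 559) (.a (.f (nat_lit 558) (nat_lit 557) (nat_lit 1549) (.f (nat_lit 494) (nat_lit 493) (nat_lit 3565) (.d (nat_lit 462) (nat_lit 430) (nat_lit 4526) (nat_lit 591) (nat_lit 4558)))) (.a (.f (nat_lit 561) (nat_lit 562) (nat_lit 526) (.f (nat_lit 558) (nat_lit 557) (nat_lit 1549) (.f (nat_lit 593) (nat_lit 594) (nat_lit 558) (.d (nat_lit 496) (nat_lit 464) (nat_lit 4560) (nat_lit 625) (nat_lit 7664))))) (.f (nat_lit 561) (nat_lit 562) (nat_lit 526) (.f (nat_lit 497) (nat_lit 498) (nat_lit 2542) (.f (nat_lit 592) (nat_lit 624) (nat_lit 6640) (.f (nat_lit 494) (nat_lit 493) (nat_lit 3565) (.f (nat_lit 591)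 (nat_lit 623) (nat_lit 7662) (.f (nat_lit 496) (nat_lit 464) (nat_lit 5583) (.f (nat_lit 593) (nat_lit 625) (nat_lit 4592) (.d (nat_lit 594) (nat_lit 595) (nat_lit 3631) (nat_lit 626) (nat_lit 4593)))))))))))) (.f (nat_lit 557) (nat_lit 558) (nat_lit 1549) (.f (nat_lit 525) (nat_lit 556) (nat_lit 1548) (.d (nat_lit 493) (nat_lit 492) (nat_lit 3564) (nat_lit 494) (nat_lit 3565)))))))
noncomputable def s33176 : Cert := .r (nat_lit 3075429351738513152311891557988464161336707014464200823408719629715123346162149911350906719016331640629828747503383424400630650623873056428033164674419545604096) (.p (nat_lit 560) (.a (.p (nat_lit 526) (.a (.d (nat_lit 561) (nat_lit 525) (nat_lit 525) (nat_lit 562) (nat_lit 526)) (.a (.f (nat_lit 561) (nat_lit 562) (nat_lit 526) (.f (nat_lit 497) (nat_lit 498) (nat_lit 2542) (.d (nat_lit 465) (nat_lit 433) (nat_lit 5552) (nat_lit 592) (nat_lit 5584)))) (.f (nat_lit 497) (nat_lit 498) (nat_lit 2542) (.f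 (nat_lit 496) (nat_lit 525) (nat_lit 2541) (.d (nat_lit 465) (nat_lit 433) (nat_lit 5552) (nat_lit 592) (nat_lit 6608))))))) (.a (.p (nat_lit 526) (.a (.d (nat_lit 561) (nat_lit 525) (nat_lit 525) (nat_lit 562) (nat_lit 526)) (.a (.f (nat_lit 561) (nat_lit 562) (nat_lit 526) (.f (nat_lit 497) (nat_lit 498) (nat_lit 2542) (.d (nat_lit 465) (nat_lit 433) (nat_lit 5552) (nat_lit 592) (nat_lit 5584)))) (.f (nat_lit 557) (nat_lit 558) (nat_lit 1549) (.f (nat_lit 525) (nat_lit 556) (nat_lit 1548) (.d (nat_lit 493) (nat_lit 492) (nat_lit 3564) (nat_lit 494) (nat_lit 3565))))))) (.a s33024 (.a s33164 (.a (.p (nat_lit 526) (.a (.f (nat_lit 497) (nat_lit 498) (nat_lit 2542) (.f (nat_lit 496) (nat_lit 525) (nat_lit 2541) (.d (nat_lit 465) (nat_lit 433) (nat_lit 5552) (nat_lit 592) (nat_lit 6608)))) (.a (.f (nat_lit 557) (nat_lit 558) (nat_lit 1549) (.f (nat_lit 525) (nat_lit 556) (nat_lit 1548) (.d (nat_lit 493) (nat_lit 492) (nat_lit 3564)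 (nat_lit 494) (nat_lit 3565)))) (.f (nat_lit 497) (nat_lit 498) (nat_lit 2542) (.f (nat_lit 592) (nat_lit 624) (nat_lit 6640) (.d (nat_lit 465) (nat_lit 433) (nat_lit 5552) (nat_lit 496) (nat_lit 6608))))))) (.a s33165 s33175)))))))
noncomputable def s33178 : Cert := .r (nat_lit 3075429351738513152311891557988464161336707014464200823408719629715123346162149911350906719016331640629828747503383424400630650623873056428033164674419545604096) (.p (nat_lit 526) (.a (.f (nat_lit 557) (nat_lit 558) (nat_lit 1549) (.f (nat_lit 525) (nat_lit 556) (nat_lit 1548) (.d (nat_lit 493) (nat_lit 492) (nat_lit 3564) (nat_lit 494) (nat_lit 3565)))) (.a (.f (nat_lit 558) (nat_lit 557) (nat_lit 1549) (.f (nat_lit 559) (nat_lit 530) (nat_lit 1550) (.f (nat_lit 494) (nat_lit 493) (nat_lit 3565) (.d (nat_lit 462) (nat_lit 430) (nat_lit 4526) (nat_lit 591) (nat_lit 4558))))) (.a (.f (nat_lit 561) (nat_lit 562) (nat_lit 526) (.f (nat_lit 525) (nat_lit 560)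 (nat_lit 525) (.d (nat_lit 493) (nat_lit 492) (nat_lit 3564) (nat_lit 494) (nat_lit 3565)))) (.f (nat_lit 561) (nat_lit 562) (nat_lit 526) (.f (nat_lit 525) (nat_lit 560) (nat_lit 525) (.d (nat_lit 557) (nat_lit 556) (nat_lit 1548) (nat_lit 558) (nat_lit 1549))))))))
noncomputable def s33179 : Cert := .r (nat_lit 3075429351738513152311891557988464161336707014464200823408719629715123346162149911350906719016331640629828747503383424400630650623873056428033164674419545604096) (.p (nat_lit 530) (.a (.f (nat_lit 498) (nat_lit 499) (nat_lit 2543) (.f (nat_lit 562) (nat_lit 563) (nat_lit 527) (.d (nat_lit 526) (nat_lit 497) (nat_lit 2542) (nat_lit 561) (nat_lit 526)))) (.a (.f (nat_lit 499) (nat_lit 498) (nat_lit 2543) (.f (nat_lit 531) (nat_lit 500) (nat_lit 2544) (.d (nat_lit 563) (nat_lit 562) (nat_lit 527) (nat_lit 564) (nat_lit 528)))) (.a (.f (nat_lit 559) (nat_lit 558) (nat_lit 1550) (.f (nat_lit 531) (nat_lit 560) (nat_lit 1551)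 (.d (nat_lit 499) (nat_lit 498) (nat_lit 2543) (nat_lit 500) (nat_lit 2544)))) (.f (nat_lit 559) (nat_lit 558) (nat_lit 1550) (.f (nat_lit 531) (nat_lit 560) (nat_lit 1551) (.d (nat_lit 563) (nat_lit 562) (nat_lit 527) (nat_lit 564) (nat_lit 528))))))))
noncomputable def s33182 : Cert := .r (nat_lit 3075429351738513152311891557988464161336707014464200823408719629715123346162149911350906719016331640629828747503383424400630650623873056428033164674419545604096) (.p (nat_lit 530) (.a (.f (nat_lit 499) (nat_lit 498) (nat_lit 2543) (.f (nat_lit 531) (nat_lit 500) (nat_lit 2544) (.d (nat_lit 563) (nat_lit 562) (nat_lit 527) (nat_lit 564) (nat_lit 528)))) (.a (.p (nat_lit 560) (.a (.f (nat_lit 495) (nat_lit 494) (nat_lit 3566) (.f (nat_lit 592) (nat_lit 624) (nat_lit 7663) (.d (nat_lit 463) (nat_lit 431) (nat_lit 4527) (nat_lit 496) (nat_lit 7631)))) (.a s32982 s33092))) (.a (.f (nat_lit 495) (nat_lit 494) (nat_lit 3566) (.f (nat_lit 531)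 (nat_lit 496) (nat_lit 3567) (.d (nat_lit 499) (nat_lit 498) (nat_lit 2543) (nat_lit 500) (nat_lit 2544)))) (.f (nat_lit 495) (nat_lit 494) (nat_lit 3566) (.f (nat_lit 531) (nat_lit 496) (nat_lit 3567) (.d (nat_lit 563) (nat_lit 562) (nat_lit 527) (nat_lit 564) (nat_lit 528))))))))
noncomputable def s33183 : Cert := .r (nat_lit 3773962427896970704184654646293669315781209737804872389853947251532035341449977908754284998803857646238004396430961602225084426788527947694510569213583697783901973905408) (.p (nat_lit 592) (.a (.f (nat_lit 593) (nat_lit 625) (nat_lit 4592) (.f (nat_lit 561) (nat_lit 464) (nat_lit 4560) (.f (nat_lit 562) (nat_lit 563) (nat_lit 3599) (.d (nat_lit 591) (nat_lit 590) (nat_lit 2606) (nat_lit 623) (nat_lit 5615))))) (.a (.f (nat_lit 623) (nat_lit 591) (nat_lit 5615) (.f (nat_lit 624) (nat_lit 655) (nat_lit 5647) (.d (nat_lit 625) (nat_lit 593) (nat_lit 4592) (nat_lit 657) (nat_lit 4624)))) (.a (.f (nat_lit 624)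 (nat_lit 495) (nat_lit 7663) (.d (nat_lit 625) (nat_lit 593) (nat_lit 4592) (nat_lit 657) (nat_lit 4624))) (.f (nat_lit 624) (nat_lit 495) (nat_lit 7663) (.d (nat_lit 623) (nat_lit 591) (nat_lit 5615) (nat_lit 655) (nat_lit 5647)))))))
noncomputable def s33187 : Cert := .r (nat_lit 3773962427896970703980067733300160448905385381753147442840407123654343792107272198248276636528565486557800015660592592403154009030555443256434490679465860718068940931072) (.p (nat_lit 496) (.a (.p (nat_lit 592) (.a (.d (nat_lit 497) (nat_lit 465) (nat_lit 6608) (nat_lit 624) (nat_lit 6640)) (.f (nat_lit 593) (nat_lit 625) (nat_lit 4592) (.f (nat_lit 561) (nat_lit 464) (nat_lit 4560) (.f (nat_lit 562) (nat_lit 563) (nat_lit 3599) (.d (nat_lit 591) (nat_lit 590) (nat_lit 2606) (nat_lit 623) (nat_lit 5615))))))) (.a s33183 (.a (.p (nat_lit 592) (.a (.d (nat_lit 497) (nat_lit 465) (nat_lit 6608) (nat_lit 624) (nat_lit 6640)) (.a (.f (nat_lit 623) (nat_lit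 591) (nat_lit 5615) (.f (nat_lit 624) (nat_lit 655) (nat_lit 5647) (.d (nat_lit 625) (nat_lit 593) (nat_lit 4592) (nat_lit 657) (nat_lit 4624)))) (.f (nat_lit 463) (nat_lit 495) (nat_lit 7631) (.f (nat_lit 464) (nat_lit 431) (nat_lit 7599) (.d (nat_lit 465) (nat_lit 433) (nat_lit 6576) (nat_lit 497) (nat_lit 6608))))))) (.a (.p (nat_lit 464) (.a (.d (nat_lit 561) (nat_lit 432) (nat_lit 4528) (nat_lit 593) (nat_lit 4560)) (.a (.f (nat_lit 431) (nat_lit 463) (nat_lit 7599) (.f (nat_lit 432) (nat_lit 399) (nat_lit 7567) (.d (nat_lit 400) (nat_lit 495) (nat_lit 5519) (nat_lit 497) (nat_lit 4496)))) (.f (nat_lit 561) (nat_lit 593) (nat_lit 4560) (.f (nat_lit 465) (nat_lit 433) (nat_lit 6576) (.f (nat_lit 463) (nat_lit 431) (nat_lit 7599) (.f (nat_lit 562) (nat_lit 563) (nat_lit 3599) (.f (nat_lit 497) (nat_lit 594) (nat_lit 4561) (.d (nat_lit 462) (nat_lit 461) (nat_lit 461) (nat_lit 498) (nat_lit 462)))))))))) (.a (.p (nat_lit 592)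 (.a (.d (nat_lit 497) (nat_lit 465) (nat_lit 6608) (nat_lit 624) (nat_lit 6640)) (.a (.f (nat_lit 623) (nat_lit 591) (nat_lit 5615) (.f (nat_lit 624) (nat_lit 655) (nat_lit 5647) (.d (nat_lit 625) (nat_lit 593) (nat_lit 4592) (nat_lit 657) (nat_lit 4624)))) (.f (nat_lit 497) (nat_lit 465) (nat_lit 6608) (.f (nat_lit 593) (nat_lit 625) (nat_lit 4592) (.f (nat_lit 591) (nat_lit 623) (nat_lit 5615) (.f (nat_lit 498) (nat_lit 499) (nat_lit 1519) (.f (nat_lit 561) (nat_lit 466) (nat_lit 6609) (.d (nat_lit 562) (nat_lit 563) (nat_lit 1583) (nat_lit 590) (nat_lit 2606)))))))))) (.p (nat_lit 592) (.a (.d (nat_lit 497) (nat_lit 465) (nat_lit 6608) (nat_lit 624) (nat_lit 6640)) (.a (.f (nat_lit 624) (nat_lit 495) (nat_lit 7663) (.d (nat_lit 623) (nat_lit 591) (nat_lit 5615) (nat_lit 655) (nat_lit 5647))) (.f (nat_lit 463) (nat_lit 495) (nat_lit 7631) (.f (nat_lit 464) (nat_lit 431) (nat_lit 7599) (.d (nat_lit 465) (nat_lit 433) (nat_lit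 6576) (nat_lit 497) (nat_lit 6608)))))))))))))
noncomputable def s33189 : Cert := .r (nat_lit 3773962427896970703980067733300160448905385381753147442840407123654343792107272198248276636528565486557800015660592592403154009030555443256434490679465860718068940931072) (.p (nat_lit 526) (.a (.d (nat_lit 561) (nat_lit 525) (nat_lit 525) (nat_lit 562) (nat_lit 526)) (.a (.p (nat_lit 495) (.a (.f (nat_lit 494) (nat_lit 493) (nat_lit 3565) (.f (nat_lit 558) (nat_lit 557) (nat_lit 1549) (.d (nat_lit 463) (nat_lit 431) (nat_lit 5550) (nat_lit 590) (nat_lit 6606)))) (.a (.f (nat_lit 463) (nat_lit 431) (nat_lit 4527) (.d (nat_lit 592) (nat_lit 496) (nat_lit 7631) (nat_lit 624) (nat_lit 7663))) (.f (nat_lit 561) (nat_lit 562) (nat_lit 526) (.f (nat_lit 494) (nat_lit 493) (nat_lit 3565) (.f (nat_lit 558) (nat_lit 557) (nat_lit 1549) (.f (nat_lit 590) (nat_lit 622) (nat_lit 6638) (.f (nat_lit 592) (nat_lit 624) (nat_lit 7663) (.d (nat_lit 589)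 (nat_lit 591) (nat_lit 2605) (nat_lit 621) (nat_lit 5613)))))))))) (.f (nat_lit 557) (nat_lit 558) (nat_lit 1549) (.f (nat_lit 525) (nat_lit 556) (nat_lit 1548) (.d (nat_lit 493) (nat_lit 492) (nat_lit 3564) (nat_lit 494) (nat_lit 3565)))))))
noncomputable def s33190 : Cert := .r (nat_lit 3075429351738513152311891557988464161336707014464200823408719629715123346162149911350906719016331640629828747503383424400630650623873056428033164674419545604096) (.p (nat_lit 560) (.a (.p (nat_lit 526) (.a (.d (nat_lit 561) (nat_lit 525) (nat_lit 525) (nat_lit 562) (nat_lit 526)) (.a (.f (nat_lit 561) (nat_lit 562) (nat_lit 526) (.f (nat_lit 497) (nat_lit 498) (nat_lit 2542) (.d (nat_lit 465) (nat_lit 433) (nat_lit 5552) (nat_lit 592) (nat_lit 5584)))) (.f (nat_lit 497) (nat_lit 498) (nat_lit 2542) (.f (nat_lit 496) (nat_lit 525) (nat_lit 2541) (.d (nat_lit 465) (nat_lit 433) (nat_lit 5552) (nat_lit 592) (nat_lit 6608))))))) (.a (.p (nat_lit 526)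 (.a (.d (nat_lit 561) (nat_lit 525) (nat_lit 525) (nat_lit 562) (nat_lit 526)) (.a (.f (nat_lit 561) (nat_lit 562) (nat_lit 526) (.f (nat_lit 497) (nat_lit 498) (nat_lit 2542) (.d (nat_lit 465) (nat_lit 433) (nat_lit 5552) (nat_lit 592) (nat_lit 5584)))) (.f (nat_lit 557) (nat_lit 558) (nat_lit 1549) (.f (nat_lit 525) (nat_lit 556) (nat_lit 1548) (.d (nat_lit 493) (nat_lit 492) (nat_lit 3564) (nat_lit 494) (nat_lit 3565))))))) (.a s33187 (.a s33189 (.a (.p (nat_lit 526) (.a (.f (nat_lit 497) (nat_lit 498) (nat_lit 2542) (.f (nat_lit 496) (nat_lit 525) (nat_lit 2541) (.d (nat_lit 465) (nat_lit 433) (nat_lit 5552) (nat_lit 592) (nat_lit 6608)))) (.a (.f (nat_lit 557) (nat_lit 558) (nat_lit 1549) (.f (nat_lit 525) (nat_lit 556) (nat_lit 1548) (.d (nat_lit 493) (nat_lit 492) (nat_lit 3564) (nat_lit 494) (nat_lit 3565)))) (.f (nat_lit 497) (nat_lit 498) (nat_lit 2542) (.f (nat_lit 592) (nat_lit 624) (nat_lit 6640) (.d (nat_lit 465)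 (nat_lit 433) (nat_lit 5552) (nat_lit 496) (nat_lit 6608))))))) s32966))))))
noncomputable def s33191 : Cert := .r (nat_lit 3075429351738513152311891557988464161336707014464200823408719629715123346162149911350906719016331640629828747503383424400630650623873056428033164674419545604096) (.p (nat_lit 526) (.a (.f (nat_lit 561) (nat_lit 562) (nat_lit 526) (.f (nat_lit 497) (nat_lit 498) (nat_lit 2542) (.f (nat_lit 560) (nat_lit 525) (nat_lit 525) (.d (nat_lit 465) (nat_lit 433) (nat_lit 5552) (nat_lit 592) (nat_lit 5584))))) (.a (.f (nat_lit 497) (nat_lit 498) (nat_lit 2542) (.f (nat_lit 561) (nat_lit 562) (nat_lit 526) (.f (nat_lit 496) (nat_lit 525) (nat_lit 2541) (.d (nat_lit 464) (nat_lit 432) (nat_lit 4528) (nat_lit 593) (nat_lit 7632))))) (.a (.f (nat_lit 498) (nat_lit 497) (nat_lit 2542) (.f (nat_lit 530) (nat_lit 499) (nat_lit 2543) (.d (nat_lit 562) (nat_lit 561) (nat_lit 526) (nat_lit 563) (nat_lit 527)))) (.a (.f (nat_lit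 561) (nat_lit 562) (nat_lit 526) (.f (nat_lit 525) (nat_lit 560) (nat_lit 525) (.d (nat_lit 557) (nat_lit 556) (nat_lit 1548) (nat_lit 558) (nat_lit 1549)))) (.f (nat_lit 497) (nat_lit 498) (nat_lit 2542) (.f (nat_lit 525) (nat_lit 496) (nat_lit 2541) (.d (nat_lit 557) (nat_lit 556) (nat_lit 1548) (nat_lit 558) (nat_lit 1549)))))))))
noncomputable def s33193 : Cert := .r (nat_lit 3075429351738513152311891557988464161336707014464200823408719629715123346162149911350906719016331640629828747503383424400630650623873056428033164674419545604096) (.p (nat_lit 526) (.a (.f (nat_lit 557) (nat_lit 558) (nat_lit 1549) (.f (nat_lit 525) (nat_lit 556) (nat_lit 1548) (.d (nat_lit 493) (nat_lit 492) (nat_lit 3564) (nat_lit 494) (nat_lit 3565)))) (.a (.f (nat_lit 494) (nat_lit 493) (nat_lit 3565) (.f (nat_lit 495) (nat_lit 530) (nat_lit 3566) (.f (nat_lit 558) (nat_lit 557) (nat_lit 1549) (.d (nat_lit 463) (nat_lit 431) (nat_lit 5550) (nat_lit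 590) (nat_lit 6606))))) (.a (.f (nat_lit 561) (nat_lit 562) (nat_lit 526) (.f (nat_lit 525) (nat_lit 560) (nat_lit 525) (.d (nat_lit 493) (nat_lit 492) (nat_lit 3564) (nat_lit 494) (nat_lit 3565)))) (.f (nat_lit 561) (nat_lit 562) (nat_lit 526) (.f (nat_lit 525) (nat_lit 560) (nat_lit 525) (.d (nat_lit 557) (nat_lit 556) (nat_lit 1548) (nat_lit 558) (nat_lit 1549))))))))
noncomputable def s33231 : Cert := .r (nat_lit 11321887277100706358214817873517856579598018656680784440383648177944346455503695138683080099548039204638403674203573318273640403376029221289575493978326514994736367927296) (.p (nat_lit 559) (.a (.f (nat_lit 558) (nat_lit 557) (nat_lit 2573) (.f (nat_lit 593) (nat_lit 594) (nat_lit 558) (.f (nat_lit 625) (nat_lit 657) (nat_lit 7696) (.f (nat_lit 624) (nat_lit 656) (nat_lit 5648) (.f (nat_lit 592) (nat_lit 497) (nat_lit 6640) (.f (nat_lit 590) (nat_lit 589) (nat_lit 1581) (.d (nat_lit 591) (nat_lit 562) (nat_lit 2606)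 (nat_lit 626) (nat_lit 590)))))))) (.a (.f (nat_lit 558) (nat_lit 557) (nat_lit 2573) (.f (nat_lit 593) (nat_lit 594) (nat_lit 558) (.f (nat_lit 625) (nat_lit 657) (nat_lit 7696) (.f (nat_lit 590) (nat_lit 589) (nat_lit 1581) (.f (nat_lit 591) (nat_lit 562) (nat_lit 1582) (.d (nat_lit 626) (nat_lit 592) (nat_lit 590) (nat_lit 658) (nat_lit 4625))))))) (.a (.f (nat_lit 558) (nat_lit 557) (nat_lit 2573) (.f (nat_lit 590) (nat_lit 589) (nat_lit 1581) (.f (nat_lit 526) (nat_lit 525) (nat_lit 3597) (.f (nat_lit 591) (nat_lit 562) (nat_lit 1582) (.d (nat_lit 494) (nat_lit 462) (nat_lit 4558) (nat_lit 623) (nat_lit 4590)))))) (.a (.f (nat_lit 558) (nat_lit 557) (nat_lit 2573) (.f (nat_lit 593) (nat_lit 594) (nat_lit 558) (.f (nat_lit 625) (nat_lit 657) (nat_lit 7696) (.f (nat_lit 624) (nat_lit 656) (nat_lit 5648) (.f (nat_lit 497) (nat_lit 592) (nat_lit 6640) (.f (nat_lit 465) (nat_lit 433) (nat_lit 5552) (.d (nat_lit 466) (nat_lit 434)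 (nat_lit 6577) (nat_lit 498) (nat_lit 6609)))))))) (.p (nat_lit 562) (.a (.f (nat_lit 563) (nat_lit 564) (nat_lit 3600) (.d (nat_lit 591) (nat_lit 590) (nat_lit 1582) (nat_lit 592) (nat_lit 1583))) (.f (nat_lit 594) (nat_lit 595) (nat_lit 559) (.f (nat_lit 497) (nat_lit 465) (nat_lit 4561) (.d (nat_lit 626) (nat_lit 593) (nat_lit 4593) (nat_lit 658) (nat_lit 7697)))))))))))
noncomputable def s33233 : Cert := .r (nat_lit 11321887277540053408463176895276698230739227822586028299592819724145592116891569902420530086883883021640736765722120282202695178290405028521557359182331252805367731585024) (.p (nat_lit 559) (.a (.f (nat_lit 558) (nat_lit 557) (nat_lit 2573) (.f (nat_lit 590) (nat_lit 589) (nat_lit 1581) (.f (nat_lit 495) (nat_lit 463) (nat_lit 5582) (.d (nat_lit 622) (nat_lit 591) (nat_lit 5614) (nat_lit 654) (nat_lit 6670))))) (.a (.f (nat_lit 558) (nat_lit 557) (nat_lit 2573) (.f (nat_lit 526) (nat_lit 525) (nat_lit 525) (.f (nat_lit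 494) (nat_lit 493) (nat_lit 3565) (.d (nat_lit 462) (nat_lit 430) (nat_lit 4526) (nat_lit 591) (nat_lit 4558))))) (.a (.f (nat_lit 558) (nat_lit 557) (nat_lit 2573) (.f (nat_lit 526) (nat_lit 525) (nat_lit 525) (.f (nat_lit 590) (nat_lit 589) (nat_lit 1581) (.d (nat_lit 495) (nat_lit 463) (nat_lit 5582) (nat_lit 622) (nat_lit 6638))))) (.f (nat_lit 526) (nat_lit 525) (nat_lit 525) (.f (nat_lit 494) (nat_lit 493) (nat_lit 3565) (.f (nat_lit 591) (nat_lit 623) (nat_lit 7662) (.d (nat_lit 462) (nat_lit 430) (nat_lit 4526) (nat_lit 495) (nat_lit 7630)))))))))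
noncomputable def s33236 : Cert := .r (nat_lit 11321887277100706358214817873517856579598018656680784440383648177944346455503695138683080099548039204638403674203573318273640403376029221289575493978326514994736367927296) (.p (nat_lit 527) (.a (.d (nat_lit 526) (nat_lit 525) (nat_lit 525) (nat_lit 562) (nat_lit 526)) (.a (.p (nat_lit 559) (.a (.f (nat_lit 558) (nat_lit 557) (nat_lit 2573) (.f (nat_lit 562) (nat_lit 563) (nat_lit 3599) (.d (nat_lit 590) (nat_lit 589) (nat_lit 1581) (nat_lit 591) (nat_lit 1582)))) (.a (.f (nat_lit 558) (nat_lit 557) (nat_lit 2573) (.f (nat_lit 562) (nat_lit 563) (nat_lit 3599) (.d (nat_lit 594) (nat_lit 593) (nat_lit 558) (nat_lit 595) (nat_lit 559)))) (.a (.f (nat_lit 562) (nat_lit 563) (nat_lit 3599) (.f (nat_lit 594) (nat_lit 595) (nat_lit 559) (.f (nat_lit 497) (nat_lit 465) (nat_lit 4561) (.d (nat_lit 626) (nat_lit 593) (nat_lit 4593) (nat_lit 658) (nat_lit 7697))))) (.f (nat_lit 558) (nat_lit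 557) (nat_lit 2573) (.f (nat_lit 590) (nat_lit 589) (nat_lit 1581) (.f (nat_lit 495) (nat_lit 463) (nat_lit 5582) (.d (nat_lit 622) (nat_lit 591) (nat_lit 5614) (nat_lit 654) (nat_lit 6670))))))))) s33233)))
noncomputable def s33248 : Cert := .r (nat_lit 11321887277100706358214817873517856579598018656680784440383648177944346455503695138683080099548039204638403674203573318273640403376029221289575493978326514994736367927296) (.p (nat_lit 497) (.a (.d (nat_lit 465) (nat_lit 433) (nat_lit 5552) (nat_lit 592) (nat_lit 5584)) (.a (.f (nat_lit 465) (nat_lit 433) (nat_lit 5552) (.f (nat_lit 466) (nat_lit 434) (nat_lit 6577) (.f (nat_lit 593) (nat_lit 498) (nat_lit 6609) (.f (nat_lit 625) (nat_lit 657) (nat_lit 7696) (.d (nat_lit 626) (nat_lit 594) (nat_lit 4593) (nat_lit 658) (nat_lit 4625)))))) (.p (nat_lit 593) (.a (.f (nat_lit 625) (nat_lit 657) (nat_lit 7696) (.d (nat_lit 626) (nat_lit 594) (nat_lit 4593) (nat_lit 658) (nat_lit 4625)))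 (.a (.f (nat_lit 592) (nat_lit 624) (nat_lit 6640) (.f (nat_lit 594) (nat_lit 626) (nat_lit 4593) (.d (nat_lit 559) (nat_lit 558) (nat_lit 558) (nat_lit 595) (nat_lit 3631)))) (.f (nat_lit 624) (nat_lit 592) (nat_lit 6640) (.d (nat_lit 625) (nat_lit 656) (nat_lit 5648) (nat_lit 657) (nat_lit 7696)))))))))
noncomputable def s33250 : Cert := .r (nat_lit 13208868489511477034335595164011991025056479266889004654571751328067158536699769564726143462136868588409137861718955240723525695690991617605856211104042863016561065590784) (.p (nat_lit 527) (.a (.f (nat_lit 558) (nat_lit 557) (nat_lit 2573) (.f (nat_lit 590) (nat_lit 589) (nat_lit 1581) (.f (nat_lit 495) (nat_lit 463) (nat_lit 5582) (.d (nat_lit 622) (nat_lit 591) (nat_lit 5614) (nat_lit 654) (nat_lit 6670))))) (.a (.f (nat_lit 558) (nat_lit 557) (nat_lit 2573) (.f (nat_lit 526) (nat_lit 525) (nat_lit 525) (.f (nat_lit 494) (nat_lit 493) (nat_lit 3565) (.d (nat_lit 462) (nat_lit 430)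 (nat_lit 4526) (nat_lit 591) (nat_lit 4558))))) (.a (.f (nat_lit 558) (nat_lit 557) (nat_lit 2573) (.f (nat_lit 526) (nat_lit 525) (nat_lit 525) (.f (nat_lit 590) (nat_lit 589) (nat_lit 1581) (.d (nat_lit 495) (nat_lit 463) (nat_lit 5582) (nat_lit 622) (nat_lit 6638))))) (.f (nat_lit 526) (nat_lit 525) (nat_lit 525) (.f (nat_lit 494) (nat_lit 493) (nat_lit 3565) (.f (nat_lit 591) (nat_lit 623) (nat_lit 7662) (.d (nat_lit 462) (nat_lit 430) (nat_lit 4526) (nat_lit 495) (nat_lit 7630)))))))))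
noncomputable def s33271 : Cert := .r (nat_lit 3773962427896970703980067733300160448905385381753147442840407123654343792107272198248276636528565486557800015660592592403154009030555443256434490679465860718068940931072) (.p (nat_lit 526) (.a (.d (nat_lit 561) (nat_lit 525) (nat_lit 525) (nat_lit 562) (nat_lit 526)) (.a (.p (nat_lit 559) (.a (.f (nat_lit 558) (nat_lit 557) (nat_lit 1549) (.f (nat_lit 561) (nat_lit 562) (nat_lit 526) (.f (nat_lit 590) (nat_lit 589) (nat_lit 1581) (.d (nat_lit 495) (nat_lit 463) (nat_lit 5582) (nat_lit 622) (nat_lit 6638))))) (.a (.f (nat_lit 558) (nat_lit 557) (nat_lit 1549) (.f (nat_lit 494) (nat_lit 493) (nat_lit 3565) (.d (nat_lit 462) (nat_lit 430) (nat_lit 4526) (nat_lit 591) (nat_lit 4558)))) (.f (nat_lit 494) (nat_lit 493) (nat_lit 3565) (.f (nat_lit 591) (nat_lit 623) (nat_lit 7662) (.d (nat_lit 462) (nat_lit 430) (nat_lit 4526) (nat_lit 495) (nat_lit 7630))))))) (.f (nat_lit 557) (nat_lit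 558) (nat_lit 1549) (.f (nat_lit 525) (nat_lit 556) (nat_lit 1548) (.d (nat_lit 493) (nat_lit 492) (nat_lit 3564) (nat_lit 494) (nat_lit 3565)))))))
noncomputable def s33273 : Cert := .r (nat_lit 3773962427896970704184654646293669315781209737804872389853947251532035341449977908754284998803857646238004396430961602225084426788527947694510569213583697783901973905408) (.p (nat_lit 592) (.a (.f (nat_lit 623) (nat_lit 591) (nat_lit 5615) (.f (nat_lit 624) (nat_lit 655) (nat_lit 5647) (.d (nat_lit 625) (nat_lit 593) (nat_lit 4592) (nat_lit 657) (nat_lit 4624)))) (.a (.f (nat_lit 624) (nat_lit 495) (nat_lit 7663) (.d (nat_lit 625) (nat_lit 593) (nat_lit 4592) (nat_lit 657) (nat_lit 4624))) (.a (.f (nat_lit 495) (nat_lit 463) (nat_lit 7631) (.f (nat_lit 591) (nat_lit 623) (nat_lit 5615) (.f (nat_lit 593) (nat_lit 625) (nat_lit 4592) (.f (nat_lit 494) (nat_lit 493) (nat_lit 493) (.f (nat_lit 559) (nat_lit 462) (nat_lit 7630) (.d (nat_lit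 558) (nat_lit 557) (nat_lit 557) (nat_lit 594) (nat_lit 3630))))))) (.f (nat_lit 624) (nat_lit 495) (nat_lit 7663) (.d (nat_lit 623) (nat_lit 591) (nat_lit 5615) (nat_lit 655) (nat_lit 5647)))))))
noncomputable def s33276 : Cert := .r (nat_lit 3773962427896970703980067733300160448905385381753147442840407123654343792107272198248276636528565486557800015660592592403154009030555443256434490679465860718068940931072) (.p (nat_lit 496) (.a s33018 (.a s33183 (.a s33156 (.a (.p (nat_lit 464) (.a (.d (nat_lit 432) (nat_lit 559) (nat_lit 5551) (nat_lit 561) (nat_lit 4528)) (.a (.d (nat_lit 561) (nat_lit 432) (nat_lit 4528) (nat_lit 593) (nat_lit 4560)) (.a (.d (nat_lit 559) (nat_lit 432) (nat_lit 5551) (nat_lit 591) (nat_lit 5583)) (.f (nat_lit 559) (nat_lit 591) (nat_lit 5583) (.f (nat_lit 561) (nat_lit 593) (nat_lit 4560) (.f (nat_lit 558) (nat_lit 557) (nat_lit 2573) (.f (nat_lit 463) (nat_lit 431) (nat_lit 7599) (.d (nat_lit 590) (nat_lit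 495) (nat_lit 5582) (nat_lit 589) (nat_lit 1581)))))))))) (.a s33273 (.a (.p (nat_lit 592) (.a (.f (nat_lit 593) (nat_lit 625) (nat_lit 4592) (.f (nat_lit 464) (nat_lit 561) (nat_lit 4560) (.f (nat_lit 432) (nat_lit 559) (nat_lit 5551) (.d (nat_lit 431) (nat_lit 399) (nat_lit 7567) (nat_lit 463) (nat_lit 7599))))) (.a (.f (nat_lit 624) (nat_lit 495) (nat_lit 7663) (.d (nat_lit 625) (nat_lit 593) (nat_lit 4592) (nat_lit 657) (nat_lit 4624))) (.d (nat_lit 495) (nat_lit 463) (nat_lit 7631) (nat_lit 624) (nat_lit 7663))))) (.p (nat_lit 592) (.a (.f (nat_lit 591) (nat_lit 623) (nat_lit 5615) (.f (nat_lit 464) (nat_lit 559) (nat_lit 5583) (.f (nat_lit 432) (nat_lit 561) (nat_lit 4528) (.d (nat_lit 431) (nat_lit 399) (nat_lit 7567) (nat_lit 463) (nat_lit 7599))))) (.a (.f (nat_lit 624) (nat_lit 495) (nat_lit 7663) (.d (nat_lit 623) (nat_lit 591) (nat_lit 5615) (nat_lit 655) (nat_lit 5647))) (.d (nat_lit 495) (nat_lit 463) (nat_lit 7631)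 (nat_lit 624) (nat_lit 7663))))))))))))
noncomputable def s33289 : Cert := .r (nat_lit 3773962427896970703980067733300160448905385381753147442840407123654343792107272198248276636528565486557800015660592592403154009030555443256434490679465860718068940931072) (.p (nat_lit 526) (.a (.f (nat_lit 557) (nat_lit 558) (nat_lit 1549) (.f (nat_lit 525) (nat_lit 556) (nat_lit 1548) (.d (nat_lit 493) (nat_lit 492) (nat_lit 3564) (nat_lit 494) (nat_lit 3565)))) (.a s32986 (.a (.f (nat_lit 493) (nat_lit 494) (nat_lit 3565) (.f (nat_lit 525) (nat_lit 492) (nat_lit 3564) (.f (nat_lit 524) (nat_lit 559) (nat_lit 524) (.d (nat_lit 556) (nat_lit 555) (nat_lit 1547) (nat_lit 557) (nat_lit 1548))))) (.a (.f (nat_lit 557) (nat_lit 558) (nat_lit 1549) (.f (nat_lit 525) (nat_lit 556) (nat_lit 1548) (.f (nat_lit 524) (nat_lit 559) (nat_lit 524) (.d (nat_lit 492) (nat_lit 491) (nat_lit 3563) (nat_lit 493) (nat_lit 3564))))) (.a (.p (nat_lit 495) (.a (.f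 (nat_lit 592) (nat_lit 624) (nat_lit 7663) (.d (nat_lit 463) (nat_lit 431) (nat_lit 4527) (nat_lit 559) (nat_lit 4559))) (.a (.f (nat_lit 463) (nat_lit 431) (nat_lit 4527) (.d (nat_lit 592) (nat_lit 496) (nat_lit 7631) (nat_lit 624) (nat_lit 7663))) (.f (nat_lit 493) (nat_lit 494) (nat_lit 3565) (.f (nat_lit 525) (nat_lit 492) (nat_lit 3564) (.d (nat_lit 524) (nat_lit 496) (nat_lit 2540) (nat_lit 559) (nat_lit 524))))))) (.f (nat_lit 557) (nat_lit 558) (nat_lit 1549) (.f (nat_lit 525) (nat_lit 556) (nat_lit 1548) (.f (nat_lit 524) (nat_lit 559) (nat_lit 524) (.f (nat_lit 495) (nat_lit 496) (nat_lit 2540) (.f (nat_lit 523) (nat_lit 494) (nat_lit 2539) (.d (nat_lit 491) (nat_lit 490) (nat_lit 3562) (nat_lit 492) (nat_lit 3563)))))))))))))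
noncomputable def s33291 : Cert := .r (nat_lit 3773962427896970703980067733300160448905385381753147442840407123654343792107272198248276636528565486557800015660592592403154009030555443256434490679465860718068940931072) (.p (nat_lit 526) (.a (.d (nat_lit 561) (nat_lit 525) (nat_lit 525) (nat_lit 562) (nat_lit 526)) (.a (.p (nat_lit 495) (.a (.f (nat_lit 494) (nat_lit 493) (nat_lit 3565) (.f (nat_lit 558) (nat_lit 557) (nat_lit 1549) (.d (nat_lit 463) (nat_lit 431) (nat_lit 5550) (nat_lit 590) (nat_lit 6606)))) (.a (.f (nat_lit 592) (nat_lit 624) (nat_lit 7663) (.d (nat_lit 463) (nat_lit 431) (nat_lit 4527) (nat_lit 559) (nat_lit 4559))) (.f (nat_lit 561) (nat_lit 562) (nat_lit 526) (.f (nat_lit 558) (nat_lit 557) (nat_lit 1549) (.f (nat_lit 494) (nat_lit 493) (nat_lit 3565) (.f (nat_lit 590) (nat_lit 622) (nat_lit 6638) (.d (nat_lit 589) (nat_lit 559) (nat_lit 1581) (nat_lit 621) (nat_lit 5613))))))))) (.f (nat_lit 557) (nat_lit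 558) (nat_lit 1549) (.f (nat_lit 525) (nat_lit 556) (nat_lit 1548) (.d (nat_lit 493) (nat_lit 492) (nat_lit 3564) (nat_lit 494) (nat_lit 3565)))))))
noncomputable def s33294 : Cert := .r (nat_lit 3773962427896970703980067733300160448905385381753147442840407123654343792107272198248276636528565486557800015660592592403154009030555443256434490679465860718068940931072) (.p (nat_lit 496) (.a (.p (nat_lit 526) (.a (.d (nat_lit 561) (nat_lit 525) (nat_lit 525) (nat_lit 562) (nat_lit 526)) (.a (.f (nat_lit 561) (nat_lit 562) (nat_lit 526) (.d (nat_lit 464) (nat_lit 432) (nat_lit 4528) (nat_lit 593) (nat_lit 4560))) (.f (nat_lit 493) (nat_lit 494) (nat_lit 3565) (.f (nat_lit 525) (nat_lit 492) (nat_lit 3564) (.f (nat_lit 559) (nat_lit 524) (nat_lit 524) (.d (nat_lit 464) (nat_lit 432) (nat_lit 5551) (nat_lit 591) (nat_lit 5583)))))))) (.a s33183 (.a (.p (nat_lit 592) (.a (.f (nat_lit 623) (nat_lit 591) (nat_lit 5615) (.f (nat_lit 624) (nat_lit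 655) (nat_lit 5647) (.d (nat_lit 625) (nat_lit 593) (nat_lit 4592) (nat_lit 657) (nat_lit 4624)))) (.a (.f (nat_lit 624) (nat_lit 495) (nat_lit 7663) (.d (nat_lit 625) (nat_lit 593) (nat_lit 4592) (nat_lit 657) (nat_lit 4624))) (.f (nat_lit 591) (nat_lit 623) (nat_lit 5615) (.f (nat_lit 464) (nat_lit 559) (nat_lit 5583) (.f (nat_lit 431) (nat_lit 463) (nat_lit 7599) (.f (nat_lit 432) (nat_lit 399) (nat_lit 7567) (.d (nat_lit 433) (nat_lit 401) (nat_lit 6544) (nat_lit 465) (nat_lit 6576))))))))) (.a (.p (nat_lit 592) (.a (.f (nat_lit 623) (nat_lit 591) (nat_lit 5615) (.f (nat_lit 624) (nat_lit 655) (nat_lit 5647) (.d (nat_lit 625) (nat_lit 593) (nat_lit 4592) (nat_lit 657) (nat_lit 4624)))) (.a (.f (nat_lit 624) (nat_lit 495) (nat_lit 7663) (.d (nat_lit 625) (nat_lit 593) (nat_lit 4592) (nat_lit 657) (nat_lit 4624))) (.a (.f (nat_lit 495) (nat_lit 463) (nat_lit 7631) (.f (nat_lit 494) (nat_lit 493) (nat_lit 493) (.f (nat_lit 591)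 (nat_lit 623) (nat_lit 5615) (.f (nat_lit 593) (nat_lit 625) (nat_lit 4592) (.f (nat_lit 559) (nat_lit 462) (nat_lit 7630) (.f (nat_lit 590) (nat_lit 622) (nat_lit 5614) (.d (nat_lit 561) (nat_lit 562) (nat_lit 2606) (nat_lit 589) (nat_lit 2605)))))))) (.f (nat_lit 624) (nat_lit 495) (nat_lit 7663) (.d (nat_lit 623) (nat_lit 591) (nat_lit 5615) (nat_lit 655) (nat_lit 5647))))))) (.a (.p (nat_lit 592) (.a (.f (nat_lit 593) (nat_lit 625) (nat_lit 4592) (.f (nat_lit 464) (nat_lit 561) (nat_lit 4560) (.f (nat_lit 432) (nat_lit 559) (nat_lit 5551) (.d (nat_lit 431) (nat_lit 399) (nat_lit 7567) (nat_lit 463) (nat_lit 7599))))) (.a (.f (nat_lit 624) (nat_lit 495) (nat_lit 7663) (.d (nat_lit 625) (nat_lit 593) (nat_lit 4592) (nat_lit 657) (nat_lit 4624))) (.d (nat_lit 495) (nat_lit 463) (nat_lit 7631) (nat_lit 624) (nat_lit 7663))))) (.p (nat_lit 592) (.a (.f (nat_lit 591) (nat_lit 623) (nat_lit 5615) (.f (nat_lit 464) (nat_lit 559) (nat_lit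 5583) (.f (nat_lit 432) (nat_lit 561) (nat_lit 4528) (.d (nat_lit 431) (nat_lit 399) (nat_lit 7567) (nat_lit 463) (nat_lit 7599))))) (.a (.f (nat_lit 624) (nat_lit 495) (nat_lit 7663) (.d (nat_lit 623) (nat_lit 591) (nat_lit 5615) (nat_lit 655) (nat_lit 5647))) (.d (nat_lit 495) (nat_lit 463) (nat_lit 7631) (nat_lit 624) (nat_lit 7663)))))))))))
noncomputable def s33296 : Cert := .r (nat_lit 3773962427896970703980067733300160448905385381753147442840407123654343792107272198248276636528565486557800015660592592403154009030555443256434490679465860718068940931072) (.p (nat_lit 526) (.a (.d (nat_lit 561) (nat_lit 525) (nat_lit 525) (nat_lit 562) (nat_lit 526)) (.a (.p (nat_lit 559) (.a (.f (nat_lit 558) (nat_lit 557) (nat_lit 1549) (.f (nat_lit 494) (nat_lit 493) (nat_lit 3565) (.d (nat_lit 462) (nat_lit 430) (nat_lit 4526) (nat_lit 591) (nat_lit 4558)))) (.a (.f (nat_lit 561) (nat_lit 562) (nat_lit 526) (.f (nat_lit 558) (nat_lit 557)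 (nat_lit 1549) (.f (nat_lit 593) (nat_lit 594) (nat_lit 558) (.d (nat_lit 496) (nat_lit 464) (nat_lit 4560) (nat_lit 625) (nat_lit 7664))))) (.f (nat_lit 494) (nat_lit 493) (nat_lit 3565) (.f (nat_lit 591) (nat_lit 623) (nat_lit 7662) (.d (nat_lit 462) (nat_lit 430) (nat_lit 4526) (nat_lit 495) (nat_lit 7630))))))) (.f (nat_lit 557) (nat_lit 558) (nat_lit 1549) (.f (nat_lit 525) (nat_lit 556) (nat_lit 1548) (.d (nat_lit 493) (nat_lit 492) (nat_lit 3564) (nat_lit 494) (nat_lit 3565)))))))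
noncomputable def s33300 : Cert := .r (nat_lit 3773962428116644229104247244179581274475989964705769372444992896754966622801209580117001630196487395058966561419866074367681396487743346872425423281468229623384622759936) (.p (nat_lit 495) (.a (.f (nat_lit 592) (nat_lit 624) (nat_lit 7663) (.d (nat_lit 463) (nat_lit 431) (nat_lit 4527) (nat_lit 559) (nat_lit 4559))) (.a (.f (nat_lit 463) (nat_lit 431) (nat_lit 4527) (.d (nat_lit 592) (nat_lit 496) (nat_lit 7631) (nat_lit 624) (nat_lit 7663))) (.a (.f (nat_lit 558) (nat_lit 557) (nat_lit 1549) (.f (nat_lit 463) (nat_lit 431) (nat_lit 4527) (.d (nat_lit 590) (nat_lit 559) (nat_lit 5582) (nat_lit 622) (nat_lit 6638)))) (.f (nat_lit 561) (nat_lit 562) (nat_lit 526) (.f (nat_lit 558) (nat_lit 557) (nat_lit 1549) (.f (nat_lit 592) (nat_lit 624) (nat_lit 7663) (.f (nat_lit 590) (nat_lit 622) (nat_lit 6638) (.d (nat_lit 589) (nat_lit 559) (nat_lit 1581) (nat_lit 591) (nat_lit 2605))))))))))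
noncomputable def s33301 : Cert := .r (nat_lit 3773962427896970703980067733300160448905385381753147442840407123654343792107272198248276636528565486557800015660592592403154009030555443256434490679465860718068940931072) (.p (nat_lit 526) (.a (.d (nat_lit 561) (nat_lit 525) (nat_lit 525) (nat_lit 562) (nat_lit 526)) (.a s33300 (.f (nat_lit 557) (nat_lit 558) (nat_lit 1549) (.f (nat_lit 525) (nat_lit 556) (nat_lit 1548) (.f (nat_lit 524) (nat_lit 559) (nat_lit 524) (.d (nat_lit 492) (nat_lit 491) (nat_lit 3563) (nat_lit 493) (nat_lit 3564))))))))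
noncomputable def s33302 : Cert := .r (nat_lit 3773962427896970703980067733300160448905385381753147442840407123654343792107272198248276636528565486557800015660592592403154009030555443256434490679465860718068940931072) (.p (nat_lit 526) (.a (.d (nat_lit 561) (nat_lit 525) (nat_lit 525) (nat_lit 562) (nat_lit 526)) (.a s33300 (.f (nat_lit 557) (nat_lit 558) (nat_lit 1549) (.f (nat_lit 525) (nat_lit 556) (nat_lit 1548) (.f (nat_lit 524) (nat_lit 559) (nat_lit 524) (.f (nat_lit 495) (nat_lit 496) (nat_lit 2540) (.f (nat_lit 523) (nat_lit 494) (nat_lit 2539) (.d (nat_lit 491) (nat_lit 490) (nat_lit 3562) (nat_lit 492) (nat_lit 3563))))))))))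
noncomputable def s33335 : Cert := .r (nat_lit 11321887277100706358214817873517856579598018656680784440383648177944346455503695138683080099548039204638403674203573318273640403376029221289575493978326514994736367927296) (.p (nat_lit 496) (.a (.d (nat_lit 464) (nat_lit 432) (nat_lit 4528) (nat_lit 593) (nat_lit 4560)) (.a (.p (nat_lit 497) (.a (.f (nat_lit 465) (nat_lit 433) (nat_lit 5552) (.f (nat_lit 593) (nat_lit 625) (nat_lit 7664) (.d (nat_lit 466) (nat_lit 434) (nat_lit 6577) (nat_lit 498) (nat_lit 6609)))) (.a (.f (nat_lit 465) (nat_lit 433) (nat_lit 5552) (.f (nat_lit 466) (nat_lit 434) (nat_lit 6577) (.f (nat_lit 495) (nat_lit 494) (nat_lit 2510) (.d (nat_lit 467) (nat_lit 468) (nat_lit 1488) (nat_lit 498) (nat_lit 2511))))) (.a (.f (nat_lit 465) (nat_lit 433) (nat_lit 5552) (.f (nat_lit 593) (nat_lit 625) (nat_lit 7664) (.d (nat_lit 594) (nat_lit 562) (nat_lit 4561) (nat_lit 626) (nat_lit 4593)))) (.f (nat_lit 593) (nat_lit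 625) (nat_lit 7664) (.f (nat_lit 594) (nat_lit 626) (nat_lit 4593) (.f (nat_lit 559) (nat_lit 558) (nat_lit 558) (.d (nat_lit 595) (nat_lit 562) (nat_lit 559) (nat_lit 596) (nat_lit 3632))))))))) (.f (nat_lit 464) (nat_lit 432) (nat_lit 4528) (.f (nat_lit 465) (nat_lit 433) (nat_lit 6576) (.f (nat_lit 463) (nat_lit 431) (nat_lit 7599) (.f (nat_lit 559) (nat_lit 591) (nat_lit 5583) (.f (nat_lit 558) (nat_lit 557) (nat_lit 2573) (.f (nat_lit 526) (nat_lit 525) (nat_lit 3597) (.f (nat_lit 590) (nat_lit 589) (nat_lit 1581) (.f (nat_lit 494) (nat_lit 495) (nat_lit 6606) (.d (nat_lit 493) (nat_lit 461) (nat_lit 7629) (nat_lit 462) (nat_lit 1485)))))))))))))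
noncomputable def s33362 : Cert := .r (nat_lit 3773962427896970703980067733300160448905385381753147442840407123654343792107272198248276636528565486557800015660592592403154009030555443256434490679465860718068940931072) (.p (nat_lit 526) (.a (.d (nat_lit 561) (nat_lit 525) (nat_lit 525) (nat_lit 562) (nat_lit 526)) (.a (.f (nat_lit 561) (nat_lit 562) (nat_lit 526) (.f (nat_lit 497) (nat_lit 498) (nat_lit 2542) (.f (nat_lit 465) (nat_lit 433) (nat_lit 5552) (.f (nat_lit 464) (nat_lit 432) (nat_lit 7600) (.f (nat_lit 593) (nat_lit 496) (nat_lit 4560) (.f (nat_lit 558) (nat_lit 557) (nat_lit 1549) (.d (nat_lit 594) (nat_lit 559) (nat_lit 558) (nat_lit 626) (nat_lit 4593)))))))) (.f (nat_lit 557) (nat_lit 558) (nat_lit 1549) (.f (nat_lit 525) (nat_lit 556) (nat_lit 1548) (.f (nat_lit 524) (nat_lit 559) (nat_lit 524) (.d (nat_lit 492) (nat_lit 491) (nat_lit 3563) (nat_lit 493) (nat_lit 3564))))))))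
noncomputable def s33377 : Cert := .r (nat_lit 3773962427896970703980067733300160448905385381753147442840407123654343792107272198248276636528565486557800015660592592403154009030555443256434490679465860718068940931072) (.p (nat_lit 496) (.a s33018 (.a s33183 (.a s33273 (.a (.p (nat_lit 464) (.a (.d (nat_lit 432) (nat_lit 559) (nat_lit 5551) (nat_lit 561) (nat_lit 4528)) (.a (.d (nat_lit 561) (nat_lit 432) (nat_lit 4528) (nat_lit 593) (nat_lit 4560)) (.a (.d (nat_lit 559) (nat_lit 432) (nat_lit 5551) (nat_lit 591) (nat_lit 5583)) (.f (nat_lit 559) (nat_lit 591) (nat_lit 5583) (.f (nat_lit 561) (nat_lit 593) (nat_lit 4560) (.f (nat_lit 558) (nat_lit 557) (nat_lit 2573) (.f (nat_lit 463) (nat_lit 431) (nat_lit 7599) (.d (nat_lit 590) (nat_lit 495) (nat_lit 5582) (nat_lit 589) (nat_lit 1581)))))))))) (.a (.p (nat_lit 592) (.a (.f (nat_lit 593) (nat_lit 625) (nat_lit 4592) (.f (nat_lit 464) (nat_lit 561) (nat_lit 4560) (.f (nat_lit 432)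 (nat_lit 559) (nat_lit 5551) (.d (nat_lit 431) (nat_lit 399) (nat_lit 7567) (nat_lit 463) (nat_lit 7599))))) (.a (.f (nat_lit 624) (nat_lit 495) (nat_lit 7663) (.d (nat_lit 625) (nat_lit 593) (nat_lit 4592) (nat_lit 657) (nat_lit 4624))) (.d (nat_lit 495) (nat_lit 463) (nat_lit 7631) (nat_lit 624) (nat_lit 7663))))) (.p (nat_lit 592) (.a (.f (nat_lit 591) (nat_lit 623) (nat_lit 5615) (.f (nat_lit 464) (nat_lit 559) (nat_lit 5583) (.f (nat_lit 432) (nat_lit 561) (nat_lit 4528) (.d (nat_lit 431) (nat_lit 399) (nat_lit 7567) (nat_lit 463) (nat_lit 7599))))) (.a (.f (nat_lit 624) (nat_lit 495) (nat_lit 7663) (.d (nat_lit 623) (nat_lit 591) (nat_lit 5615) (nat_lit 655) (nat_lit 5647))) (.d (nat_lit 495) (nat_lit 463) (nat_lit 7631) (nat_lit 624) (nat_lit 7663)))))))))))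
noncomputable def s33379 : Cert := .r (nat_lit 3773962427896970703980067733300160448905385381753147442840407123654343792107272198248276636528565486557800015660592592403154009030555443256434490679465860718068940931072) (.p (nat_lit 526) (.a (.d (nat_lit 561) (nat_lit 525) (nat_lit 525) (nat_lit 562) (nat_lit 526)) (.a (.p (nat_lit 496) (.a (.f (nat_lit 561) (nat_lit 562) (nat_lit 526) (.d (nat_lit 464) (nat_lit 432) (nat_lit 4528) (nat_lit 593) (nat_lit 4560))) (.f (nat_lit 497) (nat_lit 498) (nat_lit 2542) (.f (nat_lit 592) (nat_lit 624) (nat_lit 6640) (.f (nat_lit 495) (nat_lit 463) (nat_lit 7631) (.f (nat_lit 494) (nat_lit 493) (nat_lit 493) (.f (nat_lit 591) (nat_lit 623) (nat_lit 5615) (.d (nat_lit 462) (nat_lit 461) (nat_lit 3533) (nat_lit 559) (nat_lit 7630))))))))) (.f (nat_lit 493) (nat_lit 494) (nat_lit 3565) (.f (nat_lit 525) (nat_lit 492) (nat_lit 3564) (.f (nat_lit 524) (nat_lit 559) (nat_lit 524) (.d (nat_lit 556)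 (nat_lit 555) (nat_lit 1547) (nat_lit 557) (nat_lit 1548))))))))
noncomputable def s33380 : Cert := .r (nat_lit 3773962427896970703980067733300160448905385381753147442840407123654343792107272198248276636528565486557800015660592592403154009030555443256434490679465860718068940931072) (.p (nat_lit 526) (.a (.d (nat_lit 561) (nat_lit 525) (nat_lit 525) (nat_lit 562) (nat_lit 526)) (.a (.p (nat_lit 496) (.a (.f (nat_lit 561) (nat_lit 562) (nat_lit 526) (.d (nat_lit 464) (nat_lit 432) (nat_lit 4528) (nat_lit 593) (nat_lit 4560))) (.f (nat_lit 497) (nat_lit 498) (nat_lit 2542) (.f (nat_lit 592) (nat_lit 624) (nat_lit 6640) (.f (nat_lit 495) (nat_lit 463) (nat_lit 7631) (.f (nat_lit 494) (nat_lit 493) (nat_lit 493) (.f (nat_lit 591) (nat_lit 623) (nat_lit 5615) (.d (nat_lit 462) (nat_lit 461) (nat_lit 3533) (nat_lit 559) (nat_lit 7630))))))))) (.p (nat_lit 495) (.a (.f (nat_lit 592) (nat_lit 624) (nat_lit 7663) (.d (nat_lit 463) (nat_lit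 431) (nat_lit 4527) (nat_lit 559) (nat_lit 4559))) (.a (.f (nat_lit 463) (nat_lit 431) (nat_lit 4527) (.d (nat_lit 592) (nat_lit 496) (nat_lit 7631) (nat_lit 624) (nat_lit 7663))) (.f (nat_lit 493) (nat_lit 494) (nat_lit 3565) (.f (nat_lit 525) (nat_lit 492) (nat_lit 3564) (.d (nat_lit 524) (nat_lit 496) (nat_lit 2540) (nat_lit 559) (nat_lit 524))))))))))
noncomputable def s33382 : Cert := .r (nat_lit 3773962427896970703980067733300160448905385381753147442840407123654343792107272198248276636528565486557800015660592592403154009030555443256434490679465860718068940931072) (.p (nat_lit 526) (.a (.d (nat_lit 561) (nat_lit 525) (nat_lit 525) (nat_lit 562) (nat_lit 526)) (.a (.f (nat_lit 561) (nat_lit 562) (nat_lit 526) (.f (nat_lit 497) (nat_lit 498) (nat_lit 2542) (.d (nat_lit 465) (nat_lit 433) (nat_lit 5552) (nat_lit 592) (nat_lit 5584)))) (.p (nat_lit 495) (.a (.f (nat_lit 592) (nat_lit 624) (nat_lit 7663) (.d (nat_lit 463) (nat_lit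 431) (nat_lit 4527) (nat_lit 559) (nat_lit 4559))) (.a (.f (nat_lit 558) (nat_lit 557) (nat_lit 1549) (.f (nat_lit 463) (nat_lit 431) (nat_lit 4527) (.d (nat_lit 590) (nat_lit 494) (nat_lit 6606) (nat_lit 622) (nat_lit 6638)))) (.f (nat_lit 557) (nat_lit 558) (nat_lit 1549) (.f (nat_lit 525) (nat_lit 556) (nat_lit 1548) (.f (nat_lit 524) (nat_lit 559) (nat_lit 524) (.f (nat_lit 523) (nat_lit 494) (nat_lit 2539) (.d (nat_lit 491) (nat_lit 490) (nat_lit 3562) (nat_lit 492) (nat_lit 3563))))))))))))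
noncomputable def s33383 : Cert := .r (nat_lit 3773962427896970703980067733300160448905385381753147442840407123654343792107272198248276636528565486557800015660592592403154009030555443256434490679465860718068940931072) (.p (nat_lit 526) (.a (.f (nat_lit 497) (nat_lit 498) (nat_lit 2542) (.f (nat_lit 496) (nat_lit 525) (nat_lit 2541) (.d (nat_lit 465) (nat_lit 433) (nat_lit 5552) (nat_lit 592) (nat_lit 6608)))) (.a (.p (nat_lit 495) (.a (.f (nat_lit 592) (nat_lit 624) (nat_lit 7663) (.d (nat_lit 463) (nat_lit 431) (nat_lit 4527) (nat_lit 559) (nat_lit 4559))) (.a (.f (nat_lit 558) (nat_lit 557) (nat_lit 1549) (.f (nat_lit 463) (nat_lit 431) (nat_lit 4527) (.d (nat_lit 590) (nat_lit 494) (nat_lit 6606) (nat_lit 622) (nat_lit 6638)))) (.f (nat_lit 557) (nat_lit 558) (nat_lit 1549) (.f (nat_lit 525) (nat_lit 556) (nat_lit 1548) (.f (nat_lit 524) (nat_lit 559) (nat_lit 524) (.f (nat_lit 523) (nat_lit 494) (nat_lit 2539) (.d (nat_lit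 491) (nat_lit 490) (nat_lit 3562) (nat_lit 492) (nat_lit 3563))))))))) (.a (.f (nat_lit 497) (nat_lit 498) (nat_lit 2542) (.f (nat_lit 592) (nat_lit 624) (nat_lit 6640) (.d (nat_lit 465) (nat_lit 433) (nat_lit 5552) (nat_lit 496) (nat_lit 6608)))) (.f (nat_lit 557) (nat_lit 558) (nat_lit 1549) (.f (nat_lit 525) (nat_lit 556) (nat_lit 1548) (.f (nat_lit 524) (nat_lit 559) (nat_lit 524) (.f (nat_lit 495) (nat_lit 496) (nat_lit 2540) (.f (nat_lit 523) (nat_lit 494) (nat_lit 2539) (.d (nat_lit 491) (nat_lit 490) (nat_lit 3562) (nat_lit 492) (nat_lit 3563)))))))))))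
noncomputable def s33384 : Cert := .r (nat_lit 3773962427896970703980067733300160448905385381753147442840407123654343792107272198248276636528565486557800015660592592403154009030555443256434490679465860718068940931072) (.p (nat_lit 526) (.a (.d (nat_lit 561) (nat_lit 525) (nat_lit 525) (nat_lit 562) (nat_lit 526)) (.a (.f (nat_lit 561) (nat_lit 562) (nat_lit 526) (.f (nat_lit 497) (nat_lit 498) (nat_lit 2542) (.f (nat_lit 465) (nat_lit 433) (nat_lit 5552) (.f (nat_lit 464) (nat_lit 432) (nat_lit 7600) (.f (nat_lit 593) (nat_lit 496) (nat_lit 4560) (.f (nat_lit 558) (nat_lit 557) (nat_lit 1549) (.d (nat_lit 594) (nat_lit 559) (nat_lit 558) (nat_lit 626) (nat_lit 4593)))))))) (.f (nat_lit 557) (nat_lit 558) (nat_lit 1549) (.f (nat_lit 525) (nat_lit 556) (nat_lit 1548) (.f (nat_lit 524) (nat_lit 559) (nat_lit 524) (.f (nat_lit 495) (nat_lit 496) (nat_lit 2540) (.f (nat_lit 523) (nat_lit 494) (nat_lit 2539) (.d (nat_lit 491) (nat_lit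 490) (nat_lit 3562) (nat_lit 492) (nat_lit 3563))))))))))
noncomputable def s33404 : Cert := .r (nat_lit 7547924852279165006382437118516605422432746148367793906034522133454105391796957707608970098920964756457344060713547493017730654262049437533166216795129493082753038548992) (.p (nat_lit 464) (.a (.f (nat_lit 465) (nat_lit 432) (nat_lit 7600) (.f (nat_lit 466) (nat_lit 434) (nat_lit 6577) (.f (nat_lit 498) (nat_lit 593) (nat_lit 6609) (.d (nat_lit 463) (nat_lit 462) (nat_lit 462) (nat_lit 499) (nat_lit 463))))) (.a (.f (nat_lit 465) (nat_lit 432) (nat_lit 7600) (.f (nat_lit 466) (nat_lit 434) (nat_lit 6577) (.f (nat_lit 593) (nat_lit 498) (nat_lit 6609) (.d (nat_lit 594) (nat_lit 562) (nat_lit 4561) (nat_lit 626) (nat_lit 4593))))) (.a (.f (nat_lit 593) (nat_lit 496) (nat_lit 7632) (.f (nat_lit 594) (nat_lit 626) (nat_lit 4593) (.f (nat_lit 562) (nat_lit 465) (nat_lit 4561) (.f (nat_lit 592) (nat_lit 624) (nat_lit 5616) (.d (nat_lit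 563) (nat_lit 564) (nat_lit 1584) (nat_lit 591) (nat_lit 2607)))))) (.a (.d (nat_lit 432) (nat_lit 465) (nat_lit 7600) (nat_lit 496) (nat_lit 4528)) (.d (nat_lit 496) (nat_lit 432) (nat_lit 4528) (nat_lit 593) (nat_lit 7632)))))))
noncomputable def s33405 : Cert := .r (nat_lit 7547924852279165006382437118516605422432746148367793906034522133454105391796957707608970098920964756457344060713547493017730654262049437533166216795129493082753038548992) (.p (nat_lit 464) (.a (.f (nat_lit 465) (nat_lit 432) (nat_lit 7600) (.f (nat_lit 466) (nat_lit 434) (nat_lit 6577) (.f (nat_lit 498) (nat_lit 593) (nat_lit 6609) (.d (nat_lit 463) (nat_lit 462) (nat_lit 462) (nat_lit 499) (nat_lit 463))))) (.a (.f (nat_lit 465) (nat_lit 432) (nat_lit 7600) (.f (nat_lit 466) (nat_lit 434) (nat_lit 6577) (.f (nat_lit 593) (nat_lit 498) (nat_lit 6609) (.d (nat_lit 594) (nat_lit 562) (nat_lit 4561) (nat_lit 626) (nat_lit 4593))))) (.a (.f (nat_lit 593) (nat_lit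 496) (nat_lit 7632) (.f (nat_lit 594) (nat_lit 626) (nat_lit 4593) (.f (nat_lit 465) (nat_lit 562) (nat_lit 4561) (.d (nat_lit 466) (nat_lit 434) (nat_lit 6577) (nat_lit 498) (nat_lit 6609))))) (.a (.d (nat_lit 432) (nat_lit 465) (nat_lit 7600) (nat_lit 496) (nat_lit 4528)) (.d (nat_lit 496) (nat_lit 432) (nat_lit 4528) (nat_lit 593) (nat_lit 7632)))))))
noncomputable def s33422 : Cert := .r (nat_lit 7547924852279165006382437118516605422432746148367793906034522133454105391796957707608970098920964756457344060713547493017730654262049437533166216795129493082753038548992) (.p (nat_lit 465) (.a (.d (nat_lit 560) (nat_lit 433) (nat_lit 5552) (nat_lit 592) (nat_lit 5584)) (.a (.f (nat_lit 434) (nat_lit 466) (nat_lit 6577) (.f (nat_lit 433) (nat_lit 402) (nat_lit 6545) (.d (nat_lit 432) (nat_lit 400) (nat_lit 7568) (nat_lit 464) (nat_lit 7600)))) (.f (nat_lit 560) (nat_lit 592) (nat_lit 5584) (.f (nat_lit 562) (nat_lit 594) (nat_lit 4561)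 (.f (nat_lit 466) (nat_lit 434) (nat_lit 6577) (.f (nat_lit 563) (nat_lit 564) (nat_lit 3600) (.f (nat_lit 531) (nat_lit 532) (nat_lit 2576) (.f (nat_lit 530) (nat_lit 559) (nat_lit 1551) (.d (nat_lit 595) (nat_lit 498) (nat_lit 4562) (nat_lit 596) (nat_lit 560)))))))))))
noncomputable def s33516 : Cert := .r (nat_lit 11321887277100706358214817873517856579598018656680784440383648177944346455503695138683080099548039204638403674203573318273640403376029221289575493978326514994736367927296) (.p (nat_lit 530) (.a (.d (nat_lit 531) (nat_lit 532) (nat_lit 1552) (nat_lit 559) (nat_lit 1551)) (.a (.p (nat_lit 592) (.a (.f (nat_lit 624) (nat_lit 656) (nat_lit 6672) (.f (nat_lit 625) (nat_lit 657) (nat_lit 4624) (.f (nat_lit 593) (nat_lit 498) (nat_lit 6641) (.f (nat_lit 626) (nat_lit 658) (nat_lit 4625) (.d (nat_lit 591) (nat_lit 590) (nat_lit 590) (nat_lit 627) (nat_lit 3663)))))) (.a (.f (nat_lit 624) (nat_lit 656) (nat_lit 6672) (.f (nat_lit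 625) (nat_lit 657) (nat_lit 4624) (.f (nat_lit 593) (nat_lit 498) (nat_lit 6641) (.f (nat_lit 623) (nat_lit 655) (nat_lit 5647) (.d (nat_lit 594) (nat_lit 595) (nat_lit 1615) (nat_lit 622) (nat_lit 2638)))))) (.a (.f (nat_lit 531) (nat_lit 532) (nat_lit 1552) (.f (nat_lit 563) (nat_lit 564) (nat_lit 528) (.f (nat_lit 562) (nat_lit 591) (nat_lit 1583) (.f (nat_lit 595) (nat_lit 596) (nat_lit 560) (.d (nat_lit 498) (nat_lit 466) (nat_lit 4562) (nat_lit 627) (nat_lit 7666)))))) (.f (nat_lit 624) (nat_lit 656) (nat_lit 6672) (.f (nat_lit 531) (nat_lit 532) (nat_lit 1552) (.f (nat_lit 625) (nat_lit 657) (nat_lit 4624) (.f (nat_lit 623) (nat_lit 655) (nat_lit 5647) (.f (nat_lit 563) (nat_lit 564) (nat_lit 528) (.f (nat_lit 591) (nat_lit 562) (nat_lit 1583) (.d (nat_lit 590) (nat_lit 589) (nat_lit 589) (nat_lit 626) (nat_lit 3662)))))))))))) (.p (nat_lit 562) (.a (.f (nat_lit 563) (nat_lit 564) (nat_lit 3600) (.f (nat_lit 595) (nat_lit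 596) (nat_lit 560) (.f (nat_lit 498) (nat_lit 466) (nat_lit 4562) (.d (nat_lit 627) (nat_lit 594) (nat_lit 4594) (nat_lit 659) (nat_lit 7698))))) (.a (.f (nat_lit 559) (nat_lit 558) (nat_lit 2574) (.f (nat_lit 563) (nat_lit 564) (nat_lit 3600) (.d (nat_lit 591) (nat_lit 590) (nat_lit 1582) (nat_lit 592) (nat_lit 1583)))) (.f (nat_lit 559) (nat_lit 558) (nat_lit 2574) (.f (nat_lit 594) (nat_lit 595) (nat_lit 559) (.f (nat_lit 626) (nat_lit 658) (nat_lit 7697) (.f (nat_lit 625) (nat_lit 657) (nat_lit 5649) (.f (nat_lit 498) (nat_lit 593) (nat_lit 6641) (.f (nat_lit 466) (nat_lit 434) (nat_lit 5553) (.d (nat_lit 467) (nat_lit 435) (nat_lit 6578) (nat_lit 499) (nat_lit 6610))))))))))))))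
noncomputable def s33523 : Cert := .r (nat_lit 11321887277100706358214817873517856579598018656680784440383648177944346455503695138683080099548039204638403674203573318273640403376029221289575493978326514994736367927296) (.p (nat_lit 496) (.a (.d (nat_lit 464) (nat_lit 432) (nat_lit 4528) (nat_lit 593) (nat_lit 4560)) (.a (.p (nat_lit 592) (.a (.f (nat_lit 593) (nat_lit 625) (nat_lit 4592) (.f (nat_lit 591) (nat_lit 623) (nat_lit 5615) (.d (nat_lit 562) (nat_lit 563) (nat_lit 1583) (nat_lit 590) (nat_lit 2606)))) (.a (.f (nat_lit 625) (nat_lit 593) (nat_lit 4592) (.d (nat_lit 624) (nat_lit 656) (nat_lit 6672) (nat_lit 657) (nat_lit 4624))) (.f (nat_lit 624) (nat_lit 656) (nat_lit 6672) (.d (nat_lit 623) (nat_lit 591) (nat_lit 5615) (nat_lit 655) (nat_lit 5647)))))) (.f (nat_lit 464) (nat_lit 432) (nat_lit 4528) (.f (nat_lit 463) (nat_lit 431) (nat_lit 7599) (.f (nat_lit 495) (nat_lit 592) (nat_lit 7631) (.f (nat_lit 465) (nat_lit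 433) (nat_lit 6576) (.d (nat_lit 466) (nat_lit 467) (nat_lit 1487) (nat_lit 494) (nat_lit 1486)))))))))
noncomputable def s33525 : Cert := .r (nat_lit 13208868489511477034335595164011991025056479266889004654571751328067158536699769564726143462136868588409137861718955240723525695690991617605856211104042863016561065590784) (.p (nat_lit 562) (.a (.f (nat_lit 530) (nat_lit 531) (nat_lit 1551) (.f (nat_lit 594) (nat_lit 595) (nat_lit 559) (.f (nat_lit 626) (nat_lit 658) (nat_lit 7697) (.f (nat_lit 625) (nat_lit 657) (nat_lit 5649) (.f (nat_lit 498) (nat_lit 593) (nat_lit 6641) (.f (nat_lit 466) (nat_lit 434) (nat_lit 5553) (.d (nat_lit 467) (nat_lit 435) (nat_lit 6578) (nat_lit 499) (nat_lit 6610)))))))) (.a (.f (nat_lit 563) (nat_lit 564) (nat_lit 3600) (.d (nat_lit 595) (nat_lit 594) (nat_lit 559) (nat_lit 596) (nat_lit 560))) (.f (nat_lit 531) (nat_lit 530) (nat_lit 1551) (.d (nat_lit 563) (nat_lit 532) (nat_lit 2576) (nat_lit 564)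 (nat_lit 3600))))))
noncomputable def s33526 : Cert := .r (nat_lit 11321887277100706358214817873517856579598018656680784440383648177944346455503695138683080099548039204638403674203573318273640403376029221289575493978326514994736367927296) (.p (nat_lit 559) (.a (.f (nat_lit 558) (nat_lit 557) (nat_lit 2573) (.f (nat_lit 593) (nat_lit 594) (nat_lit 558) (.d (nat_lit 496) (nat_lit 464) (nat_lit 4560) (nat_lit 625) (nat_lit 7664)))) (.a (.f (nat_lit 558) (nat_lit 557) (nat_lit 2573) (.f (nat_lit 590) (nat_lit 589) (nat_lit 1581) (.f (nat_lit 526) (nat_lit 525) (nat_lit 3597) (.f (nat_lit 591) (nat_lit 562) (nat_lit 1582) (.d (nat_lit 494) (nat_lit 462) (nat_lit 4558) (nat_lit 623) (nat_lit 4590)))))) s33525)))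
noncomputable def s33527 : Cert := .r (nat_lit 11321887277100706358214817873517856579598018656680784440383648177944346455503695138683080099548039204638403674203573318273640403376029221289575493978326514994736367927296) (.p (nat_lit 559) (.a (.f (nat_lit 558) (nat_lit 557) (nat_lit 2573) (.f (nat_lit 593) (nat_lit 594) (nat_lit 558) (.d (nat_lit 496) (nat_lit 464) (nat_lit 4560) (nat_lit 625) (nat_lit 7664)))) (.a (.d (nat_lit 530) (nat_lit 531) (nat_lit 1551) (nat_lit 558) (nat_lit 2574)) s33525)))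
noncomputable def s33528 : Cert := .r (nat_lit 11321887277100706358214817873517856579598018656680784440383648177944346455503695138683080099548039204638403674203573318273640403376029221289575493978326514994736367927296) (.p (nat_lit 496) (.a (.d (nat_lit 464) (nat_lit 432) (nat_lit 4528) (nat_lit 593) (nat_lit 4560)) (.a (.p (nat_lit 592) (.a (.f (nat_lit 625) (nat_lit 593) (nat_lit 4592) (.d (nat_lit 624) (nat_lit 656) (nat_lit 6672) (nat_lit 657) (nat_lit 4624))) (.a (.f (nat_lit 593) (nat_lit 625) (nat_lit 4592) (.f (nat_lit 591) (nat_lit 623) (nat_lit 5615) (.f (nat_lit 590) (nat_lit 589) (nat_lit 2605) (.f (nat_lit 558) (nat_lit 557) (nat_lit 3629) (.d (nat_lit 559) (nat_lit 530) (nat_lit 2574) (nat_lit 594) (nat_lit 558)))))) (.f (nat_lit 624) (nat_lit 656) (nat_lit 6672) (.d (nat_lit 623) (nat_lit 591) (nat_lit 5615) (nat_lit 655) (nat_lit 5647)))))) (.f (nat_lit 464) (nat_lit 432) (nat_lit 4528) (.f (nat_lit 465) (nat_lit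 433) (nat_lit 6576) (.f (nat_lit 463) (nat_lit 431) (nat_lit 7599) (.f (nat_lit 559) (nat_lit 591) (nat_lit 5583) (.f (nat_lit 558) (nat_lit 557) (nat_lit 2573) (.f (nat_lit 526) (nat_lit 525) (nat_lit 3597) (.f (nat_lit 590) (nat_lit 589) (nat_lit 1581) (.f (nat_lit 494) (nat_lit 495) (nat_lit 6606) (.d (nat_lit 493) (nat_lit 461) (nat_lit 7629) (nat_lit 462) (nat_lit 1485)))))))))))))
noncomputable def s33542 : Cert := .r (nat_lit 11321887280615482760201690047588589788727691983922735314057020547554311746606693248582679998234789740657068406351949029706078602691035679145430415610364417479787277189120) (.p (nat_lit 562) (.a (.f (nat_lit 563) (nat_lit 564) (nat_lit 3600) (.f (nat_lit 595) (nat_lit 596) (nat_lit 560) (.f (nat_lit 498) (nat_lit 466) (nat_lit 4562) (.d (nat_lit 627) (nat_lit 594) (nat_lit 4594) (nat_lit 659) (nat_lit 7698))))) (.a (.f (nat_lit 559) (nat_lit 558) (nat_lit 2574) (.f (nat_lit 563) (nat_lit 564) (nat_lit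 3600) (.d (nat_lit 591) (nat_lit 590) (nat_lit 1582) (nat_lit 592) (nat_lit 1583)))) (.f (nat_lit 559) (nat_lit 558) (nat_lit 2574) (.f (nat_lit 591) (nat_lit 590) (nat_lit 1582) (.f (nat_lit 496) (nat_lit 464) (nat_lit 5583) (.d (nat_lit 623) (nat_lit 592) (nat_lit 5615) (nat_lit 655) (nat_lit 6671))))))))
noncomputable def s33543 : Cert := .r (nat_lit 11321887277100706358214817873517856579598018656680784440383648177944346455503695138683080099548039204638403674203573318273640403376029221289575493978326514994736367927296) (.p (nat_lit 530) (.a (.d (nat_lit 531) (nat_lit 532) (nat_lit 1552) (nat_lit 559) (nat_lit 1551)) (.a (.f (nat_lit 531) (nat_lit 532) (nat_lit 1552) (.f (nat_lit 496) (nat_lit 495) (nat_lit 3567) (.f (nat_lit 464) (nat_lit 432) (nat_lit 4528) (.f (nat_lit 563) (nat_lit 564) (nat_lit 528) (.f (nat_lit 499) (nat_lit 500) (nat_lit 2544) (.f (nat_lit 463) (nat_lit 431) (nat_lit 7599) (.f (nat_lit 465) (nat_lit 433)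 (nat_lit 6576) (.f (nat_lit 466) (nat_lit 498) (nat_lit 463) (.d (nat_lit 434) (nat_lit 435) (nat_lit 2479) (nat_lit 467) (nat_lit 7602)))))))))) s33542)))
noncomputable def s33562 : Cert := .r (nat_lit 11321887277100706358214817873517856579598018656680784440383648177944346455503695138683080099548039204638403674203573318273640403376029221289575493978326514994736367927296) (.p (nat_lit 592) (.a (.d (nat_lit 497) (nat_lit 465) (nat_lit 5584) (nat_lit 624) (nat_lit 6640)) (.a (.p (nat_lit 530) (.a (.f (nat_lit 624) (nat_lit 656) (nat_lit 6672) (.f (nat_lit 625) (nat_lit 657) (nat_lit 4624) (.f (nat_lit 593) (nat_lit 498) (nat_lit 6641) (.f (nat_lit 626) (nat_lit 658) (nat_lit 4625) (.d (nat_lit 591) (nat_lit 590) (nat_lit 590) (nat_lit 627) (nat_lit 3663)))))) (.a (.f (nat_lit 624) (nat_lit 656) (nat_lit 6672) (.f (nat_lit 625) (nat_lit 657) (nat_lit 4624) (.f (nat_lit 593) (nat_lit 498) (nat_lit 6641) (.f (nat_lit 623) (nat_lit 655)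 (nat_lit 5647) (.d (nat_lit 594) (nat_lit 595) (nat_lit 1615) (nat_lit 622) (nat_lit 2638)))))) (.a (.f (nat_lit 531) (nat_lit 532) (nat_lit 1552) (.f (nat_lit 563) (nat_lit 564) (nat_lit 528) (.f (nat_lit 562) (nat_lit 591) (nat_lit 1583) (.f (nat_lit 595) (nat_lit 596) (nat_lit 560) (.d (nat_lit 498) (nat_lit 466) (nat_lit 4562) (nat_lit 627) (nat_lit 7666)))))) (.f (nat_lit 624) (nat_lit 656) (nat_lit 6672) (.f (nat_lit 531) (nat_lit 532) (nat_lit 1552) (.f (nat_lit 625) (nat_lit 657) (nat_lit 4624) (.f (nat_lit 623) (nat_lit 655) (nat_lit 5647) (.f (nat_lit 563) (nat_lit 564) (nat_lit 528) (.f (nat_lit 591) (nat_lit 562) (nat_lit 1583) (.d (nat_lit 590) (nat_lit 589) (nat_lit 589) (nat_lit 626) (nat_lit 3662)))))))))))) (.p (nat_lit 593) (.a (.f (nat_lit 497) (nat_lit 465) (nat_lit 5584) (.f (nat_lit 625) (nat_lit 657) (nat_lit 7696) (.d (nat_lit 498) (nat_lit 466) (nat_lit 6609) (nat_lit 530) (nat_lit 6641)))) (.a (.f (nat_lit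 625) (nat_lit 657) (nat_lit 7696) (.f (nat_lit 626) (nat_lit 658) (nat_lit 4625) (.f (nat_lit 591) (nat_lit 590) (nat_lit 590) (.d (nat_lit 627) (nat_lit 594) (nat_lit 591) (nat_lit 628) (nat_lit 3664))))) (.f (nat_lit 497) (nat_lit 465) (nat_lit 5584) (.f (nat_lit 594) (nat_lit 626) (nat_lit 4593) (.f (nat_lit 595) (nat_lit 596) (nat_lit 3632) (.f (nat_lit 563) (nat_lit 564) (nat_lit 2608) (.f (nat_lit 562) (nat_lit 591) (nat_lit 1583) (.f (nat_lit 498) (nat_lit 466) (nat_lit 6609) (.d (nat_lit 627) (nat_lit 530) (nat_lit 4594) (nat_lit 628) (nat_lit 592))))))))))))))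
noncomputable def s33574 : Cert := .r (nat_lit 11321887277100706358214817873517856579598018656680784440383648177944346455503695138683080099548039204638403674203573318273640403376029221289575493978326514994736367927296) (.p (nat_lit 530) (.a (.d (nat_lit 531) (nat_lit 532) (nat_lit 1552) (nat_lit 559) (nat_lit 1551)) (.a (.p (nat_lit 592) (.a (.f (nat_lit 624) (nat_lit 656) (nat_lit 6672) (.f (nat_lit 531) (nat_lit 532) (nat_lit 1552) (.f (nat_lit 625) (nat_lit 657) (nat_lit 4624) (.f (nat_lit 623) (nat_lit 655) (nat_lit 5647) (.f (nat_lit 563) (nat_lit 564) (nat_lit 528) (.f (nat_lit 591) (nat_lit 562) (nat_lit 1583) (.d (nat_lit 590) (nat_lit 589) (nat_lit 589) (nat_lit 626) (nat_lit 3662)))))))) (.a (.f (nat_lit 497) (nat_lit 465) (nat_lit 5584) (.f (nat_lit 531) (nat_lit 532) (nat_lit 1552) (.f (nat_lit 563) (nat_lit 564) (nat_lit 528) (.f (nat_lit 562) (nat_lit 591) (nat_lit 1583) (.f (nat_lit 594) (nat_lit 626) (nat_lit 7665)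 (.d (nat_lit 499) (nat_lit 467) (nat_lit 5586) (nat_lit 500) (nat_lit 2544))))))) (.d (nat_lit 497) (nat_lit 465) (nat_lit 5584) (nat_lit 624) (nat_lit 6640))))) (.p (nat_lit 562) (.a (.f (nat_lit 563) (nat_lit 564) (nat_lit 3600) (.f (nat_lit 592) (nat_lit 591) (nat_lit 1583) (.d (nat_lit 497) (nat_lit 465) (nat_lit 5584) (nat_lit 624) (nat_lit 6640)))) (.a (.f (nat_lit 559) (nat_lit 558) (nat_lit 2574) (.f (nat_lit 563) (nat_lit 564) (nat_lit 3600) (.d (nat_lit 591) (nat_lit 590) (nat_lit 1582) (nat_lit 592) (nat_lit 1583)))) (.f (nat_lit 559) (nat_lit 558) (nat_lit 2574) (.f (nat_lit 594) (nat_lit 595) (nat_lit 559) (.d (nat_lit 497) (nat_lit 465) (nat_lit 4561) (nat_lit 626) (nat_lit 7665))))))))))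
noncomputable def s33576 : Cert := .r (nat_lit 11321887277100706358214817873517856579598018656680784440383648177944346455503695138683080099548039204638403674203573318273640403376029221289575493978326514994736367927296) (.p (nat_lit 530) (.a (.d (nat_lit 531) (nat_lit 532) (nat_lit 1552) (nat_lit 559) (nat_lit 1551)) (.a (.p (nat_lit 592) (.a (.f (nat_lit 531) (nat_lit 532) (nat_lit 1552) (.f (nat_lit 563) (nat_lit 564) (nat_lit 528) (.f (nat_lit 562) (nat_lit 591) (nat_lit 1583) (.f (nat_lit 595) (nat_lit 596) (nat_lit 560) (.d (nat_lit 498) (nat_lit 466) (nat_lit 4562) (nat_lit 627) (nat_lit 7666)))))) (.d (nat_lit 497) (nat_lit 465) (nat_lit 5584) (nat_lit 624) (nat_lit 6640)))) (.p (nat_lit 562) (.a (.f (nat_lit 563) (nat_lit 564) (nat_lit 3600) (.f (nat_lit 592) (nat_lit 591) (nat_lit 1583) (.d (nat_lit 497) (nat_lit 465) (nat_lit 5584) (nat_lit 624) (nat_lit 6640)))) (.a (.f (nat_lit 559) (nat_lit 558) (nat_lit 2574) (.f (nat_lit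 563) (nat_lit 564) (nat_lit 3600) (.d (nat_lit 591) (nat_lit 590) (nat_lit 1582) (nat_lit 592) (nat_lit 1583)))) (.f (nat_lit 559) (nat_lit 558) (nat_lit 2574) (.f (nat_lit 594) (nat_lit 595) (nat_lit 559) (.d (nat_lit 497) (nat_lit 465) (nat_lit 4561) (nat_lit 626) (nat_lit 7665))))))))))
noncomputable def s33586 : Cert := .r (nat_lit 11321887277100706358214817873517856579598018656680784440383648177944346455503695138683080099548039204638403674203573318273640403376029221289575493978326514994736367927296) (.p (nat_lit 559) (.a (.f (nat_lit 558) (nat_lit 557) (nat_lit 2573) (.f (nat_lit 590) (nat_lit 589) (nat_lit 1581) (.f (nat_lit 526) (nat_lit 525) (nat_lit 3597) (.f (nat_lit 591) (nat_lit 562) (nat_lit 1582) (.d (nat_lit 494) (nat_lit 462) (nat_lit 4558) (nat_lit 623) (nat_lit 4590)))))) (.a (.d (nat_lit 530) (nat_lit 531) (nat_lit 1551) (nat_lit 558) (nat_lit 2574)) (.p (nat_lit 591) (.a (.f (nat_lit 562) (nat_lit 590) (nat_lit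 1582) (.d (nat_lit 563) (nat_lit 564) (nat_lit 3600) (nat_lit 592) (nat_lit 1583))) (.a (.f (nat_lit 531) (nat_lit 530) (nat_lit 1551) (.f (nat_lit 562) (nat_lit 590) (nat_lit 1582) (.d (nat_lit 563) (nat_lit 532) (nat_lit 2576) (nat_lit 564) (nat_lit 3600)))) (.f (nat_lit 623) (nat_lit 655) (nat_lit 6671) (.f (nat_lit 592) (nat_lit 496) (nat_lit 5615) (.d (nat_lit 497) (nat_lit 465) (nat_lit 5584) (nat_lit 624) (nat_lit 6640))))))))))
noncomputable def s33619 : Cert := .r (nat_lit 11321887277100706358214817873517856579598018656680784440383648177944346455503695138683080099548039204638403674203573318273640403376029221289575493978326514994736367927296) (.p (nat_lit 559) (.a (.f (nat_lit 558) (nat_lit 557) (nat_lit 2573) (.f (nat_lit 593) (nat_lit 594) (nat_lit 558) (.d (nat_lit 496) (nat_lit 464) (nat_lit 4560) (nat_lit 625) (nat_lit 7664)))) (.a (.f (nat_lit 558) (nat_lit 557) (nat_lit 2573) (.f (nat_lit 590) (nat_lit 589) (nat_lit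 1581) (.f (nat_lit 526) (nat_lit 525) (nat_lit 3597) (.f (nat_lit 591) (nat_lit 562) (nat_lit 1582) (.d (nat_lit 494) (nat_lit 462) (nat_lit 4558) (nat_lit 623) (nat_lit 4590)))))) (.p (nat_lit 562) (.a (.f (nat_lit 594) (nat_lit 595) (nat_lit 559) (.f (nat_lit 497) (nat_lit 465) (nat_lit 4561) (.d (nat_lit 626) (nat_lit 593) (nat_lit 4593) (nat_lit 658) (nat_lit 7697)))) (.f (nat_lit 531) (nat_lit 530) (nat_lit 1551) (.d (nat_lit 563) (nat_lit 532) (nat_lit 2576) (nat_lit 564) (nat_lit 3600))))))))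
noncomputable def s33636 : Cert := .r (nat_lit 11321887277100706358214817873517856579598018656680784440383648177944346455503695138683080099548039204638403674203573318273640403376029221289575493978326514994736367927296) (.p (nat_lit 530) (.a (.d (nat_lit 531) (nat_lit 532) (nat_lit 1552) (nat_lit 559) (nat_lit 1551)) (.a (.f (nat_lit 531) (nat_lit 532) (nat_lit 1552) (.f (nat_lit 496) (nat_lit 495) (nat_lit 3567) (.d (nat_lit 464) (nat_lit 432) (nat_lit 4528) (nat_lit 593) (nat_lit 4560)))) (.p (nat_lit 562) (.a (.f (nat_lit 559) (nat_lit 558) (nat_lit 2574) (.f (nat_lit 563) (nat_lit 564) (nat_lit 3600) (.d (nat_lit 591) (nat_lit 590) (nat_lit 1582) (nat_lit 592) (nat_lit 1583)))) (.a (.f (nat_lit 563) (nat_lit 564) (nat_lit 3600) (.f (nat_lit 592) (nat_lit 591) (nat_lit 1583) (.f (nat_lit 624) (nat_lit 656) (nat_lit 6672) (.f (nat_lit 625) (nat_lit 657) (nat_lit 4624) (.f (nat_lit 496) (nat_lit 593) (nat_lit 4592) (.f (nat_lit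 464) (nat_lit 432) (nat_lit 4528) (.d (nat_lit 463) (nat_lit 431) (nat_lit 7599) (nat_lit 495) (nat_lit 7631)))))))) (.a (.f (nat_lit 559) (nat_lit 558) (nat_lit 2574) (.f (nat_lit 595) (nat_lit 594) (nat_lit 559) (.d (nat_lit 563) (nat_lit 564) (nat_lit 3600) (nat_lit 596) (nat_lit 560)))) (.f (nat_lit 559) (nat_lit 558) (nat_lit 2574) (.f (nat_lit 591) (nat_lit 590) (nat_lit 1582) (.f (nat_lit 496) (nat_lit 464) (nat_lit 5583) (.d (nat_lit 623) (nat_lit 592) (nat_lit 5615) (nat_lit 655) (nat_lit 6671))))))))))))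
noncomputable def s33647 : Cert := .r (nat_lit 11321887277100706358419404786511365446473843012732509387397188305822038004846400849189088461823331364318608054973942328095570821134001725727651572512444352060569400901632) (.p (nat_lit 495) (.a (.f (nat_lit 530) (nat_lit 531) (nat_lit 3567) (.d (nat_lit 494) (nat_lit 493) (nat_lit 493) (nat_lit 497) (nat_lit 494))) (.a (.f (nat_lit 464) (nat_lit 432) (nat_lit 4528) (.f (nat_lit 465) (nat_lit 433) (nat_lit 6576) (.f (nat_lit 494) (nat_lit 493) (nat_lit 493) (.d (nat_lit 463) (nat_lit 431) (nat_lit 7599) (nat_lit 466) (nat_lit 1486))))) (.f (nat_lit 464) (nat_lit 432) (nat_lit 4528) (.f (nat_lit 465) (nat_lit 433) (nat_lit 6576) (.f (nat_lit 463) (nat_lit 431) (nat_lit 7599) (.f (nat_lit 466) (nat_lit 467) (nat_lit 1487) (.d (nat_lit 434) (nat_lit 435) (nat_lit 2479) (nat_lit 497) (nat_lit 6577)))))))))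
noncomputable def s33651 : Cert := .r (nat_lit 11321887277100706358214817873517856579598018656680784440383648177944346455503695138683080099548039204638403674203573318273640403376029221289575493978326514994736367927296) (.p (nat_lit 496) (.a (.f (nat_lit 464) (nat_lit 432) (nat_lit 4528) (.f (nat_lit 463) (nat_lit 431) (nat_lit 7599) (.f (nat_lit 495) (nat_lit 592) (nat_lit 7631) (.f (nat_lit 465) (nat_lit 433) (nat_lit 6576) (.d (nat_lit 466) (nat_lit 467) (nat_lit 1487) (nat_lit 494) (nat_lit 1486)))))) (.a (.f (nat_lit 464) (nat_lit 432) (nat_lit 4528) (.f (nat_lit 465) (nat_lit 433) (nat_lit 6576) (.f (nat_lit 497) (nat_lit 592) (nat_lit 6608) (.f (nat_lit 463) (nat_lit 431) (nat_lit 7599) (.d (nat_lit 462) (nat_lit 461) (nat_lit 461) (nat_lit 498) (nat_lit 462)))))) (.a (.p (nat_lit 592) (.a (.f (nat_lit 624) (nat_lit 656) (nat_lit 6672) (.d (nat_lit 623) (nat_lit 591) (nat_lit 5615) (nat_lit 655) (nat_lit 5647))) (.f (nat_lit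 497) (nat_lit 465) (nat_lit 6608) (.f (nat_lit 495) (nat_lit 463) (nat_lit 7631) (.d (nat_lit 494) (nat_lit 493) (nat_lit 493) (nat_lit 530) (nat_lit 494)))))) (.a s33647 (.a (.f (nat_lit 464) (nat_lit 432) (nat_lit 4528) (.f (nat_lit 465) (nat_lit 433) (nat_lit 6576) (.f (nat_lit 497) (nat_lit 592) (nat_lit 6608) (.f (nat_lit 466) (nat_lit 434) (nat_lit 6577) (.d (nat_lit 467) (nat_lit 468) (nat_lit 1488) (nat_lit 495) (nat_lit 1487)))))) (.f (nat_lit 464) (nat_lit 432) (nat_lit 4528) (.f (nat_lit 463) (nat_lit 431) (nat_lit 7599) (.f (nat_lit 592) (nat_lit 495) (nat_lit 7631) (.d (nat_lit 624) (nat_lit 497) (nat_lit 6640) (nat_lit 656) (nat_lit 6672)))))))))))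
noncomputable def s33653 : Cert := .r (nat_lit 11321887277100706358214817873517856579598018656680784440383648177944346455503695138683080099548039204638403674203573318273640403376029221289575493978326514994736367927296) (.p (nat_lit 496) (.a (.f (nat_lit 464) (nat_lit 432) (nat_lit 4528) (.f (nat_lit 465) (nat_lit 433) (nat_lit 6576) (.f (nat_lit 463) (nat_lit 431) (nat_lit 7599) (.f (nat_lit 559) (nat_lit 591) (nat_lit 5583) (.f (nat_lit 558) (nat_lit 557) (nat_lit 2573) (.f (nat_lit 526) (nat_lit 525) (nat_lit 3597) (.f (nat_lit 590) (nat_lit 589) (nat_lit 1581) (.f (nat_lit 494) (nat_lit 495) (nat_lit 6606) (.d (nat_lit 493) (nat_lit 461) (nat_lit 7629) (nat_lit 462) (nat_lit 1485)))))))))) (.a (.f (nat_lit 464) (nat_lit 432) (nat_lit 4528) (.f (nat_lit 463) (nat_lit 431) (nat_lit 7599) (.f (nat_lit 495) (nat_lit 592) (nat_lit 7631) (.f (nat_lit 465) (nat_lit 433) (nat_lit 6576) (.d (nat_lit 466) (nat_lit 467) (nat_lit 1487)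 (nat_lit 494) (nat_lit 1486)))))) (.a (.f (nat_lit 464) (nat_lit 432) (nat_lit 4528) (.f (nat_lit 465) (nat_lit 433) (nat_lit 6576) (.f (nat_lit 497) (nat_lit 592) (nat_lit 6608) (.f (nat_lit 463) (nat_lit 431) (nat_lit 7599) (.d (nat_lit 462) (nat_lit 461) (nat_lit 461) (nat_lit 498) (nat_lit 462)))))) (.a (.p (nat_lit 592) (.a (.f (nat_lit 624) (nat_lit 656) (nat_lit 6672) (.d (nat_lit 623) (nat_lit 591) (nat_lit 5615) (nat_lit 655) (nat_lit 5647))) (.a (.f (nat_lit 591) (nat_lit 623) (nat_lit 5615) (.f (nat_lit 562) (nat_lit 563) (nat_lit 1583) (.d (nat_lit 590) (nat_lit 559) (nat_lit 1582) (nat_lit 589) (nat_lit 2605)))) (.d (nat_lit 497) (nat_lit 465) (nat_lit 5584) (nat_lit 624) (nat_lit 6640))))) (.f (nat_lit 464) (nat_lit 432) (nat_lit 4528) (.f (nat_lit 463) (nat_lit 431) (nat_lit 7599) (.f (nat_lit 592) (nat_lit 495) (nat_lit 7631) (.d (nat_lit 624) (nat_lit 497) (nat_lit 6640) (nat_lit 656) (nat_lit 6672))))))))))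
noncomputable def s33654 : Cert := .r (nat_lit 11321887277100706358214817873517856579598018656680784440383648177944346455503695138683080099548039204638403674203573318273640403376029221289575493978326514994736367927296) (.p (nat_lit 559) (.a (.f (nat_lit 558) (nat_lit 557) (nat_lit 2573) (.f (nat_lit 590) (nat_lit 589) (nat_lit 1581) (.f (nat_lit 526) (nat_lit 525) (nat_lit 3597) (.f (nat_lit 591) (nat_lit 562) (nat_lit 1582) (.d (nat_lit 494) (nat_lit 462) (nat_lit 4558) (nat_lit 623) (nat_lit 4590)))))) (.a (.d (nat_lit 530) (nat_lit 531) (nat_lit 1551) (nat_lit 558) (nat_lit 2574)) (.p (nat_lit 562) (.a (.f (nat_lit 530) (nat_lit 531) (nat_lit 1551) (.f (nat_lit 594) (nat_lit 595) (nat_lit 559) (.d (nat_lit 497) (nat_lit 465) (nat_lit 4561) (nat_lit 626) (nat_lit 7665)))) (.a (.f (nat_lit 563) (nat_lit 564) (nat_lit 3600) (.d (nat_lit 595) (nat_lit 594) (nat_lit 559) (nat_lit 596) (nat_lit 560))) (.f (nat_lit 531) (nat_lit 530)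 (nat_lit 1551) (.d (nat_lit 563) (nat_lit 532) (nat_lit 2576) (nat_lit 564) (nat_lit 3600)))))))))
noncomputable def s33656 : Cert := .r (nat_lit 11321887277100706358214817873517856579598018656680784440383648177944346455503695138683080099548039204638403674203573318273640403376029221289575493978326514994736367927296) (.p (nat_lit 496) (.a (.f (nat_lit 464) (nat_lit 432) (nat_lit 4528) (.f (nat_lit 463) (nat_lit 431) (nat_lit 7599) (.f (nat_lit 495) (nat_lit 592) (nat_lit 7631) (.f (nat_lit 465) (nat_lit 433) (nat_lit 6576) (.d (nat_lit 466) (nat_lit 467) (nat_lit 1487) (nat_lit 494) (nat_lit 1486)))))) (.a (.f (nat_lit 464) (nat_lit 432) (nat_lit 4528) (.f (nat_lit 465) (nat_lit 433) (nat_lit 6576) (.f (nat_lit 497) (nat_lit 592) (nat_lit 6608) (.f (nat_lit 463) (nat_lit 431) (nat_lit 7599) (.d (nat_lit 462) (nat_lit 461) (nat_lit 461) (nat_lit 498) (nat_lit 462)))))) (.a (.p (nat_lit 495) (.a (.f (nat_lit 530) (nat_lit 531) (nat_lit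 3567) (.f (nat_lit 558) (nat_lit 559) (nat_lit 2574) (.f (nat_lit 463) (nat_lit 592) (nat_lit 7631) (.f (nat_lit 494) (nat_lit 493) (nat_lit 493) (.f (nat_lit 526) (nat_lit 590) (nat_lit 6606) (.d (nat_lit 431) (nat_lit 399) (nat_lit 5518) (nat_lit 462) (nat_lit 6574))))))) (.a (.f (nat_lit 530) (nat_lit 531) (nat_lit 3567) (.d (nat_lit 494) (nat_lit 493) (nat_lit 493) (nat_lit 497) (nat_lit 494))) (.f (nat_lit 592) (nat_lit 463) (nat_lit 7631) (.d (nat_lit 497) (nat_lit 465) (nat_lit 5584) (nat_lit 624) (nat_lit 6640)))))) (.a s33647 (.a (.f (nat_lit 464) (nat_lit 432) (nat_lit 4528) (.f (nat_lit 465) (nat_lit 433) (nat_lit 6576) (.f (nat_lit 497) (nat_lit 592) (nat_lit 6608) (.f (nat_lit 466) (nat_lit 434) (nat_lit 6577) (.d (nat_lit 467) (nat_lit 468) (nat_lit 1488) (nat_lit 495) (nat_lit 1487)))))) (.f (nat_lit 464) (nat_lit 432) (nat_lit 4528) (.f (nat_lit 463) (nat_lit 431) (nat_lit 7599) (.f (nat_lit 592) (nat_lit 495) (nat_lit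 7631) (.d (nat_lit 624) (nat_lit 497) (nat_lit 6640) (nat_lit 656) (nat_lit 6672)))))))))))
noncomputable def s33665 : Cert := .r (nat_lit 11321887277100706358214817873517856579598018656680784440383648177944346455503695138683080099548039204638403674203573318273640403376029221289575493978326514994736367927296) (.p (nat_lit 530) (.a (.d (nat_lit 531) (nat_lit 532) (nat_lit 1552) (nat_lit 559) (nat_lit 1551)) (.a (.f (nat_lit 531) (nat_lit 532) (nat_lit 1552) (.f (nat_lit 496) (nat_lit 495) (nat_lit 3567) (.f (nat_lit 563) (nat_lit 564) (nat_lit 528) (.f (nat_lit 499) (nat_lit 500) (nat_lit 2544) (.f (nat_lit 464) (nat_lit 432) (nat_lit 4528) (.f (nat_lit 463) (nat_lit 431) (nat_lit 7599) (.f (nat_lit 498) (nat_lit 497) (nat_lit 3535) (.d (nat_lit 466) (nat_lit 434) (nat_lit 4530) (nat_lit 595) (nat_lit 7634))))))))) s33542)))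
noncomputable def s33667 : Cert := .r (nat_lit 11321887277100706358214817873517856579598018656680784440383648177944346455503695138683080099548039204638403674203573318273640403376029221289575493978326514994736367927296) (.p (nat_lit 496) (.a (.d (nat_lit 464) (nat_lit 432) (nat_lit 4528) (nat_lit 593) (nat_lit 4560)) (.a (.p (nat_lit 592) (.a (.f (nat_lit 593) (nat_lit 625) (nat_lit 4592) (.f (nat_lit 591) (nat_lit 623) (nat_lit 5615) (.d (nat_lit 562) (nat_lit 563) (nat_lit 1583) (nat_lit 590) (nat_lit 2606)))) (.a (.f (nat_lit 625) (nat_lit 593) (nat_lit 4592) (.d (nat_lit 624) (nat_lit 656) (nat_lit 6672) (nat_lit 657) (nat_lit 4624))) (.f (nat_lit 624) (nat_lit 656) (nat_lit 6672) (.d (nat_lit 623) (nat_lit 591) (nat_lit 5615) (nat_lit 655) (nat_lit 5647)))))) (.f (nat_lit 464) (nat_lit 432) (nat_lit 4528) (.f (nat_lit 463) (nat_lit 431) (nat_lit 7599) (.f (nat_lit 592) (nat_lit 495) (nat_lit 7631) (.d (nat_lit 624) (nat_lit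 497) (nat_lit 6640) (nat_lit 656) (nat_lit 6672))))))))
noncomputable def s33697 : Cert := .r (nat_lit 3773962427896970703980067733300160448905385381753147442840407123654343792107272198248276636528565486557800015660592592403154009030555443256434490679465860718068940931072) (.p (nat_lit 496) (.a (.p (nat_lit 592) (.a (.d (nat_lit 497) (nat_lit 465) (nat_lit 6608) (nat_lit 624) (nat_lit 6640)) (.f (nat_lit 591) (nat_lit 623) (nat_lit 5615) (.f (nat_lit 559) (nat_lit 464) (nat_lit 5583) (.f (nat_lit 558) (nat_lit 557) (nat_lit 2573) (.d (nat_lit 593) (nat_lit 594) (nat_lit 3630) (nat_lit 625) (nat_lit 4592))))))) (.a (.p (nat_lit 592) (.a (.d (nat_lit 497) (nat_lit 465) (nat_lit 6608) (nat_lit 624) (nat_lit 6640)) (.a (.f (nat_lit 623) (nat_lit 591) (nat_lit 5615) (.f (nat_lit 624) (nat_lit 655) (nat_lit 5647) (.d (nat_lit 625) (nat_lit 593) (nat_lit 4592) (nat_lit 657) (nat_lit 4624)))) (.f (nat_lit 463) (nat_lit 495) (nat_lit 7631)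 (.f (nat_lit 464) (nat_lit 431) (nat_lit 7599) (.d (nat_lit 465) (nat_lit 433) (nat_lit 6576) (nat_lit 497) (nat_lit 6608))))))) (.a s33156 (.a s33273 (.a (.p (nat_lit 464) (.a (.d (nat_lit 559) (nat_lit 432) (nat_lit 5551) (nat_lit 591) (nat_lit 5583)) (.a (.f (nat_lit 431) (nat_lit 463) (nat_lit 7599) (.f (nat_lit 432) (nat_lit 399) (nat_lit 7567) (.d (nat_lit 400) (nat_lit 495) (nat_lit 5519) (nat_lit 497) (nat_lit 4496)))) (.f (nat_lit 559) (nat_lit 591) (nat_lit 5583) (.f (nat_lit 463) (nat_lit 431) (nat_lit 7599) (.f (nat_lit 465) (nat_lit 433) (nat_lit 6576) (.f (nat_lit 558) (nat_lit 557) (nat_lit 2573) (.f (nat_lit 495) (nat_lit 590) (nat_lit 5582) (.d (nat_lit 466) (nat_lit 467) (nat_lit 1487) (nat_lit 494) (nat_lit 1486)))))))))) (.p (nat_lit 592) (.a (.d (nat_lit 497) (nat_lit 465) (nat_lit 6608) (nat_lit 624) (nat_lit 6640)) (.a (.f (nat_lit 624) (nat_lit 495) (nat_lit 7663) (.d (nat_lit 625) (nat_lit 593) (nat_lit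 4592) (nat_lit 657) (nat_lit 4624))) (.f (nat_lit 463) (nat_lit 495) (nat_lit 7631) (.f (nat_lit 464) (nat_lit 431) (nat_lit 7599) (.d (nat_lit 465) (nat_lit 433) (nat_lit 6576) (nat_lit 497) (nat_lit 6608)))))))))))))
noncomputable def s33700 : Cert := .r (nat_lit 3773962428116644229104247244179581274475989964705769372444992896754966622801209580117001630196487395058966561419866074367681396487743346872425423281468229623384622759936) (.p (nat_lit 495) (.a (.f (nat_lit 494) (nat_lit 493) (nat_lit 3565) (.f (nat_lit 558) (nat_lit 557) (nat_lit 1549) (.d (nat_lit 463) (nat_lit 431) (nat_lit 5550) (nat_lit 590) (nat_lit 6606)))) (.a (.f (nat_lit 494) (nat_lit 493) (nat_lit 3565) (.f (nat_lit 463) (nat_lit 431) (nat_lit 4527) (.f (nat_lit 497) (nat_lit 498) (nat_lit 2542) (.f (nat_lit 465) (nat_lit 433) (nat_lit 5552) (.d (nat_lit 466) (nat_lit 464) (nat_lit 1486) (nat_lit 496) (nat_lit 2510)))))) (.a (.f (nat_lit 558) (nat_lit 557)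 (nat_lit 1549) (.f (nat_lit 463) (nat_lit 431) (nat_lit 4527) (.d (nat_lit 590) (nat_lit 559) (nat_lit 5582) (nat_lit 622) (nat_lit 6638)))) (.f (nat_lit 494) (nat_lit 493) (nat_lit 3565) (.f (nat_lit 558) (nat_lit 557) (nat_lit 1549) (.f (nat_lit 590) (nat_lit 622) (nat_lit 6638) (.f (nat_lit 591) (nat_lit 623) (nat_lit 4590) (.f (nat_lit 462) (nat_lit 559) (nat_lit 4558) (.f (nat_lit 430) (nat_lit 398) (nat_lit 4494) (.d (nat_lit 429) (nat_lit 397) (nat_lit 7565) (nat_lit 461) (nat_lit 7597))))))))))))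
noncomputable def s33702 : Cert := .r (nat_lit 3773962427896970703980067733300160448905385381753147442840407123654343792107272198248276636528565486557800015660592592403154009030555443256434490679465860718068940931072) (.p (nat_lit 526) (.a (.f (nat_lit 497) (nat_lit 498) (nat_lit 2542) (.f (nat_lit 496) (nat_lit 525) (nat_lit 2541) (.d (nat_lit 465) (nat_lit 433) (nat_lit 5552) (nat_lit 592) (nat_lit 6608)))) (.a s463 (.f (nat_lit 497) (nat_lit 498) (nat_lit 2542) (.f (nat_lit 592) (nat_lit 624) (nat_lit 6640) (.d (nat_lit 465) (nat_lit 433) (nat_lit 5552) (nat_lit 496) (nat_lit 6608)))))))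
noncomputable def s33703 : Cert := .r (nat_lit 3075429351738513152311891557988464161336707014464200823408719629715123346162149911350906719016331640629828747503383424400630650623873056428033164674419545604096) (.p (nat_lit 560) (.a (.p (nat_lit 526) (.a (.f (nat_lit 497) (nat_lit 498) (nat_lit 2542) (.f (nat_lit 496) (nat_lit 525) (nat_lit 2541) (.d (nat_lit 465) (nat_lit 433) (nat_lit 5552) (nat_lit 592) (nat_lit 6608)))) (.a (.f (nat_lit 557) (nat_lit 558) (nat_lit 1549) (.f (nat_lit 525) (nat_lit 556) (nat_lit 1548) (.d (nat_lit 493) (nat_lit 492) (nat_lit 3564) (nat_lit 494) (nat_lit 3565)))) (.f (nat_lit 497) (nat_lit 498) (nat_lit 2542) (.f (nat_lit 592) (nat_lit 624) (nat_lit 6640) (.d (nat_lit 465) (nat_lit 433) (nat_lit 5552) (nat_lit 496) (nat_lit 6608))))))) (.a (.p (nat_lit 526) (.a (.f (nat_lit 557) (nat_lit 558) (nat_lit 1549) (.f (nat_lit 525) (nat_lit 556) (nat_lit 1548) (.d (nat_lit 493) (nat_lit 492) (nat_lit 3564)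 (nat_lit 494) (nat_lit 3565)))) (.a s32986 (.a (.f (nat_lit 493) (nat_lit 494) (nat_lit 3565) (.f (nat_lit 525) (nat_lit 492) (nat_lit 3564) (.f (nat_lit 524) (nat_lit 559) (nat_lit 524) (.d (nat_lit 556) (nat_lit 555) (nat_lit 1547) (nat_lit 557) (nat_lit 1548))))) (.a (.f (nat_lit 557) (nat_lit 558) (nat_lit 1549) (.f (nat_lit 525) (nat_lit 556) (nat_lit 1548) (.f (nat_lit 524) (nat_lit 559) (nat_lit 524) (.d (nat_lit 492) (nat_lit 491) (nat_lit 3563) (nat_lit 493) (nat_lit 3564))))) (.a s463 (.p (nat_lit 495) (.a (.f (nat_lit 592) (nat_lit 624) (nat_lit 7663) (.d (nat_lit 463) (nat_lit 431) (nat_lit 4527) (nat_lit 559) (nat_lit 4559))) (.a (.f (nat_lit 558) (nat_lit 557) (nat_lit 1549) (.f (nat_lit 463) (nat_lit 431) (nat_lit 4527) (.d (nat_lit 590) (nat_lit 494) (nat_lit 6606) (nat_lit 622) (nat_lit 6638)))) (.f (nat_lit 557) (nat_lit 558) (nat_lit 1549) (.f (nat_lit 525) (nat_lit 556) (nat_lit 1548) (.f (nat_lit 524) (nat_lit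 559) (nat_lit 524) (.f (nat_lit 523) (nat_lit 494) (nat_lit 2539) (.d (nat_lit 491) (nat_lit 490) (nat_lit 3562) (nat_lit 492) (nat_lit 3563))))))))))))))) (.a s33697 (.a (.p (nat_lit 526) (.a (.f (nat_lit 557) (nat_lit 558) (nat_lit 1549) (.f (nat_lit 525) (nat_lit 556) (nat_lit 1548) (.d (nat_lit 493) (nat_lit 492) (nat_lit 3564) (nat_lit 494) (nat_lit 3565)))) (.a s33700 (.a (.f (nat_lit 493) (nat_lit 494) (nat_lit 3565) (.f (nat_lit 525) (nat_lit 492) (nat_lit 3564) (.f (nat_lit 524) (nat_lit 559) (nat_lit 524) (.d (nat_lit 556) (nat_lit 555) (nat_lit 1547) (nat_lit 557) (nat_lit 1548))))) (.a (.f (nat_lit 557) (nat_lit 558) (nat_lit 1549) (.f (nat_lit 525) (nat_lit 556) (nat_lit 1548) (.f (nat_lit 524) (nat_lit 559) (nat_lit 524) (.d (nat_lit 492) (nat_lit 491) (nat_lit 3563) (nat_lit 493) (nat_lit 3564))))) (.a s463 (.f (nat_lit 557) (nat_lit 558) (nat_lit 1549) (.f (nat_lit 525) (nat_lit 556) (nat_lit 1548) (.f (nat_lit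 524) (nat_lit 559) (nat_lit 524) (.f (nat_lit 495) (nat_lit 496) (nat_lit 2540) (.f (nat_lit 523) (nat_lit 494) (nat_lit 2539) (.d (nat_lit 491) (nat_lit 490) (nat_lit 3562) (nat_lit 492) (nat_lit 3563))))))))))))) (.a (.p (nat_lit 526) (.a (.f (nat_lit 497) (nat_lit 498) (nat_lit 2542) (.f (nat_lit 496) (nat_lit 525) (nat_lit 2541) (.d (nat_lit 465) (nat_lit 433) (nat_lit 5552) (nat_lit 592) (nat_lit 6608)))) (.a (.f (nat_lit 493) (nat_lit 494) (nat_lit 3565) (.f (nat_lit 525) (nat_lit 492) (nat_lit 3564) (.f (nat_lit 524) (nat_lit 559) (nat_lit 524) (.d (nat_lit 556) (nat_lit 555) (nat_lit 1547) (nat_lit 557) (nat_lit 1548))))) (.f (nat_lit 497) (nat_lit 498) (nat_lit 2542) (.f (nat_lit 592) (nat_lit 624) (nat_lit 6640) (.d (nat_lit 465) (nat_lit 433) (nat_lit 5552) (nat_lit 496) (nat_lit 6608))))))) (.a (.p (nat_lit 526) (.a (.f (nat_lit 497) (nat_lit 498) (nat_lit 2542) (.f (nat_lit 496) (nat_lit 525) (nat_lit 2541) (.d (nat_lit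 465) (nat_lit 433) (nat_lit 5552) (nat_lit 592) (nat_lit 6608)))) (.a (.f (nat_lit 557) (nat_lit 558) (nat_lit 1549) (.f (nat_lit 525) (nat_lit 556) (nat_lit 1548) (.f (nat_lit 524) (nat_lit 559) (nat_lit 524) (.d (nat_lit 492) (nat_lit 491) (nat_lit 3563) (nat_lit 493) (nat_lit 3564))))) (.f (nat_lit 497) (nat_lit 498) (nat_lit 2542) (.f (nat_lit 592) (nat_lit 624) (nat_lit 6640) (.d (nat_lit 465) (nat_lit 433) (nat_lit 5552) (nat_lit 496) (nat_lit 6608))))))) (.a s33702 s33383))))))))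
noncomputable def s33705 : Cert := .r (nat_lit 3075429351738513152311891557988464161336707014464200823408719629715123346162149911350906719016331640629828747503383424400630650623873056428033164674419545604096) (.p (nat_lit 530) (.a (.f (nat_lit 559) (nat_lit 558) (nat_lit 1550) (.f (nat_lit 560) (nat_lit 531) (nat_lit 1551) (.f (nat_lit 495) (nat_lit 494) (nat_lit 3566) (.d (nat_lit 463) (nat_lit 431) (nat_lit 4527) (nat_lit 592) (nat_lit 4559))))) (.a (.f (nat_lit 495) (nat_lit 494) (nat_lit 3566) (.f (nat_lit 496) (nat_lit 531) (nat_lit 3567) (.f (nat_lit 559) (nat_lit 558) (nat_lit 1550) (.d (nat_lit 464) (nat_lit 432) (nat_lit 5551) (nat_lit 591) (nat_lit 6607))))) (.a (.f (nat_lit 559) (nat_lit 558) (nat_lit 1550) (.f (nat_lit 531) (nat_lit 560) (nat_lit 1551) (.d (nat_lit 563) (nat_lit 562) (nat_lit 527) (nat_lit 564) (nat_lit 528)))) (.a (.f (nat_lit 495) (nat_lit 494) (nat_lit 3566) (.f (nat_lit 531) (nat_lit 496) (nat_lit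 3567) (.d (nat_lit 563) (nat_lit 562) (nat_lit 527) (nat_lit 564) (nat_lit 528)))) (.f (nat_lit 494) (nat_lit 495) (nat_lit 3566) (.f (nat_lit 526) (nat_lit 493) (nat_lit 3565) (.d (nat_lit 558) (nat_lit 557) (nat_lit 1549) (nat_lit 559) (nat_lit 1550)))))))))
noncomputable def s33707 : Cert := .r (nat_lit 3075429351738513152311891557988464161336707014464200823408719629715123346162149911350906719016331640629828747503383424400630650623873056428033164674419545604096) (.p (nat_lit 560) (.a s33164 (.a s33271 (.a s33276 (.a s33189 (.a s33289 (.a s33291 (.a s33294 (.a s33296 (.a s33301 s33302))))))))))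
noncomputable def s33708 : Cert := .r (nat_lit 3075429351738513152311891557988464161336707014464200823408719629715123346162149911350906719016331640629828747503383424400630650623873056428033164674419545604096) (.p (nat_lit 530) (.a (.f (nat_lit 559) (nat_lit 558) (nat_lit 1550) (.f (nat_lit 560) (nat_lit 531) (nat_lit 1551) (.f (nat_lit 495) (nat_lit 494) (nat_lit 3566) (.d (nat_lit 463) (nat_lit 431) (nat_lit 4527) (nat_lit 592) (nat_lit 4559))))) (.a (.f (nat_lit 495) (nat_lit 494) (nat_lit 3566) (.f (nat_lit 496) (nat_lit 531) (nat_lit 3567) (.f (nat_lit 559) (nat_lit 558) (nat_lit 1550) (.d (nat_lit 464) (nat_lit 432) (nat_lit 5551) (nat_lit 591) (nat_lit 6607))))) (.a (.f (nat_lit 559) (nat_lit 558) (nat_lit 1550) (.f (nat_lit 531) (nat_lit 560) (nat_lit 1551) (.d (nat_lit 499) (nat_lit 498) (nat_lit 2543) (nat_lit 500) (nat_lit 2544)))) (.a (.f (nat_lit 495) (nat_lit 494) (nat_lit 3566) (.f (nat_lit 531) (nat_lit 496) (nat_lit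 3567) (.d (nat_lit 499) (nat_lit 498) (nat_lit 2543) (nat_lit 500) (nat_lit 2544)))) (.f (nat_lit 494) (nat_lit 495) (nat_lit 3566) (.f (nat_lit 526) (nat_lit 493) (nat_lit 3565) (.d (nat_lit 558) (nat_lit 557) (nat_lit 1549) (nat_lit 559) (nat_lit 1550)))))))))
noncomputable def s33717 : Cert := .r (nat_lit 3773962427896970703980067733300160448905385381753147442840407123654343792107272198248276636528565486557800015660592592403154009030555443256434490679465860718068940931072) (.p (nat_lit 496) (.a (.p (nat_lit 592) (.a (.d (nat_lit 497) (nat_lit 465) (nat_lit 6608) (nat_lit 624) (nat_lit 6640)) (.f (nat_lit 593) (nat_lit 625) (nat_lit 4592) (.f (nat_lit 464) (nat_lit 561) (nat_lit 4560) (.f (nat_lit 432) (nat_lit 559) (nat_lit 5551) (.d (nat_lit 431) (nat_lit 399) (nat_lit 7567) (nat_lit 463) (nat_lit 7599))))))) (.a (.p (nat_lit 592) (.a (.d (nat_lit 497) (nat_lit 465) (nat_lit 6608) (nat_lit 624) (nat_lit 6640)) (.a (.f (nat_lit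 624) (nat_lit 495) (nat_lit 7663) (.d (nat_lit 625) (nat_lit 593) (nat_lit 4592) (nat_lit 657) (nat_lit 4624))) (.f (nat_lit 497) (nat_lit 465) (nat_lit 6608) (.f (nat_lit 593) (nat_lit 625) (nat_lit 4592) (.f (nat_lit 561) (nat_lit 464) (nat_lit 4560) (.d (nat_lit 498) (nat_lit 466) (nat_lit 6609) (nat_lit 499) (nat_lit 1519)))))))) (.a (.p (nat_lit 592) (.a (.f (nat_lit 593) (nat_lit 625) (nat_lit 4592) (.f (nat_lit 464) (nat_lit 561) (nat_lit 4560) (.f (nat_lit 432) (nat_lit 559) (nat_lit 5551) (.d (nat_lit 431) (nat_lit 399) (nat_lit 7567) (nat_lit 463) (nat_lit 7599))))) (.a (.f (nat_lit 624) (nat_lit 495) (nat_lit 7663) (.d (nat_lit 625) (nat_lit 593) (nat_lit 4592) (nat_lit 657) (nat_lit 4624))) (.d (nat_lit 495) (nat_lit 463) (nat_lit 7631) (nat_lit 624) (nat_lit 7663))))) (.a (.p (nat_lit 592) (.a (.d (nat_lit 497) (nat_lit 465) (nat_lit 6608) (nat_lit 624) (nat_lit 6640)) (.a (.f (nat_lit 624) (nat_lit 495) (nat_lit 7663)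 (.d (nat_lit 625) (nat_lit 593) (nat_lit 4592) (nat_lit 657) (nat_lit 4624))) (.f (nat_lit 463) (nat_lit 495) (nat_lit 7631) (.f (nat_lit 464) (nat_lit 431) (nat_lit 7599) (.d (nat_lit 465) (nat_lit 433) (nat_lit 6576) (nat_lit 497) (nat_lit 6608))))))) (.a (.p (nat_lit 592) (.a (.d (nat_lit 497) (nat_lit 465) (nat_lit 6608) (nat_lit 624) (nat_lit 6640)) (.a (.f (nat_lit 624) (nat_lit 495) (nat_lit 7663) (.d (nat_lit 625) (nat_lit 593) (nat_lit 4592) (nat_lit 657) (nat_lit 4624))) (.f (nat_lit 495) (nat_lit 463) (nat_lit 7631) (.f (nat_lit 497) (nat_lit 465) (nat_lit 6608) (.f (nat_lit 498) (nat_lit 499) (nat_lit 1519) (.f (nat_lit 593) (nat_lit 625) (nat_lit 4592) (.d (nat_lit 466) (nat_lit 467) (nat_lit 2511) (nat_lit 561) (nat_lit 6609))))))))) (.a (.p (nat_lit 464) (.a (.d (nat_lit 561) (nat_lit 432) (nat_lit 4528) (nat_lit 593) (nat_lit 4560)) (.a (.f (nat_lit 431) (nat_lit 463) (nat_lit 7599) (.f (nat_lit 432) (nat_lit 399)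 (nat_lit 7567) (.d (nat_lit 400) (nat_lit 495) (nat_lit 5519) (nat_lit 497) (nat_lit 4496)))) (.f (nat_lit 561) (nat_lit 593) (nat_lit 4560) (.f (nat_lit 465) (nat_lit 433) (nat_lit 6576) (.f (nat_lit 463) (nat_lit 431) (nat_lit 7599) (.f (nat_lit 562) (nat_lit 563) (nat_lit 3599) (.f (nat_lit 497) (nat_lit 594) (nat_lit 4561) (.d (nat_lit 462) (nat_lit 461) (nat_lit 461) (nat_lit 498) (nat_lit 462)))))))))) (.p (nat_lit 592) (.a (.d (nat_lit 497) (nat_lit 465) (nat_lit 6608) (nat_lit 624) (nat_lit 6640)) (.a (.d (nat_lit 495) (nat_lit 463) (nat_lit 7631) (nat_lit 624) (nat_lit 7663)) (.f (nat_lit 463) (nat_lit 495) (nat_lit 7631) (.f (nat_lit 464) (nat_lit 431) (nat_lit 7599) (.d (nat_lit 465) (nat_lit 433) (nat_lit 6576) (nat_lit 497) (nat_lit 6608))))))))))))))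
noncomputable def s33721 : Cert := .r (nat_lit 3075429351738513152311891557988464161336707014464200823408719629715123346162149911350906719016331640629828747503383424400630650623873056428033164674419545604096) (.p (nat_lit 560) (.a (.p (nat_lit 526) (.a (.d (nat_lit 561) (nat_lit 525) (nat_lit 525) (nat_lit 562) (nat_lit 526)) (.a (.f (nat_lit 561) (nat_lit 562) (nat_lit 526) (.f (nat_lit 497) (nat_lit 498) (nat_lit 2542) (.d (nat_lit 465) (nat_lit 433) (nat_lit 5552) (nat_lit 592) (nat_lit 5584)))) (.f (nat_lit 497) (nat_lit 498) (nat_lit 2542) (.f (nat_lit 496) (nat_lit 525) (nat_lit 2541) (.d (nat_lit 465) (nat_lit 433) (nat_lit 5552) (nat_lit 592) (nat_lit 6608))))))) (.a (.p (nat_lit 526) (.a (.d (nat_lit 561) (nat_lit 525) (nat_lit 525) (nat_lit 562) (nat_lit 526)) (.a (.f (nat_lit 493) (nat_lit 494) (nat_lit 3565) (.f (nat_lit 525) (nat_lit 492) (nat_lit 3564) (.f (nat_lit 524) (nat_lit 559) (nat_lit 524) (.d (nat_lit 556)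 (nat_lit 555) (nat_lit 1547) (nat_lit 557) (nat_lit 1548))))) (.f (nat_lit 561) (nat_lit 562) (nat_lit 526) (.f (nat_lit 497) (nat_lit 498) (nat_lit 2542) (.d (nat_lit 465) (nat_lit 433) (nat_lit 5552) (nat_lit 592) (nat_lit 5584))))))) (.a s33187 (.a s33294 (.a (.p (nat_lit 526) (.a (.f (nat_lit 497) (nat_lit 498) (nat_lit 2542) (.f (nat_lit 496) (nat_lit 525) (nat_lit 2541) (.d (nat_lit 465) (nat_lit 433) (nat_lit 5552) (nat_lit 592) (nat_lit 6608)))) (.a (.f (nat_lit 493) (nat_lit 494) (nat_lit 3565) (.f (nat_lit 525) (nat_lit 492) (nat_lit 3564) (.f (nat_lit 524) (nat_lit 559) (nat_lit 524) (.d (nat_lit 556) (nat_lit 555) (nat_lit 1547) (nat_lit 557) (nat_lit 1548))))) (.f (nat_lit 497) (nat_lit 498) (nat_lit 2542) (.f (nat_lit 592) (nat_lit 624) (nat_lit 6640) (.d (nat_lit 465) (nat_lit 433) (nat_lit 5552) (nat_lit 496) (nat_lit 6608))))))) (.a (.p (nat_lit 526) (.a (.d (nat_lit 561) (nat_lit 525) (nat_lit 525) (nat_lit 562)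 (nat_lit 526)) (.a (.f (nat_lit 493) (nat_lit 494) (nat_lit 3565) (.f (nat_lit 525) (nat_lit 492) (nat_lit 3564) (.f (nat_lit 524) (nat_lit 559) (nat_lit 524) (.d (nat_lit 556) (nat_lit 555) (nat_lit 1547) (nat_lit 557) (nat_lit 1548))))) (.f (nat_lit 561) (nat_lit 562) (nat_lit 526) (.f (nat_lit 497) (nat_lit 498) (nat_lit 2542) (.f (nat_lit 465) (nat_lit 433) (nat_lit 5552) (.f (nat_lit 464) (nat_lit 432) (nat_lit 7600) (.f (nat_lit 496) (nat_lit 593) (nat_lit 4560) (.f (nat_lit 494) (nat_lit 493) (nat_lit 3565) (.d (nat_lit 466) (nat_lit 434) (nat_lit 6577) (nat_lit 495) (nat_lit 2510))))))))))) s33379)))))))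
noncomputable def s33738 : Cert := .r (nat_lit 3075429351738513152311891557988464161336707014464200823408719629715123346162149911350906719016331640629828747503383424400630650623873056428033164674419545604096) (.p (nat_lit 530) (.a (.f (nat_lit 498) (nat_lit 499) (nat_lit 2543) (.f (nat_lit 526) (nat_lit 497) (nat_lit 2542) (.d (nat_lit 494) (nat_lit 493) (nat_lit 3565) (nat_lit 495) (nat_lit 3566)))) (.a (.f (nat_lit 495) (nat_lit 494) (nat_lit 3566) (.f (nat_lit 531) (nat_lit 496) (nat_lit 3567) (.d (nat_lit 499) (nat_lit 498) (nat_lit 2543) (nat_lit 500) (nat_lit 2544)))) (.a (.f (nat_lit 498) (nat_lit 499) (nat_lit 2543) (.f (nat_lit 526) (nat_lit 497) (nat_lit 2542) (.f (nat_lit 493) (nat_lit 494) (nat_lit 3565) (.f (nat_lit 525) (nat_lit 492) (nat_lit 3564) (.f (nat_lit 556) (nat_lit 557) (nat_lit 1548) (.f (nat_lit 524) (nat_lit 555) (nat_lit 1547) (.d (nat_lit 560) (nat_lit 559) (nat_lit 524) (nat_lit 561) (nat_lit 525))))))))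 (.a (.f (nat_lit 499) (nat_lit 498) (nat_lit 2543) (.f (nat_lit 531) (nat_lit 500) (nat_lit 2544) (.f (nat_lit 496) (nat_lit 495) (nat_lit 3567) (.f (nat_lit 560) (nat_lit 559) (nat_lit 1551) (.d (nat_lit 532) (nat_lit 497) (nat_lit 3568) (nat_lit 561) (nat_lit 1552)))))) (.a (.f (nat_lit 495) (nat_lit 494) (nat_lit 3566) (.f (nat_lit 531) (nat_lit 496) (nat_lit 3567) (.f (nat_lit 560) (nat_lit 559) (nat_lit 1551) (.f (nat_lit 500) (nat_lit 499) (nat_lit 2544) (.d (nat_lit 532) (nat_lit 501) (nat_lit 2545) (nat_lit 561) (nat_lit 1552)))))) (.f (nat_lit 495) (nat_lit 494) (nat_lit 3566) (.f (nat_lit 531) (nat_lit 496) (nat_lit 3567) (.f (nat_lit 560) (nat_lit 559) (nat_lit 1551) (.f (nat_lit 561) (nat_lit 532) (nat_lit 1552) (.f (nat_lit 592) (nat_lit 624) (nat_lit 7663) (.f (nat_lit 497) (nat_lit 465) (nat_lit 5584) (.d (nat_lit 526) (nat_lit 498) (nat_lit 2542) (nat_lit 525) (nat_lit 525))))))))))))))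
noncomputable def s33739 : Cert := .r (nat_lit 3075429351738513152311891557988464161336707014464200823408719629715123346162149911350906719016331640629828747503383424400630650623873056428033164674419545604096) (.p (nat_lit 530) (.a (.f (nat_lit 498) (nat_lit 499) (nat_lit 2543) (.f (nat_lit 562) (nat_lit 563) (nat_lit 527) (.d (nat_lit 526) (nat_lit 497) (nat_lit 2542) (nat_lit 561) (nat_lit 526)))) (.a (.f (nat_lit 499) (nat_lit 498) (nat_lit 2543) (.f (nat_lit 531) (nat_lit 500) (nat_lit 2544) (.d (nat_lit 563) (nat_lit 562) (nat_lit 527) (nat_lit 564) (nat_lit 528)))) (.a (.f (nat_lit 499) (nat_lit 498) (nat_lit 2543) (.f (nat_lit 531) (nat_lit 500) (nat_lit 2544) (.f (nat_lit 496) (nat_lit 495) (nat_lit 3567) (.f (nat_lit 560) (nat_lit 559) (nat_lit 1551) (.d (nat_lit 532) (nat_lit 497) (nat_lit 3568) (nat_lit 561) (nat_lit 1552)))))) (.a (.f (nat_lit 563) (nat_lit 562) (nat_lit 527) (.f (nat_lit 531) (nat_lit 564) (nat_lit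 528) (.f (nat_lit 500) (nat_lit 499) (nat_lit 2544) (.f (nat_lit 532) (nat_lit 501) (nat_lit 2545) (.d (nat_lit 560) (nat_lit 559) (nat_lit 1551) (nat_lit 561) (nat_lit 1552)))))) (.f (nat_lit 562) (nat_lit 563) (nat_lit 527) (.f (nat_lit 526) (nat_lit 561) (nat_lit 526) (.f (nat_lit 497) (nat_lit 498) (nat_lit 2542) (.f (nat_lit 496) (nat_lit 525) (nat_lit 2541) (.d (nat_lit 531) (nat_lit 495) (nat_lit 3567) (nat_lit 532) (nat_lit 3568)))))))))))
noncomputable def s33740 : Cert := .r (nat_lit 3075429351738513152311891557988464161336707014464200823408719629715123346162149911350906719016331640629828747503383424400630650623873056428033164674419545604096) (.p (nat_lit 530) (.a (.f (nat_lit 562) (nat_lit 563) (nat_lit 527) (.f (nat_lit 526) (nat_lit 561) (nat_lit 526) (.d (nat_lit 494) (nat_lit 493) (nat_lit 3565) (nat_lit 495) (nat_lit 3566)))) (.a (.f (nat_lit 563) (nat_lit 562) (nat_lit 527) (.f (nat_lit 531) (nat_lit 564) (nat_lit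 528) (.f (nat_lit 500) (nat_lit 499) (nat_lit 2544) (.f (nat_lit 532) (nat_lit 501) (nat_lit 2545) (.d (nat_lit 560) (nat_lit 559) (nat_lit 1551) (nat_lit 561) (nat_lit 1552)))))) (.a (.f (nat_lit 495) (nat_lit 494) (nat_lit 3566) (.f (nat_lit 531) (nat_lit 496) (nat_lit 3567) (.d (nat_lit 563) (nat_lit 562) (nat_lit 527) (nat_lit 564) (nat_lit 528)))) (.f (nat_lit 495) (nat_lit 494) (nat_lit 3566) (.f (nat_lit 531) (nat_lit 496) (nat_lit 3567) (.f (nat_lit 560) (nat_lit 559) (nat_lit 1551) (.f (nat_lit 500) (nat_lit 499) (nat_lit 2544) (.d (nat_lit 532) (nat_lit 501) (nat_lit 2545) (nat_lit 561) (nat_lit 1552))))))))))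
noncomputable def s33741 : Cert := .r (nat_lit 3075429351738513152311891557988464161336707014464200823408719629715123346162149911350906719016331640629828747503383424400630650623873056428033164674419545604096) (.p (nat_lit 530) (.a (.f (nat_lit 562) (nat_lit 563) (nat_lit 527) (.f (nat_lit 526) (nat_lit 561) (nat_lit 526) (.d (nat_lit 494) (nat_lit 493) (nat_lit 3565) (nat_lit 495) (nat_lit 3566)))) (.a (.f (nat_lit 495) (nat_lit 494) (nat_lit 3566) (.f (nat_lit 531) (nat_lit 496) (nat_lit 3567) (.d (nat_lit 563) (nat_lit 562) (nat_lit 527) (nat_lit 564) (nat_lit 528)))) (.a (.f (nat_lit 562) (nat_lit 563) (nat_lit 527) (.f (nat_lit 526) (nat_lit 561) (nat_lit 526) (.f (nat_lit 497) (nat_lit 498) (nat_lit 2542) (.f (nat_lit 525) (nat_lit 496) (nat_lit 2541) (.d (nat_lit 493) (nat_lit 492) (nat_lit 3564) (nat_lit 494) (nat_lit 3565)))))) (.a (.f (nat_lit 495) (nat_lit 494) (nat_lit 3566) (.f (nat_lit 531) (nat_lit 496) (nat_lit 3567)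 (.f (nat_lit 560) (nat_lit 559) (nat_lit 1551) (.f (nat_lit 561) (nat_lit 532) (nat_lit 1552) (.f (nat_lit 592) (nat_lit 624) (nat_lit 7663) (.f (nat_lit 497) (nat_lit 465) (nat_lit 5584) (.d (nat_lit 526) (nat_lit 498) (nat_lit 2542) (nat_lit 525) (nat_lit 525)))))))) (.f (nat_lit 562) (nat_lit 563) (nat_lit 527) (.f (nat_lit 526) (nat_lit 561) (nat_lit 526) (.f (nat_lit 497) (nat_lit 498) (nat_lit 2542) (.f (nat_lit 496) (nat_lit 525) (nat_lit 2541) (.d (nat_lit 531) (nat_lit 495) (nat_lit 3567) (nat_lit 532) (nat_lit 3568)))))))))))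
noncomputable def s33752 : Cert := .r (nat_lit 3075429351738513152311891557988464161336707014464200823408719629715123346162149911350906719016331640629828747503383424400630650623873056428033164674419545604096) (.p (nat_lit 526) (.a (.f (nat_lit 558) (nat_lit 557) (nat_lit 1549) (.f (nat_lit 530) (nat_lit 559) (nat_lit 1550) (.d (nat_lit 498) (nat_lit 497) (nat_lit 2542) (nat_lit 499) (nat_lit 2543)))) (.a (.f (nat_lit 497) (nat_lit 498) (nat_lit 2542) (.f (nat_lit 525) (nat_lit 496) (nat_lit 2541) (.d (nat_lit 557) (nat_lit 556) (nat_lit 1548) (nat_lit 558) (nat_lit 1549)))) (.a (.f (nat_lit 557) (nat_lit 558) (nat_lit 1549) (.f (nat_lit 525) (nat_lit 556) (nat_lit 1548) (.f (nat_lit 492) (nat_lit 493) (nat_lit 3564) (.f (nat_lit 524) (nat_lit 491) (nat_lit 3563) (.d (nat_lit 560) (nat_lit 559) (nat_lit 524) (nat_lit 561) (nat_lit 525)))))) (.f (nat_lit 497) (nat_lit 498) (nat_lit 2542) (.f (nat_lit 525) (nat_lit 496) (nat_lit 2541)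 (.f (nat_lit 560) (nat_lit 561) (nat_lit 525) (.f (nat_lit 524) (nat_lit 559) (nat_lit 524) (.d (nat_lit 492) (nat_lit 491) (nat_lit 3563) (nat_lit 493) (nat_lit 3564))))))))))
noncomputable def s33758 : Cert := .r (nat_lit 3075429351738513152311891557988464161336707014464200823408719629715123346162149911350906719016331640629828747503383424400630650623873056428033164674419545604096) (.p (nat_lit 530) (.a (.f (nat_lit 562) (nat_lit 563) (nat_lit 527) (.f (nat_lit 526) (nat_lit 561) (nat_lit 526) (.d (nat_lit 558) (nat_lit 557) (nat_lit 1549) (nat_lit 559) (nat_lit 1550)))) (.a (.f (nat_lit 559) (nat_lit 558) (nat_lit 1550) (.f (nat_lit 531) (nat_lit 560) (nat_lit 1551) (.d (nat_lit 563) (nat_lit 562) (nat_lit 527) (nat_lit 564) (nat_lit 528)))) (.a (.f (nat_lit 562) (nat_lit 563) (nat_lit 527) (.f (nat_lit 526) (nat_lit 561) (nat_lit 526) (.f (nat_lit 557) (nat_lit 558) (nat_lit 1549) (.f (nat_lit 525) (nat_lit 556) (nat_lit 1548)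 (.f (nat_lit 492) (nat_lit 493) (nat_lit 3564) (.f (nat_lit 524) (nat_lit 491) (nat_lit 3563) (.d (nat_lit 496) (nat_lit 495) (nat_lit 2540) (nat_lit 497) (nat_lit 2541)))))))) (.a (.f (nat_lit 563) (nat_lit 562) (nat_lit 527) (.f (nat_lit 531) (nat_lit 564) (nat_lit 528) (.f (nat_lit 500) (nat_lit 499) (nat_lit 2544) (.f (nat_lit 532) (nat_lit 501) (nat_lit 2545) (.d (nat_lit 560) (nat_lit 559) (nat_lit 1551) (nat_lit 561) (nat_lit 1552)))))) (.f (nat_lit 559) (nat_lit 558) (nat_lit 1550) (.f (nat_lit 531) (nat_lit 560) (nat_lit 1551) (.f (nat_lit 496) (nat_lit 495) (nat_lit 3567) (.f (nat_lit 500) (nat_lit 499) (nat_lit 2544) (.d (nat_lit 532) (nat_lit 497) (nat_lit 3568) (nat_lit 501) (nat_lit 2545)))))))))))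
noncomputable def s33759 : Cert := .r (nat_lit 3075429351738513152311891557988464161336707014464200823408719629715123346162149911350906719016331640629828747503383424400630650623873056428033164674419545604096) (.p (nat_lit 530) (.a (.f (nat_lit 562) (nat_lit 563) (nat_lit 527) (.f (nat_lit 526) (nat_lit 561) (nat_lit 526) (.d (nat_lit 558) (nat_lit 557) (nat_lit 1549) (nat_lit 559) (nat_lit 1550)))) (.a (.f (nat_lit 559) (nat_lit 558) (nat_lit 1550) (.f (nat_lit 531) (nat_lit 560) (nat_lit 1551) (.d (nat_lit 563) (nat_lit 562) (nat_lit 527) (nat_lit 564) (nat_lit 528)))) (.a (.f (nat_lit 562) (nat_lit 563) (nat_lit 527) (.f (nat_lit 526) (nat_lit 561) (nat_lit 526) (.f (nat_lit 557) (nat_lit 558) (nat_lit 1549) (.f (nat_lit 525) (nat_lit 556) (nat_lit 1548) (.f (nat_lit 492) (nat_lit 493) (nat_lit 3564) (.f (nat_lit 524) (nat_lit 491) (nat_lit 3563) (.d (nat_lit 496) (nat_lit 495) (nat_lit 2540) (nat_lit 497) (nat_lit 2541))))))))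 (.a (.f (nat_lit 562) (nat_lit 563) (nat_lit 527) (.f (nat_lit 526) (nat_lit 561) (nat_lit 526) (.f (nat_lit 497) (nat_lit 498) (nat_lit 2542) (.f (nat_lit 496) (nat_lit 525) (nat_lit 2541) (.d (nat_lit 531) (nat_lit 495) (nat_lit 3567) (nat_lit 532) (nat_lit 3568)))))) (.f (nat_lit 559) (nat_lit 558) (nat_lit 1550) (.f (nat_lit 531) (nat_lit 560) (nat_lit 1551) (.f (nat_lit 496) (nat_lit 495) (nat_lit 3567) (.f (nat_lit 497) (nat_lit 532) (nat_lit 3568) (.d (nat_lit 526) (nat_lit 498) (nat_lit 2542) (nat_lit 525) (nat_lit 2541)))))))))))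
noncomputable def s33768 : Cert := .r (nat_lit 3773962427896970703980067733300160448905385381753147442840407123654343792107272198248276636528565486557800015660592592403154009030555443256434490679465860718068940931072) (.p (nat_lit 495) (.a (.f (nat_lit 592) (nat_lit 624) (nat_lit 7663) (.d (nat_lit 463) (nat_lit 431) (nat_lit 4527) (nat_lit 559) (nat_lit 4559))) (.a (.p (nat_lit 465) (.a (.f (nat_lit 497) (nat_lit 433) (nat_lit 5552) (.d (nat_lit 592) (nat_lit 561) (nat_lit 5584) (nat_lit 624) (nat_lit 6640))) (.f (nat_lit 494) (nat_lit 530) (nat_lit 3566) (.f (nat_lit 463) (nat_lit 431) (nat_lit 4527) (.f (nat_lit 464) (nat_lit 466) (nat_lit 1486) (.d (nat_lit 493) (nat_lit 462) (nat_lit 1485) (nat_lit 492) (nat_lit 492))))))) (.f (nat_lit 530) (nat_lit 494) (nat_lit 3566) (.d (nat_lit 559) (nat_lit 531) (nat_lit 1551) (nat_lit 558) (nat_lit 1550))))))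
noncomputable def s33777 : Cert := .r (nat_lit 3075429351738513152311891557988464161336707014464200823408719629715123346162149911350906719016331640629828747503383424400630650623873056428033164674419545604096) (.p (nat_lit 526) (.a (.f (nat_lit 558) (nat_lit 557) (nat_lit 1549) (.f (nat_lit 494) (nat_lit 493) (nat_lit 3565) (.d (nat_lit 530) (nat_lit 495) (nat_lit 3566) (nat_lit 559) (nat_lit 1550)))) (.a (.f (nat_lit 557) (nat_lit 558) (nat_lit 1549) (.f (nat_lit 525) (nat_lit 556) (nat_lit 1548) (.d (nat_lit 493) (nat_lit 492) (nat_lit 3564) (nat_lit 494) (nat_lit 3565)))) (.a (.f (nat_lit 493) (nat_lit 494) (nat_lit 3565) (.f (nat_lit 525) (nat_lit 492) (nat_lit 3564) (.f (nat_lit 496) (nat_lit 497) (nat_lit 2541) (.f (nat_lit 560) (nat_lit 561) (nat_lit 525) (.d (nat_lit 524) (nat_lit 495) (nat_lit 2540) (nat_lit 559) (nat_lit 524)))))) (.a (.f (nat_lit 557) (nat_lit 558) (nat_lit 1549) (.f (nat_lit 525) (nat_lit 556) (nat_lit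 1548) (.f (nat_lit 492) (nat_lit 493) (nat_lit 3564) (.f (nat_lit 524) (nat_lit 491) (nat_lit 3563) (.d (nat_lit 560) (nat_lit 559) (nat_lit 524) (nat_lit 561) (nat_lit 525)))))) (.f (nat_lit 558) (nat_lit 557) (nat_lit 1549) (.f (nat_lit 530) (nat_lit 559) (nat_lit 1550) (.f (nat_lit 495) (nat_lit 494) (nat_lit 3566) (.f (nat_lit 496) (nat_lit 531) (nat_lit 3567) (.d (nat_lit 525) (nat_lit 497) (nat_lit 2541) (nat_lit 524) (nat_lit 2540)))))))))))
noncomputable def s33816 : Cert := .r (nat_lit 878694100496718043517683302282418331810487718418343092402491322775749527474899974671687634004666183037093927858109549828751614463963730408009475621262727315456) (.p (nat_lit 529) (.a (.p (nat_lit 560) (.a (.p (nat_lit 527) (.a (.p (nat_lit 530) (.a (.d (nat_lit 559) (nat_lit 531) (nat_lit 1551) (nat_lit 558) (nat_lit 1550)) (.a (.f (nat_lit 495) (nat_lit 494) (nat_lit 3566) (.f (nat_lit 496) (nat_lit 531) (nat_lit 3567) (.d (nat_lit 463) (nat_lit 431) (nat_lit 4527) (nat_lit 592) (nat_lit 7631)))) (.f (nat_lit 559) (nat_lit 558) (nat_lit 1550) (.f (nat_lit 495) (nat_lit 494) (nat_lit 3566) (.d (nat_lit 463) (nat_lit 431) (nat_lit 4527) (nat_lit 592) (nat_lit 4559))))))) (.a (.p (nat_lit 530) (.a (.d (nat_lit 559) (nat_lit 531) (nat_lit 1551) (nat_lit 558) (nat_lit 1550)) (.f (nat_lit 562) (nat_lit 563) (nat_lit 527) (.f (nat_lit 561) (nat_lit 526) (nat_lit 526) (.f (nat_lit 498) (nat_lit 499) (nat_lit 2543) (.d (nat_lit 466) (nat_lit 434) (nat_lit 5553) (nat_lit 593) (nat_lit 5585))))))) (.a (.p (nat_lit 530) (.a (.f (nat_lit 495) (nat_lit 494) (nat_lit 3566) (.f (nat_lit 496) (nat_lit 531) (nat_lit 3567) (.d (nat_lit 463) (nat_lit 431) (nat_lit 4527) (nat_lit 592) (nat_lit 7631)))) (.f (nat_lit 562) (nat_lit 563) (nat_lit 527) (.f (nat_lit 561) (nat_lit 526) (nat_lit 526) (.f (nat_lit 498) (nat_lit 499) (nat_lit 2543) (.d (nat_lit 466) (nat_lit 434) (nat_lit 5553) (nat_lit 593) (nat_lit 5585))))))) (.p (nat_lit 526) (.a (.d (nat_lit 561) (nat_lit 525) (nat_lit 525) (nat_lit 562) (nat_lit 526)) (.a (.f (nat_lit 561) (nat_lit 562) (nat_lit 526) (.f (nat_lit 497) (nat_lit 498) (nat_lit 2542) (.d (nat_lit 465) (nat_lit 433) (nat_lit 5552) (nat_lit 592) (nat_lit 5584)))) (.f (nat_lit 497) (nat_lit 498) (nat_lit 2542) (.f (nat_lit 496) (nat_lit 525) (nat_lit 2541) (.d (nat_lit 465) (nat_lit 433) (nat_lit 5552) (nat_lit 592) (nat_lit 6608))))))))))) (.a (.p (nat_lit 527) (.a (.p (nat_lit 530) (.a (.d (nat_lit 559) (nat_lit 531) (nat_lit 1551) (nat_lit 558) (nat_lit 1550)) (.f (nat_lit 562) (nat_lit 563) (nat_lit 527) (.f (nat_lit 561) (nat_lit 526) (nat_lit 526) (.f (nat_lit 498) (nat_lit 499) (nat_lit 2543) (.d (nat_lit 466) (nat_lit 434) (nat_lit 5553) (nat_lit 593) (nat_lit 5585))))))) (.a (.p (nat_lit 530) (.a (.d (nat_lit 559) (nat_lit 531) (nat_lit 1551) (nat_lit 558) (nat_lit 1550)) (.a (.f (nat_lit 563) (nat_lit 562) (nat_lit 527) (.f (nat_lit 531) (nat_lit 564) (nat_lit 528) (.d (nat_lit 499) (nat_lit 498) (nat_lit 2543) (nat_lit 500) (nat_lit 2544)))) (.f (nat_lit 559) (nat_lit 558) (nat_lit 1550) (.f (nat_lit 495) (nat_lit 494) (nat_lit 3566) (.d (nat_lit 463) (nat_lit 431) (nat_lit 4527) (nat_lit 592) (nat_lit 4559))))))) (.a s32915 (.a (.p (nat_lit 526) (.a (.d (nat_lit 561) (nat_lit 525) (nat_lit 525) (nat_lit 562) (nat_lit 526)) (.a (.f (nat_lit 561) (nat_lit 562) (nat_lit 526) (.f (nat_lit 497) (nat_lit 498) (nat_lit 2542) (.d (nat_lit 465) (nat_lit 433) (nat_lit 5552) (nat_lit 592) (nat_lit 5584)))) (.f (nat_lit 557) (nat_lit 558) (nat_lit 1549) (.f (nat_lit 525) (nat_lit 556) (nat_lit 1548) (.d (nat_lit 493) (nat_lit 492) (nat_lit 3564) (nat_lit 494) (nat_lit 3565))))))) (.a (.p (nat_lit 530) (.a (.d (nat_lit 559) (nat_lit 531) (nat_lit 1551) (nat_lit 558) (nat_lit 1550)) (.f (nat_lit 498) (nat_lit 499) (nat_lit 2543) (.f (nat_lit 497) (nat_lit 526) (nat_lit 2542) (.f (nat_lit 592) (nat_lit 624) (nat_lit 6640) (.d (nat_lit 465) (nat_lit 433) (nat_lit 5552) (nat_lit 561) (nat_lit 5584))))))) (.p (nat_lit 530) (.a (.d (nat_lit 559) (nat_lit 531) (nat_lit 1551) (nat_lit 558) (nat_lit 1550)) (.f (nat_lit 562) (nat_lit 563) (nat_lit 527) (.f (nat_lit 526) (nat_lit 561) (nat_lit 526) (.d (nat_lit 494) (nat_lit 493) (nat_lit 3565) (nat_lit 495) (nat_lit 3566)))))))))))) (.a s32931 (.a (.p (nat_lit 527) (.a (.p (nat_lit 530) (.a (.d (nat_lit 559) (nat_lit 531) (nat_lit 1551) (nat_lit 558) (nat_lit 1550)) (.f (nat_lit 562) (nat_lit 563) (nat_lit 527) (.f (nat_lit 561) (nat_lit 526) (nat_lit 526) (.f (nat_lit 498) (nat_lit 499) (nat_lit 2543) (.d (nat_lit 466) (nat_lit 434) (nat_lit 5553) (nat_lit 593) (nat_lit 5585))))))) (.a s32932 (.a (.p (nat_lit 526) (.a (.d (nat_lit 561) (nat_lit 525) (nat_lit 525) (nat_lit 562) (nat_lit 526)) (.a (.f (nat_lit 561) (nat_lit 562) (nat_lit 526) (.f (nat_lit 497) (nat_lit 498) (nat_lit 2542) (.d (nat_lit 465) (nat_lit 433) (nat_lit 5552) (nat_lit 592) (nat_lit 5584)))) (.f (nat_lit 497) (nat_lit 498) (nat_lit 2542) (.f (nat_lit 496) (nat_lit 525) (nat_lit 2541) (.d (nat_lit 465) (nat_lit 433) (nat_lit 5552) (nat_lit 592) (nat_lit 6608))))))) (.a (.p (nat_lit 530) (.a (.d (nat_lit 559) (nat_lit 531) (nat_lit 1551) (nat_lit 558) (nat_lit 1550)) (.a (.f (nat_lit 563) (nat_lit 562) (nat_lit 527) (.f (nat_lit 531) (nat_lit 564) (nat_lit 528) (.d (nat_lit 499) (nat_lit 498) (nat_lit 2543) (nat_lit 500) (nat_lit 2544)))) (.f (nat_lit 498) (nat_lit 499) (nat_lit 2543) (.f (nat_lit 497) (nat_lit 526) (nat_lit 2542) (.f (nat_lit 465) (nat_lit 433) (nat_lit 5552) (.d (nat_lit 562) (nat_lit 563) (nat_lit 527) (nat_lit 594) (nat_lit 7633)))))))) (.a (.p (nat_lit 530) (.a (.d (nat_lit 559) (nat_lit 531) (nat_lit 1551) (nat_lit 558) (nat_lit 1550)) (.f (nat_lit 498) (nat_lit 499) (nat_lit 2543) (.f (nat_lit 497) (nat_lit 526) (nat_lit 2542) (.f (nat_lit 592) (nat_lit 624) (nat_lit 6640) (.d (nat_lit 465) (nat_lit 433) (nat_lit 5552) (nat_lit 561) (nat_lit 5584))))))) (.p (nat_lit 530) (.a (.d (nat_lit 559) (nat_lit 531) (nat_lit 1551) (nat_lit 558) (nat_lit 1550)) (.a (.f (nat_lit 562) (nat_lit 563) (nat_lit 527) (.f (nat_lit 526) (nat_lit 561) (nat_lit 526) (.f (nat_lit 493) (nat_lit 494) (nat_lit 3565) (.f (nat_lit 525) (nat_lit 492) (nat_lit 3564) (.d (nat_lit 557) (nat_lit 556) (nat_lit 1548) (nat_lit 558) (nat_lit 1549)))))) (.f (nat_lit 531) (nat_lit 559) (nat_lit 1551) (.d (nat_lit 563) (nat_lit 562) (nat_lit 527) (nat_lit 564) (nat_lit 528)))))))))))) (.a (.p (nat_lit 527) (.a (.p (nat_lit 530) (.a (.f (nat_lit 495) (nat_lit 494) (nat_lit 3566) (.f (nat_lit 496) (nat_lit 531) (nat_lit 3567) (.d (nat_lit 463) (nat_lit 431) (nat_lit 4527) (nat_lit 592) (nat_lit 7631)))) (.f (nat_lit 562) (nat_lit 563) (nat_lit 527) (.f (nat_lit 561) (nat_lit 526) (nat_lit 526) (.f (nat_lit 498) (nat_lit 499) (nat_lit 2543) (.d (nat_lit 466) (nat_lit 434) (nat_lit 5553) (nat_lit 593) (nat_lit 5585))))))) (.a s32915 (.a (.p (nat_lit 530) (.a (.f (nat_lit 495) (nat_lit 494) (nat_lit 3566) (.f (nat_lit 496) (nat_lit 531) (nat_lit 3567) (.d (nat_lit 463) (nat_lit 431) (nat_lit 4527) (nat_lit 592) (nat_lit 7631)))) (.a (.f (nat_lit 563) (nat_lit 562) (nat_lit 527) (.f (nat_lit 531) (nat_lit 564) (nat_lit 528) (.d (nat_lit 499) (nat_lit 498) (nat_lit 2543) (nat_lit 500) (nat_lit 2544)))) (.f (nat_lit 495) (nat_lit 494) (nat_lit 3566) (.f (nat_lit 592) (nat_lit 624) (nat_lit 7663) (.d (nat_lit 463) (nat_lit 431) (nat_lit 4527) (nat_lit 496) (nat_lit 7631))))))) (.a (.p (nat_lit 526) (.a (.d (nat_lit 561) (nat_lit 525) (nat_lit 525) (nat_lit 562) (nat_lit 526)) (.a (.f (nat_lit 561) (nat_lit 562) (nat_lit 526) (.f (nat_lit 497) (nat_lit 498) (nat_lit 2542) (.d (nat_lit 465) (nat_lit 433) (nat_lit 5552) (nat_lit 592) (nat_lit 5584)))) (.f (nat_lit 497) (nat_lit 498) (nat_lit 2542) (.f (nat_lit 496) (nat_lit 525) (nat_lit 2541) (.d (nat_lit 465) (nat_lit 433) (nat_lit 5552) (nat_lit 592) (nat_lit 6608))))))) (.a s32939 (.a s234 s197))))))) (.a s32943 (.a s32954 (.a (.p (nat_lit 527) (.a (.p (nat_lit 530) (.a (.d (nat_lit 559) (nat_lit 531) (nat_lit 1551) (nat_lit 558) (nat_lit 1550)) (.a (.f (nat_lit 495) (nat_lit 494) (nat_lit 3566) (.f (nat_lit 496) (nat_lit 531) (nat_lit 3567) (.d (nat_lit 463) (nat_lit 431) (nat_lit 4527) (nat_lit 592) (nat_lit 7631)))) (.f (nat_lit 559) (nat_lit 558) (nat_lit 1550) (.f (nat_lit 495) (nat_lit 494) (nat_lit 3566) (.d (nat_lit 463) (nat_lit 431) (nat_lit 4527) (nat_lit 592) (nat_lit 4559))))))) (.a (.p (nat_lit 530) (.a (.d (nat_lit 559) (nat_lit 531) (nat_lit 1551) (nat_lit 558) (nat_lit 1550)) (.a (.f (nat_lit 563) (nat_lit 562) (nat_lit 527) (.f (nat_lit 531) (nat_lit 564) (nat_lit 528) (.d (nat_lit 499) (nat_lit 498) (nat_lit 2543) (nat_lit 500) (nat_lit 2544)))) (.f (nat_lit 559) (nat_lit 558) (nat_lit 1550) (.f (nat_lit 495) (nat_lit 494) (nat_lit 3566) (.d (nat_lit 463) (nat_lit 431) (nat_lit 4527) (nat_lit 592) (nat_lit 4559))))))) (.a (.p (nat_lit 530) (.a (.d (nat_lit 559) (nat_lit 531) (nat_lit 1551) (nat_lit 558) (nat_lit 1550)) (.a (.f (nat_lit 563) (nat_lit 562) (nat_lit 527) (.f (nat_lit 531) (nat_lit 564) (nat_lit 528) (.d (nat_lit 499) (nat_lit 498) (nat_lit 2543) (nat_lit 500) (nat_lit 2544)))) (.f (nat_lit 498) (nat_lit 499) (nat_lit 2543) (.f (nat_lit 497) (nat_lit 526) (nat_lit 2542) (.f (nat_lit 465) (nat_lit 433) (nat_lit 5552) (.d (nat_lit 562) (nat_lit 563) (nat_lit 527) (nat_lit 594) (nat_lit 7633)))))))) (.a (.p (nat_lit 530) (.a (.f (nat_lit 495) (nat_lit 494) (nat_lit 3566) (.f (nat_lit 496) (nat_lit 531) (nat_lit 3567) (.d (nat_lit 463) (nat_lit 431) (nat_lit 4527) (nat_lit 592) (nat_lit 7631)))) (.a (.f (nat_lit 563) (nat_lit 562) (nat_lit 527) (.f (nat_lit 531) (nat_lit 564) (nat_lit 528) (.d (nat_lit 499) (nat_lit 498) (nat_lit 2543) (nat_lit 500) (nat_lit 2544)))) (.f (nat_lit 495) (nat_lit 494) (nat_lit 3566) (.f (nat_lit 592) (nat_lit 624) (nat_lit 7663) (.d (nat_lit 463) (nat_lit 431) (nat_lit 4527) (nat_lit 496) (nat_lit 7631))))))) (.p (nat_lit 526) (.a (.f (nat_lit 497) (nat_lit 498) (nat_lit 2542) (.f (nat_lit 496) (nat_lit 525) (nat_lit 2541) (.d (nat_lit 465) (nat_lit 433) (nat_lit 5552) (nat_lit 592) (nat_lit 6608)))) (.a (.f (nat_lit 557) (nat_lit 558) (nat_lit 1549) (.f (nat_lit 525) (nat_lit 556) (nat_lit 1548) (.d (nat_lit 493) (nat_lit 492) (nat_lit 3564) (nat_lit 494) (nat_lit 3565)))) (.f (nat_lit 497) (nat_lit 498) (nat_lit 2542) (.f (nat_lit 592) (nat_lit 624) (nat_lit 6640) (.d (nat_lit 465) (nat_lit 433) (nat_lit 5552) (nat_lit 496) (nat_lit 6608)))))))))))) (.a (.p (nat_lit 530) (.a (.f (nat_lit 531) (nat_lit 559) (nat_lit 1551) (.f (nat_lit 563) (nat_lit 564) (nat_lit 528) (.f (nat_lit 562) (nat_lit 527) (nat_lit 527) (.f (nat_lit 499) (nat_lit 500) (nat_lit 2544) (.d (nat_lit 467) (nat_lit 435) (nat_lit 5554) (nat_lit 594) (nat_lit 5586)))))) (.a (.p (nat_lit 527) (.a (.f (nat_lit 495) (nat_lit 494) (nat_lit 3566) (.f (nat_lit 496) (nat_lit 531) (nat_lit 3567) (.d (nat_lit 463) (nat_lit 431) (nat_lit 4527) (nat_lit 592) (nat_lit 7631)))) (.a (.f (nat_lit 563) (nat_lit 562) (nat_lit 527) (.f (nat_lit 531) (nat_lit 564) (nat_lit 528) (.d (nat_lit 499) (nat_lit 498) (nat_lit 2543) (nat_lit 500) (nat_lit 2544)))) (.f (nat_lit 495) (nat_lit 494) (nat_lit 3566) (.f (nat_lit 592) (nat_lit 624) (nat_lit 7663) (.d (nat_lit 463) (nat_lit 431) (nat_lit 4527) (nat_lit 496) (nat_lit 7631))))))) (.a (.f (nat_lit 531) (nat_lit 559) (nat_lit 1551) (.f (nat_lit 532) (nat_lit 561) (nat_lit 1552) (.d (nat_lit 500) (nat_lit 499) (nat_lit 2544) (nat_lit 501) (nat_lit 2545)))) (.a (.p (nat_lit 527) (.a (.f (nat_lit 559) (nat_lit 558) (nat_lit 1550) (.f (nat_lit 495) (nat_lit 494) (nat_lit 3566) (.d (nat_lit 463) (nat_lit 431) (nat_lit 4527) (nat_lit 592) (nat_lit 4559)))) (.f (nat_lit 562) (nat_lit 563) (nat_lit 527) (.f (nat_lit 561) (nat_lit 526) (nat_lit 526) (.f (nat_lit 498) (nat_lit 499) (nat_lit 2543) (.d (nat_lit 466) (nat_lit 434) (nat_lit 5553) (nat_lit 593) (nat_lit 5585))))))) (.f (nat_lit 559) (nat_lit 531) (nat_lit 1551) (.d (nat_lit 558) (nat_lit 527) (nat_lit 1550) (nat_lit 557) (nat_lit 2573)))))))) (.a (.p (nat_lit 527) (.a (.p (nat_lit 530) (.a (.d (nat_lit 559) (nat_lit 531) (nat_lit 1551) (nat_lit 558) (nat_lit 1550)) (.f (nat_lit 562) (nat_lit 563) (nat_lit 527) (.f (nat_lit 561) (nat_lit 526) (nat_lit 526) (.f (nat_lit 498) (nat_lit 499) (nat_lit 2543) (.d (nat_lit 466) (nat_lit 434) (nat_lit 5553) (nat_lit 593) (nat_lit 5585))))))) (.a s32965 (.a s32939 (.a s32966 (.a (.p (nat_lit 530) (.a (.d (nat_lit 559) (nat_lit 531) (nat_lit 1551) (nat_lit 558) (nat_lit 1550)) (.a (.f (nat_lit 495) (nat_lit 494) (nat_lit 3566) (.f (nat_lit 496) (nat_lit 531) (nat_lit 3567) (.f (nat_lit 498) (nat_lit 499) (nat_lit 2543) (.f (nat_lit 497) (nat_lit 526) (nat_lit 2542) (.d (nat_lit 463) (nat_lit 431) (nat_lit 4527) (nat_lit 462) (nat_lit 3534)))))) (.f (nat_lit 559) (nat_lit 558) (nat_lit 1550) (.f (nat_lit 495) (nat_lit 494) (nat_lit 3566) (.f (nat_lit 463) (nat_lit 431) (nat_lit 4527) (.f (nat_lit 464) (nat_lit 432) (nat_lit 6575) (.f (nat_lit 496) (nat_lit 591) (nat_lit 5583) (.f (nat_lit 498) (nat_lit 499) (nat_lit 2543) (.d (nat_lit 462) (nat_lit 430) (nat_lit 7598) (nat_lit 497) (nat_lit 3534))))))))))) (.p (nat_lit 530) (.a (.d (nat_lit 559) (nat_lit 531) (nat_lit 1551) (nat_lit 558) (nat_lit 1550)) (.f (nat_lit 562) (nat_lit 563) (nat_lit 527) (.f (nat_lit 526) (nat_lit 561) (nat_lit 526) (.d (nat_lit 494) (nat_lit 493) (nat_lit 3565) (nat_lit 495) (nat_lit 3566)))))))))))) (.a (.p (nat_lit 527) (.a (.p (nat_lit 530) (.a (.f (nat_lit 495) (nat_lit 494) (nat_lit 3566) (.f (nat_lit 496) (nat_lit 531) (nat_lit 3567) (.d (nat_lit 463) (nat_lit 431) (nat_lit 4527) (nat_lit 592) (nat_lit 7631)))) (.f (nat_lit 562) (nat_lit 563) (nat_lit 527) (.f (nat_lit 561) (nat_lit 526) (nat_lit 526) (.f (nat_lit 498) (nat_lit 499) (nat_lit 2543) (.d (nat_lit 466) (nat_lit 434) (nat_lit 5553) (nat_lit 593) (nat_lit 5585))))))) (.a s32915 (.a (.p (nat_lit 530) (.a (.f (nat_lit 495) (nat_lit 494) (nat_lit 3566) (.f (nat_lit 496) (nat_lit 531) (nat_lit 3567) (.d (nat_lit 463) (nat_lit 431) (nat_lit 4527) (nat_lit 592) (nat_lit 7631)))) (.a (.f (nat_lit 563) (nat_lit 562) (nat_lit 527) (.f (nat_lit 531) (nat_lit 564) (nat_lit 528) (.d (nat_lit 499) (nat_lit 498) (nat_lit 2543) (nat_lit 500) (nat_lit 2544)))) (.f (nat_lit 495) (nat_lit 494) (nat_lit 3566) (.f (nat_lit 592) (nat_lit 624) (nat_lit 7663) (.d (nat_lit 463) (nat_lit 431) (nat_lit 4527) (nat_lit 496) (nat_lit 7631))))))) (.a (.p (nat_lit 526) (.a (.d (nat_lit 561) (nat_lit 525) (nat_lit 525) (nat_lit 562) (nat_lit 526)) (.a (.f (nat_lit 561) (nat_lit 562) (nat_lit 526) (.f (nat_lit 497) (nat_lit 498) (nat_lit 2542) (.d (nat_lit 465) (nat_lit 433) (nat_lit 5552) (nat_lit 592) (nat_lit 5584)))) (.f (nat_lit 497) (nat_lit 498) (nat_lit 2542) (.f (nat_lit 496) (nat_lit 525) (nat_lit 2541) (.d (nat_lit 465) (nat_lit 433) (nat_lit 5552) (nat_lit 592) (nat_lit 6608))))))) (.a s32939 (.a s234 (.p (nat_lit 530) (.a (.f (nat_lit 495) (nat_lit 494) (nat_lit 3566) (.f (nat_lit 496) (nat_lit 531) (nat_lit 3567) (.d (nat_lit 463) (nat_lit 431) (nat_lit 4527) (nat_lit 592) (nat_lit 7631)))) (.a (.f (nat_lit 562) (nat_lit 563) (nat_lit 527) (.f (nat_lit 526) (nat_lit 561) (nat_lit 526) (.d (nat_lit 494) (nat_lit 493) (nat_lit 3565) (nat_lit 495) (nat_lit 3566)))) (.f (nat_lit 531) (nat_lit 559) (nat_lit 1551) (.d (nat_lit 563) (nat_lit 562) (nat_lit 527) (nat_lit 564) (nat_lit 528))))))))))))) (.a (.p (nat_lit 527) (.a (.p (nat_lit 530) (.a (.d (nat_lit 559) (nat_lit 531) (nat_lit 1551) (nat_lit 558) (nat_lit 1550)) (.f (nat_lit 562) (nat_lit 563) (nat_lit 527) (.f (nat_lit 561) (nat_lit 526) (nat_lit 526) (.f (nat_lit 498) (nat_lit 499) (nat_lit 2543) (.d (nat_lit 466) (nat_lit 434) (nat_lit 5553) (nat_lit 593) (nat_lit 5585))))))) (.a s32932 (.a (.p (nat_lit 526) (.a (.d (nat_lit 561) (nat_lit 525) (nat_lit 525) (nat_lit 562) (nat_lit 526)) (.a (.f (nat_lit 561) (nat_lit 562) (nat_lit 526) (.f (nat_lit 497) (nat_lit 498) (nat_lit 2542) (.d (nat_lit 465) (nat_lit 433) (nat_lit 5552) (nat_lit 592) (nat_lit 5584)))) (.f (nat_lit 497) (nat_lit 498) (nat_lit 2542) (.f (nat_lit 496) (nat_lit 525) (nat_lit 2541) (.d (nat_lit 465) (nat_lit 433) (nat_lit 5552) (nat_lit 592) (nat_lit 6608))))))) (.a (.p (nat_lit 530) (.a (.d (nat_lit 559) (nat_lit 531) (nat_lit 1551) (nat_lit 558) (nat_lit 1550)) (.a (.f (nat_lit 563) (nat_lit 562) (nat_lit 527) (.f (nat_lit 531) (nat_lit 564) (nat_lit 528) (.d (nat_lit 499) (nat_lit 498) (nat_lit 2543) (nat_lit 500) (nat_lit 2544)))) (.f (nat_lit 498) (nat_lit 499) (nat_lit 2543) (.f (nat_lit 497) (nat_lit 526) (nat_lit 2542) (.f (nat_lit 465) (nat_lit 433) (nat_lit 5552) (.d (nat_lit 562) (nat_lit 563) (nat_lit 527) (nat_lit 594) (nat_lit 7633)))))))) (.a (.p (nat_lit 530) (.a (.d (nat_lit 559) (nat_lit 531) (nat_lit 1551) (nat_lit 558) (nat_lit 1550)) (.f (nat_lit 498) (nat_lit 499) (nat_lit 2543) (.f (nat_lit 497) (nat_lit 526) (nat_lit 2542) (.f (nat_lit 592) (nat_lit 624) (nat_lit 6640) (.d (nat_lit 465) (nat_lit 433) (nat_lit 5552) (nat_lit 561) (nat_lit 5584))))))) (.p (nat_lit 530) (.a (.d (nat_lit 559) (nat_lit 531) (nat_lit 1551) (nat_lit 558) (nat_lit 1550)) (.a (.f (nat_lit 562) (nat_lit 563) (nat_lit 527) (.f (nat_lit 561) (nat_lit 526) (nat_lit 526) (.f (nat_lit 531) (nat_lit 532) (nat_lit 1552) (.f (nat_lit 496) (nat_lit 495) (nat_lit 3567) (.d (nat_lit 464) (nat_lit 432) (nat_lit 4528) (nat_lit 593) (nat_lit 4560)))))) (.f (nat_lit 559) (nat_lit 558) (nat_lit 1550) (.f (nat_lit 562) (nat_lit 563) (nat_lit 527) (.f (nat_lit 561) (nat_lit 526) (nat_lit 526) (.f (nat_lit 591) (nat_lit 590) (nat_lit 1582) (.d (nat_lit 496) (nat_lit 464) (nat_lit 5583) (nat_lit 623) (nat_lit 6639))))))))))))))) (.p (nat_lit 530) (.a (.f (nat_lit 531) (nat_lit 559) (nat_lit 1551) (.f (nat_lit 496) (nat_lit 495) (nat_lit 3567) (.d (nat_lit 532) (nat_lit 497) (nat_lit 3568) (nat_lit 561) (nat_lit 1552)))) (.a (.f (nat_lit 531) (nat_lit 559) (nat_lit 1551) (.f (nat_lit 563) (nat_lit 564) (nat_lit 528) (.f (nat_lit 562) (nat_lit 527) (nat_lit 527) (.f (nat_lit 499) (nat_lit 500) (nat_lit 2544) (.d (nat_lit 467) (nat_lit 435) (nat_lit 5554) (nat_lit 594) (nat_lit 5586)))))) (.a (.p (nat_lit 527) (.a (.f (nat_lit 495) (nat_lit 494) (nat_lit 3566) (.f (nat_lit 496) (nat_lit 531) (nat_lit 3567) (.d (nat_lit 463) (nat_lit 431) (nat_lit 4527) (nat_lit 592) (nat_lit 7631)))) (.a (.f (nat_lit 562) (nat_lit 563) (nat_lit 527) (.f (nat_lit 526) (nat_lit 561) (nat_lit 526) (.d (nat_lit 494) (nat_lit 493) (nat_lit 3565) (nat_lit 495) (nat_lit 3566)))) (.a (.f (nat_lit 562) (nat_lit 563) (nat_lit 527) (.f (nat_lit 526) (nat_lit 561) (nat_lit 526) (.f (nat_lit 493) (nat_lit 494) (nat_lit 3565) (.f (nat_lit 525) (nat_lit 492) (nat_lit 3564) (.d (nat_lit 557) (nat_lit 556) (nat_lit 1548) (nat_lit 558) (nat_lit 1549)))))) (.f (nat_lit 562) (nat_lit 563) (nat_lit 527) (.f (nat_lit 561) (nat_lit 526) (nat_lit 526) (.f (nat_lit 531) (nat_lit 532) (nat_lit 1552) (.f (nat_lit 496) (nat_lit 495) (nat_lit 3567) (.d (nat_lit 464) (nat_lit 432) (nat_lit 4528) (nat_lit 593) (nat_lit 4560)))))))))) (.p (nat_lit 527) (.a (.f (nat_lit 559) (nat_lit 558) (nat_lit 1550) (.f (nat_lit 495) (nat_lit 494) (nat_lit 3566) (.d (nat_lit 463) (nat_lit 431) (nat_lit 4527) (nat_lit 592) (nat_lit 4559)))) (.a (.f (nat_lit 562) (nat_lit 563) (nat_lit 527) (.f (nat_lit 526) (nat_lit 561) (nat_lit 526) (.f (nat_lit 493) (nat_lit 494) (nat_lit 3565) (.f (nat_lit 525) (nat_lit 492) (nat_lit 3564) (.d (nat_lit 557) (nat_lit 556) (nat_lit 1548) (nat_lit 558) (nat_lit 1549)))))) (.a (.f (nat_lit 562) (nat_lit 563) (nat_lit 527) (.f (nat_lit 526) (nat_lit 561) (nat_lit 526) (.d (nat_lit 494) (nat_lit 493) (nat_lit 3565) (nat_lit 495) (nat_lit 3566)))) (.f (nat_lit 559) (nat_lit 558) (nat_lit 1550) (.f (nat_lit 562) (nat_lit 563) (nat_lit 527) (.f (nat_lit 561) (nat_lit 526) (nat_lit 526) (.f (nat_lit 591) (nat_lit 590) (nat_lit 1582) (.d (nat_lit 496) (nat_lit 464) (nat_lit 5583) (nat_lit 623) (nat_lit 6639))))))))))))))))))))))))))) (.a (.p (nat_lit 527) (.a (.p (nat_lit 530) (.a (.f (nat_lit 498) (nat_lit 499) (nat_lit 2543) (.f (nat_lit 562) (nat_lit 563) (nat_lit 527) (.d (nat_lit 526) (nat_lit 497) (nat_lit 2542) (nat_lit 561) (nat_lit 526)))) (.f (nat_lit 559) (nat_lit 558) (nat_lit 1550) (.f (nat_lit 560) (nat_lit 531) (nat_lit 1551) (.f (nat_lit 495) (nat_lit 494) (nat_lit 3566) (.d (nat_lit 463) (nat_lit 431) (nat_lit 4527) (nat_lit 592) (nat_lit 4559))))))) (.a s32984 (.a s14755 (.a s14708 (.a s32988 (.a (.p (nat_lit 530) (.a (.f (nat_lit 559) (nat_lit 558) (nat_lit 1550) (.f (nat_lit 560) (nat_lit 531) (nat_lit 1551) (.f (nat_lit 495) (nat_lit 494) (nat_lit 3566) (.d (nat_lit 463) (nat_lit 431) (nat_lit 4527) (nat_lit 592) (nat_lit 4559))))) (.a (.f (nat_lit 499) (nat_lit 498) (nat_lit 2543) (.f (nat_lit 531) (nat_lit 500) (nat_lit 2544) (.d (nat_lit 563) (nat_lit 562) (nat_lit 527) (nat_lit 564) (nat_lit 528)))) (.f (nat_lit 562) (nat_lit 563) (nat_lit 527) (.f (nat_lit 526) (nat_lit 561) (nat_lit 526) (.d (nat_lit 494) (nat_lit 493) (nat_lit 3565) (nat_lit 495) (nat_lit 3566))))))) (.a (.p (nat_lit 530) (.a (.f (nat_lit 559) (nat_lit 558) (nat_lit 1550) (.f (nat_lit 560) (nat_lit 531) (nat_lit 1551) (.f (nat_lit 495) (nat_lit 494) (nat_lit 3566) (.d (nat_lit 463) (nat_lit 431) (nat_lit 4527) (nat_lit 592) (nat_lit 4559))))) (.a (.f (nat_lit 499) (nat_lit 498) (nat_lit 2543) (.f (nat_lit 531) (nat_lit 500) (nat_lit 2544) (.d (nat_lit 563) (nat_lit 562) (nat_lit 527) (nat_lit 564) (nat_lit 528)))) (.f (nat_lit 498) (nat_lit 499) (nat_lit 2543) (.f (nat_lit 526) (nat_lit 497) (nat_lit 2542) (.d (nat_lit 494) (nat_lit 493) (nat_lit 3565) (nat_lit 495) (nat_lit 3566))))))) (.a (.p (nat_lit 530) (.a (.f (nat_lit 559) (nat_lit 558) (nat_lit 1550) (.f (nat_lit 560) (nat_lit 531) (nat_lit 1551) (.f (nat_lit 495) (nat_lit 494) (nat_lit 3566) (.d (nat_lit 463) (nat_lit 431) (nat_lit 4527) (nat_lit 592) (nat_lit 4559))))) (.a (.f (nat_lit 498) (nat_lit 499) (nat_lit 2543) (.f (nat_lit 526) (nat_lit 497) (nat_lit 2542) (.d (nat_lit 494) (nat_lit 493) (nat_lit 3565) (nat_lit 495) (nat_lit 3566)))) (.f (nat_lit 498) (nat_lit 499) (nat_lit 2543) (.f (nat_lit 526) (nat_lit 497) (nat_lit 2542) (.d (nat_lit 558) (nat_lit 557) (nat_lit 1549) (nat_lit 559) (nat_lit 1550))))))) (.p (nat_lit 530) (.a (.f (nat_lit 559) (nat_lit 558) (nat_lit 1550) (.f (nat_lit 560) (nat_lit 531) (nat_lit 1551) (.f (nat_lit 495) (nat_lit 494) (nat_lit 3566) (.d (nat_lit 463) (nat_lit 431) (nat_lit 4527) (nat_lit 592) (nat_lit 4559))))) (.a (.f (nat_lit 562) (nat_lit 563) (nat_lit 527) (.f (nat_lit 526) (nat_lit 561) (nat_lit 526) (.d (nat_lit 494) (nat_lit 493) (nat_lit 3565) (nat_lit 495) (nat_lit 3566)))) (.f (nat_lit 562) (nat_lit 563) (nat_lit 527) (.f (nat_lit 526) (nat_lit 561) (nat_lit 526) (.d (nat_lit 558) (nat_lit 557) (nat_lit 1549) (nat_lit 559) (nat_lit 1550)))))))))))))))) (.a (.p (nat_lit 560) (.a s32931 (.a (.p (nat_lit 530) (.a (.f (nat_lit 531) (nat_lit 559) (nat_lit 1551) (.f (nat_lit 563) (nat_lit 564) (nat_lit 528) (.f (nat_lit 562) (nat_lit 527) (nat_lit 527) (.f (nat_lit 499) (nat_lit 500) (nat_lit 2544) (.d (nat_lit 467) (nat_lit 435) (nat_lit 5554) (nat_lit 594) (nat_lit 5586)))))) (.a (.p (nat_lit 531) (.a (.f (nat_lit 563) (nat_lit 564) (nat_lit 528) (.f (nat_lit 562) (nat_lit 527) (nat_lit 527) (.f (nat_lit 499) (nat_lit 500) (nat_lit 2544) (.d (nat_lit 467) (nat_lit 435) (nat_lit 5554) (nat_lit 594) (nat_lit 5586))))) (.a (.f (nat_lit 532) (nat_lit 561) (nat_lit 1552) (.d (nat_lit 500) (nat_lit 499) (nat_lit 2544) (nat_lit 501) (nat_lit 2545))) (.f (nat_lit 561) (nat_lit 532) (nat_lit 1552) (.f (nat_lit 563) (nat_lit 564) (nat_lit 528) (.f (nat_lit 562) (nat_lit 527) (nat_lit 527) (.f (nat_lit 592) (nat_lit 591) (nat_lit 1583) (.d (nat_lit 497) (nat_lit 465) (nat_lit 5584) (nat_lit 624) (nat_lit 6640))))))))) (.a (.f (nat_lit 531) (nat_lit 559) (nat_lit 1551) (.f (nat_lit 532) (nat_lit 561) (nat_lit 1552) (.d (nat_lit 500) (nat_lit 499) (nat_lit 2544) (nat_lit 501) (nat_lit 2545)))) (.a (.p (nat_lit 527) (.a (.f (nat_lit 559) (nat_lit 558) (nat_lit 1550) (.f (nat_lit 495) (nat_lit 494) (nat_lit 3566) (.d (nat_lit 463) (nat_lit 431) (nat_lit 4527) (nat_lit 592) (nat_lit 4559)))) (.a (.p (nat_lit 561) (.a (.f (nat_lit 562) (nat_lit 563) (nat_lit 527) (.f (nat_lit 498) (nat_lit 499) (nat_lit 2543) (.d (nat_lit 466) (nat_lit 434) (nat_lit 5553) (nat_lit 593) (nat_lit 5585)))) (.a (.f (nat_lit 498) (nat_lit 499) (nat_lit 2543) (.f (nat_lit 593) (nat_lit 625) (nat_lit 6641) (.d (nat_lit 466) (nat_lit 434) (nat_lit 5553) (nat_lit 497) (nat_lit 6609)))) (.f (nat_lit 562) (nat_lit 563) (nat_lit 527) (.f (nat_lit 559) (nat_lit 558) (nat_lit 1550) (.f (nat_lit 594) (nat_lit 595) (nat_lit 559) (.d (nat_lit 497) (nat_lit 465) (nat_lit 4561) (nat_lit 626) (nat_lit 7665)))))))) s32982))) (.f (nat_lit 559) (nat_lit 531) (nat_lit 1551) (.d (nat_lit 558) (nat_lit 527) (nat_lit 1550) (nat_lit 557) (nat_lit 2573)))))))) (.a (.p (nat_lit 527) (.a s32932 (.a s33002 (.a s33004 (.a s33024 (.a s33030 (.a s33034 (.a s33046 (.a s33051 (.a s33053 s33054)))))))))) (.a (.p (nat_lit 592) (.a (.f (nat_lit 624) (nat_lit 497) (nat_lit 6640) (.f (nat_lit 623) (nat_lit 655) (nat_lit 5647) (.f (nat_lit 625) (nat_lit 657) (nat_lit 4624) (.d (nat_lit 496) (nat_lit 591) (nat_lit 5615) (nat_lit 593) (nat_lit 4592))))) (.a (.f (nat_lit 624) (nat_lit 497) (nat_lit 6640) (.f (nat_lit 656) (nat_lit 561) (nat_lit 6672) (.d (nat_lit 655) (nat_lit 623) (nat_lit 5647) (nat_lit 687) (nat_lit 5679)))) (.a (.p (nat_lit 496) (.a (.f (nat_lit 495) (nat_lit 463) (nat_lit 7631) (.f (nat_lit 624) (nat_lit 527) (nat_lit 7663) (.d (nat_lit 623) (nat_lit 591) (nat_lit 5615) (nat_lit 655) (nat_lit 5647)))) (.a (.f (nat_lit 593) (nat_lit 625) (nat_lit 4592) (.f (nat_lit 561) (nat_lit 464) (nat_lit 4560) (.f (nat_lit 591) (nat_lit 623) (nat_lit 5615) (.d (nat_lit 562) (nat_lit 563) (nat_lit 1583) (nat_lit 590) (nat_lit 2606))))) (.f (nat_lit 593) (nat_lit 625) (nat_lit 4592) (.f (nat_lit 464) (nat_lit 561) (nat_lit 4560) (.d (nat_lit 463) (nat_lit 431) (nat_lit 7599) (nat_lit 495) (nat_lit 7631))))))) (.a (.p (nat_lit 496) (.a (.f (nat_lit 497) (nat_lit 465) (nat_lit 6608) (.f (nat_lit 495) (nat_lit 463) (nat_lit 7631) (.d (nat_lit 494) (nat_lit 493) (nat_lit 493) (nat_lit 530) (nat_lit 494)))) (.f (nat_lit 593) (nat_lit 625) (nat_lit 4592) (.f (nat_lit 561) (nat_lit 464) (nat_lit 4560) (.f (nat_lit 591) (nat_lit 623) (nat_lit 5615) (.d (nat_lit 562) (nat_lit 563) (nat_lit 1583) (nat_lit 590) (nat_lit 2606))))))) (.f (nat_lit 624) (nat_lit 497) (nat_lit 6640) (.f (nat_lit 561) (nat_lit 656) (nat_lit 6672) (.f (nat_lit 625) (nat_lit 657) (nat_lit 4624) (.f (nat_lit 593) (nat_lit 496) (nat_lit 4592) (.f (nat_lit 626) (nat_lit 658) (nat_lit 4625) (.d (nat_lit 591) (nat_lit 590) (nat_lit 590) (nat_lit 627) (nat_lit 3663)))))))))))) (.a s33066 (.a s32954 (.a (.p (nat_lit 496) (.a (.p (nat_lit 559) (.a (.f (nat_lit 464) (nat_lit 591) (nat_lit 5583) (.d (nat_lit 432) (nat_lit 527) (nat_lit 5551) (nat_lit 561) (nat_lit 4528))) (.a (.f (nat_lit 464) (nat_lit 591) (nat_lit 5583) (.d (nat_lit 561) (nat_lit 432) (nat_lit 4528) (nat_lit 593) (nat_lit 4560))) (.a (.f (nat_lit 464) (nat_lit 591) (nat_lit 5583) (.f (nat_lit 432) (nat_lit 527) (nat_lit 5551) (.d (nat_lit 431) (nat_lit 399) (nat_lit 7567) (nat_lit 463) (nat_lit 7599)))) (.f (nat_lit 530) (nat_lit 531) (nat_lit 1551) (.d (nat_lit 558) (nat_lit 527) (nat_lit 1550) (nat_lit 557) (nat_lit 2573))))))) (.a (.p (nat_lit 592) (.a (.f (nat_lit 495) (nat_lit 463) (nat_lit 7631) (.f (nat_lit 624) (nat_lit 527) (nat_lit 7663) (.d (nat_lit 623) (nat_lit 591) (nat_lit 5615) (nat_lit 655) (nat_lit 5647)))) (.a (.f (nat_lit 593) (nat_lit 625) (nat_lit 4592) (.f (nat_lit 561) (nat_lit 464) (nat_lit 4560) (.f (nat_lit 591) (nat_lit 623) (nat_lit 5615) (.d (nat_lit 562) (nat_lit 563) (nat_lit 1583) (nat_lit 590) (nat_lit 2606))))) (.f (nat_lit 593) (nat_lit 625) (nat_lit 4592) (.f (nat_lit 464) (nat_lit 561) (nat_lit 4560) (.d (nat_lit 463) (nat_lit 431) (nat_lit 7599) (nat_lit 495) (nat_lit 7631))))))) (.a (.p (nat_lit 559) (.a (.f (nat_lit 464) (nat_lit 591) (nat_lit 5583) (.d (nat_lit 561) (nat_lit 432) (nat_lit 4528) (nat_lit 593) (nat_lit 4560))) (.a (.f (nat_lit 464) (nat_lit 591) (nat_lit 5583) (.f (nat_lit 431) (nat_lit 463) (nat_lit 7599) (.f (nat_lit 432) (nat_lit 399) (nat_lit 7567) (.d (nat_lit 433) (nat_lit 401) (nat_lit 6544) (nat_lit 465) (nat_lit 6576))))) (.f (nat_lit 530) (nat_lit 531) (nat_lit 1551) (.d (nat_lit 558) (nat_lit 557) (nat_lit 2573) (nat_lit 561) (nat_lit 2574)))))) (.a (.p (nat_lit 559) (.a (.f (nat_lit 464) (nat_lit 591) (nat_lit 5583) (.f (nat_lit 432) (nat_lit 527) (nat_lit 5551) (.d (nat_lit 431) (nat_lit 399) (nat_lit 7567) (nat_lit 463) (nat_lit 7599)))) (.a (.f (nat_lit 464) (nat_lit 591) (nat_lit 5583) (.f (nat_lit 431) (nat_lit 463) (nat_lit 7599) (.f (nat_lit 432) (nat_lit 399) (nat_lit 7567) (.d (nat_lit 433) (nat_lit 401) (nat_lit 6544) (nat_lit 465) (nat_lit 6576))))) (.f (nat_lit 530) (nat_lit 531) (nat_lit 1551) (.d (nat_lit 558) (nat_lit 527) (nat_lit 1550) (nat_lit 557) (nat_lit 2573)))))) (.a (.p (nat_lit 592) (.a (.f (nat_lit 495) (nat_lit 463) (nat_lit 7631) (.f (nat_lit 624) (nat_lit 527) (nat_lit 7663) (.d (nat_lit 623) (nat_lit 591) (nat_lit 5615) (nat_lit 655) (nat_lit 5647)))) (.a (.f (nat_lit 625) (nat_lit 593) (nat_lit 4592) (.f (nat_lit 624) (nat_lit 657) (nat_lit 4624) (.d (nat_lit 623) (nat_lit 591) (nat_lit 5615) (nat_lit 655) (nat_lit 5647)))) (.f (nat_lit 495) (nat_lit 463) (nat_lit 7631) (.f (nat_lit 530) (nat_lit 531) (nat_lit 3567) (.d (nat_lit 494) (nat_lit 493) (nat_lit 493) (nat_lit 527) (nat_lit 3566))))))) (.a (.p (nat_lit 592) (.a (.f (nat_lit 593) (nat_lit 625) (nat_lit 4592) (.f (nat_lit 464) (nat_lit 561) (nat_lit 4560) (.d (nat_lit 463) (nat_lit 431) (nat_lit 7599) (nat_lit 495) (nat_lit 7631)))) (.a (.f (nat_lit 593) (nat_lit 625) (nat_lit 4592) (.f (nat_lit 464) (nat_lit 561) (nat_lit 4560) (.f (nat_lit 431) (nat_lit 463) (nat_lit 7599) (.f (nat_lit 432) (nat_lit 399) (nat_lit 7567) (.d (nat_lit 433) (nat_lit 401) (nat_lit 6544) (nat_lit 465) (nat_lit 6576)))))) (.a (.f (nat_lit 495) (nat_lit 463) (nat_lit 7631) (.f (nat_lit 530) (nat_lit 531) (nat_lit 3567) (.d (nat_lit 494) (nat_lit 493) (nat_lit 493) (nat_lit 527) (nat_lit 3566)))) (.f (nat_lit 593) (nat_lit 625) (nat_lit 4592) (.f (nat_lit 561) (nat_lit 464) (nat_lit 4560) (.f (nat_lit 624) (nat_lit 656) (nat_lit 6672) (.f (nat_lit 527) (nat_lit 495) (nat_lit 7663) (.f (nat_lit 562) (nat_lit 563) (nat_lit 3599) (.f (nat_lit 623) (nat_lit 655) (nat_lit 5647) (.f (nat_lit 594) (nat_lit 595) (nat_lit 1615) (.f (nat_lit 559) (nat_lit 558) (nat_lit 558) (.f (nat_lit 530) (nat_lit 531) (nat_lit 1551) (.d (nat_lit 498) (nat_lit 466) (nat_lit 5585) (nat_lit 499) (nat_lit 2543))))))))))))))) (.p (nat_lit 559) (.a (.f (nat_lit 464) (nat_lit 591) (nat_lit 5583) (.d (nat_lit 432) (nat_lit 527) (nat_lit 5551) (nat_lit 561) (nat_lit 4528))) (.a (.f (nat_lit 464) (nat_lit 591) (nat_lit 5583) (.d (nat_lit 561) (nat_lit 432) (nat_lit 4528) (nat_lit 593) (nat_lit 4560))) (.f (nat_lit 530) (nat_lit 531) (nat_lit 1551) (.d (nat_lit 558) (nat_lit 527) (nat_lit 1550) (nat_lit 557) (nat_lit 2573))))))))))))) (.a (.p (nat_lit 496) (.a (.p (nat_lit 592) (.a (.d (nat_lit 497) (nat_lit 465) (nat_lit 6608) (nat_lit 624) (nat_lit 6640)) (.a (.f (nat_lit 495) (nat_lit 463) (nat_lit 7631) (.f (nat_lit 624) (nat_lit 527) (nat_lit 7663) (.d (nat_lit 623) (nat_lit 591) (nat_lit 5615) (nat_lit 655) (nat_lit 5647)))) (.f (nat_lit 497) (nat_lit 465) (nat_lit 6608) (.f (nat_lit 495) (nat_lit 463) (nat_lit 7631) (.d (nat_lit 494) (nat_lit 493) (nat_lit 493) (nat_lit 530) (nat_lit 494))))))) (.a (.p (nat_lit 592) (.a (.d (nat_lit 497) (nat_lit 465) (nat_lit 6608) (nat_lit 624) (nat_lit 6640)) (.f (nat_lit 591) (nat_lit 623) (nat_lit 5615) (.f (nat_lit 559) (nat_lit 464) (nat_lit 5583) (.f (nat_lit 593) (nat_lit 625) (nat_lit 4592) (.d (nat_lit 558) (nat_lit 557) (nat_lit 557) (nat_lit 594) (nat_lit 3630))))))) (.a (.p (nat_lit 559) (.a (.f (nat_lit 464) (nat_lit 591) (nat_lit 5583) (.f (nat_lit 432) (nat_lit 527) (nat_lit 5551) (.d (nat_lit 431) (nat_lit 399) (nat_lit 7567) (nat_lit 463) (nat_lit 7599)))) (.a (.f (nat_lit 464) (nat_lit 591) (nat_lit 5583) (.f (nat_lit 431) (nat_lit 463) (nat_lit 7599) (.f (nat_lit 432) (nat_lit 399) (nat_lit 7567) (.d (nat_lit 433) (nat_lit 401) (nat_lit 6544) (nat_lit 465) (nat_lit 6576))))) (.f (nat_lit 530) (nat_lit 531) (nat_lit 1551) (.d (nat_lit 558) (nat_lit 527) (nat_lit 1550) (nat_lit 557) (nat_lit 2573)))))) (.a (.p (nat_lit 592) (.a (.d (nat_lit 497) (nat_lit 465) (nat_lit 6608) (nat_lit 624) (nat_lit 6640)) (.f (nat_lit 495) (nat_lit 463) (nat_lit 7631) (.f (nat_lit 530) (nat_lit 531) (nat_lit 3567) (.d (nat_lit 494) (nat_lit 493) (nat_lit 493) (nat_lit 527) (nat_lit 3566)))))) (.p (nat_lit 592) (.a (.f (nat_lit 495) (nat_lit 463) (nat_lit 7631) (.f (nat_lit 624) (nat_lit 527) (nat_lit 7663) (.d (nat_lit 623) (nat_lit 591) (nat_lit 5615) (nat_lit 655) (nat_lit 5647)))) (.a (.f (nat_lit 625) (nat_lit 593) (nat_lit 4592) (.f (nat_lit 624) (nat_lit 657) (nat_lit 4624) (.d (nat_lit 623) (nat_lit 591) (nat_lit 5615) (nat_lit 655) (nat_lit 5647)))) (.f (nat_lit 495) (nat_lit 463) (nat_lit 7631) (.f (nat_lit 530) (nat_lit 531) (nat_lit 3567) (.d (nat_lit 494) (nat_lit 493) (nat_lit 493) (nat_lit 527) (nat_lit 3566)))))))))))) (.a (.p (nat_lit 530) (.a (.f (nat_lit 531) (nat_lit 559) (nat_lit 1551) (.f (nat_lit 496) (nat_lit 495) (nat_lit 3567) (.d (nat_lit 532) (nat_lit 497) (nat_lit 3568) (nat_lit 561) (nat_lit 1552)))) (.a (.f (nat_lit 531) (nat_lit 559) (nat_lit 1551) (.f (nat_lit 563) (nat_lit 564) (nat_lit 528) (.f (nat_lit 562) (nat_lit 527) (nat_lit 527) (.f (nat_lit 499) (nat_lit 500) (nat_lit 2544) (.d (nat_lit 467) (nat_lit 435) (nat_lit 5554) (nat_lit 594) (nat_lit 5586)))))) (.a (.p (nat_lit 495) (.a (.f (nat_lit 527) (nat_lit 494) (nat_lit 3566) (.f (nat_lit 563) (nat_lit 562) (nat_lit 527) (.f (nat_lit 531) (nat_lit 564) (nat_lit 528) (.d (nat_lit 499) (nat_lit 498) (nat_lit 2543) (nat_lit 500) (nat_lit 2544))))) (.a (.f (nat_lit 496) (nat_lit 531) (nat_lit 3567) (.d (nat_lit 494) (nat_lit 493) (nat_lit 493) (nat_lit 497) (nat_lit 494))) (.a (.f (nat_lit 531) (nat_lit 496) (nat_lit 3567) (.f (nat_lit 499) (nat_lit 500) (nat_lit 2544) (.f (nat_lit 563) (nat_lit 564) (nat_lit 528) (.d (nat_lit 527) (nat_lit 498) (nat_lit 2543) (nat_lit 562) (nat_lit 527))))) (.f (nat_lit 494) (nat_lit 527) (nat_lit 3566) (.d (nat_lit 496) (nat_lit 493) (nat_lit 493) (nat_lit 497) (nat_lit 494))))))) (.p (nat_lit 527) (.a (.p (nat_lit 561) (.a (.f (nat_lit 562) (nat_lit 563) (nat_lit 527) (.f (nat_lit 498) (nat_lit 499) (nat_lit 2543) (.d (nat_lit 466) (nat_lit 434) (nat_lit 5553) (nat_lit 593) (nat_lit 5585)))) (.a (.f (nat_lit 498) (nat_lit 499) (nat_lit 2543) (.f (nat_lit 593) (nat_lit 625) (nat_lit 6641) (.d (nat_lit 466) (nat_lit 434) (nat_lit 5553) (nat_lit 497) (nat_lit 6609)))) (.f (nat_lit 559) (nat_lit 558) (nat_lit 1550) (.f (nat_lit 562) (nat_lit 563) (nat_lit 527) (.f (nat_lit 591) (nat_lit 590) (nat_lit 1582) (.d (nat_lit 496) (nat_lit 464) (nat_lit 5583) (nat_lit 623) (nat_lit 6639)))))))) (.a (.p (nat_lit 561) (.a (.f (nat_lit 562) (nat_lit 563) (nat_lit 527) (.f (nat_lit 498) (nat_lit 499) (nat_lit 2543) (.d (nat_lit 466) (nat_lit 434) (nat_lit 5553) (nat_lit 593) (nat_lit 5585)))) (.a (.f (nat_lit 498) (nat_lit 499) (nat_lit 2543) (.f (nat_lit 593) (nat_lit 625) (nat_lit 6641) (.d (nat_lit 466) (nat_lit 434) (nat_lit 5553) (nat_lit 497) (nat_lit 6609)))) (.f (nat_lit 562) (nat_lit 563) (nat_lit 527) (.f (nat_lit 559) (nat_lit 558) (nat_lit 1550) (.f (nat_lit 594) (nat_lit 595) (nat_lit 559) (.d (nat_lit 497) (nat_lit 465) (nat_lit 4561) (nat_lit 626) (nat_lit 7665)))))))) (.a s33092 (.a (.f (nat_lit 559) (nat_lit 558) (nat_lit 1550) (.f (nat_lit 495) (nat_lit 494) (nat_lit 3566) (.f (nat_lit 463) (nat_lit 431) (nat_lit 4527) (.f (nat_lit 464) (nat_lit 432) (nat_lit 6575) (.f (nat_lit 591) (nat_lit 496) (nat_lit 5583) (.f (nat_lit 562) (nat_lit 563) (nat_lit 527) (.d (nat_lit 590) (nat_lit 561) (nat_lit 1582) (nat_lit 622) (nat_lit 5614)))))))) (.f (nat_lit 559) (nat_lit 558) (nat_lit 1550) (.f (nat_lit 495) (nat_lit 494) (nat_lit 3566) (.f (nat_lit 463) (nat_lit 431) (nat_lit 4527) (.f (nat_lit 464) (nat_lit 432) (nat_lit 6575) (.f (nat_lit 496) (nat_lit 591) (nat_lit 5583) (.f (nat_lit 498) (nat_lit 499) (nat_lit 2543) (.d (nat_lit 462) (nat_lit 430) (nat_lit 7598) (nat_lit 497) (nat_lit 3534))))))))))))))))) (.a (.p (nat_lit 592) (.a (.f (nat_lit 624) (nat_lit 497) (nat_lit 6640) (.f (nat_lit 527) (nat_lit 495) (nat_lit 7663) (.f (nat_lit 559) (nat_lit 656) (nat_lit 7695) (.d (nat_lit 530) (nat_lit 531) (nat_lit 1551) (nat_lit 558) (nat_lit 1550))))) (.a (.f (nat_lit 624) (nat_lit 497) (nat_lit 6640) (.f (nat_lit 656) (nat_lit 561) (nat_lit 6672) (.d (nat_lit 655) (nat_lit 623) (nat_lit 5647) (nat_lit 687) (nat_lit 5679)))) (.a (.p (nat_lit 496) (.a (.f (nat_lit 593) (nat_lit 625) (nat_lit 4592) (.f (nat_lit 464) (nat_lit 561) (nat_lit 4560) (.d (nat_lit 463) (nat_lit 431) (nat_lit 7599) (nat_lit 495) (nat_lit 7631)))) (.a (.f (nat_lit 593) (nat_lit 625) (nat_lit 4592) (.f (nat_lit 464) (nat_lit 561) (nat_lit 4560) (.f (nat_lit 431) (nat_lit 463) (nat_lit 7599) (.f (nat_lit 432) (nat_lit 399) (nat_lit 7567) (.d (nat_lit 433) (nat_lit 401) (nat_lit 6544) (nat_lit 465) (nat_lit 6576)))))) (.a (.f (nat_lit 495) (nat_lit 463) (nat_lit 7631) (.f (nat_lit 530) (nat_lit 531) (nat_lit 3567) (.d (nat_lit 494) (nat_lit 493) (nat_lit 493) (nat_lit 527) (nat_lit 3566)))) (.f (nat_lit 593) (nat_lit 625) (nat_lit 4592) (.f (nat_lit 561) (nat_lit 464) (nat_lit 4560) (.f (nat_lit 624) (nat_lit 656) (nat_lit 6672) (.f (nat_lit 527) (nat_lit 495) (nat_lit 7663) (.f (nat_lit 562) (nat_lit 563) (nat_lit 3599) (.f (nat_lit 623) (nat_lit 655) (nat_lit 5647) (.f (nat_lit 594) (nat_lit 595) (nat_lit 1615) (.f (nat_lit 559) (nat_lit 558) (nat_lit 558) (.f (nat_lit 530) (nat_lit 531) (nat_lit 1551) (.d (nat_lit 498) (nat_lit 466) (nat_lit 5585) (nat_lit 499) (nat_lit 2543))))))))))))))) (.p (nat_lit 496) (.a (.f (nat_lit 497) (nat_lit 465) (nat_lit 6608) (.f (nat_lit 495) (nat_lit 463) (nat_lit 7631) (.d (nat_lit 494) (nat_lit 493) (nat_lit 493) (nat_lit 530) (nat_lit 494)))) (.a (.f (nat_lit 593) (nat_lit 625) (nat_lit 4592) (.f (nat_lit 464) (nat_lit 561) (nat_lit 4560) (.f (nat_lit 431) (nat_lit 463) (nat_lit 7599) (.f (nat_lit 432) (nat_lit 399) (nat_lit 7567) (.d (nat_lit 433) (nat_lit 401) (nat_lit 6544) (nat_lit 465) (nat_lit 6576)))))) (.a (.f (nat_lit 497) (nat_lit 465) (nat_lit 6608) (.f (nat_lit 593) (nat_lit 625) (nat_lit 4592) (.f (nat_lit 561) (nat_lit 464) (nat_lit 4560) (.f (nat_lit 594) (nat_lit 626) (nat_lit 4593) (.d (nat_lit 559) (nat_lit 558) (nat_lit 558) (nat_lit 595) (nat_lit 3631)))))) (.f (nat_lit 593) (nat_lit 625) (nat_lit 4592) (.f (nat_lit 464) (nat_lit 561) (nat_lit 4560) (.d (nat_lit 463) (nat_lit 431) (nat_lit 7599) (nat_lit 495) (nat_lit 7631)))))))))))) (.a (.p (nat_lit 527) (.a s32932 (.a s33002 (.a s33004 (.a s33101 (.a s33030 (.a s33034 (.a s33102 (.a s33051 (.a s33053 s33054)))))))))) (.a (.p (nat_lit 496) (.a (.p (nat_lit 592) (.a (.d (nat_lit 497) (nat_lit 465) (nat_lit 6608) (nat_lit 624) (nat_lit 6640)) (.a (.f (nat_lit 495) (nat_lit 463) (nat_lit 7631) (.f (nat_lit 624) (nat_lit 527) (nat_lit 7663) (.d (nat_lit 623) (nat_lit 591) (nat_lit 5615) (nat_lit 655) (nat_lit 5647)))) (.f (nat_lit 497) (nat_lit 465) (nat_lit 6608) (.f (nat_lit 495) (nat_lit 463) (nat_lit 7631) (.d (nat_lit 494) (nat_lit 493) (nat_lit 493) (nat_lit 530) (nat_lit 494))))))) (.a (.p (nat_lit 559) (.a (.f (nat_lit 464) (nat_lit 591) (nat_lit 5583) (.f (nat_lit 465) (nat_lit 433) (nat_lit 6576) (.f (nat_lit 497) (nat_lit 592) (nat_lit 6608) (.f (nat_lit 463) (nat_lit 431) (nat_lit 7599) (.d (nat_lit 462) (nat_lit 461) (nat_lit 461) (nat_lit 498) (nat_lit 462)))))) (.f (nat_lit 530) (nat_lit 531) (nat_lit 1551) (.d (nat_lit 558) (nat_lit 557) (nat_lit 2573) (nat_lit 561) (nat_lit 2574))))) (.a (.p (nat_lit 592) (.a (.d (nat_lit 497) (nat_lit 465) (nat_lit 6608) (nat_lit 624) (nat_lit 6640)) (.a (.f (nat_lit 495) (nat_lit 463) (nat_lit 7631) (.f (nat_lit 624) (nat_lit 527) (nat_lit 7663) (.d (nat_lit 623) (nat_lit 591) (nat_lit 5615) (nat_lit 655) (nat_lit 5647)))) (.f (nat_lit 465) (nat_lit 497) (nat_lit 6608) (.f (nat_lit 464) (nat_lit 433) (nat_lit 6576) (.d (nat_lit 463) (nat_lit 431) (nat_lit 7599) (nat_lit 495) (nat_lit 7631))))))) (.a (.p (nat_lit 559) (.a (.f (nat_lit 464) (nat_lit 591) (nat_lit 5583) (.f (nat_lit 432) (nat_lit 527) (nat_lit 5551) (.d (nat_lit 431) (nat_lit 399) (nat_lit 7567) (nat_lit 463) (nat_lit 7599)))) (.a (.f (nat_lit 464) (nat_lit 591) (nat_lit 5583) (.f (nat_lit 431) (nat_lit 463) (nat_lit 7599) (.f (nat_lit 432) (nat_lit 399) (nat_lit 7567) (.d (nat_lit 433) (nat_lit 401) (nat_lit 6544) (nat_lit 465) (nat_lit 6576))))) (.f (nat_lit 530) (nat_lit 531) (nat_lit 1551) (.d (nat_lit 558) (nat_lit 527) (nat_lit 1550) (nat_lit 557) (nat_lit 2573)))))) (.a (.p (nat_lit 592) (.a (.d (nat_lit 497) (nat_lit 465) (nat_lit 6608) (nat_lit 624) (nat_lit 6640)) (.f (nat_lit 495) (nat_lit 463) (nat_lit 7631) (.f (nat_lit 530) (nat_lit 531) (nat_lit 3567) (.d (nat_lit 494) (nat_lit 493) (nat_lit 493) (nat_lit 527) (nat_lit 3566)))))) (.p (nat_lit 559) (.a (.f (nat_lit 464) (nat_lit 591) (nat_lit 5583) (.d (nat_lit 432) (nat_lit 527) (nat_lit 5551) (nat_lit 561) (nat_lit 4528))) (.a (.f (nat_lit 530) (nat_lit 531) (nat_lit 1551) (.d (nat_lit 558) (nat_lit 557) (nat_lit 2573) (nat_lit 561) (nat_lit 2574))) (.f (nat_lit 530) (nat_lit 531) (nat_lit 1551) (.d (nat_lit 558) (nat_lit 527) (nat_lit 1550) (nat_lit 557) (nat_lit 2573)))))))))))) (.p (nat_lit 496) (.a (.p (nat_lit 559) (.a (.f (nat_lit 464) (nat_lit 591) (nat_lit 5583) (.d (nat_lit 432) (nat_lit 527) (nat_lit 5551) (nat_lit 561) (nat_lit 4528))) (.a (.f (nat_lit 464) (nat_lit 591) (nat_lit 5583) (.d (nat_lit 561) (nat_lit 432) (nat_lit 4528) (nat_lit 593) (nat_lit 4560))) (.a (.f (nat_lit 464) (nat_lit 591) (nat_lit 5583) (.f (nat_lit 432) (nat_lit 527) (nat_lit 5551) (.d (nat_lit 431) (nat_lit 399) (nat_lit 7567) (nat_lit 463) (nat_lit 7599)))) (.f (nat_lit 530) (nat_lit 531) (nat_lit 1551) (.d (nat_lit 558) (nat_lit 527) (nat_lit 1550) (nat_lit 557) (nat_lit 2573))))))) (.a (.p (nat_lit 592) (.a (.f (nat_lit 495) (nat_lit 463) (nat_lit 7631) (.f (nat_lit 624) (nat_lit 527) (nat_lit 7663) (.d (nat_lit 623) (nat_lit 591) (nat_lit 5615) (nat_lit 655) (nat_lit 5647)))) (.a (.f (nat_lit 593) (nat_lit 625) (nat_lit 4592) (.f (nat_lit 561) (nat_lit 464) (nat_lit 4560) (.f (nat_lit 591) (nat_lit 623) (nat_lit 5615) (.d (nat_lit 562) (nat_lit 563) (nat_lit 1583) (nat_lit 590) (nat_lit 2606))))) (.f (nat_lit 593) (nat_lit 625) (nat_lit 4592) (.f (nat_lit 464) (nat_lit 561) (nat_lit 4560) (.d (nat_lit 463) (nat_lit 431) (nat_lit 7599) (nat_lit 495) (nat_lit 7631))))))) (.a (.p (nat_lit 559) (.a (.f (nat_lit 464) (nat_lit 591) (nat_lit 5583) (.d (nat_lit 561) (nat_lit 432) (nat_lit 4528) (nat_lit 593) (nat_lit 4560))) (.a (.f (nat_lit 591) (nat_lit 464) (nat_lit 5583) (.d (nat_lit 623) (nat_lit 592) (nat_lit 5615) (nat_lit 655) (nat_lit 6671))) (.f (nat_lit 530) (nat_lit 531) (nat_lit 1551) (.d (nat_lit 558) (nat_lit 557) (nat_lit 2573) (nat_lit 561) (nat_lit 2574)))))) (.a (.p (nat_lit 592) (.a (.f (nat_lit 495) (nat_lit 463) (nat_lit 7631) (.f (nat_lit 624) (nat_lit 527) (nat_lit 7663) (.d (nat_lit 623) (nat_lit 591) (nat_lit 5615) (nat_lit 655) (nat_lit 5647)))) (.a (.f (nat_lit 625) (nat_lit 593) (nat_lit 4592) (.f (nat_lit 624) (nat_lit 657) (nat_lit 4624) (.d (nat_lit 623) (nat_lit 591) (nat_lit 5615) (nat_lit 655) (nat_lit 5647)))) (.f (nat_lit 495) (nat_lit 463) (nat_lit 7631) (.f (nat_lit 530) (nat_lit 531) (nat_lit 3567) (.d (nat_lit 494) (nat_lit 493) (nat_lit 493) (nat_lit 527) (nat_lit 3566))))))) (.a (.p (nat_lit 592) (.a (.f (nat_lit 593) (nat_lit 625) (nat_lit 4592) (.f (nat_lit 464) (nat_lit 561) (nat_lit 4560) (.d (nat_lit 463) (nat_lit 431) (nat_lit 7599) (nat_lit 495) (nat_lit 7631)))) (.a (.f (nat_lit 624) (nat_lit 497) (nat_lit 6640) (.d (nat_lit 625) (nat_lit 593) (nat_lit 4592) (nat_lit 657) (nat_lit 4624))) (.f (nat_lit 495) (nat_lit 463) (nat_lit 7631) (.f (nat_lit 530) (nat_lit 531) (nat_lit 3567) (.d (nat_lit 494) (nat_lit 493) (nat_lit 493) (nat_lit 527) (nat_lit 3566))))))) (.p (nat_lit 559) (.a (.f (nat_lit 464) (nat_lit 591) (nat_lit 5583) (.d (nat_lit 432) (nat_lit 527) (nat_lit 5551) (nat_lit 561) (nat_lit 4528))) (.a (.f (nat_lit 530) (nat_lit 531) (nat_lit 1551) (.d (nat_lit 558) (nat_lit 557) (nat_lit 2573) (nat_lit 561) (nat_lit 2574))) (.f (nat_lit 530) (nat_lit 531) (nat_lit 1551) (.d (nat_lit 558) (nat_lit 527) (nat_lit 1550) (nat_lit 557) (nat_lit 2573))))))))))))))))))))))))) (.a (.p (nat_lit 527) (.a s14755 (.a s33130 (.a s14708 (.a s33148 (.a (.p (nat_lit 530) (.a (.f (nat_lit 499) (nat_lit 498) (nat_lit 2543) (.f (nat_lit 531) (nat_lit 500) (nat_lit 2544) (.d (nat_lit 563) (nat_lit 562) (nat_lit 527) (nat_lit 564) (nat_lit 528)))) (.a (.f (nat_lit 498) (nat_lit 499) (nat_lit 2543) (.f (nat_lit 526) (nat_lit 497) (nat_lit 2542) (.d (nat_lit 494) (nat_lit 493) (nat_lit 3565) (nat_lit 495) (nat_lit 3566)))) (.f (nat_lit 495) (nat_lit 494) (nat_lit 3566) (.f (nat_lit 496) (nat_lit 531) (nat_lit 3567) (.f (nat_lit 559) (nat_lit 558) (nat_lit 1550) (.d (nat_lit 464) (nat_lit 432) (nat_lit 5551) (nat_lit 591) (nat_lit 6607)))))))) (.a (.p (nat_lit 530) (.a (.f (nat_lit 498) (nat_lit 499) (nat_lit 2543) (.f (nat_lit 526) (nat_lit 497) (nat_lit 2542) (.d (nat_lit 494) (nat_lit 493) (nat_lit 3565) (nat_lit 495) (nat_lit 3566)))) (.a (.f (nat_lit 495) (nat_lit 494) (nat_lit 3566) (.f (nat_lit 496) (nat_lit 531) (nat_lit 3567) (.f (nat_lit 559) (nat_lit 558) (nat_lit 1550) (.d (nat_lit 464) (nat_lit 432) (nat_lit 5551) (nat_lit 591) (nat_lit 6607))))) (.f (nat_lit 498) (nat_lit 499) (nat_lit 2543) (.f (nat_lit 526) (nat_lit 497) (nat_lit 2542) (.d (nat_lit 558) (nat_lit 557) (nat_lit 1549) (nat_lit 559) (nat_lit 1550))))))) (.p (nat_lit 530) (.a (.f (nat_lit 562) (nat_lit 563) (nat_lit 527) (.f (nat_lit 526) (nat_lit 561) (nat_lit 526) (.d (nat_lit 494) (nat_lit 493) (nat_lit 3565) (nat_lit 495) (nat_lit 3566)))) (.a (.f (nat_lit 495) (nat_lit 494) (nat_lit 3566) (.f (nat_lit 496) (nat_lit 531) (nat_lit 3567) (.f (nat_lit 559) (nat_lit 558) (nat_lit 1550) (.d (nat_lit 464) (nat_lit 432) (nat_lit 5551) (nat_lit 591) (nat_lit 6607))))) (.f (nat_lit 562) (nat_lit 563) (nat_lit 527) (.f (nat_lit 526) (nat_lit 561) (nat_lit 526) (.d (nat_lit 558) (nat_lit 557) (nat_lit 1549) (nat_lit 559) (nat_lit 1550)))))))))))))) (.a (.p (nat_lit 527) (.a s14708 (.a s33153 (.a s17098 (.a s33176 (.a (.p (nat_lit 530) (.a (.f (nat_lit 499) (nat_lit 498) (nat_lit 2543) (.f (nat_lit 531) (nat_lit 500) (nat_lit 2544) (.d (nat_lit 563) (nat_lit 562) (nat_lit 527) (nat_lit 564) (nat_lit 528)))) (.a (.f (nat_lit 562) (nat_lit 563) (nat_lit 527) (.f (nat_lit 526) (nat_lit 561) (nat_lit 526) (.d (nat_lit 558) (nat_lit 557) (nat_lit 1549) (nat_lit 559) (nat_lit 1550)))) (.f (nat_lit 559) (nat_lit 558) (nat_lit 1550) (.f (nat_lit 531) (nat_lit 560) (nat_lit 1551) (.d (nat_lit 499) (nat_lit 498) (nat_lit 2543) (nat_lit 500) (nat_lit 2544))))))) (.a (.p (nat_lit 530) (.a (.f (nat_lit 499) (nat_lit 498) (nat_lit 2543) (.f (nat_lit 531) (nat_lit 500) (nat_lit 2544) (.d (nat_lit 563) (nat_lit 562) (nat_lit 527) (nat_lit 564) (nat_lit 528)))) (.a (.f (nat_lit 498) (nat_lit 499) (nat_lit 2543) (.f (nat_lit 526) (nat_lit 497) (nat_lit 2542) (.d (nat_lit 558) (nat_lit 557) (nat_lit 1549) (nat_lit 559) (nat_lit 1550)))) (.f (nat_lit 559) (nat_lit 558) (nat_lit 1550) (.f (nat_lit 531) (nat_lit 560) (nat_lit 1551) (.d (nat_lit 563) (nat_lit 562) (nat_lit 527) (nat_lit 564) (nat_lit 528))))))) (.a s17940 (.a (.p (nat_lit 526) (.a (.f (nat_lit 557) (nat_lit 558) (nat_lit 1549) (.f (nat_lit 525) (nat_lit 556) (nat_lit 1548) (.d (nat_lit 493) (nat_lit 492) (nat_lit 3564) (nat_lit 494) (nat_lit 3565)))) (.a (.f (nat_lit 558) (nat_lit 557) (nat_lit 1549) (.f (nat_lit 530) (nat_lit 559) (nat_lit 1550) (.d (nat_lit 498) (nat_lit 497) (nat_lit 2542) (nat_lit 499) (nat_lit 2543)))) (.f (nat_lit 497) (nat_lit 498) (nat_lit 2542) (.f (nat_lit 525) (nat_lit 496) (nat_lit 2541) (.d (nat_lit 493) (nat_lit 492) (nat_lit 3564) (nat_lit 494) (nat_lit 3565))))))) (.a s33178 s33179)))))))))) (.a (.p (nat_lit 527) (.a s14755 (.a s33182 (.a s17098 (.a s33190 (.a (.p (nat_lit 530) (.a (.f (nat_lit 499) (nat_lit 498) (nat_lit 2543) (.f (nat_lit 531) (nat_lit 500) (nat_lit 2544) (.d (nat_lit 563) (nat_lit 562) (nat_lit 527) (nat_lit 564) (nat_lit 528)))) (.a (.f (nat_lit 562) (nat_lit 563) (nat_lit 527) (.f (nat_lit 526) (nat_lit 561) (nat_lit 526) (.d (nat_lit 494) (nat_lit 493) (nat_lit 3565) (nat_lit 495) (nat_lit 3566)))) (.f (nat_lit 495) (nat_lit 494) (nat_lit 3566) (.f (nat_lit 531) (nat_lit 496) (nat_lit 3567) (.d (nat_lit 499) (nat_lit 498) (nat_lit 2543) (nat_lit 500) (nat_lit 2544))))))) (.a (.p (nat_lit 530) (.a (.f (nat_lit 499) (nat_lit 498) (nat_lit 2543) (.f (nat_lit 531) (nat_lit 500) (nat_lit 2544) (.d (nat_lit 563) (nat_lit 562) (nat_lit 527) (nat_lit 564) (nat_lit 528)))) (.a (.f (nat_lit 498) (nat_lit 499) (nat_lit 2543) (.f (nat_lit 526) (nat_lit 497) (nat_lit 2542) (.d (nat_lit 494) (nat_lit 493) (nat_lit 3565) (nat_lit 495) (nat_lit 3566)))) (.f (nat_lit 495) (nat_lit 494) (nat_lit 3566) (.f (nat_lit 531) (nat_lit 496) (nat_lit 3567) (.d (nat_lit 563) (nat_lit 562) (nat_lit 527) (nat_lit 564) (nat_lit 528))))))) (.a s33191 (.a (.p (nat_lit 526) (.a (.f (nat_lit 557) (nat_lit 558) (nat_lit 1549) (.f (nat_lit 525) (nat_lit 556) (nat_lit 1548) (.d (nat_lit 493) (nat_lit 492) (nat_lit 3564) (nat_lit 494) (nat_lit 3565)))) (.a (.f (nat_lit 494) (nat_lit 493) (nat_lit 3565) (.f (nat_lit 530) (nat_lit 495) (nat_lit 3566) (.d (nat_lit 498) (nat_lit 497) (nat_lit 2542) (nat_lit 499) (nat_lit 2543)))) (.f (nat_lit 497) (nat_lit 498) (nat_lit 2542) (.f (nat_lit 525) (nat_lit 496) (nat_lit 2541) (.d (nat_lit 557) (nat_lit 556) (nat_lit 1548) (nat_lit 558) (nat_lit 1549))))))) s33193))))))))) (.a (.p (nat_lit 560) (.a s32943 (.a (.p (nat_lit 561) (.a (.p (nat_lit 497) (.a (.d (nat_lit 465) (nat_lit 433) (nat_lit 5552) (nat_lit 592) (nat_lit 5584)) (.a (.f (nat_lit 465) (nat_lit 433) (nat_lit 5552) (.f (nat_lit 562) (nat_lit 594) (nat_lit 4561) (.d (nat_lit 527) (nat_lit 526) (nat_lit 526) (nat_lit 563) (nat_lit 3599)))) (.p (nat_lit 593) (.a (.f (nat_lit 592) (nat_lit 624) (nat_lit 6640) (.f (nat_lit 594) (nat_lit 626) (nat_lit 4593) (.f (nat_lit 595) (nat_lit 596) (nat_lit 3632) (.f (nat_lit 563) (nat_lit 564) (nat_lit 2608) (.d (nat_lit 562) (nat_lit 527) (nat_lit 3599) (nat_lit 591) (nat_lit 1583)))))) (.a (.f (nat_lit 592) (nat_lit 624) (nat_lit 6640) (.f (nat_lit 594) (nat_lit 626) (nat_lit 4593) (.f (nat_lit 595) (nat_lit 596) (nat_lit 3632) (.f (nat_lit 563) (nat_lit 564) (nat_lit 2608) (.f (nat_lit 591) (nat_lit 562) (nat_lit 1583) (.f (nat_lit 590) (nat_lit 589) (nat_lit 2605) (.d (nat_lit 622) (nat_lit 621) (nat_lit 1613) (nat_lit 623) (nat_lit 1614)))))))) (.a (.f (nat_lit 625) (nat_lit 657) (nat_lit 7696) (.d (nat_lit 626) (nat_lit 594) (nat_lit 4593) (nat_lit 658) (nat_lit 4625))) (.f (nat_lit 624) (nat_lit 592) (nat_lit 6640) (.d (nat_lit 625) (nat_lit 656) (nat_lit 5648) (nat_lit 657) (nat_lit 7696)))))))))) (.a (.p (nat_lit 559) (.a (.f (nat_lit 558) (nat_lit 557) (nat_lit 2573) (.f (nat_lit 593) (nat_lit 594) (nat_lit 558) (.f (nat_lit 625) (nat_lit 657) (nat_lit 7696) (.f (nat_lit 624) (nat_lit 656) (nat_lit 5648) (.f (nat_lit 592) (nat_lit 497) (nat_lit 6640) (.f (nat_lit 590) (nat_lit 589) (nat_lit 1581) (.d (nat_lit 591) (nat_lit 562) (nat_lit 2606) (nat_lit 626) (nat_lit 590)))))))) (.a (.f (nat_lit 558) (nat_lit 557) (nat_lit 2573) (.f (nat_lit 590) (nat_lit 589) (nat_lit 1581) (.f (nat_lit 562) (nat_lit 591) (nat_lit 1582) (.d (nat_lit 563) (nat_lit 527) (nat_lit 3599) (nat_lit 564) (nat_lit 3600))))) (.a (.f (nat_lit 558) (nat_lit 557) (nat_lit 2573) (.f (nat_lit 593) (nat_lit 594) (nat_lit 558) (.f (nat_lit 625) (nat_lit 657) (nat_lit 7696) (.f (nat_lit 624) (nat_lit 656) (nat_lit 5648) (.f (nat_lit 592) (nat_lit 497) (nat_lit 6640) (.f (nat_lit 527) (nat_lit 495) (nat_lit 7663) (.f (nat_lit 623) (nat_lit 655) (nat_lit 5647) (.f (nat_lit 622) (nat_lit 621) (nat_lit 2637) (.d (nat_lit 590) (nat_lit 589) (nat_lit 3661) (nat_lit 654) (nat_lit 6670)))))))))) (.a (.p (nat_lit 562) (.a (.d (nat_lit 563) (nat_lit 527) (nat_lit 3599) (nat_lit 564) (nat_lit 3600)) (.a (.f (nat_lit 563) (nat_lit 564) (nat_lit 3600) (.d (nat_lit 591) (nat_lit 590) (nat_lit 1582) (nat_lit 592) (nat_lit 1583))) (.f (nat_lit 594) (nat_lit 595) (nat_lit 559) (.f (nat_lit 497) (nat_lit 465) (nat_lit 4561) (.d (nat_lit 626) (nat_lit 593) (nat_lit 4593) (nat_lit 658) (nat_lit 7697))))))) (.f (nat_lit 558) (nat_lit 557) (nat_lit 2573) (.f (nat_lit 593) (nat_lit 594) (nat_lit 558) (.f (nat_lit 625) (nat_lit 657) (nat_lit 7696) (.f (nat_lit 624) (nat_lit 656) (nat_lit 5648) (.f (nat_lit 592) (nat_lit 497) (nat_lit 6640) (.f (nat_lit 626) (nat_lit 658) (nat_lit 4625) (.d (nat_lit 627) (nat_lit 591) (nat_lit 3663) (nat_lit 628) (nat_lit 3664))))))))))))) (.a s33231 (.a (.p (nat_lit 527) (.a (.d (nat_lit 526) (nat_lit 525) (nat_lit 525) (nat_lit 562) (nat_lit 526)) (.a (.p (nat_lit 559) (.a (.f (nat_lit 558) (nat_lit 557) (nat_lit 2573) (.f (nat_lit 562) (nat_lit 563) (nat_lit 3599) (.d (nat_lit 590) (nat_lit 589) (nat_lit 1581) (nat_lit 591) (nat_lit 1582)))) (.a (.f (nat_lit 558) (nat_lit 557) (nat_lit 2573) (.f (nat_lit 562) (nat_lit 563) (nat_lit 3599) (.d (nat_lit 594) (nat_lit 593) (nat_lit 558) (nat_lit 595) (nat_lit 559)))) (.a (.f (nat_lit 562) (nat_lit 563) (nat_lit 3599) (.f (nat_lit 591) (nat_lit 590) (nat_lit 1582) (.f (nat_lit 623) (nat_lit 655) (nat_lit 6671) (.f (nat_lit 624) (nat_lit 656) (nat_lit 4623) (.f (nat_lit 495) (nat_lit 592) (nat_lit 7663) (.f (nat_lit 463) (nat_lit 431) (nat_lit 4527) (.d (nat_lit 462) (nat_lit 430) (nat_lit 7598) (nat_lit 494) (nat_lit 7630)))))))) (.f (nat_lit 558) (nat_lit 557) (nat_lit 2573) (.f (nat_lit 590) (nat_lit 589) (nat_lit 1581) (.f (nat_lit 495) (nat_lit 463) (nat_lit 5582) (.d (nat_lit 622) (nat_lit 591) (nat_lit 5614) (nat_lit 654) (nat_lit 6670))))))))) s33233))) (.a s33236 (.a (.p (nat_lit 559) (.a (.f (nat_lit 558) (nat_lit 557) (nat_lit 2573) (.f (nat_lit 593) (nat_lit 594) (nat_lit 558) (.f (nat_lit 625) (nat_lit 657) (nat_lit 7696) (.f (nat_lit 624) (nat_lit 656) (nat_lit 5648) (.f (nat_lit 592) (nat_lit 497) (nat_lit 6640) (.f (nat_lit 527) (nat_lit 495) (nat_lit 7663) (.f (nat_lit 623) (nat_lit 655) (nat_lit 5647) (.f (nat_lit 622) (nat_lit 621) (nat_lit 2637) (.d (nat_lit 590) (nat_lit 589) (nat_lit 3661) (nat_lit 654) (nat_lit 6670)))))))))) (.a (.f (nat_lit 558) (nat_lit 557) (nat_lit 2573) (.f (nat_lit 526) (nat_lit 525) (nat_lit 3597) (.f (nat_lit 562) (nat_lit 527) (nat_lit 526) (.d (nat_lit 594) (nat_lit 593) (nat_lit 558) (nat_lit 595) (nat_lit 559))))) (.a (.f (nat_lit 558) (nat_lit 557) (nat_lit 2573) (.f (nat_lit 593) (nat_lit 594) (nat_lit 558) (.f (nat_lit 625) (nat_lit 657) (nat_lit 7696) (.f (nat_lit 624) (nat_lit 656) (nat_lit 5648) (.f (nat_lit 497) (nat_lit 592) (nat_lit 6640) (.f (nat_lit 465) (nat_lit 433) (nat_lit 5552) (.d (nat_lit 466) (nat_lit 434) (nat_lit 6577) (nat_lit 498) (nat_lit 6609)))))))) (.a (.p (nat_lit 527) (.a (.f (nat_lit 562) (nat_lit 563) (nat_lit 3599) (.f (nat_lit 594) (nat_lit 595) (nat_lit 559) (.f (nat_lit 497) (nat_lit 465) (nat_lit 4561) (.d (nat_lit 626) (nat_lit 593) (nat_lit 4593) (nat_lit 658) (nat_lit 7697))))) (.a (.d (nat_lit 526) (nat_lit 525) (nat_lit 525) (nat_lit 562) (nat_lit 526)) (.f (nat_lit 526) (nat_lit 525) (nat_lit 525) (.f (nat_lit 497) (nat_lit 498) (nat_lit 2542) (.d (nat_lit 465) (nat_lit 433) (nat_lit 5552) (nat_lit 592) (nat_lit 5584))))))) (.f (nat_lit 558) (nat_lit 557) (nat_lit 2573) (.f (nat_lit 526) (nat_lit 525) (nat_lit 3597) (.f (nat_lit 527) (nat_lit 562) (nat_lit 526) (.f (nat_lit 590) (nat_lit 589) (nat_lit 1581) (.d (nat_lit 495) (nat_lit 463) (nat_lit 5582) (nat_lit 622) (nat_lit 6638))))))))))) (.a s33248 (.p (nat_lit 559) (.a (.f (nat_lit 558) (nat_lit 557) (nat_lit 2573) (.f (nat_lit 590) (nat_lit 589) (nat_lit 1581) (.f (nat_lit 562) (nat_lit 591) (nat_lit 1582) (.d (nat_lit 563) (nat_lit 527) (nat_lit 3599) (nat_lit 564) (nat_lit 3600))))) (.a (.f (nat_lit 558) (nat_lit 557) (nat_lit 2573) (.f (nat_lit 590) (nat_lit 589) (nat_lit 1581) (.f (nat_lit 526) (nat_lit 525) (nat_lit 3597) (.f (nat_lit 591) (nat_lit 562) (nat_lit 1582) (.d (nat_lit 494) (nat_lit 462) (nat_lit 4558) (nat_lit 623) (nat_lit 4590)))))) (.a (.f (nat_lit 558) (nat_lit 557) (nat_lit 2573) (.f (nat_lit 526) (nat_lit 525) (nat_lit 3597) (.f (nat_lit 527) (nat_lit 562) (nat_lit 526) (.f (nat_lit 590) (nat_lit 589) (nat_lit 1581) (.d (nat_lit 495) (nat_lit 463) (nat_lit 5582) (nat_lit 622) (nat_lit 6638)))))) (.a (.p (nat_lit 527) (.a (.f (nat_lit 562) (nat_lit 563) (nat_lit 3599) (.f (nat_lit 591) (nat_lit 590) (nat_lit 1582) (.f (nat_lit 623) (nat_lit 655) (nat_lit 6671) (.f (nat_lit 624) (nat_lit 656) (nat_lit 4623) (.f (nat_lit 495) (nat_lit 592) (nat_lit 7663) (.f (nat_lit 463) (nat_lit 431) (nat_lit 4527) (.d (nat_lit 462) (nat_lit 430) (nat_lit 7598) (nat_lit 494) (nat_lit 7630)))))))) (.a (.d (nat_lit 526) (nat_lit 525) (nat_lit 525) (nat_lit 562) (nat_lit 526)) (.f (nat_lit 526) (nat_lit 525) (nat_lit 525) (.f (nat_lit 494) (nat_lit 493) (nat_lit 3565) (.f (nat_lit 591) (nat_lit 623) (nat_lit 7662) (.d (nat_lit 462) (nat_lit 430) (nat_lit 4526) (nat_lit 495) (nat_lit 7630)))))))) (.a s33250 (.f (nat_lit 558) (nat_lit 557) (nat_lit 2573) (.f (nat_lit 526) (nat_lit 525) (nat_lit 3597) (.f (nat_lit 527) (nat_lit 562) (nat_lit 526) (.f (nat_lit 494) (nat_lit 493) (nat_lit 3565) (.d (nat_lit 462) (nat_lit 430) (nat_lit 4526) (nat_lit 591) (nat_lit 4558)))))))))))))))))))) (.a s33066 (.a (.p (nat_lit 527) (.a (.p (nat_lit 526) (.a (.d (nat_lit 561) (nat_lit 525) (nat_lit 525) (nat_lit 562) (nat_lit 526)) (.a (.f (nat_lit 561) (nat_lit 562) (nat_lit 526) (.f (nat_lit 497) (nat_lit 498) (nat_lit 2542) (.d (nat_lit 465) (nat_lit 433) (nat_lit 5552) (nat_lit 592) (nat_lit 5584)))) (.f (nat_lit 497) (nat_lit 498) (nat_lit 2542) (.f (nat_lit 496) (nat_lit 525) (nat_lit 2541) (.d (nat_lit 465) (nat_lit 433) (nat_lit 5552) (nat_lit 592) (nat_lit 6608))))))) (.a (.p (nat_lit 526) (.a (.d (nat_lit 561) (nat_lit 525) (nat_lit 525) (nat_lit 562) (nat_lit 526)) (.a (.f (nat_lit 561) (nat_lit 562) (nat_lit 526) (.f (nat_lit 497) (nat_lit 498) (nat_lit 2542) (.d (nat_lit 465) (nat_lit 433) (nat_lit 5552) (nat_lit 592) (nat_lit 5584)))) (.f (nat_lit 557) (nat_lit 558) (nat_lit 1549) (.f (nat_lit 525) (nat_lit 556) (nat_lit 1548) (.d (nat_lit 493) (nat_lit 492) (nat_lit 3564) (nat_lit 494) (nat_lit 3565))))))) (.a s33024 (.a s33164 (.a (.p (nat_lit 526) (.a (.f (nat_lit 497) (nat_lit 498) (nat_lit 2542) (.f (nat_lit 496) (nat_lit 525) (nat_lit 2541) (.d (nat_lit 465) (nat_lit 433) (nat_lit 5552) (nat_lit 592) (nat_lit 6608)))) (.a (.f (nat_lit 557) (nat_lit 558) (nat_lit 1549) (.f (nat_lit 525) (nat_lit 556) (nat_lit 1548) (.d (nat_lit 493) (nat_lit 492) (nat_lit 3564) (nat_lit 494) (nat_lit 3565)))) (.f (nat_lit 497) (nat_lit 498) (nat_lit 2542) (.f (nat_lit 592) (nat_lit 624) (nat_lit 6640) (.d (nat_lit 465) (nat_lit 433) (nat_lit 5552) (nat_lit 496) (nat_lit 6608))))))) (.a s33165 s33175))))))) (.a (.p (nat_lit 592) (.a (.f (nat_lit 624) (nat_lit 497) (nat_lit 6640) (.f (nat_lit 623) (nat_lit 655) (nat_lit 5647) (.f (nat_lit 625) (nat_lit 657) (nat_lit 4624) (.d (nat_lit 496) (nat_lit 591) (nat_lit 5615) (nat_lit 593) (nat_lit 4592))))) (.a (.f (nat_lit 624) (nat_lit 497) (nat_lit 6640) (.f (nat_lit 656) (nat_lit 561) (nat_lit 6672) (.d (nat_lit 655) (nat_lit 623) (nat_lit 5647) (nat_lit 687) (nat_lit 5679)))) (.a (.p (nat_lit 496) (.a (.f (nat_lit 495) (nat_lit 463) (nat_lit 7631) (.f (nat_lit 624) (nat_lit 527) (nat_lit 7663) (.d (nat_lit 623) (nat_lit 591) (nat_lit 5615) (nat_lit 655) (nat_lit 5647)))) (.a (.f (nat_lit 593) (nat_lit 625) (nat_lit 4592) (.f (nat_lit 561) (nat_lit 464) (nat_lit 4560) (.f (nat_lit 591) (nat_lit 623) (nat_lit 5615) (.d (nat_lit 562) (nat_lit 563) (nat_lit 1583) (nat_lit 590) (nat_lit 2606))))) (.f (nat_lit 593) (nat_lit 625) (nat_lit 4592) (.f (nat_lit 464) (nat_lit 561) (nat_lit 4560) (.d (nat_lit 463) (nat_lit 431) (nat_lit 7599) (nat_lit 495) (nat_lit 7631))))))) (.a (.p (nat_lit 496) (.a (.f (nat_lit 593) (nat_lit 625) (nat_lit 4592) (.f (nat_lit 464) (nat_lit 561) (nat_lit 4560) (.d (nat_lit 463) (nat_lit 431) (nat_lit 7599) (nat_lit 495) (nat_lit 7631)))) (.a (.f (nat_lit 593) (nat_lit 625) (nat_lit 4592) (.f (nat_lit 561) (nat_lit 464) (nat_lit 4560) (.f (nat_lit 591) (nat_lit 623) (nat_lit 5615) (.d (nat_lit 562) (nat_lit 563) (nat_lit 1583) (nat_lit 590) (nat_lit 2606))))) (.a (.f (nat_lit 465) (nat_lit 497) (nat_lit 6608) (.f (nat_lit 464) (nat_lit 433) (nat_lit 6576) (.d (nat_lit 463) (nat_lit 431) (nat_lit 7599) (nat_lit 495) (nat_lit 7631)))) (.f (nat_lit 497) (nat_lit 465) (nat_lit 6608) (.f (nat_lit 495) (nat_lit 463) (nat_lit 7631) (.f (nat_lit 494) (nat_lit 493) (nat_lit 493) (.f (nat_lit 526) (nat_lit 525) (nat_lit 1517) (.f (nat_lit 498) (nat_lit 527) (nat_lit 2542) (.f (nat_lit 593) (nat_lit 625) (nat_lit 4592) (.d (nat_lit 466) (nat_lit 467) (nat_lit 2511) (nat_lit 561) (nat_lit 6609)))))))))))) (.f (nat_lit 624) (nat_lit 497) (nat_lit 6640) (.f (nat_lit 561) (nat_lit 656) (nat_lit 6672) (.f (nat_lit 625) (nat_lit 657) (nat_lit 4624) (.f (nat_lit 593) (nat_lit 496) (nat_lit 4592) (.f (nat_lit 626) (nat_lit 658) (nat_lit 4625) (.d (nat_lit 591) (nat_lit 590) (nat_lit 590) (nat_lit 627) (nat_lit 3663)))))))))))) (.a (.p (nat_lit 496) (.a (.p (nat_lit 592) (.a (.d (nat_lit 497) (nat_lit 465) (nat_lit 6608) (nat_lit 624) (nat_lit 6640)) (.f (nat_lit 593) (nat_lit 625) (nat_lit 4592) (.f (nat_lit 464) (nat_lit 561) (nat_lit 4560) (.d (nat_lit 463) (nat_lit 431) (nat_lit 7599) (nat_lit 495) (nat_lit 7631)))))) (.a (.p (nat_lit 592) (.a (.d (nat_lit 497) (nat_lit 465) (nat_lit 6608) (nat_lit 624) (nat_lit 6640)) (.f (nat_lit 593) (nat_lit 625) (nat_lit 4592) (.f (nat_lit 561) (nat_lit 464) (nat_lit 4560) (.f (nat_lit 591) (nat_lit 623) (nat_lit 5615) (.d (nat_lit 562) (nat_lit 563) (nat_lit 1583) (nat_lit 590) (nat_lit 2606))))))) (.a (.p (nat_lit 592) (.a (.f (nat_lit 593) (nat_lit 625) (nat_lit 4592) (.f (nat_lit 561) (nat_lit 464) (nat_lit 4560) (.f (nat_lit 591) (nat_lit 623) (nat_lit 5615) (.d (nat_lit 562) (nat_lit 563) (nat_lit 1583) (nat_lit 590) (nat_lit 2606))))) (.a (.f (nat_lit 591) (nat_lit 623) (nat_lit 5615) (.f (nat_lit 559) (nat_lit 464) (nat_lit 5583) (.f (nat_lit 593) (nat_lit 625) (nat_lit 4592) (.d (nat_lit 558) (nat_lit 557) (nat_lit 557) (nat_lit 594) (nat_lit 3630))))) (.a (.f (nat_lit 625) (nat_lit 593) (nat_lit 4592) (.f (nat_lit 624) (nat_lit 657) (nat_lit 4624) (.d (nat_lit 623) (nat_lit 591) (nat_lit 5615) (nat_lit 655) (nat_lit 5647)))) (.a (.f (nat_lit 593) (nat_lit 625) (nat_lit 4592) (.f (nat_lit 464) (nat_lit 561) (nat_lit 4560) (.f (nat_lit 431) (nat_lit 463) (nat_lit 7599) (.f (nat_lit 432) (nat_lit 399) (nat_lit 7567) (.d (nat_lit 433) (nat_lit 401) (nat_lit 6544) (nat_lit 465) (nat_lit 6576)))))) (.f (nat_lit 591) (nat_lit 623) (nat_lit 5615) (.f (nat_lit 464) (nat_lit 559) (nat_lit 5583) (.f (nat_lit 432) (nat_lit 561) (nat_lit 4528) (.d (nat_lit 431) (nat_lit 399) (nat_lit 7567) (nat_lit 463) (nat_lit 7599)))))))))) (.a (.p (nat_lit 592) (.a (.d (nat_lit 497) (nat_lit 465) (nat_lit 6608) (nat_lit 624) (nat_lit 6640)) (.f (nat_lit 591) (nat_lit 623) (nat_lit 5615) (.f (nat_lit 559) (nat_lit 464) (nat_lit 5583) (.f (nat_lit 593) (nat_lit 625) (nat_lit 4592) (.d (nat_lit 558) (nat_lit 557) (nat_lit 557) (nat_lit 594) (nat_lit 3630))))))) (.a s30960 (.a s31089 (.a (.p (nat_lit 592) (.a (.d (nat_lit 497) (nat_lit 465) (nat_lit 6608) (nat_lit 624) (nat_lit 6640)) (.f (nat_lit 591) (nat_lit 623) (nat_lit 5615) (.f (nat_lit 464) (nat_lit 559) (nat_lit 5583) (.f (nat_lit 432) (nat_lit 561) (nat_lit 4528) (.d (nat_lit 431) (nat_lit 399) (nat_lit 7567) (nat_lit 463) (nat_lit 7599))))))) (.p (nat_lit 592) (.a (.f (nat_lit 593) (nat_lit 625) (nat_lit 4592) (.f (nat_lit 464) (nat_lit 561) (nat_lit 4560) (.d (nat_lit 463) (nat_lit 431) (nat_lit 7599) (nat_lit 495) (nat_lit 7631)))) (.a (.f (nat_lit 593) (nat_lit 625) (nat_lit 4592) (.f (nat_lit 561) (nat_lit 464) (nat_lit 4560) (.f (nat_lit 591) (nat_lit 623) (nat_lit 5615) (.d (nat_lit 562) (nat_lit 563) (nat_lit 1583) (nat_lit 590) (nat_lit 2606))))) (.a (.f (nat_lit 591) (nat_lit 623) (nat_lit 5615) (.f (nat_lit 559) (nat_lit 464) (nat_lit 5583) (.f (nat_lit 593) (nat_lit 625) (nat_lit 4592) (.d (nat_lit 558) (nat_lit 557) (nat_lit 557) (nat_lit 594) (nat_lit 3630))))) (.a (.f (nat_lit 625) (nat_lit 593) (nat_lit 4592) (.f (nat_lit 624) (nat_lit 657) (nat_lit 4624) (.d (nat_lit 623) (nat_lit 591) (nat_lit 5615) (nat_lit 655) (nat_lit 5647)))) (.f (nat_lit 591) (nat_lit 623) (nat_lit 5615) (.f (nat_lit 464) (nat_lit 559) (nat_lit 5583) (.f (nat_lit 432) (nat_lit 561) (nat_lit 4528) (.d (nat_lit 431) (nat_lit 399) (nat_lit 7567) (nat_lit 463) (nat_lit 7599)))))))))))))))))) (.a (.p (nat_lit 527) (.a s33164 (.a s33271 (.a s33276 (.a s33189 (.a s33289 (.a s33291 (.a s33294 (.a s33296 (.a s33301 s33302)))))))))) (.a (.p (nat_lit 592) (.a (.f (nat_lit 624) (nat_lit 497) (nat_lit 6640) (.f (nat_lit 623) (nat_lit 655) (nat_lit 5647) (.f (nat_lit 625) (nat_lit 657) (nat_lit 4624) (.d (nat_lit 496) (nat_lit 591) (nat_lit 5615) (nat_lit 593) (nat_lit 4592))))) (.a (.f (nat_lit 624) (nat_lit 497) (nat_lit 6640) (.f (nat_lit 655) (nat_lit 623) (nat_lit 5647) (.f (nat_lit 656) (nat_lit 687) (nat_lit 5679) (.d (nat_lit 657) (nat_lit 625) (nat_lit 4624) (nat_lit 689) (nat_lit 4656))))) (.a (.p (nat_lit 496) (.a (.f (nat_lit 495) (nat_lit 463) (nat_lit 7631) (.f (nat_lit 624) (nat_lit 527) (nat_lit 7663) (.d (nat_lit 623) (nat_lit 591) (nat_lit 5615) (nat_lit 655) (nat_lit 5647)))) (.a (.f (nat_lit 591) (nat_lit 623) (nat_lit 5615) (.f (nat_lit 559) (nat_lit 464) (nat_lit 5583) (.f (nat_lit 593) (nat_lit 625) (nat_lit 4592) (.d (nat_lit 558) (nat_lit 557) (nat_lit 557) (nat_lit 594) (nat_lit 3630))))) (.f (nat_lit 495) (nat_lit 463) (nat_lit 7631) (.f (nat_lit 624) (nat_lit 527) (nat_lit 7663) (.d (nat_lit 625) (nat_lit 593) (nat_lit 4592) (nat_lit 657) (nat_lit 4624))))))) (.a (.p (nat_lit 496) (.a (.f (nat_lit 497) (nat_lit 465) (nat_lit 6608) (.f (nat_lit 495) (nat_lit 463) (nat_lit 7631) (.f (nat_lit 494) (nat_lit 493) (nat_lit 493) (.f (nat_lit 526) (nat_lit 525) (nat_lit 1517) (.f (nat_lit 527) (nat_lit 498) (nat_lit 2542) (.f (nat_lit 591) (nat_lit 623) (nat_lit 5615) (.d (nat_lit 462) (nat_lit 461) (nat_lit 3533) (nat_lit 559) (nat_lit 7630)))))))) (.a (.f (nat_lit 591) (nat_lit 623) (nat_lit 5615) (.f (nat_lit 559) (nat_lit 464) (nat_lit 5583) (.f (nat_lit 593) (nat_lit 625) (nat_lit 4592) (.d (nat_lit 558) (nat_lit 557) (nat_lit 557) (nat_lit 594) (nat_lit 3630))))) (.f (nat_lit 465) (nat_lit 497) (nat_lit 6608) (.f (nat_lit 464) (nat_lit 433) (nat_lit 6576) (.d (nat_lit 463) (nat_lit 431) (nat_lit 7599) (nat_lit 495) (nat_lit 7631))))))) (.a (.f (nat_lit 624) (nat_lit 497) (nat_lit 6640) (.f (nat_lit 527) (nat_lit 495) (nat_lit 7663) (.f (nat_lit 559) (nat_lit 656) (nat_lit 7695) (.f (nat_lit 558) (nat_lit 557) (nat_lit 2573) (.f (nat_lit 625) (nat_lit 657) (nat_lit 4624) (.f (nat_lit 593) (nat_lit 496) (nat_lit 4592) (.d (nat_lit 594) (nat_lit 591) (nat_lit 3630) (nat_lit 595) (nat_lit 3631)))))))) (.f (nat_lit 624) (nat_lit 497) (nat_lit 6640) (.f (nat_lit 527) (nat_lit 495) (nat_lit 7663) (.f (nat_lit 559) (nat_lit 656) (nat_lit 7695) (.f (nat_lit 623) (nat_lit 655) (nat_lit 5647) (.f (nat_lit 591) (nat_lit 496) (nat_lit 5615) (.f (nat_lit 558) (nat_lit 557) (nat_lit 2573) (.f (nat_lit 622) (nat_lit 654) (nat_lit 5646) (.d (nat_lit 593) (nat_lit 594) (nat_lit 3630) (nat_lit 621) (nat_lit 2637))))))))))))))) (.a (.p (nat_lit 561) (.a s33236 (.a (.p (nat_lit 496) (.a (.d (nat_lit 464) (nat_lit 432) (nat_lit 4528) (nat_lit 593) (nat_lit 4560)) (.a (.p (nat_lit 497) (.a (.f (nat_lit 465) (nat_lit 433) (nat_lit 5552) (.f (nat_lit 593) (nat_lit 625) (nat_lit 7664) (.d (nat_lit 466) (nat_lit 434) (nat_lit 6577) (nat_lit 498) (nat_lit 6609)))) (.a (.f (nat_lit 465) (nat_lit 433) (nat_lit 5552) (.f (nat_lit 562) (nat_lit 594) (nat_lit 4561) (.d (nat_lit 563) (nat_lit 527) (nat_lit 3599) (nat_lit 564) (nat_lit 3600)))) (.f (nat_lit 593) (nat_lit 625) (nat_lit 7664) (.f (nat_lit 498) (nat_lit 466) (nat_lit 6609) (.d (nat_lit 499) (nat_lit 500) (nat_lit 1520) (nat_lit 527) (nat_lit 1519))))))) (.f (nat_lit 464) (nat_lit 432) (nat_lit 4528) (.f (nat_lit 465) (nat_lit 433) (nat_lit 6576) (.f (nat_lit 463) (nat_lit 431) (nat_lit 7599) (.f (nat_lit 559) (nat_lit 591) (nat_lit 5583) (.f (nat_lit 558) (nat_lit 557) (nat_lit 2573) (.f (nat_lit 590) (nat_lit 589) (nat_lit 1581) (.f (nat_lit 495) (nat_lit 527) (nat_lit 5582) (.d (nat_lit 466) (nat_lit 467) (nat_lit 1487) (nat_lit 494) (nat_lit 1486)))))))))))) (.a (.p (nat_lit 527) (.a (.d (nat_lit 526) (nat_lit 525) (nat_lit 525) (nat_lit 562) (nat_lit 526)) (.a (.p (nat_lit 559) (.a (.f (nat_lit 558) (nat_lit 557) (nat_lit 2573) (.f (nat_lit 562) (nat_lit 563) (nat_lit 3599) (.d (nat_lit 590) (nat_lit 589) (nat_lit 1581) (nat_lit 591) (nat_lit 1582)))) (.a (.f (nat_lit 558) (nat_lit 557) (nat_lit 2573) (.f (nat_lit 562) (nat_lit 563) (nat_lit 3599) (.d (nat_lit 594) (nat_lit 593) (nat_lit 558) (nat_lit 595) (nat_lit 559)))) (.a (.f (nat_lit 562) (nat_lit 563) (nat_lit 3599) (.f (nat_lit 594) (nat_lit 595) (nat_lit 559) (.f (nat_lit 497) (nat_lit 465) (nat_lit 4561) (.d (nat_lit 626) (nat_lit 593) (nat_lit 4593) (nat_lit 658) (nat_lit 7697))))) (.f (nat_lit 558) (nat_lit 557) (nat_lit 2573) (.f (nat_lit 593) (nat_lit 594) (nat_lit 558) (.d (nat_lit 496) (nat_lit 464) (nat_lit 4560) (nat_lit 625) (nat_lit 7664)))))))) (.f (nat_lit 526) (nat_lit 525) (nat_lit 525) (.f (nat_lit 497) (nat_lit 498) (nat_lit 2542) (.f (nat_lit 465) (nat_lit 433) (nat_lit 5552) (.f (nat_lit 464) (nat_lit 432) (nat_lit 7600) (.f (nat_lit 593) (nat_lit 496) (nat_lit 4560) (.f (nat_lit 558) (nat_lit 557) (nat_lit 1549) (.d (nat_lit 594) (nat_lit 559) (nat_lit 558) (nat_lit 626) (nat_lit 4593))))))))))) (.a (.p (nat_lit 496) (.a (.d (nat_lit 464) (nat_lit 432) (nat_lit 4528) (nat_lit 593) (nat_lit 4560)) (.a (.p (nat_lit 497) (.a (.f (nat_lit 465) (nat_lit 433) (nat_lit 5552) (.f (nat_lit 562) (nat_lit 594) (nat_lit 4561) (.d (nat_lit 527) (nat_lit 526) (nat_lit 526) (nat_lit 563) (nat_lit 3599)))) (.a (.f (nat_lit 465) (nat_lit 433) (nat_lit 5552) (.f (nat_lit 593) (nat_lit 625) (nat_lit 7664) (.d (nat_lit 466) (nat_lit 434) (nat_lit 6577) (nat_lit 498) (nat_lit 6609)))) (.f (nat_lit 593) (nat_lit 625) (nat_lit 7664) (.f (nat_lit 498) (nat_lit 466) (nat_lit 6609) (.d (nat_lit 499) (nat_lit 500) (nat_lit 1520) (nat_lit 527) (nat_lit 1519))))))) (.p (nat_lit 527) (.a (.d (nat_lit 526) (nat_lit 525) (nat_lit 525) (nat_lit 562) (nat_lit 526)) (.a (.f (nat_lit 464) (nat_lit 432) (nat_lit 4528) (.f (nat_lit 465) (nat_lit 433) (nat_lit 6576) (.f (nat_lit 463) (nat_lit 431) (nat_lit 7599) (.f (nat_lit 562) (nat_lit 563) (nat_lit 3599) (.f (nat_lit 497) (nat_lit 594) (nat_lit 4561) (.d (nat_lit 462) (nat_lit 461) (nat_lit 461) (nat_lit 498) (nat_lit 462))))))) (.f (nat_lit 526) (nat_lit 525) (nat_lit 525) (.f (nat_lit 497) (nat_lit 498) (nat_lit 2542) (.f (nat_lit 464) (nat_lit 432) (nat_lit 4528) (.f (nat_lit 465) (nat_lit 433) (nat_lit 5552) (.f (nat_lit 466) (nat_lit 434) (nat_lit 6577) (.d (nat_lit 467) (nat_lit 468) (nat_lit 1488) (nat_lit 495) (nat_lit 1487))))))))))))) (.a s33335 (.a (.p (nat_lit 527) (.a (.d (nat_lit 526) (nat_lit 525) (nat_lit 525) (nat_lit 562) (nat_lit 526)) (.a (.p (nat_lit 559) (.a (.f (nat_lit 558) (nat_lit 557) (nat_lit 2573) (.f (nat_lit 562) (nat_lit 563) (nat_lit 3599) (.d (nat_lit 590) (nat_lit 589) (nat_lit 1581) (nat_lit 591) (nat_lit 1582)))) (.a (.f (nat_lit 558) (nat_lit 557) (nat_lit 2573) (.f (nat_lit 562) (nat_lit 563) (nat_lit 3599) (.d (nat_lit 594) (nat_lit 593) (nat_lit 558) (nat_lit 595) (nat_lit 559)))) (.a (.f (nat_lit 562) (nat_lit 563) (nat_lit 3599) (.f (nat_lit 591) (nat_lit 590) (nat_lit 1582) (.d (nat_lit 496) (nat_lit 464) (nat_lit 5583) (nat_lit 623) (nat_lit 6639)))) (.f (nat_lit 558) (nat_lit 557) (nat_lit 2573) (.f (nat_lit 590) (nat_lit 589) (nat_lit 1581) (.f (nat_lit 495) (nat_lit 463) (nat_lit 5582) (.d (nat_lit 622) (nat_lit 591) (nat_lit 5614) (nat_lit 654) (nat_lit 6670))))))))) s33233))) (.a (.p (nat_lit 497) (.a (.f (nat_lit 465) (nat_lit 433) (nat_lit 5552) (.f (nat_lit 464) (nat_lit 432) (nat_lit 7600) (.f (nat_lit 593) (nat_lit 496) (nat_lit 4560) (.d (nat_lit 466) (nat_lit 434) (nat_lit 6577) (nat_lit 498) (nat_lit 6609))))) (.a (.f (nat_lit 465) (nat_lit 433) (nat_lit 5552) (.f (nat_lit 466) (nat_lit 434) (nat_lit 6577) (.f (nat_lit 593) (nat_lit 498) (nat_lit 6609) (.f (nat_lit 625) (nat_lit 657) (nat_lit 7696) (.d (nat_lit 626) (nat_lit 594) (nat_lit 4593) (nat_lit 658) (nat_lit 4625)))))) (.a (.f (nat_lit 465) (nat_lit 433) (nat_lit 5552) (.f (nat_lit 464) (nat_lit 432) (nat_lit 7600) (.f (nat_lit 496) (nat_lit 593) (nat_lit 4560) (.f (nat_lit 466) (nat_lit 434) (nat_lit 6577) (.d (nat_lit 467) (nat_lit 468) (nat_lit 1488) (nat_lit 495) (nat_lit 1487)))))) (.a (.p (nat_lit 496) (.a (.f (nat_lit 465) (nat_lit 433) (nat_lit 5552) (.f (nat_lit 466) (nat_lit 434) (nat_lit 6577) (.f (nat_lit 495) (nat_lit 494) (nat_lit 2510) (.d (nat_lit 467) (nat_lit 468) (nat_lit 1488) (nat_lit 498) (nat_lit 2511))))) (.a (.f (nat_lit 464) (nat_lit 432) (nat_lit 4528) (.f (nat_lit 465) (nat_lit 433) (nat_lit 5552) (.f (nat_lit 463) (nat_lit 431) (nat_lit 7599) (.d (nat_lit 462) (nat_lit 461) (nat_lit 461) (nat_lit 498) (nat_lit 462))))) (.a (.f (nat_lit 464) (nat_lit 432) (nat_lit 4528) (.f (nat_lit 465) (nat_lit 433) (nat_lit 5552) (.f (nat_lit 466) (nat_lit 434) (nat_lit 6577) (.d (nat_lit 467) (nat_lit 468) (nat_lit 1488) (nat_lit 495) (nat_lit 1487))))) (.f (nat_lit 464) (nat_lit 432) (nat_lit 4528) (.f (nat_lit 463) (nat_lit 431) (nat_lit 7599) (.f (nat_lit 498) (nat_lit 499) (nat_lit 3535) (.d (nat_lit 462) (nat_lit 461) (nat_lit 461) (nat_lit 495) (nat_lit 3534))))))))) (.a (.p (nat_lit 496) (.a (.f (nat_lit 593) (nat_lit 625) (nat_lit 7664) (.f (nat_lit 498) (nat_lit 466) (nat_lit 6609) (.d (nat_lit 499) (nat_lit 500) (nat_lit 1520) (nat_lit 527) (nat_lit 1519)))) (.a (.f (nat_lit 464) (nat_lit 432) (nat_lit 4528) (.f (nat_lit 463) (nat_lit 431) (nat_lit 7599) (.f (nat_lit 498) (nat_lit 499) (nat_lit 3535) (.d (nat_lit 462) (nat_lit 461) (nat_lit 461) (nat_lit 495) (nat_lit 3534))))) (.d (nat_lit 464) (nat_lit 432) (nat_lit 4528) (nat_lit 593) (nat_lit 4560))))) (.f (nat_lit 465) (nat_lit 433) (nat_lit 5552) (.f (nat_lit 464) (nat_lit 432) (nat_lit 7600) (.f (nat_lit 496) (nat_lit 593) (nat_lit 4560) (.f (nat_lit 463) (nat_lit 431) (nat_lit 7599) (.d (nat_lit 462) (nat_lit 461) (nat_lit 461) (nat_lit 498) (nat_lit 462)))))))))))) (.p (nat_lit 559) (.a (.f (nat_lit 558) (nat_lit 557) (nat_lit 2573) (.f (nat_lit 590) (nat_lit 589) (nat_lit 1581) (.f (nat_lit 562) (nat_lit 591) (nat_lit 1582) (.d (nat_lit 563) (nat_lit 527) (nat_lit 3599) (nat_lit 564) (nat_lit 3600))))) (.a (.f (nat_lit 558) (nat_lit 557) (nat_lit 2573) (.f (nat_lit 590) (nat_lit 589) (nat_lit 1581) (.f (nat_lit 526) (nat_lit 525) (nat_lit 3597) (.f (nat_lit 591) (nat_lit 562) (nat_lit 1582) (.d (nat_lit 494) (nat_lit 462) (nat_lit 4558) (nat_lit 623) (nat_lit 4590)))))) (.a (.f (nat_lit 558) (nat_lit 557) (nat_lit 2573) (.f (nat_lit 526) (nat_lit 525) (nat_lit 3597) (.f (nat_lit 527) (nat_lit 562) (nat_lit 526) (.f (nat_lit 590) (nat_lit 589) (nat_lit 1581) (.d (nat_lit 495) (nat_lit 463) (nat_lit 5582) (nat_lit 622) (nat_lit 6638)))))) (.a (.p (nat_lit 527) (.a (.f (nat_lit 526) (nat_lit 525) (nat_lit 525) (.f (nat_lit 494) (nat_lit 493) (nat_lit 3565) (.f (nat_lit 591) (nat_lit 623) (nat_lit 7662) (.d (nat_lit 462) (nat_lit 430) (nat_lit 4526) (nat_lit 495) (nat_lit 7630))))) (.a (.f (nat_lit 562) (nat_lit 563) (nat_lit 3599) (.f (nat_lit 591) (nat_lit 590) (nat_lit 1582) (.d (nat_lit 496) (nat_lit 464) (nat_lit 5583) (nat_lit 623) (nat_lit 6639)))) (.d (nat_lit 526) (nat_lit 525) (nat_lit 525) (nat_lit 562) (nat_lit 526))))) (.a s33250 (.f (nat_lit 558) (nat_lit 557) (nat_lit 2573) (.f (nat_lit 526) (nat_lit 525) (nat_lit 3597) (.f (nat_lit 527) (nat_lit 562) (nat_lit 526) (.f (nat_lit 494) (nat_lit 493) (nat_lit 3565) (.d (nat_lit 462) (nat_lit 430) (nat_lit 4526) (nat_lit 591) (nat_lit 4558)))))))))))))))))))) (.a (.p (nat_lit 592) (.a (.f (nat_lit 624) (nat_lit 497) (nat_lit 6640) (.f (nat_lit 656) (nat_lit 561) (nat_lit 6672) (.d (nat_lit 527) (nat_lit 495) (nat_lit 7663) (nat_lit 559) (nat_lit 7695)))) (.a (.f (nat_lit 624) (nat_lit 497) (nat_lit 6640) (.f (nat_lit 656) (nat_lit 561) (nat_lit 6672) (.d (nat_lit 655) (nat_lit 623) (nat_lit 5647) (nat_lit 687) (nat_lit 5679)))) (.a (.p (nat_lit 496) (.a (.f (nat_lit 593) (nat_lit 625) (nat_lit 4592) (.f (nat_lit 464) (nat_lit 561) (nat_lit 4560) (.d (nat_lit 463) (nat_lit 431) (nat_lit 7599) (nat_lit 495) (nat_lit 7631)))) (.a (.f (nat_lit 593) (nat_lit 625) (nat_lit 4592) (.f (nat_lit 464) (nat_lit 561) (nat_lit 4560) (.f (nat_lit 431) (nat_lit 463) (nat_lit 7599) (.f (nat_lit 432) (nat_lit 399) (nat_lit 7567) (.d (nat_lit 433) (nat_lit 401) (nat_lit 6544) (nat_lit 465) (nat_lit 6576)))))) (.a (.f (nat_lit 495) (nat_lit 463) (nat_lit 7631) (.f (nat_lit 624) (nat_lit 527) (nat_lit 7663) (.d (nat_lit 625) (nat_lit 593) (nat_lit 4592) (nat_lit 657) (nat_lit 4624)))) (.a (.f (nat_lit 593) (nat_lit 625) (nat_lit 4592) (.f (nat_lit 561) (nat_lit 464) (nat_lit 4560) (.f (nat_lit 624) (nat_lit 656) (nat_lit 6672) (.f (nat_lit 527) (nat_lit 495) (nat_lit 7663) (.d (nat_lit 526) (nat_lit 525) (nat_lit 525) (nat_lit 562) (nat_lit 526)))))) (.f (nat_lit 495) (nat_lit 463) (nat_lit 7631) (.f (nat_lit 624) (nat_lit 527) (nat_lit 7663) (.f (nat_lit 656) (nat_lit 561) (nat_lit 6672) (.d (nat_lit 655) (nat_lit 623) (nat_lit 5647) (nat_lit 687) (nat_lit 5679)))))))))) (.a (.f (nat_lit 624) (nat_lit 497) (nat_lit 6640) (.f (nat_lit 655) (nat_lit 623) (nat_lit 5647) (.f (nat_lit 656) (nat_lit 687) (nat_lit 5679) (.d (nat_lit 657) (nat_lit 625) (nat_lit 4624) (nat_lit 689) (nat_lit 4656))))) (.p (nat_lit 496) (.a (.f (nat_lit 593) (nat_lit 625) (nat_lit 4592) (.f (nat_lit 464) (nat_lit 561) (nat_lit 4560) (.d (nat_lit 463) (nat_lit 431) (nat_lit 7599) (nat_lit 495) (nat_lit 7631)))) (.a (.f (nat_lit 593) (nat_lit 625) (nat_lit 4592) (.f (nat_lit 464) (nat_lit 561) (nat_lit 4560) (.f (nat_lit 431) (nat_lit 463) (nat_lit 7599) (.f (nat_lit 432) (nat_lit 399) (nat_lit 7567) (.d (nat_lit 433) (nat_lit 401) (nat_lit 6544) (nat_lit 465) (nat_lit 6576)))))) (.a (.f (nat_lit 465) (nat_lit 497) (nat_lit 6608) (.f (nat_lit 464) (nat_lit 433) (nat_lit 6576) (.d (nat_lit 463) (nat_lit 431) (nat_lit 7599) (nat_lit 495) (nat_lit 7631)))) (.a (.f (nat_lit 497) (nat_lit 465) (nat_lit 6608) (.f (nat_lit 495) (nat_lit 463) (nat_lit 7631) (.f (nat_lit 494) (nat_lit 493) (nat_lit 493) (.f (nat_lit 526) (nat_lit 525) (nat_lit 1517) (.f (nat_lit 498) (nat_lit 527) (nat_lit 2542) (.f (nat_lit 593) (nat_lit 625) (nat_lit 4592) (.d (nat_lit 466) (nat_lit 467) (nat_lit 2511) (nat_lit 561) (nat_lit 6609)))))))) (.f (nat_lit 497) (nat_lit 465) (nat_lit 6608) (.f (nat_lit 593) (nat_lit 625) (nat_lit 4592) (.f (nat_lit 561) (nat_lit 464) (nat_lit 4560) (.f (nat_lit 594) (nat_lit 626) (nat_lit 4593) (.d (nat_lit 559) (nat_lit 558) (nat_lit 558) (nat_lit 595) (nat_lit 3631)))))))))))))))) (.a (.p (nat_lit 527) (.a (.p (nat_lit 526) (.a (.d (nat_lit 561) (nat_lit 525) (nat_lit 525) (nat_lit 562) (nat_lit 526)) (.a (.f (nat_lit 561) (nat_lit 562) (nat_lit 526) (.f (nat_lit 497) (nat_lit 498) (nat_lit 2542) (.d (nat_lit 465) (nat_lit 433) (nat_lit 5552) (nat_lit 592) (nat_lit 5584)))) (.f (nat_lit 497) (nat_lit 498) (nat_lit 2542) (.f (nat_lit 496) (nat_lit 525) (nat_lit 2541) (.d (nat_lit 465) (nat_lit 433) (nat_lit 5552) (nat_lit 592) (nat_lit 6608))))))) (.a (.p (nat_lit 526) (.a (.d (nat_lit 561) (nat_lit 525) (nat_lit 525) (nat_lit 562) (nat_lit 526)) (.a (.f (nat_lit 561) (nat_lit 562) (nat_lit 526) (.f (nat_lit 497) (nat_lit 498) (nat_lit 2542) (.d (nat_lit 465) (nat_lit 433) (nat_lit 5552) (nat_lit 592) (nat_lit 5584)))) (.f (nat_lit 557) (nat_lit 558) (nat_lit 1549) (.f (nat_lit 525) (nat_lit 556) (nat_lit 1548) (.d (nat_lit 493) (nat_lit 492) (nat_lit 3564) (nat_lit 494) (nat_lit 3565))))))) (.a s33101 (.a s33296 (.p (nat_lit 526) (.a (.f (nat_lit 497) (nat_lit 498) (nat_lit 2542) (.f (nat_lit 496) (nat_lit 525) (nat_lit 2541) (.d (nat_lit 465) (nat_lit 433) (nat_lit 5552) (nat_lit 592) (nat_lit 6608)))) (.a (.f (nat_lit 557) (nat_lit 558) (nat_lit 1549) (.f (nat_lit 525) (nat_lit 556) (nat_lit 1548) (.d (nat_lit 493) (nat_lit 492) (nat_lit 3564) (nat_lit 494) (nat_lit 3565)))) (.f (nat_lit 497) (nat_lit 498) (nat_lit 2542) (.f (nat_lit 592) (nat_lit 624) (nat_lit 6640) (.d (nat_lit 465) (nat_lit 433) (nat_lit 5552) (nat_lit 496) (nat_lit 6608)))))))))))) (.a (.p (nat_lit 527) (.a (.p (nat_lit 526) (.a (.d (nat_lit 561) (nat_lit 525) (nat_lit 525) (nat_lit 562) (nat_lit 526)) (.a (.f (nat_lit 561) (nat_lit 562) (nat_lit 526) (.f (nat_lit 497) (nat_lit 498) (nat_lit 2542) (.d (nat_lit 465) (nat_lit 433) (nat_lit 5552) (nat_lit 592) (nat_lit 5584)))) (.f (nat_lit 497) (nat_lit 498) (nat_lit 2542) (.f (nat_lit 496) (nat_lit 525) (nat_lit 2541) (.d (nat_lit 465) (nat_lit 433) (nat_lit 5552) (nat_lit 592) (nat_lit 6608))))))) (.a (.p (nat_lit 526) (.a (.d (nat_lit 561) (nat_lit 525) (nat_lit 525) (nat_lit 562) (nat_lit 526)) (.a (.f (nat_lit 561) (nat_lit 562) (nat_lit 526) (.f (nat_lit 497) (nat_lit 498) (nat_lit 2542) (.d (nat_lit 465) (nat_lit 433) (nat_lit 5552) (nat_lit 592) (nat_lit 5584)))) (.f (nat_lit 557) (nat_lit 558) (nat_lit 1549) (.f (nat_lit 525) (nat_lit 556) (nat_lit 1548) (.f (nat_lit 524) (nat_lit 559) (nat_lit 524) (.d (nat_lit 492) (nat_lit 491) (nat_lit 3563) (nat_lit 493) (nat_lit 3564)))))))) (.a s33024 (.a s33301 (.a (.p (nat_lit 526) (.a (.f (nat_lit 497) (nat_lit 498) (nat_lit 2542) (.f (nat_lit 496) (nat_lit 525) (nat_lit 2541) (.d (nat_lit 465) (nat_lit 433) (nat_lit 5552) (nat_lit 592) (nat_lit 6608)))) (.a (.f (nat_lit 557) (nat_lit 558) (nat_lit 1549) (.f (nat_lit 525) (nat_lit 556) (nat_lit 1548) (.f (nat_lit 524) (nat_lit 559) (nat_lit 524) (.d (nat_lit 492) (nat_lit 491) (nat_lit 3563) (nat_lit 493) (nat_lit 3564))))) (.f (nat_lit 497) (nat_lit 498) (nat_lit 2542) (.f (nat_lit 592) (nat_lit 624) (nat_lit 6640) (.d (nat_lit 465) (nat_lit 433) (nat_lit 5552) (nat_lit 496) (nat_lit 6608))))))) s33362)))))) (.a (.p (nat_lit 496) (.a (.p (nat_lit 592) (.a (.d (nat_lit 497) (nat_lit 465) (nat_lit 6608) (nat_lit 624) (nat_lit 6640)) (.f (nat_lit 593) (nat_lit 625) (nat_lit 4592) (.f (nat_lit 464) (nat_lit 561) (nat_lit 4560) (.d (nat_lit 463) (nat_lit 431) (nat_lit 7599) (nat_lit 495) (nat_lit 7631)))))) (.a (.p (nat_lit 592) (.a (.d (nat_lit 497) (nat_lit 465) (nat_lit 6608) (nat_lit 624) (nat_lit 6640)) (.a (.f (nat_lit 593) (nat_lit 625) (nat_lit 4592) (.f (nat_lit 464) (nat_lit 561) (nat_lit 4560) (.f (nat_lit 431) (nat_lit 463) (nat_lit 7599) (.f (nat_lit 432) (nat_lit 399) (nat_lit 7567) (.d (nat_lit 433) (nat_lit 401) (nat_lit 6544) (nat_lit 465) (nat_lit 6576)))))) (.f (nat_lit 624) (nat_lit 497) (nat_lit 6640) (.d (nat_lit 625) (nat_lit 593) (nat_lit 4592) (nat_lit 657) (nat_lit 4624)))))) (.a s31298 (.a (.p (nat_lit 592) (.a (.d (nat_lit 497) (nat_lit 465) (nat_lit 6608) (nat_lit 624) (nat_lit 6640)) (.a (.f (nat_lit 495) (nat_lit 463) (nat_lit 7631) (.f (nat_lit 624) (nat_lit 527) (nat_lit 7663) (.d (nat_lit 625) (nat_lit 593) (nat_lit 4592) (nat_lit 657) (nat_lit 4624)))) (.f (nat_lit 465) (nat_lit 497) (nat_lit 6608) (.f (nat_lit 464) (nat_lit 433) (nat_lit 6576) (.d (nat_lit 463) (nat_lit 431) (nat_lit 7599) (nat_lit 495) (nat_lit 7631))))))) (.a (.p (nat_lit 592) (.a (.d (nat_lit 497) (nat_lit 465) (nat_lit 6608) (nat_lit 624) (nat_lit 6640)) (.a (.f (nat_lit 495) (nat_lit 463) (nat_lit 7631) (.f (nat_lit 624) (nat_lit 527) (nat_lit 7663) (.d (nat_lit 625) (nat_lit 593) (nat_lit 4592) (nat_lit 657) (nat_lit 4624)))) (.f (nat_lit 497) (nat_lit 465) (nat_lit 6608) (.f (nat_lit 495) (nat_lit 463) (nat_lit 7631) (.f (nat_lit 494) (nat_lit 493) (nat_lit 493) (.f (nat_lit 526) (nat_lit 525) (nat_lit 1517) (.f (nat_lit 498) (nat_lit 527) (nat_lit 2542) (.f (nat_lit 593) (nat_lit 625) (nat_lit 4592) (.d (nat_lit 466) (nat_lit 467) (nat_lit 2511) (nat_lit 561) (nat_lit 6609))))))))))) (.a s31823 (.p (nat_lit 592) (.a (.d (nat_lit 497) (nat_lit 465) (nat_lit 6608) (nat_lit 624) (nat_lit 6640)) (.a (.f (nat_lit 495) (nat_lit 463) (nat_lit 7631) (.f (nat_lit 624) (nat_lit 527) (nat_lit 7663) (.f (nat_lit 656) (nat_lit 561) (nat_lit 6672) (.d (nat_lit 657) (nat_lit 625) (nat_lit 4624) (nat_lit 689) (nat_lit 4656))))) (.f (nat_lit 465) (nat_lit 497) (nat_lit 6608) (.f (nat_lit 464) (nat_lit 433) (nat_lit 6576) (.d (nat_lit 463) (nat_lit 431) (nat_lit 7599) (nat_lit 495) (nat_lit 7631)))))))))))))) (.a (.p (nat_lit 592) (.a (.f (nat_lit 624) (nat_lit 497) (nat_lit 6640) (.f (nat_lit 656) (nat_lit 561) (nat_lit 6672) (.d (nat_lit 527) (nat_lit 495) (nat_lit 7663) (nat_lit 559) (nat_lit 7695)))) (.a (.f (nat_lit 624) (nat_lit 497) (nat_lit 6640) (.f (nat_lit 656) (nat_lit 561) (nat_lit 6672) (.d (nat_lit 655) (nat_lit 623) (nat_lit 5647) (nat_lit 687) (nat_lit 5679)))) (.a (.p (nat_lit 496) (.a (.f (nat_lit 495) (nat_lit 463) (nat_lit 7631) (.f (nat_lit 624) (nat_lit 527) (nat_lit 7663) (.d (nat_lit 623) (nat_lit 591) (nat_lit 5615) (nat_lit 655) (nat_lit 5647)))) (.a (.f (nat_lit 591) (nat_lit 623) (nat_lit 5615) (.f (nat_lit 464) (nat_lit 559) (nat_lit 5583) (.f (nat_lit 432) (nat_lit 561) (nat_lit 4528) (.d (nat_lit 431) (nat_lit 399) (nat_lit 7567) (nat_lit 463) (nat_lit 7599))))) (.a (.f (nat_lit 495) (nat_lit 463) (nat_lit 7631) (.f (nat_lit 624) (nat_lit 527) (nat_lit 7663) (.f (nat_lit 656) (nat_lit 561) (nat_lit 6672) (.d (nat_lit 655) (nat_lit 623) (nat_lit 5647) (nat_lit 687) (nat_lit 5679))))) (.a (.f (nat_lit 591) (nat_lit 623) (nat_lit 5615) (.f (nat_lit 464) (nat_lit 559) (nat_lit 5583) (.f (nat_lit 561) (nat_lit 432) (nat_lit 4528) (.f (nat_lit 562) (nat_lit 563) (nat_lit 1583) (.f (nat_lit 624) (nat_lit 656) (nat_lit 6672) (.d (nat_lit 527) (nat_lit 495) (nat_lit 7663) (nat_lit 526) (nat_lit 526))))))) (.f (nat_lit 495) (nat_lit 463) (nat_lit 7631) (.f (nat_lit 624) (nat_lit 527) (nat_lit 7663) (.f (nat_lit 656) (nat_lit 561) (nat_lit 6672) (.d (nat_lit 657) (nat_lit 625) (nat_lit 4624) (nat_lit 689) (nat_lit 4656)))))))))) (.a (.f (nat_lit 624) (nat_lit 497) (nat_lit 6640) (.f (nat_lit 655) (nat_lit 623) (nat_lit 5647) (.f (nat_lit 656) (nat_lit 687) (nat_lit 5679) (.d (nat_lit 657) (nat_lit 625) (nat_lit 4624) (nat_lit 689) (nat_lit 4656))))) (.p (nat_lit 496) (.a (.f (nat_lit 497) (nat_lit 465) (nat_lit 6608) (.f (nat_lit 495) (nat_lit 463) (nat_lit 7631) (.f (nat_lit 494) (nat_lit 493) (nat_lit 493) (.f (nat_lit 526) (nat_lit 525) (nat_lit 1517) (.f (nat_lit 527) (nat_lit 498) (nat_lit 2542) (.f (nat_lit 591) (nat_lit 623) (nat_lit 5615) (.d (nat_lit 462) (nat_lit 461) (nat_lit 3533) (nat_lit 559) (nat_lit 7630)))))))) (.a (.f (nat_lit 465) (nat_lit 497) (nat_lit 6608) (.f (nat_lit 464) (nat_lit 433) (nat_lit 6576) (.d (nat_lit 463) (nat_lit 431) (nat_lit 7599) (nat_lit 495) (nat_lit 7631)))) (.a (.f (nat_lit 591) (nat_lit 623) (nat_lit 5615) (.f (nat_lit 464) (nat_lit 559) (nat_lit 5583) (.f (nat_lit 432) (nat_lit 561) (nat_lit 4528) (.d (nat_lit 431) (nat_lit 399) (nat_lit 7567) (nat_lit 463) (nat_lit 7599))))) (.f (nat_lit 497) (nat_lit 465) (nat_lit 6608) (.f (nat_lit 591) (nat_lit 623) (nat_lit 5615) (.f (nat_lit 464) (nat_lit 559) (nat_lit 5583) (.d (nat_lit 432) (nat_lit 400) (nat_lit 4496) (nat_lit 561) (nat_lit 4528)))))))))))))) (.a (.p (nat_lit 527) (.a s33175 (.a s33271 (.a s33377 (.a s33189 (.a s33289 (.a s33291 (.a s33379 (.a s33301 (.a s33380 s33302)))))))))) (.a (.p (nat_lit 527) (.a (.p (nat_lit 526) (.a (.d (nat_lit 561) (nat_lit 525) (nat_lit 525) (nat_lit 562) (nat_lit 526)) (.a (.f (nat_lit 561) (nat_lit 562) (nat_lit 526) (.f (nat_lit 497) (nat_lit 498) (nat_lit 2542) (.d (nat_lit 465) (nat_lit 433) (nat_lit 5552) (nat_lit 592) (nat_lit 5584)))) (.f (nat_lit 497) (nat_lit 498) (nat_lit 2542) (.f (nat_lit 496) (nat_lit 525) (nat_lit 2541) (.d (nat_lit 465) (nat_lit 433) (nat_lit 5552) (nat_lit 592) (nat_lit 6608))))))) (.a s33382 (.a s33024 (.a s33302 (.a s33383 s33384)))))) (.p (nat_lit 496) (.a s32941 (.a s33063 (.a (.p (nat_lit 464) (.a (.d (nat_lit 561) (nat_lit 432) (nat_lit 4528) (nat_lit 593) (nat_lit 4560)) (.a (.f (nat_lit 559) (nat_lit 591) (nat_lit 5583) (.f (nat_lit 432) (nat_lit 527) (nat_lit 5551) (.d (nat_lit 431) (nat_lit 399) (nat_lit 7567) (nat_lit 463) (nat_lit 7599)))) (.f (nat_lit 561) (nat_lit 593) (nat_lit 4560) (.f (nat_lit 559) (nat_lit 591) (nat_lit 5583) (.f (nat_lit 558) (nat_lit 557) (nat_lit 2573) (.f (nat_lit 526) (nat_lit 525) (nat_lit 3597) (.f (nat_lit 562) (nat_lit 527) (nat_lit 526) (.f (nat_lit 465) (nat_lit 433) (nat_lit 6576) (.d (nat_lit 594) (nat_lit 497) (nat_lit 4561) (nat_lit 595) (nat_lit 559))))))))))) (.a (.p (nat_lit 592) (.a (.d (nat_lit 497) (nat_lit 465) (nat_lit 6608) (nat_lit 624) (nat_lit 6640)) (.a (.f (nat_lit 495) (nat_lit 463) (nat_lit 7631) (.f (nat_lit 624) (nat_lit 527) (nat_lit 7663) (.d (nat_lit 623) (nat_lit 591) (nat_lit 5615) (nat_lit 655) (nat_lit 5647)))) (.f (nat_lit 465) (nat_lit 497) (nat_lit 6608) (.f (nat_lit 464) (nat_lit 433) (nat_lit 6576) (.d (nat_lit 463) (nat_lit 431) (nat_lit 7599) (nat_lit 495) (nat_lit 7631))))))) (.a s30960 (.a (.p (nat_lit 592) (.a (.d (nat_lit 497) (nat_lit 465) (nat_lit 6608) (nat_lit 624) (nat_lit 6640)) (.a (.f (nat_lit 495) (nat_lit 463) (nat_lit 7631) (.f (nat_lit 624) (nat_lit 527) (nat_lit 7663) (.f (nat_lit 656) (nat_lit 561) (nat_lit 6672) (.d (nat_lit 655) (nat_lit 623) (nat_lit 5647) (nat_lit 687) (nat_lit 5679))))) (.f (nat_lit 465) (nat_lit 497) (nat_lit 6608) (.f (nat_lit 464) (nat_lit 433) (nat_lit 6576) (.d (nat_lit 463) (nat_lit 431) (nat_lit 7599) (nat_lit 495) (nat_lit 7631))))))) (.a s31823 s31298))))))))))))))))))))))))) (.a (.p (nat_lit 561) (.a (.p (nat_lit 497) (.a (.p (nat_lit 592) (.a (.d (nat_lit 560) (nat_lit 465) (nat_lit 5584) (nat_lit 624) (nat_lit 6640)) (.a (.f (nat_lit 593) (nat_lit 624) (nat_lit 5616) (.f (nat_lit 594) (nat_lit 626) (nat_lit 4593) (.f (nat_lit 562) (nat_lit 465) (nat_lit 4561) (.d (nat_lit 563) (nat_lit 564) (nat_lit 1584) (nat_lit 591) (nat_lit 2607))))) (.a (.f (nat_lit 465) (nat_lit 560) (nat_lit 5584) (.f (nat_lit 434) (nat_lit 466) (nat_lit 6577) (.f (nat_lit 433) (nat_lit 402) (nat_lit 6545) (.d (nat_lit 432) (nat_lit 400) (nat_lit 7568) (nat_lit 464) (nat_lit 7600))))) (.d (nat_lit 624) (nat_lit 560) (nat_lit 6640) (nat_lit 593) (nat_lit 5616)))))) (.a s33404 (.a s33405 (.a (.p (nat_lit 592) (.a (.d (nat_lit 560) (nat_lit 465) (nat_lit 5584) (nat_lit 624) (nat_lit 6640)) (.a (.f (nat_lit 593) (nat_lit 624) (nat_lit 5616) (.f (nat_lit 594) (nat_lit 626) (nat_lit 4593) (.f (nat_lit 562) (nat_lit 465) (nat_lit 4561) (.d (nat_lit 563) (nat_lit 564) (nat_lit 1584) (nat_lit 591) (nat_lit 2607))))) (.a (.f (nat_lit 465) (nat_lit 560) (nat_lit 5584) (.f (nat_lit 466) (nat_lit 434) (nat_lit 6577) (.f (nat_lit 593) (nat_lit 498) (nat_lit 6609) (.d (nat_lit 594) (nat_lit 562) (nat_lit 4561) (nat_lit 626) (nat_lit 4593))))) (.d (nat_lit 624) (nat_lit 560) (nat_lit 6640) (nat_lit 593) (nat_lit 5616)))))) (.a (.p (nat_lit 592) (.a (.d (nat_lit 560) (nat_lit 465) (nat_lit 5584) (nat_lit 624) (nat_lit 6640)) (.a (.f (nat_lit 593) (nat_lit 624) (nat_lit 5616) (.d (nat_lit 496) (nat_lit 464) (nat_lit 7632) (nat_lit 625) (nat_lit 7664))) (.f (nat_lit 465) (nat_lit 560) (nat_lit 5584) (.f (nat_lit 434) (nat_lit 466) (nat_lit 6577) (.f (nat_lit 433) (nat_lit 402) (nat_lit 6545) (.d (nat_lit 432) (nat_lit 400) (nat_lit 7568) (nat_lit 464) (nat_lit 7600)))))))) (.a s33422 (.a (.p (nat_lit 593) (.a (.f (nat_lit 624) (nat_lit 592) (nat_lit 5616) (.f (nat_lit 625) (nat_lit 656) (nat_lit 5648) (.d (nat_lit 626) (nat_lit 594) (nat_lit 4593) (nat_lit 658) (nat_lit 4625)))) (.a (.d (nat_lit 496) (nat_lit 464) (nat_lit 7632) (nat_lit 625) (nat_lit 7664)) (.f (nat_lit 496) (nat_lit 464) (nat_lit 7632) (.f (nat_lit 498) (nat_lit 466) (nat_lit 6609) (.f (nat_lit 499) (nat_lit 500) (nat_lit 1520) (.f (nat_lit 531) (nat_lit 532) (nat_lit 496) (.f (nat_lit 530) (nat_lit 495) (nat_lit 3567) (.f (nat_lit 594) (nat_lit 626) (nat_lit 4593) (.d (nat_lit 467) (nat_lit 468) (nat_lit 2512) (nat_lit 562) (nat_lit 6610))))))))))) (.p (nat_lit 592) (.a (.d (nat_lit 560) (nat_lit 465) (nat_lit 5584) (nat_lit 624) (nat_lit 6640)) (.a (.f (nat_lit 593) (nat_lit 624) (nat_lit 5616) (.f (nat_lit 594) (nat_lit 626) (nat_lit 4593) (.f (nat_lit 562) (nat_lit 465) (nat_lit 4561) (.d (nat_lit 563) (nat_lit 564) (nat_lit 1584) (nat_lit 591) (nat_lit 2607))))) (.a (.f (nat_lit 465) (nat_lit 560) (nat_lit 5584) (.f (nat_lit 464) (nat_lit 432) (nat_lit 7600) (.f (nat_lit 593) (nat_lit 496) (nat_lit 7632) (.d (nat_lit 594) (nat_lit 562) (nat_lit 4561) (nat_lit 626) (nat_lit 4593))))) (.d (nat_lit 624) (nat_lit 560) (nat_lit 6640) (nat_lit 593) (nat_lit 5616)))))))))))))) (.a (.p (nat_lit 497) (.a (.p (nat_lit 592) (.a (.d (nat_lit 560) (nat_lit 465) (nat_lit 5584) (nat_lit 624) (nat_lit 6640)) (.a (.f (nat_lit 593) (nat_lit 624) (nat_lit 5616) (.f (nat_lit 594) (nat_lit 626) (nat_lit 4593) (.f (nat_lit 562) (nat_lit 465) (nat_lit 4561) (.d (nat_lit 563) (nat_lit 564) (nat_lit 1584) (nat_lit 591) (nat_lit 2607))))) (.a (.f (nat_lit 465) (nat_lit 560) (nat_lit 5584) (.f (nat_lit 434) (nat_lit 466) (nat_lit 6577) (.f (nat_lit 433) (nat_lit 402) (nat_lit 6545) (.d (nat_lit 432) (nat_lit 400) (nat_lit 7568) (nat_lit 464) (nat_lit 7600))))) (.d (nat_lit 624) (nat_lit 560) (nat_lit 6640) (nat_lit 593) (nat_lit 5616)))))) (.a (.p (nat_lit 593) (.a (.f (nat_lit 594) (nat_lit 626) (nat_lit 4593) (.f (nat_lit 592) (nat_lit 624) (nat_lit 5616) (.f (nat_lit 562) (nat_lit 465) (nat_lit 4561) (.d (nat_lit 563) (nat_lit 564) (nat_lit 1584) (nat_lit 591) (nat_lit 2607))))) (.a (.f (nat_lit 594) (nat_lit 626) (nat_lit 4593) (.f (nat_lit 465) (nat_lit 562) (nat_lit 4561) (.d (nat_lit 466) (nat_lit 434) (nat_lit 6577) (nat_lit 498) (nat_lit 6609)))) (.a (.f (nat_lit 624) (nat_lit 592) (nat_lit 5616) (.f (nat_lit 625) (nat_lit 656) (nat_lit 5648) (.d (nat_lit 626) (nat_lit 594) (nat_lit 4593) (nat_lit 658) (nat_lit 4625)))) (.f (nat_lit 498) (nat_lit 466) (nat_lit 6609) (.f (nat_lit 625) (nat_lit 530) (nat_lit 6641) (.d (nat_lit 624) (nat_lit 592) (nat_lit 5616) (nat_lit 656) (nat_lit 5648)))))))) (.a (.p (nat_lit 593) (.a (.f (nat_lit 594) (nat_lit 626) (nat_lit 4593) (.f (nat_lit 465) (nat_lit 562) (nat_lit 4561) (.d (nat_lit 466) (nat_lit 434) (nat_lit 6577) (nat_lit 498) (nat_lit 6609)))) (.a (.f (nat_lit 498) (nat_lit 466) (nat_lit 6609) (.f (nat_lit 625) (nat_lit 530) (nat_lit 6641) (.d (nat_lit 626) (nat_lit 594) (nat_lit 4593) (nat_lit 658) (nat_lit 4625)))) (.a (.f (nat_lit 594) (nat_lit 626) (nat_lit 4593) (.f (nat_lit 465) (nat_lit 562) (nat_lit 4561) (.f (nat_lit 433) (nat_lit 560) (nat_lit 5552) (.d (nat_lit 432) (nat_lit 400) (nat_lit 7568) (nat_lit 464) (nat_lit 7600))))) (.f (nat_lit 498) (nat_lit 466) (nat_lit 6609) (.f (nat_lit 625) (nat_lit 530) (nat_lit 6641) (.f (nat_lit 657) (nat_lit 560) (nat_lit 7696) (.d (nat_lit 656) (nat_lit 624) (nat_lit 5648) (nat_lit 688) (nat_lit 5680))))))))) (.a s33422 (.a (.p (nat_lit 592) (.a (.d (nat_lit 560) (nat_lit 465) (nat_lit 5584) (nat_lit 624) (nat_lit 6640)) (.a (.f (nat_lit 593) (nat_lit 624) (nat_lit 5616) (.f (nat_lit 498) (nat_lit 466) (nat_lit 6609) (.f (nat_lit 625) (nat_lit 530) (nat_lit 6641) (.d (nat_lit 626) (nat_lit 594) (nat_lit 4593) (nat_lit 658) (nat_lit 4625))))) (.f (nat_lit 465) (nat_lit 560) (nat_lit 5584) (.f (nat_lit 434) (nat_lit 466) (nat_lit 6577) (.f (nat_lit 433) (nat_lit 402) (nat_lit 6545) (.d (nat_lit 432) (nat_lit 400) (nat_lit 7568) (nat_lit 464) (nat_lit 7600)))))))) (.a (.p (nat_lit 593) (.a (.f (nat_lit 624) (nat_lit 592) (nat_lit 5616) (.f (nat_lit 625) (nat_lit 656) (nat_lit 5648) (.d (nat_lit 626) (nat_lit 594) (nat_lit 4593) (nat_lit 658) (nat_lit 4625)))) (.a (.f (nat_lit 498) (nat_lit 466) (nat_lit 6609) (.f (nat_lit 625) (nat_lit 530) (nat_lit 6641) (.d (nat_lit 626) (nat_lit 594) (nat_lit 4593) (nat_lit 658) (nat_lit 4625)))) (.a (.p (nat_lit 562) (.a (.f (nat_lit 592) (nat_lit 624) (nat_lit 5616) (.f (nat_lit 563) (nat_lit 564) (nat_lit 3600) (.d (nat_lit 591) (nat_lit 560) (nat_lit 1583) (nat_lit 590) (nat_lit 2606)))) (.a (.f (nat_lit 594) (nat_lit 626) (nat_lit 4593) (.f (nat_lit 592) (nat_lit 624) (nat_lit 5616) (.d (nat_lit 563) (nat_lit 564) (nat_lit 1584) (nat_lit 591) (nat_lit 2607)))) (.f (nat_lit 594) (nat_lit 626) (nat_lit 4593) (.f (nat_lit 498) (nat_lit 466) (nat_lit 6609) (.f (nat_lit 499) (nat_lit 500) (nat_lit 1520) (.f (nat_lit 530) (nat_lit 467) (nat_lit 6610) (.f (nat_lit 595) (nat_lit 627) (nat_lit 4594) (.d (nat_lit 560) (nat_lit 559) (nat_lit 559) (nat_lit 596) (nat_lit 3632)))))))))) (.f (nat_lit 498) (nat_lit 466) (nat_lit 6609) (.f (nat_lit 625) (nat_lit 530) (nat_lit 6641) (.d (nat_lit 624) (nat_lit 592) (nat_lit 5616) (nat_lit 656) (nat_lit 5648)))))))) (.a (.p (nat_lit 593) (.a (.f (nat_lit 592) (nat_lit 624) (nat_lit 5616) (.f (nat_lit 465) (nat_lit 560) (nat_lit 5584) (.d (nat_lit 466) (nat_lit 434) (nat_lit 6577) (nat_lit 498) (nat_lit 6609)))) (.a (.f (nat_lit 498) (nat_lit 466) (nat_lit 6609) (.f (nat_lit 625) (nat_lit 530) (nat_lit 6641) (.d (nat_lit 624) (nat_lit 592) (nat_lit 5616) (nat_lit 656) (nat_lit 5648)))) (.a (.f (nat_lit 498) (nat_lit 466) (nat_lit 6609) (.f (nat_lit 625) (nat_lit 530) (nat_lit 6641) (.f (nat_lit 657) (nat_lit 560) (nat_lit 7696) (.d (nat_lit 656) (nat_lit 624) (nat_lit 5648) (nat_lit 688) (nat_lit 5680))))) (.a (.f (nat_lit 498) (nat_lit 466) (nat_lit 6609) (.f (nat_lit 625) (nat_lit 530) (nat_lit 6641) (.f (nat_lit 657) (nat_lit 560) (nat_lit 7696) (.d (nat_lit 658) (nat_lit 626) (nat_lit 4625) (nat_lit 690) (nat_lit 4657))))) (.a (.f (nat_lit 592) (nat_lit 624) (nat_lit 5616) (.f (nat_lit 465) (nat_lit 560) (nat_lit 5584) (.f (nat_lit 432) (nat_lit 464) (nat_lit 7600) (.f (nat_lit 433) (nat_lit 400) (nat_lit 7568) (.d (nat_lit 434) (nat_lit 402) (nat_lit 6545) (nat_lit 466) (nat_lit 6577)))))) (.f (nat_lit 592) (nat_lit 624) (nat_lit 5616) (.f (nat_lit 560) (nat_lit 465) (nat_lit 5584) (.f (nat_lit 625) (nat_lit 657) (nat_lit 7696) (.f (nat_lit 530) (nat_lit 498) (nat_lit 6641) (.d (nat_lit 531) (nat_lit 532) (nat_lit 1552) (nat_lit 559) (nat_lit 1551)))))))))))) (.p (nat_lit 592) (.a (.d (nat_lit 560) (nat_lit 465) (nat_lit 5584) (nat_lit 624) (nat_lit 6640)) (.a (.f (nat_lit 593) (nat_lit 624) (nat_lit 5616) (.f (nat_lit 594) (nat_lit 626) (nat_lit 4593) (.f (nat_lit 562) (nat_lit 465) (nat_lit 4561) (.d (nat_lit 563) (nat_lit 564) (nat_lit 1584) (nat_lit 591) (nat_lit 2607))))) (.a (.f (nat_lit 465) (nat_lit 560) (nat_lit 5584) (.f (nat_lit 562) (nat_lit 594) (nat_lit 4561) (.f (nat_lit 433) (nat_lit 530) (nat_lit 4529) (.d (nat_lit 432) (nat_lit 400) (nat_lit 7568) (nat_lit 464) (nat_lit 7600))))) (.d (nat_lit 624) (nat_lit 560) (nat_lit 6640) (nat_lit 593) (nat_lit 5616)))))))))))))) (.a (.p (nat_lit 593) (.a (.f (nat_lit 625) (nat_lit 496) (nat_lit 7664) (.f (nat_lit 498) (nat_lit 530) (nat_lit 6641) (.f (nat_lit 497) (nat_lit 466) (nat_lit 6609) (.d (nat_lit 624) (nat_lit 592) (nat_lit 5616) (nat_lit 656) (nat_lit 5648))))) (.a (.p (nat_lit 497) (.a (.f (nat_lit 594) (nat_lit 626) (nat_lit 4593) (.f (nat_lit 592) (nat_lit 624) (nat_lit 5616) (.f (nat_lit 562) (nat_lit 465) (nat_lit 4561) (.d (nat_lit 563) (nat_lit 564) (nat_lit 1584) (nat_lit 591) (nat_lit 2607))))) (.a (.f (nat_lit 594) (nat_lit 626) (nat_lit 4593) (.f (nat_lit 465) (nat_lit 562) (nat_lit 4561) (.d (nat_lit 466) (nat_lit 434) (nat_lit 6577) (nat_lit 498) (nat_lit 6609)))) (.a (.f (nat_lit 624) (nat_lit 592) (nat_lit 5616) (.f (nat_lit 625) (nat_lit 656) (nat_lit 5648) (.d (nat_lit 626) (nat_lit 594) (nat_lit 4593) (nat_lit 658) (nat_lit 4625)))) (.f (nat_lit 498) (nat_lit 466) (nat_lit 6609) (.f (nat_lit 625) (nat_lit 530) (nat_lit 6641) (.d (nat_lit 624) (nat_lit 592) (nat_lit 5616) (nat_lit 656) (nat_lit 5648)))))))) (.a (.f (nat_lit 625) (nat_lit 496) (nat_lit 7664) (.f (nat_lit 626) (nat_lit 658) (nat_lit 4625) (.f (nat_lit 624) (nat_lit 656) (nat_lit 5648) (.d (nat_lit 497) (nat_lit 592) (nat_lit 5616) (nat_lit 594) (nat_lit 4593))))) (.a (.f (nat_lit 625) (nat_lit 496) (nat_lit 7664) (.f (nat_lit 530) (nat_lit 498) (nat_lit 6641) (.f (nat_lit 657) (nat_lit 562) (nat_lit 6673) (.d (nat_lit 656) (nat_lit 624) (nat_lit 5648) (nat_lit 688) (nat_lit 5680))))) (.a (.f (nat_lit 496) (nat_lit 625) (nat_lit 7664) (.d (nat_lit 464) (nat_lit 432) (nat_lit 4528) (nat_lit 497) (nat_lit 7632))) (.p (nat_lit 497) (.a (.f (nat_lit 594) (nat_lit 626) (nat_lit 4593) (.f (nat_lit 592) (nat_lit 624) (nat_lit 5616) (.f (nat_lit 562) (nat_lit 465) (nat_lit 4561) (.d (nat_lit 563) (nat_lit 564) (nat_lit 1584) (nat_lit 591) (nat_lit 2607))))) (.a (.f (nat_lit 594) (nat_lit 626) (nat_lit 4593) (.f (nat_lit 465) (nat_lit 562) (nat_lit 4561) (.d (nat_lit 466) (nat_lit 434) (nat_lit 6577) (nat_lit 498) (nat_lit 6609)))) (.f (nat_lit 496) (nat_lit 464) (nat_lit 7632) (.f (nat_lit 498) (nat_lit 466) (nat_lit 6609) (.f (nat_lit 499) (nat_lit 500) (nat_lit 1520) (.f (nat_lit 531) (nat_lit 532) (nat_lit 496) (.f (nat_lit 495) (nat_lit 530) (nat_lit 3567) (.f (nat_lit 494) (nat_lit 493) (nat_lit 493) (.d (nat_lit 462) (nat_lit 461) (nat_lit 3533) (nat_lit 463) (nat_lit 3534))))))))))))))))) (.a (.p (nat_lit 497) (.a (.p (nat_lit 592) (.a (.d (nat_lit 560) (nat_lit 465) (nat_lit 5584) (nat_lit 624) (nat_lit 6640)) (.a (.f (nat_lit 593) (nat_lit 624) (nat_lit 5616) (.f (nat_lit 594) (nat_lit 626) (nat_lit 4593) (.f (nat_lit 562) (nat_lit 465) (nat_lit 4561) (.d (nat_lit 563) (nat_lit 564) (nat_lit 1584) (nat_lit 591) (nat_lit 2607))))) (.a (.f (nat_lit 465) (nat_lit 560) (nat_lit 5584) (.f (nat_lit 434) (nat_lit 466) (nat_lit 6577) (.f (nat_lit 433) (nat_lit 402) (nat_lit 6545) (.d (nat_lit 432) (nat_lit 400) (nat_lit 7568) (nat_lit 464) (nat_lit 7600))))) (.d (nat_lit 624) (nat_lit 560) (nat_lit 6640) (nat_lit 593) (nat_lit 5616)))))) (.a s33404 (.a s33405 (.a (.p (nat_lit 592) (.a (.d (nat_lit 560) (nat_lit 465) (nat_lit 5584) (nat_lit 624) (nat_lit 6640)) (.a (.f (nat_lit 593) (nat_lit 624) (nat_lit 5616) (.f (nat_lit 594) (nat_lit 626) (nat_lit 4593) (.f (nat_lit 562) (nat_lit 465) (nat_lit 4561) (.d (nat_lit 563) (nat_lit 564) (nat_lit 1584) (nat_lit 591) (nat_lit 2607))))) (.a (.f (nat_lit 465) (nat_lit 560) (nat_lit 5584) (.f (nat_lit 466) (nat_lit 434) (nat_lit 6577) (.f (nat_lit 593) (nat_lit 498) (nat_lit 6609) (.d (nat_lit 594) (nat_lit 562) (nat_lit 4561) (nat_lit 626) (nat_lit 4593))))) (.d (nat_lit 624) (nat_lit 560) (nat_lit 6640) (nat_lit 593) (nat_lit 5616)))))) (.a (.p (nat_lit 592) (.a (.d (nat_lit 560) (nat_lit 465) (nat_lit 5584) (nat_lit 624) (nat_lit 6640)) (.a (.f (nat_lit 593) (nat_lit 624) (nat_lit 5616) (.d (nat_lit 496) (nat_lit 464) (nat_lit 7632) (nat_lit 625) (nat_lit 7664))) (.f (nat_lit 465) (nat_lit 560) (nat_lit 5584) (.f (nat_lit 434) (nat_lit 466) (nat_lit 6577) (.f (nat_lit 433) (nat_lit 402) (nat_lit 6545) (.d (nat_lit 432) (nat_lit 400) (nat_lit 7568) (nat_lit 464) (nat_lit 7600)))))))) (.a (.p (nat_lit 465) (.a (.d (nat_lit 560) (nat_lit 433) (nat_lit 5552) (nat_lit 592) (nat_lit 5584)) (.a (.f (nat_lit 434) (nat_lit 466) (nat_lit 6577) (.f (nat_lit 433) (nat_lit 402) (nat_lit 6545) (.d (nat_lit 432) (nat_lit 400) (nat_lit 7568) (nat_lit 464) (nat_lit 7600)))) (.f (nat_lit 560) (nat_lit 592) (nat_lit 5584) (.f (nat_lit 464) (nat_lit 432) (nat_lit 7600) (.f (nat_lit 466) (nat_lit 434) (nat_lit 6577) (.f (nat_lit 562) (nat_lit 594) (nat_lit 4561) (.f (nat_lit 563) (nat_lit 564) (nat_lit 3600) (.f (nat_lit 531) (nat_lit 532) (nat_lit 2576) (.f (nat_lit 595) (nat_lit 596) (nat_lit 560) (.f (nat_lit 499) (nat_lit 498) (nat_lit 7634) (.d (nat_lit 500) (nat_lit 467) (nat_lit 464) (nat_lit 468) (nat_lit 6611))))))))))))) (.a (.p (nat_lit 593) (.a (.f (nat_lit 624) (nat_lit 592) (nat_lit 5616) (.f (nat_lit 625) (nat_lit 656) (nat_lit 5648) (.d (nat_lit 626) (nat_lit 594) (nat_lit 4593) (nat_lit 658) (nat_lit 4625)))) (.a (.d (nat_lit 496) (nat_lit 464) (nat_lit 7632) (nat_lit 625) (nat_lit 7664)) (.f (nat_lit 496) (nat_lit 464) (nat_lit 7632) (.f (nat_lit 592) (nat_lit 624) (nat_lit 5616) (.f (nat_lit 594) (nat_lit 626) (nat_lit 4593) (.f (nat_lit 498) (nat_lit 466) (nat_lit 6609) (.f (nat_lit 499) (nat_lit 500) (nat_lit 1520) (.f (nat_lit 467) (nat_lit 468) (nat_lit 2512) (.f (nat_lit 531) (nat_lit 532) (nat_lit 496) (.f (nat_lit 563) (nat_lit 562) (nat_lit 5586) (.d (nat_lit 564) (nat_lit 595) (nat_lit 2608) (nat_lit 596) (nat_lit 4563))))))))))))) (.p (nat_lit 592) (.a (.d (nat_lit 560) (nat_lit 465) (nat_lit 5584) (nat_lit 624) (nat_lit 6640)) (.a (.f (nat_lit 593) (nat_lit 624) (nat_lit 5616) (.f (nat_lit 594) (nat_lit 626) (nat_lit 4593) (.f (nat_lit 562) (nat_lit 465) (nat_lit 4561) (.d (nat_lit 563) (nat_lit 564) (nat_lit 1584) (nat_lit 591) (nat_lit 2607))))) (.a (.f (nat_lit 465) (nat_lit 560) (nat_lit 5584) (.f (nat_lit 464) (nat_lit 432) (nat_lit 7600) (.f (nat_lit 593) (nat_lit 496) (nat_lit 7632) (.d (nat_lit 594) (nat_lit 562) (nat_lit 4561) (nat_lit 626) (nat_lit 4593))))) (.d (nat_lit 624) (nat_lit 560) (nat_lit 6640) (nat_lit 593) (nat_lit 5616)))))))))))))) (.a (.p (nat_lit 560) (.a s33516 (.a s33523 (.a s33526 (.a s33527 (.a s33528 s33543)))))) (.a (.p (nat_lit 593) (.a (.f (nat_lit 625) (nat_lit 496) (nat_lit 7664) (.f (nat_lit 530) (nat_lit 498) (nat_lit 6641) (.d (nat_lit 657) (nat_lit 560) (nat_lit 7696) (nat_lit 562) (nat_lit 6673)))) (.a (.p (nat_lit 497) (.a (.f (nat_lit 594) (nat_lit 626) (nat_lit 4593) (.f (nat_lit 465) (nat_lit 562) (nat_lit 4561) (.d (nat_lit 466) (nat_lit 434) (nat_lit 6577) (nat_lit 498) (nat_lit 6609)))) (.a (.f (nat_lit 498) (nat_lit 466) (nat_lit 6609) (.f (nat_lit 625) (nat_lit 530) (nat_lit 6641) (.d (nat_lit 626) (nat_lit 594) (nat_lit 4593) (nat_lit 658) (nat_lit 4625)))) (.a (.f (nat_lit 594) (nat_lit 626) (nat_lit 4593) (.f (nat_lit 465) (nat_lit 562) (nat_lit 4561) (.f (nat_lit 433) (nat_lit 560) (nat_lit 5552) (.d (nat_lit 432) (nat_lit 400) (nat_lit 7568) (nat_lit 464) (nat_lit 7600))))) (.f (nat_lit 498) (nat_lit 466) (nat_lit 6609) (.f (nat_lit 625) (nat_lit 530) (nat_lit 6641) (.f (nat_lit 657) (nat_lit 560) (nat_lit 7696) (.d (nat_lit 656) (nat_lit 624) (nat_lit 5648) (nat_lit 688) (nat_lit 5680))))))))) (.a (.f (nat_lit 496) (nat_lit 625) (nat_lit 7664) (.d (nat_lit 464) (nat_lit 432) (nat_lit 4528) (nat_lit 497) (nat_lit 7632))) s29805)))) (.a (.p (nat_lit 560) (.a s33562 (.a s33231 (.a s33516 (.a (.p (nat_lit 559) (.a (.f (nat_lit 558) (nat_lit 557) (nat_lit 2573) (.f (nat_lit 590) (nat_lit 589) (nat_lit 1581) (.f (nat_lit 526) (nat_lit 525) (nat_lit 3597) (.f (nat_lit 591) (nat_lit 562) (nat_lit 1582) (.d (nat_lit 494) (nat_lit 462) (nat_lit 4558) (nat_lit 623) (nat_lit 4590)))))) (.a (.d (nat_lit 530) (nat_lit 531) (nat_lit 1551) (nat_lit 558) (nat_lit 2574)) (.p (nat_lit 562) (.a (.f (nat_lit 594) (nat_lit 595) (nat_lit 559) (.f (nat_lit 497) (nat_lit 465) (nat_lit 4561) (.d (nat_lit 626) (nat_lit 593) (nat_lit 4593) (nat_lit 658) (nat_lit 7697)))) (.a (.f (nat_lit 530) (nat_lit 531) (nat_lit 1551) (.f (nat_lit 594) (nat_lit 595) (nat_lit 559) (.f (nat_lit 626) (nat_lit 658) (nat_lit 7697) (.f (nat_lit 625) (nat_lit 657) (nat_lit 5649) (.f (nat_lit 498) (nat_lit 593) (nat_lit 6641) (.f (nat_lit 466) (nat_lit 434) (nat_lit 5553) (.d (nat_lit 467) (nat_lit 435) (nat_lit 6578) (nat_lit 499) (nat_lit 6610)))))))) (.a (.f (nat_lit 530) (nat_lit 531) (nat_lit 1551) (.f (nat_lit 594) (nat_lit 595) (nat_lit 559) (.d (nat_lit 497) (nat_lit 465) (nat_lit 4561) (nat_lit 626) (nat_lit 7665)))) (.f (nat_lit 531) (nat_lit 530) (nat_lit 1551) (.d (nat_lit 563) (nat_lit 532) (nat_lit 2576) (nat_lit 564) (nat_lit 3600)))))))))) (.a s33248 (.a s33574 (.a s33576 s33586)))))))) (.a (.p (nat_lit 497) (.a (.p (nat_lit 592) (.a (.d (nat_lit 560) (nat_lit 465) (nat_lit 5584) (nat_lit 624) (nat_lit 6640)) (.a (.f (nat_lit 593) (nat_lit 624) (nat_lit 5616) (.f (nat_lit 594) (nat_lit 626) (nat_lit 4593) (.f (nat_lit 562) (nat_lit 465) (nat_lit 4561) (.d (nat_lit 563) (nat_lit 564) (nat_lit 1584) (nat_lit 591) (nat_lit 2607))))) (.a (.f (nat_lit 465) (nat_lit 560) (nat_lit 5584) (.f (nat_lit 434) (nat_lit 466) (nat_lit 6577) (.f (nat_lit 433) (nat_lit 402) (nat_lit 6545) (.d (nat_lit 432) (nat_lit 400) (nat_lit 7568) (nat_lit 464) (nat_lit 7600))))) (.d (nat_lit 624) (nat_lit 560) (nat_lit 6640) (nat_lit 593) (nat_lit 5616)))))) (.a s33404 (.a s33405 (.a (.p (nat_lit 592) (.a (.d (nat_lit 560) (nat_lit 465) (nat_lit 5584) (nat_lit 624) (nat_lit 6640)) (.a (.f (nat_lit 593) (nat_lit 624) (nat_lit 5616) (.f (nat_lit 594) (nat_lit 626) (nat_lit 4593) (.f (nat_lit 562) (nat_lit 465) (nat_lit 4561) (.d (nat_lit 563) (nat_lit 564) (nat_lit 1584) (nat_lit 591) (nat_lit 2607))))) (.a (.f (nat_lit 465) (nat_lit 560) (nat_lit 5584) (.f (nat_lit 466) (nat_lit 434) (nat_lit 6577) (.f (nat_lit 593) (nat_lit 498) (nat_lit 6609) (.d (nat_lit 594) (nat_lit 562) (nat_lit 4561) (nat_lit 626) (nat_lit 4593))))) (.d (nat_lit 624) (nat_lit 560) (nat_lit 6640) (nat_lit 593) (nat_lit 5616)))))) (.a (.p (nat_lit 592) (.a (.d (nat_lit 560) (nat_lit 465) (nat_lit 5584) (nat_lit 624) (nat_lit 6640)) (.a (.f (nat_lit 593) (nat_lit 624) (nat_lit 5616) (.d (nat_lit 496) (nat_lit 464) (nat_lit 7632) (nat_lit 625) (nat_lit 7664))) (.f (nat_lit 465) (nat_lit 560) (nat_lit 5584) (.f (nat_lit 434) (nat_lit 466) (nat_lit 6577) (.f (nat_lit 433) (nat_lit 402) (nat_lit 6545) (.d (nat_lit 432) (nat_lit 400) (nat_lit 7568) (nat_lit 464) (nat_lit 7600)))))))) (.a (.p (nat_lit 465) (.a (.d (nat_lit 560) (nat_lit 433) (nat_lit 5552) (nat_lit 592) (nat_lit 5584)) (.a (.f (nat_lit 434) (nat_lit 466) (nat_lit 6577) (.f (nat_lit 433) (nat_lit 402) (nat_lit 6545) (.d (nat_lit 432) (nat_lit 400) (nat_lit 7568) (nat_lit 464) (nat_lit 7600)))) (.f (nat_lit 560) (nat_lit 592) (nat_lit 5584) (.f (nat_lit 464) (nat_lit 432) (nat_lit 7600) (.f (nat_lit 466) (nat_lit 434) (nat_lit 6577) (.f (nat_lit 562) (nat_lit 594) (nat_lit 4561) (.f (nat_lit 563) (nat_lit 564) (nat_lit 3600) (.f (nat_lit 595) (nat_lit 596) (nat_lit 560) (.f (nat_lit 498) (nat_lit 530) (nat_lit 4562) (.d (nat_lit 463) (nat_lit 462) (nat_lit 462) (nat_lit 499) (nat_lit 463)))))))))))) (.a (.p (nat_lit 593) (.a (.f (nat_lit 624) (nat_lit 592) (nat_lit 5616) (.f (nat_lit 625) (nat_lit 656) (nat_lit 5648) (.d (nat_lit 626) (nat_lit 594) (nat_lit 4593) (nat_lit 658) (nat_lit 4625)))) (.a (.d (nat_lit 496) (nat_lit 464) (nat_lit 7632) (nat_lit 625) (nat_lit 7664)) (.f (nat_lit 496) (nat_lit 464) (nat_lit 7632) (.f (nat_lit 498) (nat_lit 466) (nat_lit 6609) (.f (nat_lit 592) (nat_lit 624) (nat_lit 5616) (.f (nat_lit 594) (nat_lit 626) (nat_lit 4593) (.f (nat_lit 499) (nat_lit 500) (nat_lit 1520) (.f (nat_lit 467) (nat_lit 468) (nat_lit 2512) (.f (nat_lit 562) (nat_lit 530) (nat_lit 6610) (.d (nat_lit 563) (nat_lit 564) (nat_lit 1584) (nat_lit 591) (nat_lit 2607)))))))))))) (.p (nat_lit 592) (.a (.d (nat_lit 560) (nat_lit 465) (nat_lit 5584) (nat_lit 624) (nat_lit 6640)) (.a (.f (nat_lit 593) (nat_lit 624) (nat_lit 5616) (.f (nat_lit 594) (nat_lit 626) (nat_lit 4593) (.f (nat_lit 562) (nat_lit 465) (nat_lit 4561) (.d (nat_lit 563) (nat_lit 564) (nat_lit 1584) (nat_lit 591) (nat_lit 2607))))) (.a (.f (nat_lit 465) (nat_lit 560) (nat_lit 5584) (.f (nat_lit 464) (nat_lit 432) (nat_lit 7600) (.f (nat_lit 593) (nat_lit 496) (nat_lit 7632) (.d (nat_lit 594) (nat_lit 562) (nat_lit 4561) (nat_lit 626) (nat_lit 4593))))) (.d (nat_lit 624) (nat_lit 560) (nat_lit 6640) (nat_lit 593) (nat_lit 5616)))))))))))))) (.a (.p (nat_lit 497) (.a s33405 (.a s33422 (.a (.p (nat_lit 593) (.a (.f (nat_lit 594) (nat_lit 626) (nat_lit 4593) (.f (nat_lit 465) (nat_lit 562) (nat_lit 4561) (.d (nat_lit 466) (nat_lit 434) (nat_lit 6577) (nat_lit 498) (nat_lit 6609)))) (.a (.f (nat_lit 498) (nat_lit 466) (nat_lit 6609) (.f (nat_lit 625) (nat_lit 530) (nat_lit 6641) (.d (nat_lit 626) (nat_lit 594) (nat_lit 4593) (nat_lit 658) (nat_lit 4625)))) (.a (.f (nat_lit 625) (nat_lit 496) (nat_lit 7664) (.d (nat_lit 626) (nat_lit 594) (nat_lit 4593) (nat_lit 658) (nat_lit 4625))) (.a (.f (nat_lit 498) (nat_lit 466) (nat_lit 6609) (.f (nat_lit 625) (nat_lit 530) (nat_lit 6641) (.f (nat_lit 657) (nat_lit 560) (nat_lit 7696) (.d (nat_lit 658) (nat_lit 626) (nat_lit 4625) (nat_lit 690) (nat_lit 4657))))) (.f (nat_lit 625) (nat_lit 496) (nat_lit 7664) (.d (nat_lit 498) (nat_lit 466) (nat_lit 6609) (nat_lit 530) (nat_lit 6641)))))))) (.a (.p (nat_lit 593) (.a (.d (nat_lit 496) (nat_lit 464) (nat_lit 7632) (nat_lit 625) (nat_lit 7664)) (.a (.f (nat_lit 498) (nat_lit 466) (nat_lit 6609) (.f (nat_lit 625) (nat_lit 530) (nat_lit 6641) (.d (nat_lit 626) (nat_lit 594) (nat_lit 4593) (nat_lit 658) (nat_lit 4625)))) (.f (nat_lit 496) (nat_lit 464) (nat_lit 7632) (.f (nat_lit 498) (nat_lit 466) (nat_lit 6609) (.f (nat_lit 499) (nat_lit 500) (nat_lit 1520) (.f (nat_lit 531) (nat_lit 532) (nat_lit 496) (.f (nat_lit 495) (nat_lit 530) (nat_lit 3567) (.f (nat_lit 494) (nat_lit 493) (nat_lit 493) (.d (nat_lit 462) (nat_lit 461) (nat_lit 3533) (nat_lit 463) (nat_lit 3534))))))))))) (.a (.p (nat_lit 593) (.a (.f (nat_lit 594) (nat_lit 626) (nat_lit 4593) (.f (nat_lit 465) (nat_lit 562) (nat_lit 4561) (.f (nat_lit 433) (nat_lit 560) (nat_lit 5552) (.d (nat_lit 432) (nat_lit 400) (nat_lit 7568) (nat_lit 464) (nat_lit 7600))))) (.a (.d (nat_lit 496) (nat_lit 464) (nat_lit 7632) (nat_lit 625) (nat_lit 7664)) (.f (nat_lit 625) (nat_lit 496) (nat_lit 7664) (.d (nat_lit 626) (nat_lit 594) (nat_lit 4593) (nat_lit 658) (nat_lit 4625)))))) (.p (nat_lit 593) (.a (.d (nat_lit 496) (nat_lit 464) (nat_lit 7632) (nat_lit 625) (nat_lit 7664)) (.a (.f (nat_lit 498) (nat_lit 466) (nat_lit 6609) (.f (nat_lit 625) (nat_lit 530) (nat_lit 6641) (.f (nat_lit 657) (nat_lit 560) (nat_lit 7696) (.d (nat_lit 658) (nat_lit 626) (nat_lit 4625) (nat_lit 690) (nat_lit 4657))))) (.f (nat_lit 496) (nat_lit 464) (nat_lit 7632) (.f (nat_lit 498) (nat_lit 466) (nat_lit 6609) (.f (nat_lit 499) (nat_lit 500) (nat_lit 1520) (.f (nat_lit 531) (nat_lit 532) (nat_lit 496) (.f (nat_lit 495) (nat_lit 530) (nat_lit 3567) (.f (nat_lit 494) (nat_lit 493) (nat_lit 493) (.d (nat_lit 462) (nat_lit 461) (nat_lit 3533) (nat_lit 463) (nat_lit 3534))))))))))))))))) (.a (.p (nat_lit 593) (.a (.f (nat_lit 625) (nat_lit 496) (nat_lit 7664) (.f (nat_lit 657) (nat_lit 560) (nat_lit 7696) (.d (nat_lit 656) (nat_lit 624) (nat_lit 5648) (nat_lit 688) (nat_lit 5680)))) (.a (.p (nat_lit 497) (.a (.f (nat_lit 624) (nat_lit 592) (nat_lit 5616) (.f (nat_lit 625) (nat_lit 656) (nat_lit 5648) (.d (nat_lit 626) (nat_lit 594) (nat_lit 4593) (nat_lit 658) (nat_lit 4625)))) (.a (.f (nat_lit 498) (nat_lit 466) (nat_lit 6609) (.f (nat_lit 625) (nat_lit 530) (nat_lit 6641) (.d (nat_lit 626) (nat_lit 594) (nat_lit 4593) (nat_lit 658) (nat_lit 4625)))) (.f (nat_lit 592) (nat_lit 624) (nat_lit 5616) (.f (nat_lit 465) (nat_lit 560) (nat_lit 5584) (.d (nat_lit 466) (nat_lit 434) (nat_lit 6577) (nat_lit 498) (nat_lit 6609))))))) (.a (.f (nat_lit 625) (nat_lit 496) (nat_lit 7664) (.f (nat_lit 498) (nat_lit 530) (nat_lit 6641) (.f (nat_lit 497) (nat_lit 466) (nat_lit 6609) (.d (nat_lit 624) (nat_lit 592) (nat_lit 5616) (nat_lit 656) (nat_lit 5648))))) (.a (.f (nat_lit 625) (nat_lit 496) (nat_lit 7664) (.f (nat_lit 560) (nat_lit 657) (nat_lit 7696) (.f (nat_lit 530) (nat_lit 498) (nat_lit 6641) (.d (nat_lit 531) (nat_lit 532) (nat_lit 1552) (nat_lit 559) (nat_lit 1551))))) (.p (nat_lit 497) (.a (.f (nat_lit 592) (nat_lit 624) (nat_lit 5616) (.f (nat_lit 465) (nat_lit 560) (nat_lit 5584) (.d (nat_lit 466) (nat_lit 434) (nat_lit 6577) (nat_lit 498) (nat_lit 6609)))) (.a (.f (nat_lit 496) (nat_lit 464) (nat_lit 7632) (.f (nat_lit 498) (nat_lit 466) (nat_lit 6609) (.f (nat_lit 499) (nat_lit 500) (nat_lit 1520) (.f (nat_lit 531) (nat_lit 532) (nat_lit 496) (.f (nat_lit 495) (nat_lit 530) (nat_lit 3567) (.f (nat_lit 494) (nat_lit 493) (nat_lit 493) (.d (nat_lit 462) (nat_lit 461) (nat_lit 3533) (nat_lit 463) (nat_lit 3534)))))))) (.f (nat_lit 496) (nat_lit 464) (nat_lit 7632) (.f (nat_lit 592) (nat_lit 624) (nat_lit 5616) (.f (nat_lit 560) (nat_lit 465) (nat_lit 6608) (.f (nat_lit 594) (nat_lit 626) (nat_lit 4593) (.d (nat_lit 559) (nat_lit 558) (nat_lit 558) (nat_lit 595) (nat_lit 3631)))))))))))))) (.a (.p (nat_lit 560) (.a s33574 (.a s33523 (.a s33619 (.a (.p (nat_lit 496) (.a (.d (nat_lit 464) (nat_lit 432) (nat_lit 4528) (nat_lit 593) (nat_lit 4560)) (.a (.p (nat_lit 592) (.a (.f (nat_lit 625) (nat_lit 593) (nat_lit 4592) (.d (nat_lit 624) (nat_lit 656) (nat_lit 6672) (nat_lit 657) (nat_lit 4624))) (.a (.f (nat_lit 593) (nat_lit 625) (nat_lit 4592) (.f (nat_lit 497) (nat_lit 465) (nat_lit 6608) (.f (nat_lit 594) (nat_lit 626) (nat_lit 4593) (.d (nat_lit 559) (nat_lit 558) (nat_lit 558) (nat_lit 595) (nat_lit 3631))))) (.d (nat_lit 497) (nat_lit 465) (nat_lit 5584) (nat_lit 624) (nat_lit 6640))))) (.f (nat_lit 464) (nat_lit 432) (nat_lit 4528) (.f (nat_lit 463) (nat_lit 431) (nat_lit 7599) (.f (nat_lit 495) (nat_lit 592) (nat_lit 7631) (.f (nat_lit 465) (nat_lit 433) (nat_lit 6576) (.d (nat_lit 466) (nat_lit 467) (nat_lit 1487) (nat_lit 494) (nat_lit 1486))))))))) (.a s33636 s33586)))))) (.a (.p (nat_lit 560) (.a s33574 (.a s33651 (.a s33653 (.a s33543 (.a s33654 (.a s33656 s33665))))))) (.a (.p (nat_lit 560) (.a s33516 (.a s33667 (.a s33526 (.a s33527 (.a s30132 s33665)))))) (.a (.p (nat_lit 560) (.a s33576 (.a s33651 (.a s33653 (.a s33543 (.a s33654 (.a s33656 s33665))))))) (.a (.p (nat_lit 560) (.a s33562 (.a s33231 (.a s33523 (.a s33335 (.a s33248 (.a s33576 s33636))))))) (.a (.p (nat_lit 593) (.a (.f (nat_lit 625) (nat_lit 496) (nat_lit 7664) (.f (nat_lit 530) (nat_lit 498) (nat_lit 6641) (.d (nat_lit 657) (nat_lit 560) (nat_lit 7696) (nat_lit 562) (nat_lit 6673)))) (.a (.p (nat_lit 497) (.a (.f (nat_lit 592) (nat_lit 624) (nat_lit 5616) (.f (nat_lit 465) (nat_lit 560) (nat_lit 5584) (.d (nat_lit 466) (nat_lit 434) (nat_lit 6577) (nat_lit 498) (nat_lit 6609)))) (.a (.f (nat_lit 498) (nat_lit 466) (nat_lit 6609) (.f (nat_lit 625) (nat_lit 530) (nat_lit 6641) (.d (nat_lit 624) (nat_lit 592) (nat_lit 5616) (nat_lit 656) (nat_lit 5648)))) (.a (.f (nat_lit 498) (nat_lit 466) (nat_lit 6609) (.f (nat_lit 625) (nat_lit 530) (nat_lit 6641) (.f (nat_lit 657) (nat_lit 560) (nat_lit 7696) (.d (nat_lit 656) (nat_lit 624) (nat_lit 5648) (nat_lit 688) (nat_lit 5680))))) (.a (.f (nat_lit 498) (nat_lit 466) (nat_lit 6609) (.f (nat_lit 625) (nat_lit 530) (nat_lit 6641) (.f (nat_lit 657) (nat_lit 560) (nat_lit 7696) (.d (nat_lit 658) (nat_lit 626) (nat_lit 4625) (nat_lit 690) (nat_lit 4657))))) (.a (.f (nat_lit 592) (nat_lit 624) (nat_lit 5616) (.f (nat_lit 465) (nat_lit 560) (nat_lit 5584) (.f (nat_lit 432) (nat_lit 464) (nat_lit 7600) (.f (nat_lit 433) (nat_lit 400) (nat_lit 7568) (.d (nat_lit 434) (nat_lit 402) (nat_lit 6545) (nat_lit 466) (nat_lit 6577)))))) (.f (nat_lit 592) (nat_lit 624) (nat_lit 5616) (.f (nat_lit 560) (nat_lit 465) (nat_lit 5584) (.f (nat_lit 625) (nat_lit 657) (nat_lit 7696) (.f (nat_lit 530) (nat_lit 498) (nat_lit 6641) (.d (nat_lit 531) (nat_lit 532) (nat_lit 1552) (nat_lit 559) (nat_lit 1551)))))))))))) (.a (.f (nat_lit 625) (nat_lit 496) (nat_lit 7664) (.f (nat_lit 498) (nat_lit 530) (nat_lit 6641) (.f (nat_lit 497) (nat_lit 466) (nat_lit 6609) (.d (nat_lit 624) (nat_lit 592) (nat_lit 5616) (nat_lit 656) (nat_lit 5648))))) (.a (.f (nat_lit 625) (nat_lit 496) (nat_lit 7664) (.f (nat_lit 657) (nat_lit 560) (nat_lit 7696) (.d (nat_lit 656) (nat_lit 624) (nat_lit 5648) (nat_lit 688) (nat_lit 5680)))) (.p (nat_lit 497) (.a (.f (nat_lit 592) (nat_lit 624) (nat_lit 5616) (.f (nat_lit 465) (nat_lit 560) (nat_lit 5584) (.d (nat_lit 466) (nat_lit 434) (nat_lit 6577) (nat_lit 498) (nat_lit 6609)))) (.a (.f (nat_lit 496) (nat_lit 464) (nat_lit 7632) (.f (nat_lit 498) (nat_lit 466) (nat_lit 6609) (.f (nat_lit 499) (nat_lit 500) (nat_lit 1520) (.f (nat_lit 531) (nat_lit 532) (nat_lit 496) (.f (nat_lit 495) (nat_lit 530) (nat_lit 3567) (.f (nat_lit 494) (nat_lit 493) (nat_lit 493) (.d (nat_lit 462) (nat_lit 461) (nat_lit 3533) (nat_lit 463) (nat_lit 3534)))))))) (.a (.f (nat_lit 592) (nat_lit 624) (nat_lit 5616) (.f (nat_lit 465) (nat_lit 560) (nat_lit 5584) (.f (nat_lit 432) (nat_lit 464) (nat_lit 7600) (.f (nat_lit 433) (nat_lit 400) (nat_lit 7568) (.d (nat_lit 434) (nat_lit 402) (nat_lit 6545) (nat_lit 466) (nat_lit 6577)))))) (.f (nat_lit 496) (nat_lit 464) (nat_lit 7632) (.f (nat_lit 592) (nat_lit 624) (nat_lit 5616) (.f (nat_lit 560) (nat_lit 465) (nat_lit 6608) (.f (nat_lit 495) (nat_lit 463) (nat_lit 7631) (.d (nat_lit 494) (nat_lit 493) (nat_lit 493) (nat_lit 530) (nat_lit 494))))))))))))))) (.a (.p (nat_lit 560) (.a s33574 (.a s33667 (.a s33528 (.a s33619 (.a (.p (nat_lit 496) (.a (.d (nat_lit 464) (nat_lit 432) (nat_lit 4528) (nat_lit 593) (nat_lit 4560)) (.a (.p (nat_lit 592) (.a (.f (nat_lit 625) (nat_lit 593) (nat_lit 4592) (.d (nat_lit 624) (nat_lit 656) (nat_lit 6672) (nat_lit 657) (nat_lit 4624))) (.a (.f (nat_lit 593) (nat_lit 625) (nat_lit 4592) (.f (nat_lit 497) (nat_lit 465) (nat_lit 6608) (.f (nat_lit 594) (nat_lit 626) (nat_lit 4593) (.d (nat_lit 559) (nat_lit 558) (nat_lit 558) (nat_lit 595) (nat_lit 3631))))) (.d (nat_lit 497) (nat_lit 465) (nat_lit 5584) (nat_lit 624) (nat_lit 6640))))) (.f (nat_lit 464) (nat_lit 432) (nat_lit 4528) (.f (nat_lit 465) (nat_lit 433) (nat_lit 6576) (.f (nat_lit 497) (nat_lit 592) (nat_lit 6608) (.f (nat_lit 463) (nat_lit 431) (nat_lit 7599) (.d (nat_lit 462) (nat_lit 461) (nat_lit 461) (nat_lit 498) (nat_lit 462))))))))) s33586)))))) (.p (nat_lit 497) (.a (.p (nat_lit 592) (.a (.d (nat_lit 560) (nat_lit 465) (nat_lit 5584) (nat_lit 624) (nat_lit 6640)) (.a (.f (nat_lit 593) (nat_lit 624) (nat_lit 5616) (.d (nat_lit 496) (nat_lit 464) (nat_lit 7632) (nat_lit 625) (nat_lit 7664))) (.f (nat_lit 465) (nat_lit 560) (nat_lit 5584) (.f (nat_lit 434) (nat_lit 466) (nat_lit 6577) (.f (nat_lit 433) (nat_lit 402) (nat_lit 6545) (.d (nat_lit 432) (nat_lit 400) (nat_lit 7568) (nat_lit 464) (nat_lit 7600)))))))) (.a s33422 (.a (.p (nat_lit 464) (.a (.f (nat_lit 465) (nat_lit 432) (nat_lit 7600) (.f (nat_lit 466) (nat_lit 434) (nat_lit 6577) (.f (nat_lit 498) (nat_lit 593) (nat_lit 6609) (.d (nat_lit 463) (nat_lit 462) (nat_lit 462) (nat_lit 499) (nat_lit 463))))) (.a (.d (nat_lit 432) (nat_lit 465) (nat_lit 7600) (nat_lit 496) (nat_lit 4528)) (.f (nat_lit 593) (nat_lit 496) (nat_lit 7632) (.f (nat_lit 498) (nat_lit 466) (nat_lit 6609) (.f (nat_lit 625) (nat_lit 530) (nat_lit 6641) (.d (nat_lit 624) (nat_lit 592) (nat_lit 5616) (nat_lit 656) (nat_lit 5648)))))))) (.a (.p (nat_lit 465) (.a (.d (nat_lit 560) (nat_lit 433) (nat_lit 5552) (nat_lit 592) (nat_lit 5584)) (.a (.f (nat_lit 562) (nat_lit 594) (nat_lit 4561) (.f (nat_lit 433) (nat_lit 530) (nat_lit 4529) (.d (nat_lit 434) (nat_lit 402) (nat_lit 6545) (nat_lit 466) (nat_lit 6577)))) (.f (nat_lit 560) (nat_lit 592) (nat_lit 5584) (.f (nat_lit 562) (nat_lit 594) (nat_lit 4561) (.f (nat_lit 466) (nat_lit 434) (nat_lit 6577) (.f (nat_lit 563) (nat_lit 564) (nat_lit 3600) (.f (nat_lit 531) (nat_lit 532) (nat_lit 2576) (.f (nat_lit 530) (nat_lit 559) (nat_lit 1551) (.d (nat_lit 595) (nat_lit 498) (nat_lit 4562) (nat_lit 596) (nat_lit 560))))))))))) (.a (.p (nat_lit 593) (.a (.d (nat_lit 496) (nat_lit 464) (nat_lit 7632) (nat_lit 625) (nat_lit 7664)) (.a (.f (nat_lit 498) (nat_lit 466) (nat_lit 6609) (.f (nat_lit 625) (nat_lit 530) (nat_lit 6641) (.f (nat_lit 657) (nat_lit 560) (nat_lit 7696) (.d (nat_lit 656) (nat_lit 624) (nat_lit 5648) (nat_lit 688) (nat_lit 5680))))) (.f (nat_lit 496) (nat_lit 464) (nat_lit 7632) (.f (nat_lit 498) (nat_lit 466) (nat_lit 6609) (.f (nat_lit 499) (nat_lit 500) (nat_lit 1520) (.f (nat_lit 531) (nat_lit 532) (nat_lit 496) (.f (nat_lit 495) (nat_lit 530) (nat_lit 3567) (.f (nat_lit 494) (nat_lit 493) (nat_lit 493) (.d (nat_lit 462) (nat_lit 461) (nat_lit 3533) (nat_lit 463) (nat_lit 3534))))))))))) (.p (nat_lit 592) (.a (.d (nat_lit 560) (nat_lit 465) (nat_lit 5584) (nat_lit 624) (nat_lit 6640)) (.a (.f (nat_lit 593) (nat_lit 624) (nat_lit 5616) (.d (nat_lit 496) (nat_lit 464) (nat_lit 7632) (nat_lit 625) (nat_lit 7664))) (.f (nat_lit 465) (nat_lit 560) (nat_lit 5584) (.f (nat_lit 432) (nat_lit 464) (nat_lit 7600) (.f (nat_lit 433) (nat_lit 400) (nat_lit 7568) (.f (nat_lit 401) (nat_lit 496) (nat_lit 5520) (.d (nat_lit 402) (nat_lit 370) (nat_lit 6513) (nat_lit 434) (nat_lit 6545))))))))))))))))))))))))))))))))) (.a (.p (nat_lit 527) (.a (.p (nat_lit 530) (.a (.f (nat_lit 559) (nat_lit 558) (nat_lit 1550) (.f (nat_lit 560) (nat_lit 531) (nat_lit 1551) (.f (nat_lit 495) (nat_lit 494) (nat_lit 3566) (.d (nat_lit 463) (nat_lit 431) (nat_lit 4527) (nat_lit 592) (nat_lit 4559))))) (.a (.f (nat_lit 499) (nat_lit 498) (nat_lit 2543) (.f (nat_lit 531) (nat_lit 500) (nat_lit 2544) (.d (nat_lit 563) (nat_lit 562) (nat_lit 527) (nat_lit 564) (nat_lit 528)))) (.f (nat_lit 498) (nat_lit 499) (nat_lit 2543) (.f (nat_lit 526) (nat_lit 497) (nat_lit 2542) (.d (nat_lit 494) (nat_lit 493) (nat_lit 3565) (nat_lit 495) (nat_lit 3566))))))) (.a (.p (nat_lit 530) (.a (.f (nat_lit 499) (nat_lit 498) (nat_lit 2543) (.f (nat_lit 531) (nat_lit 500) (nat_lit 2544) (.d (nat_lit 563) (nat_lit 562) (nat_lit 527) (nat_lit 564) (nat_lit 528)))) (.a (.f (nat_lit 498) (nat_lit 499) (nat_lit 2543) (.f (nat_lit 526) (nat_lit 497) (nat_lit 2542) (.d (nat_lit 494) (nat_lit 493) (nat_lit 3565) (nat_lit 495) (nat_lit 3566)))) (.f (nat_lit 495) (nat_lit 494) (nat_lit 3566) (.f (nat_lit 496) (nat_lit 531) (nat_lit 3567) (.f (nat_lit 559) (nat_lit 558) (nat_lit 1550) (.d (nat_lit 464) (nat_lit 432) (nat_lit 5551) (nat_lit 591) (nat_lit 6607)))))))) (.a (.p (nat_lit 560) (.a (.p (nat_lit 530) (.a (.d (nat_lit 559) (nat_lit 531) (nat_lit 1551) (nat_lit 558) (nat_lit 1550)) (.a (.f (nat_lit 495) (nat_lit 494) (nat_lit 3566) (.f (nat_lit 496) (nat_lit 531) (nat_lit 3567) (.d (nat_lit 463) (nat_lit 431) (nat_lit 4527) (nat_lit 592) (nat_lit 7631)))) (.f (nat_lit 559) (nat_lit 558) (nat_lit 1550) (.f (nat_lit 495) (nat_lit 494) (nat_lit 3566) (.d (nat_lit 463) (nat_lit 431) (nat_lit 4527) (nat_lit 592) (nat_lit 4559))))))) (.a (.p (nat_lit 530) (.a (.d (nat_lit 559) (nat_lit 531) (nat_lit 1551) (nat_lit 558) (nat_lit 1550)) (.a (.f (nat_lit 563) (nat_lit 562) (nat_lit 527) (.f (nat_lit 531) (nat_lit 564) (nat_lit 528) (.d (nat_lit 499) (nat_lit 498) (nat_lit 2543) (nat_lit 500) (nat_lit 2544)))) (.f (nat_lit 559) (nat_lit 558) (nat_lit 1550) (.f (nat_lit 495) (nat_lit 494) (nat_lit 3566) (.d (nat_lit 463) (nat_lit 431) (nat_lit 4527) (nat_lit 592) (nat_lit 4559))))))) (.a s33034 (.a (.p (nat_lit 530) (.a (.f (nat_lit 495) (nat_lit 494) (nat_lit 3566) (.f (nat_lit 496) (nat_lit 531) (nat_lit 3567) (.d (nat_lit 463) (nat_lit 431) (nat_lit 4527) (nat_lit 592) (nat_lit 7631)))) (.a (.f (nat_lit 563) (nat_lit 562) (nat_lit 527) (.f (nat_lit 531) (nat_lit 564) (nat_lit 528) (.d (nat_lit 499) (nat_lit 498) (nat_lit 2543) (nat_lit 500) (nat_lit 2544)))) (.f (nat_lit 495) (nat_lit 494) (nat_lit 3566) (.f (nat_lit 592) (nat_lit 624) (nat_lit 7663) (.d (nat_lit 463) (nat_lit 431) (nat_lit 4527) (nat_lit 496) (nat_lit 7631))))))) (.a s33697 s32965)))))) (.a (.p (nat_lit 530) (.a (.f (nat_lit 499) (nat_lit 498) (nat_lit 2543) (.f (nat_lit 531) (nat_lit 500) (nat_lit 2544) (.d (nat_lit 563) (nat_lit 562) (nat_lit 527) (nat_lit 564) (nat_lit 528)))) (.a (.f (nat_lit 498) (nat_lit 499) (nat_lit 2543) (.f (nat_lit 526) (nat_lit 497) (nat_lit 2542) (.d (nat_lit 558) (nat_lit 557) (nat_lit 1549) (nat_lit 559) (nat_lit 1550)))) (.f (nat_lit 559) (nat_lit 558) (nat_lit 1550) (.f (nat_lit 531) (nat_lit 560) (nat_lit 1551) (.d (nat_lit 563) (nat_lit 562) (nat_lit 527) (nat_lit 564) (nat_lit 528))))))) (.a (.p (nat_lit 530) (.a (.f (nat_lit 499) (nat_lit 498) (nat_lit 2543) (.f (nat_lit 531) (nat_lit 500) (nat_lit 2544) (.d (nat_lit 563) (nat_lit 562) (nat_lit 527) (nat_lit 564) (nat_lit 528)))) (.a (.f (nat_lit 498) (nat_lit 499) (nat_lit 2543) (.f (nat_lit 526) (nat_lit 497) (nat_lit 2542) (.d (nat_lit 494) (nat_lit 493) (nat_lit 3565) (nat_lit 495) (nat_lit 3566)))) (.f (nat_lit 495) (nat_lit 494) (nat_lit 3566) (.f (nat_lit 531) (nat_lit 496) (nat_lit 3567) (.d (nat_lit 563) (nat_lit 562) (nat_lit 527) (nat_lit 564) (nat_lit 528))))))) (.a s33703 (.a (.p (nat_lit 530) (.a (.f (nat_lit 559) (nat_lit 558) (nat_lit 1550) (.f (nat_lit 560) (nat_lit 531) (nat_lit 1551) (.f (nat_lit 495) (nat_lit 494) (nat_lit 3566) (.d (nat_lit 463) (nat_lit 431) (nat_lit 4527) (nat_lit 592) (nat_lit 4559))))) (.a (.f (nat_lit 499) (nat_lit 498) (nat_lit 2543) (.f (nat_lit 531) (nat_lit 500) (nat_lit 2544) (.d (nat_lit 563) (nat_lit 562) (nat_lit 527) (nat_lit 564) (nat_lit 528)))) (.f (nat_lit 494) (nat_lit 495) (nat_lit 3566) (.f (nat_lit 526) (nat_lit 493) (nat_lit 3565) (.d (nat_lit 558) (nat_lit 557) (nat_lit 1549) (nat_lit 559) (nat_lit 1550))))))) s33705)))))))) (.a (.p (nat_lit 527) (.a (.p (nat_lit 530) (.a (.f (nat_lit 559) (nat_lit 558) (nat_lit 1550) (.f (nat_lit 560) (nat_lit 531) (nat_lit 1551) (.f (nat_lit 495) (nat_lit 494) (nat_lit 3566) (.d (nat_lit 463) (nat_lit 431) (nat_lit 4527) (nat_lit 592) (nat_lit 4559))))) (.a (.f (nat_lit 499) (nat_lit 498) (nat_lit 2543) (.f (nat_lit 531) (nat_lit 500) (nat_lit 2544) (.d (nat_lit 563) (nat_lit 562) (nat_lit 527) (nat_lit 564) (nat_lit 528)))) (.f (nat_lit 562) (nat_lit 563) (nat_lit 527) (.f (nat_lit 526) (nat_lit 561) (nat_lit 526) (.d (nat_lit 494) (nat_lit 493) (nat_lit 3565) (nat_lit 495) (nat_lit 3566))))))) (.a s33130 (.a (.p (nat_lit 530) (.a (.f (nat_lit 499) (nat_lit 498) (nat_lit 2543) (.f (nat_lit 531) (nat_lit 500) (nat_lit 2544) (.d (nat_lit 563) (nat_lit 562) (nat_lit 527) (nat_lit 564) (nat_lit 528)))) (.a (.f (nat_lit 562) (nat_lit 563) (nat_lit 527) (.f (nat_lit 526) (nat_lit 561) (nat_lit 526) (.d (nat_lit 558) (nat_lit 557) (nat_lit 1549) (nat_lit 559) (nat_lit 1550)))) (.f (nat_lit 559) (nat_lit 558) (nat_lit 1550) (.f (nat_lit 531) (nat_lit 560) (nat_lit 1551) (.d (nat_lit 499) (nat_lit 498) (nat_lit 2543) (nat_lit 500) (nat_lit 2544))))))) (.a (.p (nat_lit 530) (.a (.f (nat_lit 499) (nat_lit 498) (nat_lit 2543) (.f (nat_lit 531) (nat_lit 500) (nat_lit 2544) (.d (nat_lit 563) (nat_lit 562) (nat_lit 527) (nat_lit 564) (nat_lit 528)))) (.a (.f (nat_lit 562) (nat_lit 563) (nat_lit 527) (.f (nat_lit 526) (nat_lit 561) (nat_lit 526) (.d (nat_lit 494) (nat_lit 493) (nat_lit 3565) (nat_lit 495) (nat_lit 3566)))) (.f (nat_lit 495) (nat_lit 494) (nat_lit 3566) (.f (nat_lit 531) (nat_lit 496) (nat_lit 3567) (.d (nat_lit 499) (nat_lit 498) (nat_lit 2543) (nat_lit 500) (nat_lit 2544))))))) (.a s33707 (.a (.p (nat_lit 530) (.a (.f (nat_lit 559) (nat_lit 558) (nat_lit 1550) (.f (nat_lit 560) (nat_lit 531) (nat_lit 1551) (.f (nat_lit 495) (nat_lit 494) (nat_lit 3566) (.d (nat_lit 463) (nat_lit 431) (nat_lit 4527) (nat_lit 592) (nat_lit 4559))))) (.a (.f (nat_lit 499) (nat_lit 498) (nat_lit 2543) (.f (nat_lit 531) (nat_lit 500) (nat_lit 2544) (.d (nat_lit 563) (nat_lit 562) (nat_lit 527) (nat_lit 564) (nat_lit 528)))) (.f (nat_lit 494) (nat_lit 495) (nat_lit 3566) (.f (nat_lit 526) (nat_lit 493) (nat_lit 3565) (.d (nat_lit 558) (nat_lit 557) (nat_lit 1549) (nat_lit 559) (nat_lit 1550))))))) s33708))))))) (.a (.p (nat_lit 527) (.a s14755 (.a (.p (nat_lit 530) (.a (.f (nat_lit 499) (nat_lit 498) (nat_lit 2543) (.f (nat_lit 531) (nat_lit 500) (nat_lit 2544) (.d (nat_lit 563) (nat_lit 562) (nat_lit 527) (nat_lit 564) (nat_lit 528)))) (.a (.p (nat_lit 560) (.a (.p (nat_lit 561) (.a (.f (nat_lit 562) (nat_lit 563) (nat_lit 527) (.f (nat_lit 498) (nat_lit 499) (nat_lit 2543) (.d (nat_lit 466) (nat_lit 434) (nat_lit 5553) (nat_lit 593) (nat_lit 5585)))) (.a (.f (nat_lit 498) (nat_lit 499) (nat_lit 2543) (.f (nat_lit 593) (nat_lit 625) (nat_lit 6641) (.d (nat_lit 466) (nat_lit 434) (nat_lit 5553) (nat_lit 497) (nat_lit 6609)))) (.f (nat_lit 559) (nat_lit 558) (nat_lit 1550) (.f (nat_lit 562) (nat_lit 563) (nat_lit 527) (.f (nat_lit 591) (nat_lit 590) (nat_lit 1582) (.d (nat_lit 496) (nat_lit 464) (nat_lit 5583) (nat_lit 623) (nat_lit 6639)))))))) (.a (.p (nat_lit 561) (.a (.f (nat_lit 562) (nat_lit 563) (nat_lit 527) (.f (nat_lit 498) (nat_lit 499) (nat_lit 2543) (.d (nat_lit 466) (nat_lit 434) (nat_lit 5553) (nat_lit 593) (nat_lit 5585)))) (.a (.f (nat_lit 498) (nat_lit 499) (nat_lit 2543) (.f (nat_lit 593) (nat_lit 625) (nat_lit 6641) (.d (nat_lit 466) (nat_lit 434) (nat_lit 5553) (nat_lit 497) (nat_lit 6609)))) (.f (nat_lit 562) (nat_lit 563) (nat_lit 527) (.f (nat_lit 559) (nat_lit 558) (nat_lit 1550) (.f (nat_lit 594) (nat_lit 595) (nat_lit 559) (.d (nat_lit 497) (nat_lit 465) (nat_lit 4561) (nat_lit 626) (nat_lit 7665)))))))) (.a s33092 (.a (.f (nat_lit 559) (nat_lit 558) (nat_lit 1550) (.f (nat_lit 495) (nat_lit 494) (nat_lit 3566) (.f (nat_lit 463) (nat_lit 431) (nat_lit 4527) (.f (nat_lit 464) (nat_lit 432) (nat_lit 6575) (.f (nat_lit 591) (nat_lit 496) (nat_lit 5583) (.f (nat_lit 562) (nat_lit 563) (nat_lit 527) (.d (nat_lit 590) (nat_lit 561) (nat_lit 1582) (nat_lit 622) (nat_lit 5614)))))))) (.f (nat_lit 559) (nat_lit 558) (nat_lit 1550) (.f (nat_lit 495) (nat_lit 494) (nat_lit 3566) (.f (nat_lit 463) (nat_lit 431) (nat_lit 4527) (.f (nat_lit 464) (nat_lit 432) (nat_lit 6575) (.f (nat_lit 496) (nat_lit 591) (nat_lit 5583) (.f (nat_lit 498) (nat_lit 499) (nat_lit 2543) (.d (nat_lit 462) (nat_lit 430) (nat_lit 7598) (nat_lit 497) (nat_lit 3534))))))))))))) (.f (nat_lit 495) (nat_lit 494) (nat_lit 3566) (.f (nat_lit 496) (nat_lit 531) (nat_lit 3567) (.f (nat_lit 559) (nat_lit 558) (nat_lit 1550) (.d (nat_lit 464) (nat_lit 432) (nat_lit 5551) (nat_lit 591) (nat_lit 6607)))))))) (.a s14708 (.a (.p (nat_lit 526) (.a (.f (nat_lit 557) (nat_lit 558) (nat_lit 1549) (.f (nat_lit 525) (nat_lit 556) (nat_lit 1548) (.d (nat_lit 493) (nat_lit 492) (nat_lit 3564) (nat_lit 494) (nat_lit 3565)))) (.a (.p (nat_lit 560) (.a (.f (nat_lit 561) (nat_lit 562) (nat_lit 526) (.f (nat_lit 497) (nat_lit 498) (nat_lit 2542) (.f (nat_lit 465) (nat_lit 433) (nat_lit 5552) (.f (nat_lit 464) (nat_lit 432) (nat_lit 7600) (.f (nat_lit 496) (nat_lit 593) (nat_lit 4560) (.f (nat_lit 494) (nat_lit 493) (nat_lit 3565) (.d (nat_lit 466) (nat_lit 434) (nat_lit 6577) (nat_lit 495) (nat_lit 2510)))))))) (.a (.p (nat_lit 559) (.a (.f (nat_lit 558) (nat_lit 557) (nat_lit 1549) (.f (nat_lit 561) (nat_lit 562) (nat_lit 526) (.f (nat_lit 590) (nat_lit 589) (nat_lit 1581) (.d (nat_lit 495) (nat_lit 463) (nat_lit 5582) (nat_lit 622) (nat_lit 6638))))) (.a (.f (nat_lit 558) (nat_lit 557) (nat_lit 1549) (.f (nat_lit 494) (nat_lit 493) (nat_lit 3565) (.d (nat_lit 462) (nat_lit 430) (nat_lit 4526) (nat_lit 591) (nat_lit 4558)))) (.f (nat_lit 494) (nat_lit 493) (nat_lit 3565) (.f (nat_lit 591) (nat_lit 623) (nat_lit 7662) (.d (nat_lit 462) (nat_lit 430) (nat_lit 4526) (nat_lit 495) (nat_lit 7630))))))) (.a (.f (nat_lit 561) (nat_lit 562) (nat_lit 526) (.f (nat_lit 497) (nat_lit 498) (nat_lit 2542) (.f (nat_lit 465) (nat_lit 433) (nat_lit 5552) (.f (nat_lit 464) (nat_lit 432) (nat_lit 7600) (.f (nat_lit 593) (nat_lit 496) (nat_lit 4560) (.f (nat_lit 558) (nat_lit 557) (nat_lit 1549) (.d (nat_lit 594) (nat_lit 559) (nat_lit 558) (nat_lit 626) (nat_lit 4593)))))))) s33700)))) (.f (nat_lit 497) (nat_lit 498) (nat_lit 2542) (.f (nat_lit 561) (nat_lit 562) (nat_lit 526) (.f (nat_lit 496) (nat_lit 525) (nat_lit 2541) (.d (nat_lit 464) (nat_lit 432) (nat_lit 4528) (nat_lit 593) (nat_lit 7632)))))))) (.a (.p (nat_lit 530) (.a (.f (nat_lit 562) (nat_lit 563) (nat_lit 527) (.f (nat_lit 526) (nat_lit 561) (nat_lit 526) (.d (nat_lit 494) (nat_lit 493) (nat_lit 3565) (nat_lit 495) (nat_lit 3566)))) (.a (.f (nat_lit 495) (nat_lit 494) (nat_lit 3566) (.f (nat_lit 496) (nat_lit 531) (nat_lit 3567) (.f (nat_lit 559) (nat_lit 558) (nat_lit 1550) (.d (nat_lit 464) (nat_lit 432) (nat_lit 5551) (nat_lit 591) (nat_lit 6607))))) (.f (nat_lit 562) (nat_lit 563) (nat_lit 527) (.f (nat_lit 526) (nat_lit 561) (nat_lit 526) (.d (nat_lit 558) (nat_lit 557) (nat_lit 1549) (nat_lit 559) (nat_lit 1550))))))) (.a (.p (nat_lit 530) (.a (.f (nat_lit 499) (nat_lit 498) (nat_lit 2543) (.f (nat_lit 531) (nat_lit 500) (nat_lit 2544) (.d (nat_lit 563) (nat_lit 562) (nat_lit 527) (nat_lit 564) (nat_lit 528)))) (.a (.f (nat_lit 498) (nat_lit 499) (nat_lit 2543) (.f (nat_lit 526) (nat_lit 497) (nat_lit 2542) (.d (nat_lit 494) (nat_lit 493) (nat_lit 3565) (nat_lit 495) (nat_lit 3566)))) (.f (nat_lit 495) (nat_lit 494) (nat_lit 3566) (.f (nat_lit 496) (nat_lit 531) (nat_lit 3567) (.f (nat_lit 559) (nat_lit 558) (nat_lit 1550) (.d (nat_lit 464) (nat_lit 432) (nat_lit 5551) (nat_lit 591) (nat_lit 6607)))))))) (.p (nat_lit 530) (.a (.f (nat_lit 498) (nat_lit 499) (nat_lit 2543) (.f (nat_lit 526) (nat_lit 497) (nat_lit 2542) (.d (nat_lit 494) (nat_lit 493) (nat_lit 3565) (nat_lit 495) (nat_lit 3566)))) (.a (.f (nat_lit 495) (nat_lit 494) (nat_lit 3566) (.f (nat_lit 496) (nat_lit 531) (nat_lit 3567) (.f (nat_lit 559) (nat_lit 558) (nat_lit 1550) (.d (nat_lit 464) (nat_lit 432) (nat_lit 5551) (nat_lit 591) (nat_lit 6607))))) (.f (nat_lit 498) (nat_lit 499) (nat_lit 2543) (.f (nat_lit 526) (nat_lit 497) (nat_lit 2542) (.d (nat_lit 558) (nat_lit 557) (nat_lit 1549) (nat_lit 559) (nat_lit 1550)))))))))))))) (.a (.p (nat_lit 527) (.a (.p (nat_lit 530) (.a (.f (nat_lit 498) (nat_lit 499) (nat_lit 2543) (.f (nat_lit 562) (nat_lit 563) (nat_lit 527) (.d (nat_lit 526) (nat_lit 497) (nat_lit 2542) (nat_lit 561) (nat_lit 526)))) (.f (nat_lit 559) (nat_lit 558) (nat_lit 1550) (.f (nat_lit 560) (nat_lit 531) (nat_lit 1551) (.f (nat_lit 495) (nat_lit 494) (nat_lit 3566) (.d (nat_lit 463) (nat_lit 431) (nat_lit 4527) (nat_lit 592) (nat_lit 4559))))))) (.a s14755 (.a s32984 (.a s14708 (.a (.p (nat_lit 560) (.a (.p (nat_lit 526) (.a (.d (nat_lit 561) (nat_lit 525) (nat_lit 525) (nat_lit 562) (nat_lit 526)) (.a (.f (nat_lit 561) (nat_lit 562) (nat_lit 526) (.f (nat_lit 497) (nat_lit 498) (nat_lit 2542) (.d (nat_lit 465) (nat_lit 433) (nat_lit 5552) (nat_lit 592) (nat_lit 5584)))) (.f (nat_lit 497) (nat_lit 498) (nat_lit 2542) (.f (nat_lit 496) (nat_lit 525) (nat_lit 2541) (.d (nat_lit 465) (nat_lit 433) (nat_lit 5552) (nat_lit 592) (nat_lit 6608))))))) (.a (.p (nat_lit 526) (.a (.d (nat_lit 561) (nat_lit 525) (nat_lit 525) (nat_lit 562) (nat_lit 526)) (.a (.f (nat_lit 561) (nat_lit 562) (nat_lit 526) (.f (nat_lit 497) (nat_lit 498) (nat_lit 2542) (.d (nat_lit 465) (nat_lit 433) (nat_lit 5552) (nat_lit 592) (nat_lit 5584)))) (.f (nat_lit 557) (nat_lit 558) (nat_lit 1549) (.f (nat_lit 525) (nat_lit 556) (nat_lit 1548) (.d (nat_lit 493) (nat_lit 492) (nat_lit 3564) (nat_lit 494) (nat_lit 3565))))))) (.a s33717 (.a s33291 (.a (.p (nat_lit 526) (.a (.f (nat_lit 497) (nat_lit 498) (nat_lit 2542) (.f (nat_lit 496) (nat_lit 525) (nat_lit 2541) (.d (nat_lit 465) (nat_lit 433) (nat_lit 5552) (nat_lit 592) (nat_lit 6608)))) (.a (.f (nat_lit 557) (nat_lit 558) (nat_lit 1549) (.f (nat_lit 525) (nat_lit 556) (nat_lit 1548) (.d (nat_lit 493) (nat_lit 492) (nat_lit 3564) (nat_lit 494) (nat_lit 3565)))) (.f (nat_lit 497) (nat_lit 498) (nat_lit 2542) (.f (nat_lit 592) (nat_lit 624) (nat_lit 6640) (.d (nat_lit 465) (nat_lit 433) (nat_lit 5552) (nat_lit 496) (nat_lit 6608))))))) s32966)))))) (.a (.p (nat_lit 530) (.a (.f (nat_lit 559) (nat_lit 558) (nat_lit 1550) (.f (nat_lit 560) (nat_lit 531) (nat_lit 1551) (.f (nat_lit 495) (nat_lit 494) (nat_lit 3566) (.d (nat_lit 463) (nat_lit 431) (nat_lit 4527) (nat_lit 592) (nat_lit 4559))))) (.a (.f (nat_lit 499) (nat_lit 498) (nat_lit 2543) (.f (nat_lit 531) (nat_lit 500) (nat_lit 2544) (.d (nat_lit 563) (nat_lit 562) (nat_lit 527) (nat_lit 564) (nat_lit 528)))) (.f (nat_lit 562) (nat_lit 563) (nat_lit 527) (.f (nat_lit 526) (nat_lit 561) (nat_lit 526) (.d (nat_lit 494) (nat_lit 493) (nat_lit 3565) (nat_lit 495) (nat_lit 3566))))))) (.a (.p (nat_lit 530) (.a (.f (nat_lit 559) (nat_lit 558) (nat_lit 1550) (.f (nat_lit 560) (nat_lit 531) (nat_lit 1551) (.f (nat_lit 495) (nat_lit 494) (nat_lit 3566) (.d (nat_lit 463) (nat_lit 431) (nat_lit 4527) (nat_lit 592) (nat_lit 4559))))) (.a (.f (nat_lit 499) (nat_lit 498) (nat_lit 2543) (.f (nat_lit 531) (nat_lit 500) (nat_lit 2544) (.d (nat_lit 563) (nat_lit 562) (nat_lit 527) (nat_lit 564) (nat_lit 528)))) (.f (nat_lit 498) (nat_lit 499) (nat_lit 2543) (.f (nat_lit 526) (nat_lit 497) (nat_lit 2542) (.d (nat_lit 494) (nat_lit 493) (nat_lit 3565) (nat_lit 495) (nat_lit 3566))))))) (.a (.p (nat_lit 530) (.a (.f (nat_lit 559) (nat_lit 558) (nat_lit 1550) (.f (nat_lit 560) (nat_lit 531) (nat_lit 1551) (.f (nat_lit 495) (nat_lit 494) (nat_lit 3566) (.d (nat_lit 463) (nat_lit 431) (nat_lit 4527) (nat_lit 592) (nat_lit 4559))))) (.a (.f (nat_lit 498) (nat_lit 499) (nat_lit 2543) (.f (nat_lit 526) (nat_lit 497) (nat_lit 2542) (.d (nat_lit 494) (nat_lit 493) (nat_lit 3565) (nat_lit 495) (nat_lit 3566)))) (.f (nat_lit 498) (nat_lit 499) (nat_lit 2543) (.f (nat_lit 526) (nat_lit 497) (nat_lit 2542) (.d (nat_lit 558) (nat_lit 557) (nat_lit 1549) (nat_lit 559) (nat_lit 1550))))))) (.p (nat_lit 530) (.a (.f (nat_lit 559) (nat_lit 558) (nat_lit 1550) (.f (nat_lit 560) (nat_lit 531) (nat_lit 1551) (.f (nat_lit 495) (nat_lit 494) (nat_lit 3566) (.d (nat_lit 463) (nat_lit 431) (nat_lit 4527) (nat_lit 592) (nat_lit 4559))))) (.a (.f (nat_lit 562) (nat_lit 563) (nat_lit 527) (.f (nat_lit 526) (nat_lit 561) (nat_lit 526) (.d (nat_lit 494) (nat_lit 493) (nat_lit 3565) (nat_lit 495) (nat_lit 3566)))) (.f (nat_lit 562) (nat_lit 563) (nat_lit 527) (.f (nat_lit 526) (nat_lit 561) (nat_lit 526) (.d (nat_lit 558) (nat_lit 557) (nat_lit 1549) (nat_lit 559) (nat_lit 1550)))))))))))))))) (.a (.p (nat_lit 527) (.a s14755 (.a s33182 (.a s17940 (.a s33721 (.a (.p (nat_lit 530) (.a (.f (nat_lit 499) (nat_lit 498) (nat_lit 2543) (.f (nat_lit 531) (nat_lit 500) (nat_lit 2544) (.d (nat_lit 563) (nat_lit 562) (nat_lit 527) (nat_lit 564) (nat_lit 528)))) (.a (.f (nat_lit 562) (nat_lit 563) (nat_lit 527) (.f (nat_lit 526) (nat_lit 561) (nat_lit 526) (.d (nat_lit 494) (nat_lit 493) (nat_lit 3565) (nat_lit 495) (nat_lit 3566)))) (.f (nat_lit 495) (nat_lit 494) (nat_lit 3566) (.f (nat_lit 531) (nat_lit 496) (nat_lit 3567) (.d (nat_lit 499) (nat_lit 498) (nat_lit 2543) (nat_lit 500) (nat_lit 2544))))))) (.a (.p (nat_lit 530) (.a (.f (nat_lit 499) (nat_lit 498) (nat_lit 2543) (.f (nat_lit 531) (nat_lit 500) (nat_lit 2544) (.d (nat_lit 563) (nat_lit 562) (nat_lit 527) (nat_lit 564) (nat_lit 528)))) (.a (.f (nat_lit 498) (nat_lit 499) (nat_lit 2543) (.f (nat_lit 526) (nat_lit 497) (nat_lit 2542) (.d (nat_lit 494) (nat_lit 493) (nat_lit 3565) (nat_lit 495) (nat_lit 3566)))) (.f (nat_lit 495) (nat_lit 494) (nat_lit 3566) (.f (nat_lit 531) (nat_lit 496) (nat_lit 3567) (.d (nat_lit 563) (nat_lit 562) (nat_lit 527) (nat_lit 564) (nat_lit 528))))))) (.a s33738 (.a s33739 (.a s33740 s33741)))))))))) (.a (.p (nat_lit 527) (.a s14755 (.a (.p (nat_lit 560) (.a s32932 (.a s33002 (.a s33004 (.a s33101 (.a s33030 (.a s33034 (.a s33102 (.a s33051 (.a s33053 s33054)))))))))) (.a s14708 (.a (.p (nat_lit 560) (.a (.p (nat_lit 526) (.a (.d (nat_lit 561) (nat_lit 525) (nat_lit 525) (nat_lit 562) (nat_lit 526)) (.a (.f (nat_lit 561) (nat_lit 562) (nat_lit 526) (.f (nat_lit 497) (nat_lit 498) (nat_lit 2542) (.d (nat_lit 465) (nat_lit 433) (nat_lit 5552) (nat_lit 592) (nat_lit 5584)))) (.f (nat_lit 497) (nat_lit 498) (nat_lit 2542) (.f (nat_lit 496) (nat_lit 525) (nat_lit 2541) (.d (nat_lit 465) (nat_lit 433) (nat_lit 5552) (nat_lit 592) (nat_lit 6608))))))) (.a (.p (nat_lit 526) (.a (.d (nat_lit 561) (nat_lit 525) (nat_lit 525) (nat_lit 562) (nat_lit 526)) (.a (.f (nat_lit 561) (nat_lit 562) (nat_lit 526) (.f (nat_lit 497) (nat_lit 498) (nat_lit 2542) (.d (nat_lit 465) (nat_lit 433) (nat_lit 5552) (nat_lit 592) (nat_lit 5584)))) (.f (nat_lit 557) (nat_lit 558) (nat_lit 1549) (.f (nat_lit 525) (nat_lit 556) (nat_lit 1548) (.d (nat_lit 493) (nat_lit 492) (nat_lit 3564) (nat_lit 494) (nat_lit 3565))))))) (.a s33101 (.a s33296 (.p (nat_lit 526) (.a (.f (nat_lit 497) (nat_lit 498) (nat_lit 2542) (.f (nat_lit 496) (nat_lit 525) (nat_lit 2541) (.d (nat_lit 465) (nat_lit 433) (nat_lit 5552) (nat_lit 592) (nat_lit 6608)))) (.a (.f (nat_lit 557) (nat_lit 558) (nat_lit 1549) (.f (nat_lit 525) (nat_lit 556) (nat_lit 1548) (.d (nat_lit 493) (nat_lit 492) (nat_lit 3564) (nat_lit 494) (nat_lit 3565)))) (.f (nat_lit 497) (nat_lit 498) (nat_lit 2542) (.f (nat_lit 592) (nat_lit 624) (nat_lit 6640) (.d (nat_lit 465) (nat_lit 433) (nat_lit 5552) (nat_lit 496) (nat_lit 6608)))))))))))) (.a (.p (nat_lit 530) (.a (.f (nat_lit 562) (nat_lit 563) (nat_lit 527) (.f (nat_lit 526) (nat_lit 561) (nat_lit 526) (.d (nat_lit 494) (nat_lit 493) (nat_lit 3565) (nat_lit 495) (nat_lit 3566)))) (.a (.f (nat_lit 495) (nat_lit 494) (nat_lit 3566) (.f (nat_lit 496) (nat_lit 531) (nat_lit 3567) (.f (nat_lit 559) (nat_lit 558) (nat_lit 1550) (.d (nat_lit 464) (nat_lit 432) (nat_lit 5551) (nat_lit 591) (nat_lit 6607))))) (.f (nat_lit 562) (nat_lit 563) (nat_lit 527) (.f (nat_lit 526) (nat_lit 561) (nat_lit 526) (.d (nat_lit 558) (nat_lit 557) (nat_lit 1549) (nat_lit 559) (nat_lit 1550))))))) (.a (.p (nat_lit 530) (.a (.f (nat_lit 499) (nat_lit 498) (nat_lit 2543) (.f (nat_lit 531) (nat_lit 500) (nat_lit 2544) (.d (nat_lit 563) (nat_lit 562) (nat_lit 527) (nat_lit 564) (nat_lit 528)))) (.a (.f (nat_lit 498) (nat_lit 499) (nat_lit 2543) (.f (nat_lit 526) (nat_lit 497) (nat_lit 2542) (.d (nat_lit 494) (nat_lit 493) (nat_lit 3565) (nat_lit 495) (nat_lit 3566)))) (.f (nat_lit 495) (nat_lit 494) (nat_lit 3566) (.f (nat_lit 496) (nat_lit 531) (nat_lit 3567) (.f (nat_lit 559) (nat_lit 558) (nat_lit 1550) (.d (nat_lit 464) (nat_lit 432) (nat_lit 5551) (nat_lit 591) (nat_lit 6607)))))))) (.p (nat_lit 530) (.a (.f (nat_lit 498) (nat_lit 499) (nat_lit 2543) (.f (nat_lit 526) (nat_lit 497) (nat_lit 2542) (.d (nat_lit 494) (nat_lit 493) (nat_lit 3565) (nat_lit 495) (nat_lit 3566)))) (.a (.f (nat_lit 495) (nat_lit 494) (nat_lit 3566) (.f (nat_lit 496) (nat_lit 531) (nat_lit 3567) (.f (nat_lit 559) (nat_lit 558) (nat_lit 1550) (.d (nat_lit 464) (nat_lit 432) (nat_lit 5551) (nat_lit 591) (nat_lit 6607))))) (.f (nat_lit 498) (nat_lit 499) (nat_lit 2543) (.f (nat_lit 526) (nat_lit 497) (nat_lit 2542) (.d (nat_lit 558) (nat_lit 557) (nat_lit 1549) (nat_lit 559) (nat_lit 1550)))))))))))))) (.a (.p (nat_lit 527) (.a s14708 (.a s33153 (.a s33191 (.a (.p (nat_lit 560) (.a (.p (nat_lit 526) (.a (.d (nat_lit 561) (nat_lit 525) (nat_lit 525) (nat_lit 562) (nat_lit 526)) (.a (.f (nat_lit 561) (nat_lit 562) (nat_lit 526) (.f (nat_lit 497) (nat_lit 498) (nat_lit 2542) (.d (nat_lit 465) (nat_lit 433) (nat_lit 5552) (nat_lit 592) (nat_lit 5584)))) (.f (nat_lit 497) (nat_lit 498) (nat_lit 2542) (.f (nat_lit 496) (nat_lit 525) (nat_lit 2541) (.d (nat_lit 465) (nat_lit 433) (nat_lit 5552) (nat_lit 592) (nat_lit 6608))))))) (.a (.p (nat_lit 526) (.a (.d (nat_lit 561) (nat_lit 525) (nat_lit 525) (nat_lit 562) (nat_lit 526)) (.a (.f (nat_lit 561) (nat_lit 562) (nat_lit 526) (.f (nat_lit 497) (nat_lit 498) (nat_lit 2542) (.d (nat_lit 465) (nat_lit 433) (nat_lit 5552) (nat_lit 592) (nat_lit 5584)))) (.f (nat_lit 557) (nat_lit 558) (nat_lit 1549) (.f (nat_lit 525) (nat_lit 556) (nat_lit 1548) (.f (nat_lit 524) (nat_lit 559) (nat_lit 524) (.d (nat_lit 492) (nat_lit 491) (nat_lit 3563) (nat_lit 493) (nat_lit 3564)))))))) (.a s33024 (.a s33301 (.a (.p (nat_lit 526) (.a (.f (nat_lit 497) (nat_lit 498) (nat_lit 2542) (.f (nat_lit 496) (nat_lit 525) (nat_lit 2541) (.d (nat_lit 465) (nat_lit 433) (nat_lit 5552) (nat_lit 592) (nat_lit 6608)))) (.a (.f (nat_lit 557) (nat_lit 558) (nat_lit 1549) (.f (nat_lit 525) (nat_lit 556) (nat_lit 1548) (.f (nat_lit 524) (nat_lit 559) (nat_lit 524) (.d (nat_lit 492) (nat_lit 491) (nat_lit 3563) (nat_lit 493) (nat_lit 3564))))) (.f (nat_lit 497) (nat_lit 498) (nat_lit 2542) (.f (nat_lit 592) (nat_lit 624) (nat_lit 6640) (.d (nat_lit 465) (nat_lit 433) (nat_lit 5552) (nat_lit 496) (nat_lit 6608))))))) s33362)))))) (.a (.p (nat_lit 530) (.a (.f (nat_lit 499) (nat_lit 498) (nat_lit 2543) (.f (nat_lit 531) (nat_lit 500) (nat_lit 2544) (.d (nat_lit 563) (nat_lit 562) (nat_lit 527) (nat_lit 564) (nat_lit 528)))) (.a (.f (nat_lit 562) (nat_lit 563) (nat_lit 527) (.f (nat_lit 526) (nat_lit 561) (nat_lit 526) (.d (nat_lit 558) (nat_lit 557) (nat_lit 1549) (nat_lit 559) (nat_lit 1550)))) (.f (nat_lit 559) (nat_lit 558) (nat_lit 1550) (.f (nat_lit 531) (nat_lit 560) (nat_lit 1551) (.d (nat_lit 499) (nat_lit 498) (nat_lit 2543) (nat_lit 500) (nat_lit 2544))))))) (.a (.p (nat_lit 530) (.a (.f (nat_lit 499) (nat_lit 498) (nat_lit 2543) (.f (nat_lit 531) (nat_lit 500) (nat_lit 2544) (.d (nat_lit 563) (nat_lit 562) (nat_lit 527) (nat_lit 564) (nat_lit 528)))) (.a (.f (nat_lit 498) (nat_lit 499) (nat_lit 2543) (.f (nat_lit 526) (nat_lit 497) (nat_lit 2542) (.d (nat_lit 558) (nat_lit 557) (nat_lit 1549) (nat_lit 559) (nat_lit 1550)))) (.f (nat_lit 559) (nat_lit 558) (nat_lit 1550) (.f (nat_lit 531) (nat_lit 560) (nat_lit 1551) (.d (nat_lit 563) (nat_lit 562) (nat_lit 527) (nat_lit 564) (nat_lit 528))))))) (.a s33739 (.a s33752 (.a s33758 s33759)))))))))) (.a (.p (nat_lit 527) (.a (.p (nat_lit 530) (.a (.f (nat_lit 559) (nat_lit 558) (nat_lit 1550) (.f (nat_lit 560) (nat_lit 531) (nat_lit 1551) (.f (nat_lit 495) (nat_lit 494) (nat_lit 3566) (.d (nat_lit 463) (nat_lit 431) (nat_lit 4527) (nat_lit 592) (nat_lit 4559))))) (.a (.f (nat_lit 498) (nat_lit 499) (nat_lit 2543) (.f (nat_lit 526) (nat_lit 497) (nat_lit 2542) (.d (nat_lit 494) (nat_lit 493) (nat_lit 3565) (nat_lit 495) (nat_lit 3566)))) (.f (nat_lit 498) (nat_lit 499) (nat_lit 2543) (.f (nat_lit 526) (nat_lit 497) (nat_lit 2542) (.d (nat_lit 558) (nat_lit 557) (nat_lit 1549) (nat_lit 559) (nat_lit 1550))))))) (.a (.p (nat_lit 530) (.a (.f (nat_lit 498) (nat_lit 499) (nat_lit 2543) (.f (nat_lit 526) (nat_lit 497) (nat_lit 2542) (.d (nat_lit 494) (nat_lit 493) (nat_lit 3565) (nat_lit 495) (nat_lit 3566)))) (.a (.f (nat_lit 495) (nat_lit 494) (nat_lit 3566) (.f (nat_lit 496) (nat_lit 531) (nat_lit 3567) (.f (nat_lit 559) (nat_lit 558) (nat_lit 1550) (.d (nat_lit 464) (nat_lit 432) (nat_lit 5551) (nat_lit 591) (nat_lit 6607))))) (.f (nat_lit 498) (nat_lit 499) (nat_lit 2543) (.f (nat_lit 526) (nat_lit 497) (nat_lit 2542) (.d (nat_lit 558) (nat_lit 557) (nat_lit 1549) (nat_lit 559) (nat_lit 1550))))))) (.a (.p (nat_lit 560) (.a (.p (nat_lit 530) (.a (.d (nat_lit 559) (nat_lit 531) (nat_lit 1551) (nat_lit 558) (nat_lit 1550)) (.a (.f (nat_lit 495) (nat_lit 494) (nat_lit 3566) (.f (nat_lit 496) (nat_lit 531) (nat_lit 3567) (.d (nat_lit 463) (nat_lit 431) (nat_lit 4527) (nat_lit 592) (nat_lit 7631)))) (.f (nat_lit 559) (nat_lit 558) (nat_lit 1550) (.f (nat_lit 495) (nat_lit 494) (nat_lit 3566) (.d (nat_lit 463) (nat_lit 431) (nat_lit 4527) (nat_lit 592) (nat_lit 4559))))))) (.a s33768 (.a s33046 (.a (.p (nat_lit 496) (.a (.p (nat_lit 592) (.a (.d (nat_lit 497) (nat_lit 465) (nat_lit 6608) (nat_lit 624) (nat_lit 6640)) (.a (.f (nat_lit 623) (nat_lit 591) (nat_lit 5615) (.f (nat_lit 624) (nat_lit 655) (nat_lit 5647) (.d (nat_lit 625) (nat_lit 593) (nat_lit 4592) (nat_lit 657) (nat_lit 4624)))) (.f (nat_lit 497) (nat_lit 465) (nat_lit 6608) (.f (nat_lit 593) (nat_lit 625) (nat_lit 4592) (.f (nat_lit 464) (nat_lit 561) (nat_lit 4560) (.f (nat_lit 432) (nat_lit 400) (nat_lit 4496) (.d (nat_lit 431) (nat_lit 399) (nat_lit 7567) (nat_lit 463) (nat_lit 7599))))))))) (.a (.p (nat_lit 530) (.a (.f (nat_lit 499) (nat_lit 498) (nat_lit 2543) (.f (nat_lit 531) (nat_lit 500) (nat_lit 2544) (.f (nat_lit 561) (nat_lit 532) (nat_lit 1552) (.d (nat_lit 464) (nat_lit 432) (nat_lit 4528) (nat_lit 593) (nat_lit 4560))))) (.a (.d (nat_lit 495) (nat_lit 494) (nat_lit 3566) (nat_lit 531) (nat_lit 3567)) (.f (nat_lit 495) (nat_lit 494) (nat_lit 3566) (.d (nat_lit 463) (nat_lit 431) (nat_lit 4527) (nat_lit 592) (nat_lit 7631)))))) (.a (.p (nat_lit 592) (.a (.d (nat_lit 497) (nat_lit 465) (nat_lit 6608) (nat_lit 624) (nat_lit 6640)) (.a (.f (nat_lit 623) (nat_lit 591) (nat_lit 5615) (.f (nat_lit 624) (nat_lit 655) (nat_lit 5647) (.d (nat_lit 625) (nat_lit 593) (nat_lit 4592) (nat_lit 657) (nat_lit 4624)))) (.f (nat_lit 463) (nat_lit 495) (nat_lit 7631) (.f (nat_lit 464) (nat_lit 431) (nat_lit 7599) (.d (nat_lit 465) (nat_lit 433) (nat_lit 6576) (nat_lit 497) (nat_lit 6608))))))) (.a (.p (nat_lit 592) (.a (.d (nat_lit 497) (nat_lit 465) (nat_lit 6608) (nat_lit 624) (nat_lit 6640)) (.a (.f (nat_lit 624) (nat_lit 495) (nat_lit 7663) (.d (nat_lit 625) (nat_lit 593) (nat_lit 4592) (nat_lit 657) (nat_lit 4624))) (.f (nat_lit 495) (nat_lit 463) (nat_lit 7631) (.f (nat_lit 497) (nat_lit 465) (nat_lit 6608) (.f (nat_lit 498) (nat_lit 499) (nat_lit 1519) (.f (nat_lit 593) (nat_lit 625) (nat_lit 4592) (.d (nat_lit 466) (nat_lit 467) (nat_lit 2511) (nat_lit 561) (nat_lit 6609))))))))) (.a (.p (nat_lit 530) (.a (.f (nat_lit 499) (nat_lit 498) (nat_lit 2543) (.f (nat_lit 531) (nat_lit 500) (nat_lit 2544) (.d (nat_lit 532) (nat_lit 497) (nat_lit 3568) (nat_lit 561) (nat_lit 1552)))) (.a (.f (nat_lit 499) (nat_lit 498) (nat_lit 2543) (.f (nat_lit 531) (nat_lit 500) (nat_lit 2544) (.f (nat_lit 561) (nat_lit 532) (nat_lit 1552) (.d (nat_lit 464) (nat_lit 432) (nat_lit 4528) (nat_lit 593) (nat_lit 4560))))) (.a (.d (nat_lit 495) (nat_lit 494) (nat_lit 3566) (nat_lit 531) (nat_lit 3567)) (.f (nat_lit 495) (nat_lit 494) (nat_lit 3566) (.f (nat_lit 463) (nat_lit 431) (nat_lit 4527) (.f (nat_lit 498) (nat_lit 499) (nat_lit 2543) (.f (nat_lit 497) (nat_lit 462) (nat_lit 3534) (.f (nat_lit 466) (nat_lit 467) (nat_lit 2511) (.d (nat_lit 434) (nat_lit 402) (nat_lit 5521) (nat_lit 561) (nat_lit 5553))))))))))) (.a (.p (nat_lit 592) (.a (.d (nat_lit 497) (nat_lit 465) (nat_lit 6608) (nat_lit 624) (nat_lit 6640)) (.a (.f (nat_lit 624) (nat_lit 495) (nat_lit 7663) (.d (nat_lit 625) (nat_lit 593) (nat_lit 4592) (nat_lit 657) (nat_lit 4624))) (.f (nat_lit 497) (nat_lit 465) (nat_lit 6608) (.f (nat_lit 593) (nat_lit 625) (nat_lit 4592) (.f (nat_lit 561) (nat_lit 464) (nat_lit 4560) (.d (nat_lit 498) (nat_lit 466) (nat_lit 6609) (nat_lit 499) (nat_lit 1519)))))))) (.p (nat_lit 592) (.a (.d (nat_lit 497) (nat_lit 465) (nat_lit 6608) (nat_lit 624) (nat_lit 6640)) (.a (.f (nat_lit 624) (nat_lit 495) (nat_lit 7663) (.d (nat_lit 623) (nat_lit 591) (nat_lit 5615) (nat_lit 655) (nat_lit 5647))) (.f (nat_lit 463) (nat_lit 495) (nat_lit 7631) (.f (nat_lit 464) (nat_lit 431) (nat_lit 7599) (.d (nat_lit 465) (nat_lit 433) (nat_lit 6576) (nat_lit 497) (nat_lit 6608)))))))))))))) (.a s33697 (.a s27199 s33102))))))) (.a (.p (nat_lit 526) (.a (.f (nat_lit 557) (nat_lit 558) (nat_lit 1549) (.f (nat_lit 525) (nat_lit 556) (nat_lit 1548) (.d (nat_lit 493) (nat_lit 492) (nat_lit 3564) (nat_lit 494) (nat_lit 3565)))) (.a (.f (nat_lit 558) (nat_lit 557) (nat_lit 1549) (.f (nat_lit 530) (nat_lit 559) (nat_lit 1550) (.d (nat_lit 498) (nat_lit 497) (nat_lit 2542) (nat_lit 499) (nat_lit 2543)))) (.f (nat_lit 497) (nat_lit 498) (nat_lit 2542) (.f (nat_lit 525) (nat_lit 496) (nat_lit 2541) (.d (nat_lit 493) (nat_lit 492) (nat_lit 3564) (nat_lit 494) (nat_lit 3565))))))) (.a (.p (nat_lit 526) (.a (.f (nat_lit 557) (nat_lit 558) (nat_lit 1549) (.f (nat_lit 525) (nat_lit 556) (nat_lit 1548) (.d (nat_lit 493) (nat_lit 492) (nat_lit 3564) (nat_lit 494) (nat_lit 3565)))) (.a (.f (nat_lit 494) (nat_lit 493) (nat_lit 3565) (.f (nat_lit 530) (nat_lit 495) (nat_lit 3566) (.d (nat_lit 498) (nat_lit 497) (nat_lit 2542) (nat_lit 499) (nat_lit 2543)))) (.f (nat_lit 497) (nat_lit 498) (nat_lit 2542) (.f (nat_lit 525) (nat_lit 496) (nat_lit 2541) (.d (nat_lit 557) (nat_lit 556) (nat_lit 1548) (nat_lit 558) (nat_lit 1549))))))) (.a s33703 (.a s33708 (.a s33738 (.a s33752 (.a s33777 (.a (.p (nat_lit 530) (.a (.f (nat_lit 559) (nat_lit 558) (nat_lit 1550) (.f (nat_lit 560) (nat_lit 531) (nat_lit 1551) (.f (nat_lit 495) (nat_lit 494) (nat_lit 3566) (.d (nat_lit 463) (nat_lit 431) (nat_lit 4527) (nat_lit 592) (nat_lit 4559))))) (.a (.f (nat_lit 498) (nat_lit 499) (nat_lit 2543) (.f (nat_lit 526) (nat_lit 497) (nat_lit 2542) (.d (nat_lit 494) (nat_lit 493) (nat_lit 3565) (nat_lit 495) (nat_lit 3566)))) (.f (nat_lit 559) (nat_lit 558) (nat_lit 1550) (.f (nat_lit 531) (nat_lit 560) (nat_lit 1551) (.d (nat_lit 499) (nat_lit 498) (nat_lit 2543) (nat_lit 500) (nat_lit 2544))))))) (.p (nat_lit 530) (.a (.f (nat_lit 559) (nat_lit 558) (nat_lit 1550) (.f (nat_lit 560) (nat_lit 531) (nat_lit 1551) (.f (nat_lit 495) (nat_lit 494) (nat_lit 3566) (.d (nat_lit 463) (nat_lit 431) (nat_lit 4527) (nat_lit 592) (nat_lit 4559))))) (.a (.f (nat_lit 498) (nat_lit 499) (nat_lit 2543) (.f (nat_lit 526) (nat_lit 497) (nat_lit 2542) (.d (nat_lit 558) (nat_lit 557) (nat_lit 1549) (nat_lit 559) (nat_lit 1550)))) (.f (nat_lit 495) (nat_lit 494) (nat_lit 3566) (.f (nat_lit 531) (nat_lit 496) (nat_lit 3567) (.d (nat_lit 499) (nat_lit 498) (nat_lit 2543) (nat_lit 500) (nat_lit 2544))))))))))))))))))) (.a (.p (nat_lit 527) (.a (.p (nat_lit 530) (.a (.f (nat_lit 559) (nat_lit 558) (nat_lit 1550) (.f (nat_lit 560) (nat_lit 531) (nat_lit 1551) (.f (nat_lit 495) (nat_lit 494) (nat_lit 3566) (.d (nat_lit 463) (nat_lit 431) (nat_lit 4527) (nat_lit 592) (nat_lit 4559))))) (.a (.f (nat_lit 562) (nat_lit 563) (nat_lit 527) (.f (nat_lit 526) (nat_lit 561) (nat_lit 526) (.d (nat_lit 494) (nat_lit 493) (nat_lit 3565) (nat_lit 495) (nat_lit 3566)))) (.f (nat_lit 562) (nat_lit 563) (nat_lit 527) (.f (nat_lit 526) (nat_lit 561) (nat_lit 526) (.d (nat_lit 558) (nat_lit 557) (nat_lit 1549) (nat_lit 559) (nat_lit 1550))))))) (.a (.p (nat_lit 530) (.a (.f (nat_lit 562) (nat_lit 563) (nat_lit 527) (.f (nat_lit 526) (nat_lit 561) (nat_lit 526) (.d (nat_lit 494) (nat_lit 493) (nat_lit 3565) (nat_lit 495) (nat_lit 3566)))) (.a (.f (nat_lit 495) (nat_lit 494) (nat_lit 3566) (.f (nat_lit 496) (nat_lit 531) (nat_lit 3567) (.f (nat_lit 559) (nat_lit 558) (nat_lit 1550) (.d (nat_lit 464) (nat_lit 432) (nat_lit 5551) (nat_lit 591) (nat_lit 6607))))) (.f (nat_lit 562) (nat_lit 563) (nat_lit 527) (.f (nat_lit 526) (nat_lit 561) (nat_lit 526) (.d (nat_lit 558) (nat_lit 557) (nat_lit 1549) (nat_lit 559) (nat_lit 1550))))))) (.a (.p (nat_lit 560) (.a (.p (nat_lit 530) (.a (.d (nat_lit 559) (nat_lit 531) (nat_lit 1551) (nat_lit 558) (nat_lit 1550)) (.a (.f (nat_lit 495) (nat_lit 494) (nat_lit 3566) (.f (nat_lit 496) (nat_lit 531) (nat_lit 3567) (.d (nat_lit 463) (nat_lit 431) (nat_lit 4527) (nat_lit 592) (nat_lit 7631)))) (.f (nat_lit 559) (nat_lit 558) (nat_lit 1550) (.f (nat_lit 495) (nat_lit 494) (nat_lit 3566) (.d (nat_lit 463) (nat_lit 431) (nat_lit 4527) (nat_lit 592) (nat_lit 4559))))))) (.a s33768 (.a s33051 (.a (.p (nat_lit 530) (.a (.f (nat_lit 495) (nat_lit 494) (nat_lit 3566) (.f (nat_lit 496) (nat_lit 531) (nat_lit 3567) (.d (nat_lit 463) (nat_lit 431) (nat_lit 4527) (nat_lit 592) (nat_lit 7631)))) (.a (.f (nat_lit 563) (nat_lit 562) (nat_lit 527) (.f (nat_lit 531) (nat_lit 564) (nat_lit 528) (.f (nat_lit 532) (nat_lit 561) (nat_lit 1552) (.d (nat_lit 500) (nat_lit 499) (nat_lit 2544) (nat_lit 501) (nat_lit 2545))))) (.f (nat_lit 495) (nat_lit 494) (nat_lit 3566) (.f (nat_lit 592) (nat_lit 624) (nat_lit 7663) (.d (nat_lit 463) (nat_lit 431) (nat_lit 4527) (nat_lit 496) (nat_lit 7631))))))) (.a s33276 (.p (nat_lit 530) (.a (.d (nat_lit 559) (nat_lit 531) (nat_lit 1551) (nat_lit 558) (nat_lit 1550)) (.a (.f (nat_lit 563) (nat_lit 562) (nat_lit 527) (.f (nat_lit 531) (nat_lit 564) (nat_lit 528) (.f (nat_lit 532) (nat_lit 561) (nat_lit 1552) (.d (nat_lit 500) (nat_lit 499) (nat_lit 2544) (nat_lit 501) (nat_lit 2545))))) (.f (nat_lit 559) (nat_lit 558) (nat_lit 1550) (.f (nat_lit 495) (nat_lit 494) (nat_lit 3566) (.f (nat_lit 463) (nat_lit 431) (nat_lit 4527) (.f (nat_lit 464) (nat_lit 432) (nat_lit 6575) (.f (nat_lit 591) (nat_lit 496) (nat_lit 5583) (.f (nat_lit 562) (nat_lit 563) (nat_lit 527) (.d (nat_lit 590) (nat_lit 561) (nat_lit 1582) (nat_lit 622) (nat_lit 5614))))))))))))))))) (.a s33178 (.a s33193 (.a s33707 (.a s33705 (.a s33740 (.a s33777 (.a s33758 (.p (nat_lit 530) (.a (.f (nat_lit 559) (nat_lit 558) (nat_lit 1550) (.f (nat_lit 560) (nat_lit 531) (nat_lit 1551) (.f (nat_lit 495) (nat_lit 494) (nat_lit 3566) (.d (nat_lit 463) (nat_lit 431) (nat_lit 4527) (nat_lit 592) (nat_lit 4559))))) (.a (.f (nat_lit 562) (nat_lit 563) (nat_lit 527) (.f (nat_lit 526) (nat_lit 561) (nat_lit 526) (.d (nat_lit 558) (nat_lit 557) (nat_lit 1549) (nat_lit 559) (nat_lit 1550)))) (.f (nat_lit 495) (nat_lit 494) (nat_lit 3566) (.f (nat_lit 531) (nat_lit 496) (nat_lit 3567) (.d (nat_lit 563) (nat_lit 562) (nat_lit 527) (nat_lit 564) (nat_lit 528)))))))))))))))))) (.a (.p (nat_lit 527) (.a (.p (nat_lit 530) (.a (.f (nat_lit 498) (nat_lit 499) (nat_lit 2543) (.f (nat_lit 562) (nat_lit 563) (nat_lit 527) (.d (nat_lit 526) (nat_lit 497) (nat_lit 2542) (nat_lit 561) (nat_lit 526)))) (.f (nat_lit 559) (nat_lit 558) (nat_lit 1550) (.f (nat_lit 560) (nat_lit 531) (nat_lit 1551) (.f (nat_lit 495) (nat_lit 494) (nat_lit 3566) (.d (nat_lit 463) (nat_lit 431) (nat_lit 4527) (nat_lit 592) (nat_lit 4559))))))) (.a s14708 (.a s32984 (.a s33182 (.a (.p (nat_lit 560) (.a (.p (nat_lit 526) (.a (.d (nat_lit 561) (nat_lit 525) (nat_lit 525) (nat_lit 562) (nat_lit 526)) (.a (.f (nat_lit 561) (nat_lit 562) (nat_lit 526) (.f (nat_lit 497) (nat_lit 498) (nat_lit 2542) (.d (nat_lit 465) (nat_lit 433) (nat_lit 5552) (nat_lit 592) (nat_lit 5584)))) (.f (nat_lit 497) (nat_lit 498) (nat_lit 2542) (.f (nat_lit 496) (nat_lit 525) (nat_lit 2541) (.d (nat_lit 465) (nat_lit 433) (nat_lit 5552) (nat_lit 592) (nat_lit 6608))))))) (.a s33382 (.a s33024 (.a s33302 (.a s33383 s33384)))))) (.a s33130 (.a (.p (nat_lit 530) (.a (.f (nat_lit 499) (nat_lit 498) (nat_lit 2543) (.f (nat_lit 531) (nat_lit 500) (nat_lit 2544) (.d (nat_lit 563) (nat_lit 562) (nat_lit 527) (nat_lit 564) (nat_lit 528)))) (.a (.f (nat_lit 498) (nat_lit 499) (nat_lit 2543) (.f (nat_lit 526) (nat_lit 497) (nat_lit 2542) (.d (nat_lit 558) (nat_lit 557) (nat_lit 1549) (nat_lit 559) (nat_lit 1550)))) (.f (nat_lit 559) (nat_lit 558) (nat_lit 1550) (.f (nat_lit 531) (nat_lit 560) (nat_lit 1551) (.d (nat_lit 563) (nat_lit 562) (nat_lit 527) (nat_lit 564) (nat_lit 528))))))) (.a (.p (nat_lit 530) (.a (.f (nat_lit 559) (nat_lit 558) (nat_lit 1550) (.f (nat_lit 560) (nat_lit 531) (nat_lit 1551) (.f (nat_lit 495) (nat_lit 494) (nat_lit 3566) (.d (nat_lit 463) (nat_lit 431) (nat_lit 4527) (nat_lit 592) (nat_lit 4559))))) (.a (.f (nat_lit 498) (nat_lit 499) (nat_lit 2543) (.f (nat_lit 526) (nat_lit 497) (nat_lit 2542) (.d (nat_lit 558) (nat_lit 557) (nat_lit 1549) (nat_lit 559) (nat_lit 1550)))) (.f (nat_lit 495) (nat_lit 494) (nat_lit 3566) (.f (nat_lit 531) (nat_lit 496) (nat_lit 3567) (.d (nat_lit 499) (nat_lit 498) (nat_lit 2543) (nat_lit 500) (nat_lit 2544))))))) (.p (nat_lit 530) (.a (.f (nat_lit 559) (nat_lit 558) (nat_lit 1550) (.f (nat_lit 560) (nat_lit 531) (nat_lit 1551) (.f (nat_lit 495) (nat_lit 494) (nat_lit 3566) (.d (nat_lit 463) (nat_lit 431) (nat_lit 4527) (nat_lit 592) (nat_lit 4559))))) (.a (.f (nat_lit 562) (nat_lit 563) (nat_lit 527) (.f (nat_lit 526) (nat_lit 561) (nat_lit 526) (.d (nat_lit 558) (nat_lit 557) (nat_lit 1549) (nat_lit 559) (nat_lit 1550)))) (.f (nat_lit 495) (nat_lit 494) (nat_lit 3566) (.f (nat_lit 531) (nat_lit 496) (nat_lit 3567) (.d (nat_lit 563) (nat_lit 562) (nat_lit 527) (nat_lit 564) (nat_lit 528)))))))))))))))) (.a (.p (nat_lit 527) (.a (.p (nat_lit 530) (.a (.f (nat_lit 498) (nat_lit 499) (nat_lit 2543) (.f (nat_lit 562) (nat_lit 563) (nat_lit 527) (.d (nat_lit 526) (nat_lit 497) (nat_lit 2542) (nat_lit 561) (nat_lit 526)))) (.f (nat_lit 559) (nat_lit 558) (nat_lit 1550) (.f (nat_lit 560) (nat_lit 531) (nat_lit 1551) (.f (nat_lit 495) (nat_lit 494) (nat_lit 3566) (.d (nat_lit 463) (nat_lit 431) (nat_lit 4527) (nat_lit 592) (nat_lit 4559))))))) (.a s14755 (.a s32984 (.a s33179 (.a (.p (nat_lit 560) (.a (.p (nat_lit 526) (.a (.d (nat_lit 561) (nat_lit 525) (nat_lit 525) (nat_lit 562) (nat_lit 526)) (.a (.f (nat_lit 561) (nat_lit 562) (nat_lit 526) (.f (nat_lit 497) (nat_lit 498) (nat_lit 2542) (.d (nat_lit 465) (nat_lit 433) (nat_lit 5552) (nat_lit 592) (nat_lit 5584)))) (.f (nat_lit 497) (nat_lit 498) (nat_lit 2542) (.f (nat_lit 496) (nat_lit 525) (nat_lit 2541) (.d (nat_lit 465) (nat_lit 433) (nat_lit 5552) (nat_lit 592) (nat_lit 6608))))))) (.a s2985 (.a s33187 (.a s33294 (.a s33702 (.a s2618 s33380))))))) (.a (.p (nat_lit 530) (.a (.f (nat_lit 559) (nat_lit 558) (nat_lit 1550) (.f (nat_lit 560) (nat_lit 531) (nat_lit 1551) (.f (nat_lit 495) (nat_lit 494) (nat_lit 3566) (.d (nat_lit 463) (nat_lit 431) (nat_lit 4527) (nat_lit 592) (nat_lit 4559))))) (.a (.f (nat_lit 499) (nat_lit 498) (nat_lit 2543) (.f (nat_lit 531) (nat_lit 500) (nat_lit 2544) (.d (nat_lit 563) (nat_lit 562) (nat_lit 527) (nat_lit 564) (nat_lit 528)))) (.f (nat_lit 562) (nat_lit 563) (nat_lit 527) (.f (nat_lit 526) (nat_lit 561) (nat_lit 526) (.d (nat_lit 494) (nat_lit 493) (nat_lit 3565) (nat_lit 495) (nat_lit 3566))))))) (.a (.p (nat_lit 530) (.a (.f (nat_lit 559) (nat_lit 558) (nat_lit 1550) (.f (nat_lit 560) (nat_lit 531) (nat_lit 1551) (.f (nat_lit 495) (nat_lit 494) (nat_lit 3566) (.d (nat_lit 463) (nat_lit 431) (nat_lit 4527) (nat_lit 592) (nat_lit 4559))))) (.a (.f (nat_lit 499) (nat_lit 498) (nat_lit 2543) (.f (nat_lit 531) (nat_lit 500) (nat_lit 2544) (.d (nat_lit 563) (nat_lit 562) (nat_lit 527) (nat_lit 564) (nat_lit 528)))) (.f (nat_lit 498) (nat_lit 499) (nat_lit 2543) (.f (nat_lit 526) (nat_lit 497) (nat_lit 2542) (.d (nat_lit 494) (nat_lit 493) (nat_lit 3565) (nat_lit 495) (nat_lit 3566))))))) (.a (.p (nat_lit 530) (.a (.f (nat_lit 559) (nat_lit 558) (nat_lit 1550) (.f (nat_lit 560) (nat_lit 531) (nat_lit 1551) (.f (nat_lit 495) (nat_lit 494) (nat_lit 3566) (.d (nat_lit 463) (nat_lit 431) (nat_lit 4527) (nat_lit 592) (nat_lit 4559))))) (.a (.f (nat_lit 498) (nat_lit 499) (nat_lit 2543) (.f (nat_lit 526) (nat_lit 497) (nat_lit 2542) (.d (nat_lit 494) (nat_lit 493) (nat_lit 3565) (nat_lit 495) (nat_lit 3566)))) (.f (nat_lit 559) (nat_lit 558) (nat_lit 1550) (.f (nat_lit 531) (nat_lit 560) (nat_lit 1551) (.d (nat_lit 499) (nat_lit 498) (nat_lit 2543) (nat_lit 500) (nat_lit 2544))))))) (.a s33740 s33741)))))))))) (.a (.p (nat_lit 527) (.a (.p (nat_lit 530) (.a (.f (nat_lit 498) (nat_lit 499) (nat_lit 2543) (.f (nat_lit 562) (nat_lit 563) (nat_lit 527) (.d (nat_lit 526) (nat_lit 497) (nat_lit 2542) (nat_lit 561) (nat_lit 526)))) (.f (nat_lit 559) (nat_lit 558) (nat_lit 1550) (.f (nat_lit 560) (nat_lit 531) (nat_lit 1551) (.f (nat_lit 495) (nat_lit 494) (nat_lit 3566) (.d (nat_lit 463) (nat_lit 431) (nat_lit 4527) (nat_lit 592) (nat_lit 4559))))))) (.a s14755 (.a (.p (nat_lit 560) (.a (.p (nat_lit 530) (.a (.d (nat_lit 559) (nat_lit 531) (nat_lit 1551) (nat_lit 558) (nat_lit 1550)) (.a (.f (nat_lit 495) (nat_lit 494) (nat_lit 3566) (.f (nat_lit 496) (nat_lit 531) (nat_lit 3567) (.d (nat_lit 463) (nat_lit 431) (nat_lit 4527) (nat_lit 592) (nat_lit 7631)))) (.f (nat_lit 559) (nat_lit 558) (nat_lit 1550) (.f (nat_lit 495) (nat_lit 494) (nat_lit 3566) (.d (nat_lit 463) (nat_lit 431) (nat_lit 4527) (nat_lit 592) (nat_lit 4559))))))) (.a (.p (nat_lit 530) (.a (.d (nat_lit 559) (nat_lit 531) (nat_lit 1551) (nat_lit 558) (nat_lit 1550)) (.a (.f (nat_lit 563) (nat_lit 562) (nat_lit 527) (.f (nat_lit 531) (nat_lit 564) (nat_lit 528) (.d (nat_lit 499) (nat_lit 498) (nat_lit 2543) (nat_lit 500) (nat_lit 2544)))) (.f (nat_lit 559) (nat_lit 558) (nat_lit 1550) (.f (nat_lit 495) (nat_lit 494) (nat_lit 3566) (.d (nat_lit 463) (nat_lit 431) (nat_lit 4527) (nat_lit 592) (nat_lit 4559))))))) (.a s33053 (.a (.p (nat_lit 530) (.a (.f (nat_lit 495) (nat_lit 494) (nat_lit 3566) (.f (nat_lit 496) (nat_lit 531) (nat_lit 3567) (.d (nat_lit 463) (nat_lit 431) (nat_lit 4527) (nat_lit 592) (nat_lit 7631)))) (.a (.f (nat_lit 563) (nat_lit 562) (nat_lit 527) (.f (nat_lit 531) (nat_lit 564) (nat_lit 528) (.d (nat_lit 499) (nat_lit 498) (nat_lit 2543) (nat_lit 500) (nat_lit 2544)))) (.f (nat_lit 495) (nat_lit 494) (nat_lit 3566) (.f (nat_lit 592) (nat_lit 624) (nat_lit 7663) (.d (nat_lit 463) (nat_lit 431) (nat_lit 4527) (nat_lit 496) (nat_lit 7631))))))) (.a (.p (nat_lit 496) (.a (.p (nat_lit 592) (.a (.d (nat_lit 497) (nat_lit 465) (nat_lit 6608) (nat_lit 624) (nat_lit 6640)) (.f (nat_lit 591) (nat_lit 623) (nat_lit 5615) (.f (nat_lit 464) (nat_lit 559) (nat_lit 5583) (.f (nat_lit 432) (nat_lit 561) (nat_lit 4528) (.d (nat_lit 431) (nat_lit 399) (nat_lit 7567) (nat_lit 463) (nat_lit 7599))))))) (.a (.p (nat_lit 592) (.a (.d (nat_lit 497) (nat_lit 465) (nat_lit 6608) (nat_lit 624) (nat_lit 6640)) (.a (.f (nat_lit 624) (nat_lit 495) (nat_lit 7663) (.d (nat_lit 623) (nat_lit 591) (nat_lit 5615) (nat_lit 655) (nat_lit 5647))) (.f (nat_lit 463) (nat_lit 495) (nat_lit 7631) (.f (nat_lit 464) (nat_lit 431) (nat_lit 7599) (.d (nat_lit 465) (nat_lit 433) (nat_lit 6576) (nat_lit 497) (nat_lit 6608))))))) (.a (.p (nat_lit 592) (.a (.f (nat_lit 591) (nat_lit 623) (nat_lit 5615) (.f (nat_lit 464) (nat_lit 559) (nat_lit 5583) (.f (nat_lit 432) (nat_lit 561) (nat_lit 4528) (.d (nat_lit 431) (nat_lit 399) (nat_lit 7567) (nat_lit 463) (nat_lit 7599))))) (.a (.f (nat_lit 624) (nat_lit 495) (nat_lit 7663) (.d (nat_lit 623) (nat_lit 591) (nat_lit 5615) (nat_lit 655) (nat_lit 5647))) (.d (nat_lit 495) (nat_lit 463) (nat_lit 7631) (nat_lit 624) (nat_lit 7663))))) (.a (.p (nat_lit 592) (.a (.d (nat_lit 497) (nat_lit 465) (nat_lit 6608) (nat_lit 624) (nat_lit 6640)) (.a (.f (nat_lit 624) (nat_lit 495) (nat_lit 7663) (.d (nat_lit 623) (nat_lit 591) (nat_lit 5615) (nat_lit 655) (nat_lit 5647))) (.f (nat_lit 495) (nat_lit 463) (nat_lit 7631) (.f (nat_lit 497) (nat_lit 465) (nat_lit 6608) (.f (nat_lit 494) (nat_lit 493) (nat_lit 493) (.f (nat_lit 591) (nat_lit 623) (nat_lit 5615) (.d (nat_lit 462) (nat_lit 461) (nat_lit 3533) (nat_lit 559) (nat_lit 7630))))))))) (.a (.p (nat_lit 464) (.a (.d (nat_lit 559) (nat_lit 432) (nat_lit 5551) (nat_lit 591) (nat_lit 5583)) (.a (.f (nat_lit 431) (nat_lit 463) (nat_lit 7599) (.f (nat_lit 432) (nat_lit 399) (nat_lit 7567) (.d (nat_lit 400) (nat_lit 495) (nat_lit 5519) (nat_lit 497) (nat_lit 4496)))) (.f (nat_lit 559) (nat_lit 591) (nat_lit 5583) (.f (nat_lit 463) (nat_lit 431) (nat_lit 7599) (.f (nat_lit 465) (nat_lit 433) (nat_lit 6576) (.f (nat_lit 558) (nat_lit 557) (nat_lit 2573) (.f (nat_lit 495) (nat_lit 590) (nat_lit 5582) (.d (nat_lit 466) (nat_lit 467) (nat_lit 1487) (nat_lit 494) (nat_lit 1486)))))))))) (.a (.p (nat_lit 592) (.a (.d (nat_lit 497) (nat_lit 465) (nat_lit 6608) (nat_lit 624) (nat_lit 6640)) (.a (.d (nat_lit 495) (nat_lit 463) (nat_lit 7631) (nat_lit 624) (nat_lit 7663)) (.f (nat_lit 463) (nat_lit 495) (nat_lit 7631) (.f (nat_lit 464) (nat_lit 431) (nat_lit 7599) (.d (nat_lit 465) (nat_lit 433) (nat_lit 6576) (nat_lit 497) (nat_lit 6608))))))) (.p (nat_lit 592) (.a (.d (nat_lit 497) (nat_lit 465) (nat_lit 6608) (nat_lit 624) (nat_lit 6640)) (.a (.f (nat_lit 624) (nat_lit 495) (nat_lit 7663) (.d (nat_lit 623) (nat_lit 591) (nat_lit 5615) (nat_lit 655) (nat_lit 5647))) (.f (nat_lit 497) (nat_lit 465) (nat_lit 6608) (.f (nat_lit 591) (nat_lit 623) (nat_lit 5615) (.f (nat_lit 464) (nat_lit 559) (nat_lit 5583) (.d (nat_lit 432) (nat_lit 400) (nat_lit 4496) (nat_lit 561) (nat_lit 4528))))))))))))))) s32965)))))) (.a s14708 (.a s32988 (.a (.p (nat_lit 530) (.a (.f (nat_lit 559) (nat_lit 558) (nat_lit 1550) (.f (nat_lit 560) (nat_lit 531) (nat_lit 1551) (.f (nat_lit 495) (nat_lit 494) (nat_lit 3566) (.d (nat_lit 463) (nat_lit 431) (nat_lit 4527) (nat_lit 592) (nat_lit 4559))))) (.a (.f (nat_lit 499) (nat_lit 498) (nat_lit 2543) (.f (nat_lit 531) (nat_lit 500) (nat_lit 2544) (.d (nat_lit 563) (nat_lit 562) (nat_lit 527) (nat_lit 564) (nat_lit 528)))) (.f (nat_lit 562) (nat_lit 563) (nat_lit 527) (.f (nat_lit 526) (nat_lit 561) (nat_lit 526) (.d (nat_lit 494) (nat_lit 493) (nat_lit 3565) (nat_lit 495) (nat_lit 3566))))))) (.a (.p (nat_lit 530) (.a (.f (nat_lit 559) (nat_lit 558) (nat_lit 1550) (.f (nat_lit 560) (nat_lit 531) (nat_lit 1551) (.f (nat_lit 495) (nat_lit 494) (nat_lit 3566) (.d (nat_lit 463) (nat_lit 431) (nat_lit 4527) (nat_lit 592) (nat_lit 4559))))) (.a (.f (nat_lit 499) (nat_lit 498) (nat_lit 2543) (.f (nat_lit 531) (nat_lit 500) (nat_lit 2544) (.d (nat_lit 563) (nat_lit 562) (nat_lit 527) (nat_lit 564) (nat_lit 528)))) (.f (nat_lit 498) (nat_lit 499) (nat_lit 2543) (.f (nat_lit 526) (nat_lit 497) (nat_lit 2542) (.d (nat_lit 494) (nat_lit 493) (nat_lit 3565) (nat_lit 495) (nat_lit 3566))))))) (.a (.p (nat_lit 530) (.a (.f (nat_lit 559) (nat_lit 558) (nat_lit 1550) (.f (nat_lit 560) (nat_lit 531) (nat_lit 1551) (.f (nat_lit 495) (nat_lit 494) (nat_lit 3566) (.d (nat_lit 463) (nat_lit 431) (nat_lit 4527) (nat_lit 592) (nat_lit 4559))))) (.a (.f (nat_lit 498) (nat_lit 499) (nat_lit 2543) (.f (nat_lit 526) (nat_lit 497) (nat_lit 2542) (.d (nat_lit 494) (nat_lit 493) (nat_lit 3565) (nat_lit 495) (nat_lit 3566)))) (.f (nat_lit 498) (nat_lit 499) (nat_lit 2543) (.f (nat_lit 526) (nat_lit 497) (nat_lit 2542) (.d (nat_lit 558) (nat_lit 557) (nat_lit 1549) (nat_lit 559) (nat_lit 1550))))))) (.p (nat_lit 530) (.a (.f (nat_lit 559) (nat_lit 558) (nat_lit 1550) (.f (nat_lit 560) (nat_lit 531) (nat_lit 1551) (.f (nat_lit 495) (nat_lit 494) (nat_lit 3566) (.d (nat_lit 463) (nat_lit 431) (nat_lit 4527) (nat_lit 592) (nat_lit 4559))))) (.a (.f (nat_lit 562) (nat_lit 563) (nat_lit 527) (.f (nat_lit 526) (nat_lit 561) (nat_lit 526) (.d (nat_lit 494) (nat_lit 493) (nat_lit 3565) (nat_lit 495) (nat_lit 3566)))) (.f (nat_lit 562) (nat_lit 563) (nat_lit 527) (.f (nat_lit 526) (nat_lit 561) (nat_lit 526) (.d (nat_lit 558) (nat_lit 557) (nat_lit 1549) (nat_lit 559) (nat_lit 1550)))))))))))))))) (.a (.p (nat_lit 527) (.a (.p (nat_lit 530) (.a (.f (nat_lit 498) (nat_lit 499) (nat_lit 2543) (.f (nat_lit 562) (nat_lit 563) (nat_lit 527) (.d (nat_lit 526) (nat_lit 497) (nat_lit 2542) (nat_lit 561) (nat_lit 526)))) (.f (nat_lit 559) (nat_lit 558) (nat_lit 1550) (.f (nat_lit 560) (nat_lit 531) (nat_lit 1551) (.f (nat_lit 495) (nat_lit 494) (nat_lit 3566) (.d (nat_lit 463) (nat_lit 431) (nat_lit 4527) (nat_lit 592) (nat_lit 4559))))))) (.a s14755 (.a (.p (nat_lit 560) (.a (.p (nat_lit 530) (.a (.d (nat_lit 559) (nat_lit 531) (nat_lit 1551) (nat_lit 558) (nat_lit 1550)) (.a (.f (nat_lit 495) (nat_lit 494) (nat_lit 3566) (.f (nat_lit 496) (nat_lit 531) (nat_lit 3567) (.d (nat_lit 463) (nat_lit 431) (nat_lit 4527) (nat_lit 592) (nat_lit 7631)))) (.f (nat_lit 559) (nat_lit 558) (nat_lit 1550) (.f (nat_lit 495) (nat_lit 494) (nat_lit 3566) (.d (nat_lit 463) (nat_lit 431) (nat_lit 4527) (nat_lit 592) (nat_lit 4559))))))) (.a (.p (nat_lit 530) (.a (.d (nat_lit 559) (nat_lit 531) (nat_lit 1551) (nat_lit 558) (nat_lit 1550)) (.a (.f (nat_lit 563) (nat_lit 562) (nat_lit 527) (.f (nat_lit 531) (nat_lit 564) (nat_lit 528) (.d (nat_lit 499) (nat_lit 498) (nat_lit 2543) (nat_lit 500) (nat_lit 2544)))) (.f (nat_lit 559) (nat_lit 558) (nat_lit 1550) (.f (nat_lit 495) (nat_lit 494) (nat_lit 3566) (.d (nat_lit 463) (nat_lit 431) (nat_lit 4527) (nat_lit 592) (nat_lit 4559))))))) (.a s32932 (.a s33377 (.p (nat_lit 530) (.a (.f (nat_lit 495) (nat_lit 494) (nat_lit 3566) (.f (nat_lit 496) (nat_lit 531) (nat_lit 3567) (.d (nat_lit 463) (nat_lit 431) (nat_lit 4527) (nat_lit 592) (nat_lit 7631)))) (.a (.f (nat_lit 563) (nat_lit 562) (nat_lit 527) (.f (nat_lit 531) (nat_lit 564) (nat_lit 528) (.d (nat_lit 499) (nat_lit 498) (nat_lit 2543) (nat_lit 500) (nat_lit 2544)))) (.f (nat_lit 495) (nat_lit 494) (nat_lit 3566) (.f (nat_lit 592) (nat_lit 624) (nat_lit 7663) (.d (nat_lit 463) (nat_lit 431) (nat_lit 4527) (nat_lit 496) (nat_lit 7631)))))))))))) (.a s14708 (.a s33148 (.a (.p (nat_lit 530) (.a (.f (nat_lit 559) (nat_lit 558) (nat_lit 1550) (.f (nat_lit 560) (nat_lit 531) (nat_lit 1551) (.f (nat_lit 495) (nat_lit 494) (nat_lit 3566) (.d (nat_lit 463) (nat_lit 431) (nat_lit 4527) (nat_lit 592) (nat_lit 4559))))) (.a (.f (nat_lit 499) (nat_lit 498) (nat_lit 2543) (.f (nat_lit 531) (nat_lit 500) (nat_lit 2544) (.d (nat_lit 563) (nat_lit 562) (nat_lit 527) (nat_lit 564) (nat_lit 528)))) (.f (nat_lit 562) (nat_lit 563) (nat_lit 527) (.f (nat_lit 526) (nat_lit 561) (nat_lit 526) (.d (nat_lit 494) (nat_lit 493) (nat_lit 3565) (nat_lit 495) (nat_lit 3566))))))) (.a (.p (nat_lit 530) (.a (.f (nat_lit 559) (nat_lit 558) (nat_lit 1550) (.f (nat_lit 560) (nat_lit 531) (nat_lit 1551) (.f (nat_lit 495) (nat_lit 494) (nat_lit 3566) (.d (nat_lit 463) (nat_lit 431) (nat_lit 4527) (nat_lit 592) (nat_lit 4559))))) (.a (.f (nat_lit 499) (nat_lit 498) (nat_lit 2543) (.f (nat_lit 531) (nat_lit 500) (nat_lit 2544) (.d (nat_lit 563) (nat_lit 562) (nat_lit 527) (nat_lit 564) (nat_lit 528)))) (.f (nat_lit 498) (nat_lit 499) (nat_lit 2543) (.f (nat_lit 526) (nat_lit 497) (nat_lit 2542) (.d (nat_lit 494) (nat_lit 493) (nat_lit 3565) (nat_lit 495) (nat_lit 3566))))))) (.a (.p (nat_lit 530) (.a (.f (nat_lit 559) (nat_lit 558) (nat_lit 1550) (.f (nat_lit 560) (nat_lit 531) (nat_lit 1551) (.f (nat_lit 495) (nat_lit 494) (nat_lit 3566) (.d (nat_lit 463) (nat_lit 431) (nat_lit 4527) (nat_lit 592) (nat_lit 4559))))) (.a (.f (nat_lit 498) (nat_lit 499) (nat_lit 2543) (.f (nat_lit 526) (nat_lit 497) (nat_lit 2542) (.d (nat_lit 494) (nat_lit 493) (nat_lit 3565) (nat_lit 495) (nat_lit 3566)))) (.f (nat_lit 498) (nat_lit 499) (nat_lit 2543) (.f (nat_lit 526) (nat_lit 497) (nat_lit 2542) (.d (nat_lit 558) (nat_lit 557) (nat_lit 1549) (nat_lit 559) (nat_lit 1550))))))) (.p (nat_lit 530) (.a (.f (nat_lit 559) (nat_lit 558) (nat_lit 1550) (.f (nat_lit 560) (nat_lit 531) (nat_lit 1551) (.f (nat_lit 495) (nat_lit 494) (nat_lit 3566) (.d (nat_lit 463) (nat_lit 431) (nat_lit 4527) (nat_lit 592) (nat_lit 4559))))) (.a (.f (nat_lit 562) (nat_lit 563) (nat_lit 527) (.f (nat_lit 526) (nat_lit 561) (nat_lit 526) (.d (nat_lit 494) (nat_lit 493) (nat_lit 3565) (nat_lit 495) (nat_lit 3566)))) (.f (nat_lit 562) (nat_lit 563) (nat_lit 527) (.f (nat_lit 526) (nat_lit 561) (nat_lit 526) (.d (nat_lit 558) (nat_lit 557) (nat_lit 1549) (nat_lit 559) (nat_lit 1550)))))))))))))))) (.a (.p (nat_lit 527) (.a s32988 (.a s33148 (.a (.p (nat_lit 560) (.a (.p (nat_lit 530) (.a (.d (nat_lit 559) (nat_lit 531) (nat_lit 1551) (nat_lit 558) (nat_lit 1550)) (.a (.f (nat_lit 495) (nat_lit 494) (nat_lit 3566) (.f (nat_lit 496) (nat_lit 531) (nat_lit 3567) (.d (nat_lit 463) (nat_lit 431) (nat_lit 4527) (nat_lit 592) (nat_lit 7631)))) (.f (nat_lit 559) (nat_lit 558) (nat_lit 1550) (.f (nat_lit 495) (nat_lit 494) (nat_lit 3566) (.d (nat_lit 463) (nat_lit 431) (nat_lit 4527) (nat_lit 592) (nat_lit 4559))))))) (.a s33768 (.a s33054 (.a s33276 (.a (.p (nat_lit 530) (.a (.f (nat_lit 495) (nat_lit 494) (nat_lit 3566) (.f (nat_lit 496) (nat_lit 531) (nat_lit 3567) (.d (nat_lit 463) (nat_lit 431) (nat_lit 4527) (nat_lit 592) (nat_lit 7631)))) (.a (.p (nat_lit 497) (.a (.f (nat_lit 465) (nat_lit 433) (nat_lit 5552) (.d (nat_lit 592) (nat_lit 561) (nat_lit 5584) (nat_lit 624) (nat_lit 6640))) (.a (.f (nat_lit 465) (nat_lit 433) (nat_lit 5552) (.f (nat_lit 562) (nat_lit 563) (nat_lit 527) (.d (nat_lit 594) (nat_lit 498) (nat_lit 7633) (nat_lit 626) (nat_lit 7665)))) (.f (nat_lit 563) (nat_lit 562) (nat_lit 527) (.f (nat_lit 531) (nat_lit 564) (nat_lit 528) (.f (nat_lit 532) (nat_lit 561) (nat_lit 1552) (.f (nat_lit 533) (nat_lit 498) (nat_lit 3569) (.d (nat_lit 501) (nat_lit 500) (nat_lit 2545) (nat_lit 502) (nat_lit 2546))))))))) (.a (.f (nat_lit 495) (nat_lit 494) (nat_lit 3566) (.f (nat_lit 592) (nat_lit 624) (nat_lit 7663) (.d (nat_lit 463) (nat_lit 431) (nat_lit 4527) (nat_lit 496) (nat_lit 7631)))) (.f (nat_lit 563) (nat_lit 562) (nat_lit 527) (.f (nat_lit 531) (nat_lit 564) (nat_lit 528) (.f (nat_lit 532) (nat_lit 561) (nat_lit 1552) (.f (nat_lit 497) (nat_lit 496) (nat_lit 3568) (.f (nat_lit 533) (nat_lit 498) (nat_lit 3569) (.d (nat_lit 501) (nat_lit 500) (nat_lit 2545) (nat_lit 502) (nat_lit 2546))))))))))) (.p (nat_lit 530) (.a (.d (nat_lit 559) (nat_lit 531) (nat_lit 1551) (nat_lit 558) (nat_lit 1550)) (.a (.f (nat_lit 563) (nat_lit 562) (nat_lit 527) (.f (nat_lit 531) (nat_lit 564) (nat_lit 528) (.f (nat_lit 532) (nat_lit 561) (nat_lit 1552) (.f (nat_lit 497) (nat_lit 496) (nat_lit 3568) (.f (nat_lit 533) (nat_lit 498) (nat_lit 3569) (.d (nat_lit 501) (nat_lit 500) (nat_lit 2545) (nat_lit 502) (nat_lit 2546))))))) (.f (nat_lit 559) (nat_lit 558) (nat_lit 1550) (.f (nat_lit 495) (nat_lit 494) (nat_lit 3566) (.f (nat_lit 463) (nat_lit 431) (nat_lit 4527) (.f (nat_lit 464) (nat_lit 432) (nat_lit 6575) (.f (nat_lit 591) (nat_lit 496) (nat_lit 5583) (.f (nat_lit 562) (nat_lit 563) (nat_lit 527) (.d (nat_lit 590) (nat_lit 561) (nat_lit 1582) (nat_lit 622) (nat_lit 5614))))))))))))))))) (.a s33178 (.a s33193 (.a s33703 (.a s33741 (.a s33759 (.p (nat_lit 530) (.a (.f (nat_lit 559) (nat_lit 558) (nat_lit 1550) (.f (nat_lit 560) (nat_lit 531) (nat_lit 1551) (.f (nat_lit 495) (nat_lit 494) (nat_lit 3566) (.d (nat_lit 463) (nat_lit 431) (nat_lit 4527) (nat_lit 592) (nat_lit 4559))))) (.a (.f (nat_lit 562) (nat_lit 563) (nat_lit 527) (.f (nat_lit 526) (nat_lit 561) (nat_lit 526) (.d (nat_lit 558) (nat_lit 557) (nat_lit 1549) (nat_lit 559) (nat_lit 1550)))) (.f (nat_lit 495) (nat_lit 494) (nat_lit 3566) (.f (nat_lit 531) (nat_lit 496) (nat_lit 3567) (.d (nat_lit 563) (nat_lit 562) (nat_lit 527) (nat_lit 564) (nat_lit 528)))))))))))))))) (.a (.p (nat_lit 527) (.a (.p (nat_lit 530) (.a (.f (nat_lit 498) (nat_lit 499) (nat_lit 2543) (.f (nat_lit 562) (nat_lit 563) (nat_lit 527) (.d (nat_lit 526) (nat_lit 497) (nat_lit 2542) (nat_lit 561) (nat_lit 526)))) (.f (nat_lit 559) (nat_lit 558) (nat_lit 1550) (.f (nat_lit 560) (nat_lit 531) (nat_lit 1551) (.f (nat_lit 495) (nat_lit 494) (nat_lit 3566) (.d (nat_lit 463) (nat_lit 431) (nat_lit 4527) (nat_lit 592) (nat_lit 4559))))))) (.a s14755 (.a s32984 (.a s14708 (.a (.p (nat_lit 560) (.a (.p (nat_lit 526) (.a (.d (nat_lit 561) (nat_lit 525) (nat_lit 525) (nat_lit 562) (nat_lit 526)) (.a (.f (nat_lit 561) (nat_lit 562) (nat_lit 526) (.f (nat_lit 497) (nat_lit 498) (nat_lit 2542) (.d (nat_lit 465) (nat_lit 433) (nat_lit 5552) (nat_lit 592) (nat_lit 5584)))) (.f (nat_lit 497) (nat_lit 498) (nat_lit 2542) (.f (nat_lit 496) (nat_lit 525) (nat_lit 2541) (.d (nat_lit 465) (nat_lit 433) (nat_lit 5552) (nat_lit 592) (nat_lit 6608))))))) (.a (.p (nat_lit 526) (.a (.d (nat_lit 561) (nat_lit 525) (nat_lit 525) (nat_lit 562) (nat_lit 526)) (.a (.f (nat_lit 561) (nat_lit 562) (nat_lit 526) (.f (nat_lit 497) (nat_lit 498) (nat_lit 2542) (.d (nat_lit 465) (nat_lit 433) (nat_lit 5552) (nat_lit 592) (nat_lit 5584)))) (.f (nat_lit 557) (nat_lit 558) (nat_lit 1549) (.f (nat_lit 525) (nat_lit 556) (nat_lit 1548) (.d (nat_lit 493) (nat_lit 492) (nat_lit 3564) (nat_lit 494) (nat_lit 3565))))))) (.a s33717 (.a s33296 (.p (nat_lit 526) (.a (.f (nat_lit 497) (nat_lit 498) (nat_lit 2542) (.f (nat_lit 496) (nat_lit 525) (nat_lit 2541) (.d (nat_lit 465) (nat_lit 433) (nat_lit 5552) (nat_lit 592) (nat_lit 6608)))) (.a (.f (nat_lit 557) (nat_lit 558) (nat_lit 1549) (.f (nat_lit 525) (nat_lit 556) (nat_lit 1548) (.d (nat_lit 493) (nat_lit 492) (nat_lit 3564) (nat_lit 494) (nat_lit 3565)))) (.f (nat_lit 497) (nat_lit 498) (nat_lit 2542) (.f (nat_lit 592) (nat_lit 624) (nat_lit 6640) (.d (nat_lit 465) (nat_lit 433) (nat_lit 5552) (nat_lit 496) (nat_lit 6608)))))))))))) (.a (.p (nat_lit 530) (.a (.f (nat_lit 559) (nat_lit 558) (nat_lit 1550) (.f (nat_lit 560) (nat_lit 531) (nat_lit 1551) (.f (nat_lit 495) (nat_lit 494) (nat_lit 3566) (.d (nat_lit 463) (nat_lit 431) (nat_lit 4527) (nat_lit 592) (nat_lit 4559))))) (.a (.f (nat_lit 499) (nat_lit 498) (nat_lit 2543) (.f (nat_lit 531) (nat_lit 500) (nat_lit 2544) (.d (nat_lit 563) (nat_lit 562) (nat_lit 527) (nat_lit 564) (nat_lit 528)))) (.f (nat_lit 562) (nat_lit 563) (nat_lit 527) (.f (nat_lit 526) (nat_lit 561) (nat_lit 526) (.d (nat_lit 494) (nat_lit 493) (nat_lit 3565) (nat_lit 495) (nat_lit 3566))))))) (.a (.p (nat_lit 530) (.a (.f (nat_lit 559) (nat_lit 558) (nat_lit 1550) (.f (nat_lit 560) (nat_lit 531) (nat_lit 1551) (.f (nat_lit 495) (nat_lit 494) (nat_lit 3566) (.d (nat_lit 463) (nat_lit 431) (nat_lit 4527) (nat_lit 592) (nat_lit 4559))))) (.a (.f (nat_lit 499) (nat_lit 498) (nat_lit 2543) (.f (nat_lit 531) (nat_lit 500) (nat_lit 2544) (.d (nat_lit 563) (nat_lit 562) (nat_lit 527) (nat_lit 564) (nat_lit 528)))) (.f (nat_lit 498) (nat_lit 499) (nat_lit 2543) (.f (nat_lit 526) (nat_lit 497) (nat_lit 2542) (.d (nat_lit 494) (nat_lit 493) (nat_lit 3565) (nat_lit 495) (nat_lit 3566))))))) (.a (.p (nat_lit 530) (.a (.f (nat_lit 559) (nat_lit 558) (nat_lit 1550) (.f (nat_lit 560) (nat_lit 531) (nat_lit 1551) (.f (nat_lit 495) (nat_lit 494) (nat_lit 3566) (.d (nat_lit 463) (nat_lit 431) (nat_lit 4527) (nat_lit 592) (nat_lit 4559))))) (.a (.f (nat_lit 498) (nat_lit 499) (nat_lit 2543) (.f (nat_lit 526) (nat_lit 497) (nat_lit 2542) (.d (nat_lit 494) (nat_lit 493) (nat_lit 3565) (nat_lit 495) (nat_lit 3566)))) (.f (nat_lit 498) (nat_lit 499) (nat_lit 2543) (.f (nat_lit 526) (nat_lit 497) (nat_lit 2542) (.d (nat_lit 558) (nat_lit 557) (nat_lit 1549) (nat_lit 559) (nat_lit 1550))))))) (.p (nat_lit 530) (.a (.f (nat_lit 559) (nat_lit 558) (nat_lit 1550) (.f (nat_lit 560) (nat_lit 531) (nat_lit 1551) (.f (nat_lit 495) (nat_lit 494) (nat_lit 3566) (.d (nat_lit 463) (nat_lit 431) (nat_lit 4527) (nat_lit 592) (nat_lit 4559))))) (.a (.f (nat_lit 562) (nat_lit 563) (nat_lit 527) (.f (nat_lit 526) (nat_lit 561) (nat_lit 526) (.d (nat_lit 494) (nat_lit 493) (nat_lit 3565) (nat_lit 495) (nat_lit 3566)))) (.f (nat_lit 562) (nat_lit 563) (nat_lit 527) (.f (nat_lit 526) (nat_lit 561) (nat_lit 526) (.d (nat_lit 558) (nat_lit 557) (nat_lit 1549) (nat_lit 559) (nat_lit 1550)))))))))))))))) (.a (.p (nat_lit 527) (.a (.p (nat_lit 530) (.a (.f (nat_lit 498) (nat_lit 499) (nat_lit 2543) (.f (nat_lit 562) (nat_lit 563) (nat_lit 527) (.d (nat_lit 526) (nat_lit 497) (nat_lit 2542) (nat_lit 561) (nat_lit 526)))) (.f (nat_lit 559) (nat_lit 558) (nat_lit 1550) (.f (nat_lit 560) (nat_lit 531) (nat_lit 1551) (.f (nat_lit 495) (nat_lit 494) (nat_lit 3566) (.d (nat_lit 463) (nat_lit 431) (nat_lit 4527) (nat_lit 592) (nat_lit 4559))))))) (.a s14755 (.a s33130 (.a s14708 (.a s32988 (.a (.p (nat_lit 530) (.a (.f (nat_lit 559) (nat_lit 558) (nat_lit 1550) (.f (nat_lit 560) (nat_lit 531) (nat_lit 1551) (.f (nat_lit 495) (nat_lit 494) (nat_lit 3566) (.d (nat_lit 463) (nat_lit 431) (nat_lit 4527) (nat_lit 592) (nat_lit 4559))))) (.a (.f (nat_lit 499) (nat_lit 498) (nat_lit 2543) (.f (nat_lit 531) (nat_lit 500) (nat_lit 2544) (.d (nat_lit 563) (nat_lit 562) (nat_lit 527) (nat_lit 564) (nat_lit 528)))) (.f (nat_lit 498) (nat_lit 499) (nat_lit 2543) (.f (nat_lit 526) (nat_lit 497) (nat_lit 2542) (.d (nat_lit 494) (nat_lit 493) (nat_lit 3565) (nat_lit 495) (nat_lit 3566))))))) (.a (.p (nat_lit 530) (.a (.f (nat_lit 559) (nat_lit 558) (nat_lit 1550) (.f (nat_lit 560) (nat_lit 531) (nat_lit 1551) (.f (nat_lit 495) (nat_lit 494) (nat_lit 3566) (.d (nat_lit 463) (nat_lit 431) (nat_lit 4527) (nat_lit 592) (nat_lit 4559))))) (.a (.f (nat_lit 498) (nat_lit 499) (nat_lit 2543) (.f (nat_lit 526) (nat_lit 497) (nat_lit 2542) (.d (nat_lit 494) (nat_lit 493) (nat_lit 3565) (nat_lit 495) (nat_lit 3566)))) (.f (nat_lit 498) (nat_lit 499) (nat_lit 2543) (.f (nat_lit 526) (nat_lit 497) (nat_lit 2542) (.d (nat_lit 558) (nat_lit 557) (nat_lit 1549) (nat_lit 559) (nat_lit 1550))))))) (.p (nat_lit 530) (.a (.f (nat_lit 559) (nat_lit 558) (nat_lit 1550) (.f (nat_lit 560) (nat_lit 531) (nat_lit 1551) (.f (nat_lit 495) (nat_lit 494) (nat_lit 3566) (.d (nat_lit 463) (nat_lit 431) (nat_lit 4527) (nat_lit 592) (nat_lit 4559))))) (.a (.f (nat_lit 562) (nat_lit 563) (nat_lit 527) (.f (nat_lit 526) (nat_lit 561) (nat_lit 526) (.d (nat_lit 494) (nat_lit 493) (nat_lit 3565) (nat_lit 495) (nat_lit 3566)))) (.f (nat_lit 562) (nat_lit 563) (nat_lit 527) (.f (nat_lit 526) (nat_lit 561) (nat_lit 526) (.d (nat_lit 558) (nat_lit 557) (nat_lit 1549) (nat_lit 559) (nat_lit 1550))))))))))))))) (.a (.p (nat_lit 527) (.a (.p (nat_lit 530) (.a (.f (nat_lit 498) (nat_lit 499) (nat_lit 2543) (.f (nat_lit 562) (nat_lit 563) (nat_lit 527) (.d (nat_lit 526) (nat_lit 497) (nat_lit 2542) (nat_lit 561) (nat_lit 526)))) (.f (nat_lit 559) (nat_lit 558) (nat_lit 1550) (.f (nat_lit 560) (nat_lit 531) (nat_lit 1551) (.f (nat_lit 495) (nat_lit 494) (nat_lit 3566) (.d (nat_lit 463) (nat_lit 431) (nat_lit 4527) (nat_lit 592) (nat_lit 4559))))))) (.a s33148 (.a (.p (nat_lit 560) (.a (.p (nat_lit 530) (.a (.d (nat_lit 559) (nat_lit 531) (nat_lit 1551) (nat_lit 558) (nat_lit 1550)) (.a (.f (nat_lit 495) (nat_lit 494) (nat_lit 3566) (.f (nat_lit 496) (nat_lit 531) (nat_lit 3567) (.d (nat_lit 463) (nat_lit 431) (nat_lit 4527) (nat_lit 592) (nat_lit 7631)))) (.f (nat_lit 559) (nat_lit 558) (nat_lit 1550) (.f (nat_lit 495) (nat_lit 494) (nat_lit 3566) (.d (nat_lit 463) (nat_lit 431) (nat_lit 4527) (nat_lit 592) (nat_lit 4559))))))) (.a s33768 (.a s33024 (.a s33187 (.a (.p (nat_lit 530) (.a (.d (nat_lit 559) (nat_lit 531) (nat_lit 1551) (nat_lit 558) (nat_lit 1550)) (.a (.f (nat_lit 563) (nat_lit 562) (nat_lit 527) (.f (nat_lit 531) (nat_lit 564) (nat_lit 528) (.f (nat_lit 498) (nat_lit 499) (nat_lit 2543) (.f (nat_lit 561) (nat_lit 532) (nat_lit 1552) (.f (nat_lit 593) (nat_lit 625) (nat_lit 6641) (.d (nat_lit 466) (nat_lit 434) (nat_lit 4530) (nat_lit 497) (nat_lit 6609))))))) (.f (nat_lit 559) (nat_lit 558) (nat_lit 1550) (.f (nat_lit 495) (nat_lit 494) (nat_lit 3566) (.f (nat_lit 463) (nat_lit 431) (nat_lit 4527) (.f (nat_lit 464) (nat_lit 432) (nat_lit 6575) (.f (nat_lit 496) (nat_lit 591) (nat_lit 5583) (.f (nat_lit 498) (nat_lit 499) (nat_lit 2543) (.d (nat_lit 462) (nat_lit 430) (nat_lit 7598) (nat_lit 497) (nat_lit 3534))))))))))) s33030)))))) (.a s33176 (.a s33190 (.a (.p (nat_lit 530) (.a (.f (nat_lit 559) (nat_lit 558) (nat_lit 1550) (.f (nat_lit 560) (nat_lit 531) (nat_lit 1551) (.f (nat_lit 495) (nat_lit 494) (nat_lit 3566) (.d (nat_lit 463) (nat_lit 431) (nat_lit 4527) (nat_lit 592) (nat_lit 4559))))) (.a (.f (nat_lit 562) (nat_lit 563) (nat_lit 527) (.f (nat_lit 526) (nat_lit 561) (nat_lit 526) (.d (nat_lit 494) (nat_lit 493) (nat_lit 3565) (nat_lit 495) (nat_lit 3566)))) (.f (nat_lit 562) (nat_lit 563) (nat_lit 527) (.f (nat_lit 526) (nat_lit 561) (nat_lit 526) (.d (nat_lit 558) (nat_lit 557) (nat_lit 1549) (nat_lit 559) (nat_lit 1550))))))) (.a (.p (nat_lit 530) (.a (.f (nat_lit 559) (nat_lit 558) (nat_lit 1550) (.f (nat_lit 560) (nat_lit 531) (nat_lit 1551) (.f (nat_lit 495) (nat_lit 494) (nat_lit 3566) (.d (nat_lit 463) (nat_lit 431) (nat_lit 4527) (nat_lit 592) (nat_lit 4559))))) (.a (.f (nat_lit 498) (nat_lit 499) (nat_lit 2543) (.f (nat_lit 526) (nat_lit 497) (nat_lit 2542) (.d (nat_lit 494) (nat_lit 493) (nat_lit 3565) (nat_lit 495) (nat_lit 3566)))) (.f (nat_lit 498) (nat_lit 499) (nat_lit 2543) (.f (nat_lit 526) (nat_lit 497) (nat_lit 2542) (.d (nat_lit 558) (nat_lit 557) (nat_lit 1549) (nat_lit 559) (nat_lit 1550))))))) (.a (.p (nat_lit 530) (.a (.f (nat_lit 498) (nat_lit 499) (nat_lit 2543) (.f (nat_lit 526) (nat_lit 497) (nat_lit 2542) (.d (nat_lit 494) (nat_lit 493) (nat_lit 3565) (nat_lit 495) (nat_lit 3566)))) (.a (.f (nat_lit 495) (nat_lit 494) (nat_lit 3566) (.f (nat_lit 496) (nat_lit 531) (nat_lit 3567) (.f (nat_lit 559) (nat_lit 558) (nat_lit 1550) (.d (nat_lit 464) (nat_lit 432) (nat_lit 5551) (nat_lit 591) (nat_lit 6607))))) (.f (nat_lit 498) (nat_lit 499) (nat_lit 2543) (.f (nat_lit 526) (nat_lit 497) (nat_lit 2542) (.d (nat_lit 558) (nat_lit 557) (nat_lit 1549) (nat_lit 559) (nat_lit 1550))))))) (.a s33721 s33191)))))))))) (.p (nat_lit 527) (.a (.p (nat_lit 530) (.a (.f (nat_lit 498) (nat_lit 499) (nat_lit 2543) (.f (nat_lit 562) (nat_lit 563) (nat_lit 527) (.d (nat_lit 526) (nat_lit 497) (nat_lit 2542) (nat_lit 561) (nat_lit 526)))) (.f (nat_lit 559) (nat_lit 558) (nat_lit 1550) (.f (nat_lit 560) (nat_lit 531) (nat_lit 1551) (.f (nat_lit 495) (nat_lit 494) (nat_lit 3566) (.d (nat_lit 463) (nat_lit 431) (nat_lit 4527) (nat_lit 592) (nat_lit 4559))))))) (.a s14755 (.a (.p (nat_lit 560) (.a (.p (nat_lit 530) (.a (.d (nat_lit 559) (nat_lit 531) (nat_lit 1551) (nat_lit 558) (nat_lit 1550)) (.a (.f (nat_lit 495) (nat_lit 494) (nat_lit 3566) (.f (nat_lit 496) (nat_lit 531) (nat_lit 3567) (.d (nat_lit 463) (nat_lit 431) (nat_lit 4527) (nat_lit 592) (nat_lit 7631)))) (.f (nat_lit 559) (nat_lit 558) (nat_lit 1550) (.f (nat_lit 495) (nat_lit 494) (nat_lit 3566) (.d (nat_lit 463) (nat_lit 431) (nat_lit 4527) (nat_lit 592) (nat_lit 4559))))))) (.a (.p (nat_lit 530) (.a (.d (nat_lit 559) (nat_lit 531) (nat_lit 1551) (nat_lit 558) (nat_lit 1550)) (.a (.f (nat_lit 563) (nat_lit 562) (nat_lit 527) (.f (nat_lit 531) (nat_lit 564) (nat_lit 528) (.d (nat_lit 499) (nat_lit 498) (nat_lit 2543) (nat_lit 500) (nat_lit 2544)))) (.f (nat_lit 559) (nat_lit 558) (nat_lit 1550) (.f (nat_lit 495) (nat_lit 494) (nat_lit 3566) (.d (nat_lit 463) (nat_lit 431) (nat_lit 4527) (nat_lit 592) (nat_lit 4559))))))) (.a s33276 (.a s33034 (.a (.p (nat_lit 530) (.a (.f (nat_lit 495) (nat_lit 494) (nat_lit 3566) (.f (nat_lit 496) (nat_lit 531) (nat_lit 3567) (.d (nat_lit 463) (nat_lit 431) (nat_lit 4527) (nat_lit 592) (nat_lit 7631)))) (.a (.f (nat_lit 563) (nat_lit 562) (nat_lit 527) (.f (nat_lit 531) (nat_lit 564) (nat_lit 528) (.d (nat_lit 499) (nat_lit 498) (nat_lit 2543) (nat_lit 500) (nat_lit 2544)))) (.f (nat_lit 495) (nat_lit 494) (nat_lit 3566) (.f (nat_lit 592) (nat_lit 624) (nat_lit 7663) (.d (nat_lit 463) (nat_lit 431) (nat_lit 4527) (nat_lit 496) (nat_lit 7631))))))) s32965)))))) (.a s32988 (.a s14708 (.a (.p (nat_lit 530) (.a (.f (nat_lit 559) (nat_lit 558) (nat_lit 1550) (.f (nat_lit 560) (nat_lit 531) (nat_lit 1551) (.f (nat_lit 495) (nat_lit 494) (nat_lit 3566) (.d (nat_lit 463) (nat_lit 431) (nat_lit 4527) (nat_lit 592) (nat_lit 4559))))) (.a (.f (nat_lit 499) (nat_lit 498) (nat_lit 2543) (.f (nat_lit 531) (nat_lit 500) (nat_lit 2544) (.d (nat_lit 563) (nat_lit 562) (nat_lit 527) (nat_lit 564) (nat_lit 528)))) (.f (nat_lit 562) (nat_lit 563) (nat_lit 527) (.f (nat_lit 526) (nat_lit 561) (nat_lit 526) (.d (nat_lit 494) (nat_lit 493) (nat_lit 3565) (nat_lit 495) (nat_lit 3566))))))) (.a (.p (nat_lit 530) (.a (.f (nat_lit 559) (nat_lit 558) (nat_lit 1550) (.f (nat_lit 560) (nat_lit 531) (nat_lit 1551) (.f (nat_lit 495) (nat_lit 494) (nat_lit 3566) (.d (nat_lit 463) (nat_lit 431) (nat_lit 4527) (nat_lit 592) (nat_lit 4559))))) (.a (.f (nat_lit 499) (nat_lit 498) (nat_lit 2543) (.f (nat_lit 531) (nat_lit 500) (nat_lit 2544) (.d (nat_lit 563) (nat_lit 562) (nat_lit 527) (nat_lit 564) (nat_lit 528)))) (.f (nat_lit 498) (nat_lit 499) (nat_lit 2543) (.f (nat_lit 526) (nat_lit 497) (nat_lit 2542) (.d (nat_lit 494) (nat_lit 493) (nat_lit 3565) (nat_lit 495) (nat_lit 3566))))))) (.a (.p (nat_lit 530) (.a (.f (nat_lit 559) (nat_lit 558) (nat_lit 1550) (.f (nat_lit 560) (nat_lit 531) (nat_lit 1551) (.f (nat_lit 495) (nat_lit 494) (nat_lit 3566) (.d (nat_lit 463) (nat_lit 431) (nat_lit 4527) (nat_lit 592) (nat_lit 4559))))) (.a (.f (nat_lit 498) (nat_lit 499) (nat_lit 2543) (.f (nat_lit 526) (nat_lit 497) (nat_lit 2542) (.d (nat_lit 494) (nat_lit 493) (nat_lit 3565) (nat_lit 495) (nat_lit 3566)))) (.f (nat_lit 498) (nat_lit 499) (nat_lit 2543) (.f (nat_lit 526) (nat_lit 497) (nat_lit 2542) (.d (nat_lit 558) (nat_lit 557) (nat_lit 1549) (nat_lit 559) (nat_lit 1550))))))) (.p (nat_lit 530) (.a (.f (nat_lit 559) (nat_lit 558) (nat_lit 1550) (.f (nat_lit 560) (nat_lit 531) (nat_lit 1551) (.f (nat_lit 495) (nat_lit 494) (nat_lit 3566) (.d (nat_lit 463) (nat_lit 431) (nat_lit 4527) (nat_lit 592) (nat_lit 4559))))) (.a (.f (nat_lit 562) (nat_lit 563) (nat_lit 527) (.f (nat_lit 526) (nat_lit 561) (nat_lit 526) (.d (nat_lit 494) (nat_lit 493) (nat_lit 3565) (nat_lit 495) (nat_lit 3566)))) (.f (nat_lit 562) (nat_lit 563) (nat_lit 527) (.f (nat_lit 526) (nat_lit 561) (nat_lit 526) (.d (nat_lit 558) (nat_lit 557) (nat_lit 1549) (nat_lit 559) (nat_lit 1550))))))))))))))))))))))))))))))))))))))))))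
end Vale.Agent.Lib.P062.Part3
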