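import Vale.Agent.Lib.P062.Part3.K_0

set_option maxRecDepth 100000
set_option linter.all false

namespace Vale.Agent.Lib.P062.Part3
open Vale.Agent.Lib.P062 Vale.Agent.Lib.P062.V2

noncomputable def s3034 : Cert := .r (nat_lit 16209045209811190869175494079248089194601395851564043574500726304403487138212284581610349447855157796998254466287401765934644211245289720274808682447528572317755697259046850527232) (.p (nat_lit 624) (.a (.f (nat_lit 527) (nat_lit 495) (nat_lit 7663) (.f (nat_lit 561) (nat_lit 563) (nat_lit 3599) (.d (nat_lit 529) (nat_lit 497) (nat_lit 6640) (nat_lit 656) (nat_lit 6672)))) (.a (.f (nat_lit 529) (nat_lit 497) (nat_lit 6640) (.f (nat_lit 561) (nat_lit 656) (nat_lit 6672) (.d (nat_lit 563) (nat_lit 564) (nat_lit 3600) (nat_lit 591) (nat_lit 1583)))) (.a (.f (nat_lit 527) (nat_lit 495) (nat_lit 7663) (.f (nat_lit 656) (nat_lit 559) (nat_lit 7695) (.d (nat_lit 655) (nat_lit 623) (nat_lit 5647) (nat_lit 687) (nat_lit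 5679)))) (.f (nat_lit 527) (nat_lit 495) (nat_lit 7663) (.f (nat_lit 529) (nat_lit 497) (nat_lit 6640) (.d (nat_lit 563) (nat_lit 530) (nat_lit 527) (nat_lit 561) (nat_lit 3599))))))))
noncomputable def s3056 : Cert := .r (nat_lit 16209045209811190869175494079248089194601395851564043574500726304403487138212284581610349447855157796998254466287401765934644211245289720274808682447528572317755697259046850527232) (.p (nat_lit 496) (.a (.f (nat_lit 591) (nat_lit 623) (nat_lit 5615) (.f (nat_lit 561) (nat_lit 563) (nat_lit 1583) (.d (nat_lit 464) (nat_lit 559) (nat_lit 5583) (nat_lit 593) (nat_lit 4560)))) (.a (.f (nat_lit 591) (nat_lit 623) (nat_lit 5615) (.f (nat_lit 593) (nat_lit 625) (nat_lit 4592) (.f (nat_lit 559) (nat_lit 464) (nat_lit 5583) (.d (nat_lit 558) (nat_lit 557) (nat_lit 557) (nat_lit 594) (nat_lit 3630))))) (.a (.f (nat_lit 591) (nat_lit 623) (nat_lit 5615) (.f (nat_lit 561) (nat_lit 563) (nat_lit 1583) (.d (nat_lit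 590) (nat_lit 559) (nat_lit 1582) (nat_lit 589) (nat_lit 2605)))) (.a (.f (nat_lit 593) (nat_lit 625) (nat_lit 4592) (.f (nat_lit 561) (nat_lit 464) (nat_lit 4560) (.d (nat_lit 563) (nat_lit 564) (nat_lit 1584) (nat_lit 591) (nat_lit 1583)))) (.f (nat_lit 593) (nat_lit 625) (nat_lit 4592) (.f (nat_lit 561) (nat_lit 464) (nat_lit 4560) (.d (nat_lit 563) (nat_lit 527) (nat_lit 3599) (nat_lit 564) (nat_lit 1584)))))))))
noncomputable def s3058 : Cert := .r (nat_lit 16209045209811190869175494079248089194601395851564043574500726304403487138212284581610349447855157796998254466287401765934644211245289720274808682447528572317755697259046850527232) (.p (nat_lit 496) (.a (.f (nat_lit 495) (nat_lit 463) (nat_lit 7631) (.f (nat_lit 624) (nat_lit 527) (nat_lit 7663) (.d (nat_lit 497) (nat_lit 465) (nat_lit 6608) (nat_lit 529) (nat_lit 6640)))) (.a (.f (nat_lit 593) (nat_lit 625) (nat_lit 4592) (.f (nat_lit 561) (nat_lit 464) (nat_lit 4560) (.f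 (nat_lit 497) (nat_lit 465) (nat_lit 6608) (.f (nat_lit 529) (nat_lit 624) (nat_lit 6640) (.f (nat_lit 594) (nat_lit 626) (nat_lit 4593) (.d (nat_lit 559) (nat_lit 558) (nat_lit 558) (nat_lit 595) (nat_lit 559))))))) (.f (nat_lit 593) (nat_lit 625) (nat_lit 4592) (.f (nat_lit 561) (nat_lit 464) (nat_lit 4560) (.d (nat_lit 563) (nat_lit 527) (nat_lit 3599) (nat_lit 564) (nat_lit 1584)))))))
noncomputable def s3059 : Cert := .r (nat_lit 18869812124986400861704490948459027756867024433892689860299374593630612134736493787905533600559981471712008058190913152356962472978375577626770901665172955839509703950336) (.p (nat_lit 592) (.a (.p (nat_lit 496) (.a (.f (nat_lit 591) (nat_lit 623) (nat_lit 5615) (.f (nat_lit 561) (nat_lit 563) (nat_lit 1583) (.d (nat_lit 464) (nat_lit 559) (nat_lit 5583) (nat_lit 593) (nat_lit 4560)))) (.f (nat_lit 495) (nat_lit 463) (nat_lit 7631) (.f (nat_lit 624) (nat_lit 527) (nat_lit 7663) (.d (nat_lit 497) (nat_lit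 465) (nat_lit 6608) (nat_lit 529) (nat_lit 6640)))))) (.a s3034 (.a (.p (nat_lit 496) (.a (.f (nat_lit 591) (nat_lit 623) (nat_lit 5615) (.f (nat_lit 561) (nat_lit 563) (nat_lit 1583) (.d (nat_lit 464) (nat_lit 559) (nat_lit 5583) (nat_lit 593) (nat_lit 4560)))) (.a (.f (nat_lit 591) (nat_lit 623) (nat_lit 5615) (.f (nat_lit 593) (nat_lit 625) (nat_lit 4592) (.f (nat_lit 559) (nat_lit 464) (nat_lit 5583) (.d (nat_lit 558) (nat_lit 557) (nat_lit 557) (nat_lit 594) (nat_lit 3630))))) (.a (.f (nat_lit 591) (nat_lit 623) (nat_lit 5615) (.f (nat_lit 561) (nat_lit 563) (nat_lit 1583) (.d (nat_lit 590) (nat_lit 559) (nat_lit 1582) (nat_lit 589) (nat_lit 2605)))) (.a (.f (nat_lit 593) (nat_lit 625) (nat_lit 4592) (.f (nat_lit 561) (nat_lit 464) (nat_lit 4560) (.d (nat_lit 563) (nat_lit 564) (nat_lit 1584) (nat_lit 591) (nat_lit 1583)))) (.f (nat_lit 593) (nat_lit 625) (nat_lit 4592) (.f (nat_lit 561) (nat_lit 464) (nat_lit 4560) (.f (nat_lit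 497) (nat_lit 465) (nat_lit 6608) (.f (nat_lit 529) (nat_lit 624) (nat_lit 6640) (.f (nat_lit 594) (nat_lit 626) (nat_lit 4593) (.d (nat_lit 559) (nat_lit 558) (nat_lit 558) (nat_lit 595) (nat_lit 559)))))))))))) (.a (.p (nat_lit 496) (.a (.f (nat_lit 495) (nat_lit 463) (nat_lit 7631) (.f (nat_lit 624) (nat_lit 527) (nat_lit 7663) (.d (nat_lit 497) (nat_lit 465) (nat_lit 6608) (nat_lit 529) (nat_lit 6640)))) (.f (nat_lit 591) (nat_lit 623) (nat_lit 5615) (.f (nat_lit 593) (nat_lit 625) (nat_lit 4592) (.f (nat_lit 559) (nat_lit 464) (nat_lit 5583) (.d (nat_lit 558) (nat_lit 557) (nat_lit 557) (nat_lit 594) (nat_lit 3630))))))) (.a s3056 (.a (.p (nat_lit 496) (.a (.f (nat_lit 495) (nat_lit 463) (nat_lit 7631) (.f (nat_lit 624) (nat_lit 527) (nat_lit 7663) (.d (nat_lit 497) (nat_lit 465) (nat_lit 6608) (nat_lit 529) (nat_lit 6640)))) (.f (nat_lit 593) (nat_lit 625) (nat_lit 4592) (.f (nat_lit 561) (nat_lit 464) (nat_lit 4560) (.d (nat_lit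 563) (nat_lit 564) (nat_lit 1584) (nat_lit 591) (nat_lit 1583)))))) s3058)))))))
noncomputable def s3090 : Cert := .r (nat_lit 18869812128501177264509710774503796433499995185341540522026907474751343623210314739829166948347900646451490313420764903077122343325272053234930137433682206587892745109504) (.p (nat_lit 594) (.a (.f (nat_lit 595) (nat_lit 627) (nat_lit 4594) (.f (nat_lit 561) (nat_lit 559) (nat_lit 559) (.d (nat_lit 466) (nat_lit 563) (nat_lit 4562) (nat_lit 593) (nat_lit 5585)))) (.a (.f (nat_lit 595) (nat_lit 627) (nat_lit 4594) (.f (nat_lit 563) (nat_lit 466) (nat_lit 4562) (.f (nat_lit 593) (nat_lit 625) (nat_lit 5617) (.d (nat_lit 564) (nat_lit 565) (nat_lit 1585) (nat_lit 592) (nat_lit 2608))))) (.a (.f (nat_lit 595) (nat_lit 627) (nat_lit 4594) (.f (nat_lit 561) (nat_lit 559) (nat_lit 559) (.d (nat_lit 563) (nat_lit 466) (nat_lit 4562) (nat_lit 596) (nat_lit 560)))) (.a (.f (nat_lit 593) (nat_lit 625) (nat_lit 5617)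 (.f (nat_lit 561) (nat_lit 466) (nat_lit 5585) (.d (nat_lit 559) (nat_lit 531) (nat_lit 2575) (nat_lit 558) (nat_lit 558)))) (.f (nat_lit 595) (nat_lit 627) (nat_lit 4594) (.f (nat_lit 561) (nat_lit 559) (nat_lit 559) (.d (nat_lit 593) (nat_lit 596) (nat_lit 3632) (nat_lit 625) (nat_lit 5617)))))))))
noncomputable def s3103 : Cert := .r (nat_lit 18869812128501177263691363122529760965996697761134640733972746963240577425839491897805133499246732007730672790339288863789400672293382035482625823297210858324560613212160) (.p (nat_lit 498) (.a (.p (nat_lit 594) (.a (.f (nat_lit 595) (nat_lit 627) (nat_lit 4594) (.f (nat_lit 561) (nat_lit 559) (nat_lit 559) (.d (nat_lit 466) (nat_lit 563) (nat_lit 4562) (nat_lit 593) (nat_lit 5585)))) (.f (nat_lit 497) (nat_lit 465) (nat_lit 7633) (.f (nat_lit 529) (nat_lit 626) (nat_lit 7665) (.d (nat_lit 499) (nat_lit 467) (nat_lit 6610) (nat_lit 500) (nat_lit 1520)))))) (.a (.p (nat_lit 594) (.a (.f (nat_lit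 497) (nat_lit 465) (nat_lit 7633) (.f (nat_lit 529) (nat_lit 626) (nat_lit 7665) (.d (nat_lit 499) (nat_lit 467) (nat_lit 6610) (nat_lit 500) (nat_lit 1520)))) (.f (nat_lit 595) (nat_lit 627) (nat_lit 4594) (.f (nat_lit 563) (nat_lit 466) (nat_lit 4562) (.f (nat_lit 593) (nat_lit 625) (nat_lit 5617) (.d (nat_lit 564) (nat_lit 565) (nat_lit 1585) (nat_lit 592) (nat_lit 2608))))))) (.a s3090 (.a (.p (nat_lit 594) (.a (.f (nat_lit 497) (nat_lit 465) (nat_lit 7633) (.f (nat_lit 529) (nat_lit 626) (nat_lit 7665) (.d (nat_lit 499) (nat_lit 467) (nat_lit 6610) (nat_lit 500) (nat_lit 1520)))) (.f (nat_lit 595) (nat_lit 627) (nat_lit 4594) (.f (nat_lit 561) (nat_lit 559) (nat_lit 559) (.d (nat_lit 563) (nat_lit 466) (nat_lit 4562) (nat_lit 596) (nat_lit 560)))))) (.a (.p (nat_lit 594) (.a (.f (nat_lit 497) (nat_lit 465) (nat_lit 7633) (.f (nat_lit 529) (nat_lit 626) (nat_lit 7665) (.d (nat_lit 499) (nat_lit 467) (nat_lit 6610) (nat_lit 500)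 (nat_lit 1520)))) (.f (nat_lit 593) (nat_lit 625) (nat_lit 5617) (.f (nat_lit 561) (nat_lit 466) (nat_lit 5585) (.d (nat_lit 559) (nat_lit 531) (nat_lit 2575) (nat_lit 558) (nat_lit 558)))))) (.a (.p (nat_lit 561) (.a (.f (nat_lit 531) (nat_lit 559) (nat_lit 2575) (.d (nat_lit 532) (nat_lit 529) (nat_lit 1552) (nat_lit 533) (nat_lit 1553))) (.a (.f (nat_lit 466) (nat_lit 593) (nat_lit 5585) (.f (nat_lit 563) (nat_lit 595) (nat_lit 4562) (.d (nat_lit 531) (nat_lit 434) (nat_lit 4530) (nat_lit 532) (nat_lit 2576)))) (.f (nat_lit 466) (nat_lit 593) (nat_lit 5585) (.f (nat_lit 529) (nat_lit 434) (nat_lit 5553) (.d (nat_lit 563) (nat_lit 564) (nat_lit 3600) (nat_lit 595) (nat_lit 4562))))))) (.p (nat_lit 594) (.a (.f (nat_lit 497) (nat_lit 465) (nat_lit 7633) (.f (nat_lit 529) (nat_lit 626) (nat_lit 7665) (.d (nat_lit 499) (nat_lit 467) (nat_lit 6610) (nat_lit 500) (nat_lit 1520)))) (.f (nat_lit 595) (nat_lit 627) (nat_lit 4594) (.f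 (nat_lit 561) (nat_lit 559) (nat_lit 559) (.d (nat_lit 593) (nat_lit 596) (nat_lit 3632) (nat_lit 625) (nat_lit 5617)))))))))))))
noncomputable def s3120 : Cert := .r (nat_lit 18869812128501177263691363122529760965996697761134640733972746963240577425839491897805133499246732007730672790339288863789400672293382035482625823297210858324560613212160) (.p (nat_lit 529) (.a (.f (nat_lit 527) (nat_lit 563) (nat_lit 527) (.d (nat_lit 559) (nat_lit 531) (nat_lit 1551) (nat_lit 558) (nat_lit 1550))) (.a (.f (nat_lit 531) (nat_lit 559) (nat_lit 1551) (.f (nat_lit 499) (nat_lit 500) (nat_lit 2544) (.f (nat_lit 563) (nat_lit 564) (nat_lit 528) (.d (nat_lit 467) (nat_lit 435) (nat_lit 5554) (nat_lit 594) (nat_lit 5586))))) (.a (.f (nat_lit 527) (nat_lit 563) (nat_lit 527) (.f (nat_lit 495) (nat_lit 494) (nat_lit 3566) (.f (nat_lit 559) (nat_lit 558) (nat_lit 1550) (.d (nat_lit 463) (nat_lit 431) (nat_lit 4527) (nat_lit 592) (nat_lit 4559)))))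 (.a (.f (nat_lit 531) (nat_lit 559) (nat_lit 1551) (.f (nat_lit 499) (nat_lit 500) (nat_lit 2544) (.f (nat_lit 498) (nat_lit 527) (nat_lit 2543) (.d (nat_lit 467) (nat_lit 435) (nat_lit 5554) (nat_lit 594) (nat_lit 6610))))) (.f (nat_lit 563) (nat_lit 527) (nat_lit 527) (.d (nat_lit 564) (nat_lit 531) (nat_lit 528) (nat_lit 565) (nat_lit 3601))))))))
noncomputable def s3133 : Cert := .r (nat_lit 18869812128501177263691363122529760965996697761134640733972746963240577425839491897805133499246732007730672790339288863789400672293382035482625823297210858324560613212160) (.p (nat_lit 561) (.a (.f (nat_lit 563) (nat_lit 527) (nat_lit 3599) (.d (nat_lit 531) (nat_lit 532) (nat_lit 2576) (nat_lit 559) (nat_lit 2575))) (.a (.f (nat_lit 559) (nat_lit 531) (nat_lit 2575) (.f (nat_lit 594) (nat_lit 595) (nat_lit 559) (.f (nat_lit 593) (nat_lit 558) (nat_lit 558) (.d (nat_lit 498) (nat_lit 466) (nat_lit 5585) (nat_lit 625) (nat_lit 5617))))) (.a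 (.f (nat_lit 563) (nat_lit 527) (nat_lit 3599) (.f (nat_lit 595) (nat_lit 596) (nat_lit 560) (.f (nat_lit 594) (nat_lit 559) (nat_lit 559) (.d (nat_lit 498) (nat_lit 466) (nat_lit 4562) (nat_lit 627) (nat_lit 4594))))) (.f (nat_lit 563) (nat_lit 527) (nat_lit 3599) (.f (nat_lit 531) (nat_lit 532) (nat_lit 2576) (.f (nat_lit 595) (nat_lit 596) (nat_lit 560) (.d (nat_lit 498) (nat_lit 466) (nat_lit 4562) (nat_lit 627) (nat_lit 7666)))))))))
noncomputable def s3138 : Cert := .r (nat_lit 18869812128501177264509710774503796433499995185341540522026907474751343623210314739829166948347900646451490313420764903077122343325272053234930137433682206587892745109504) (.p (nat_lit 594) (.a (.f (nat_lit 595) (nat_lit 627) (nat_lit 4594) (.f (nat_lit 561) (nat_lit 559) (nat_lit 559) (.d (nat_lit 466) (nat_lit 563) (nat_lit 4562) (nat_lit 593) (nat_lit 5585)))) (.a (.f (nat_lit 595) (nat_lit 627) (nat_lit 4594) (.f (nat_lit 563) (nat_lit 466) (nat_lit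 4562) (.f (nat_lit 593) (nat_lit 625) (nat_lit 5617) (.d (nat_lit 564) (nat_lit 565) (nat_lit 1585) (nat_lit 592) (nat_lit 2608))))) (.a (.f (nat_lit 595) (nat_lit 627) (nat_lit 4594) (.f (nat_lit 561) (nat_lit 559) (nat_lit 559) (.d (nat_lit 563) (nat_lit 466) (nat_lit 4562) (nat_lit 596) (nat_lit 560)))) (.a (.f (nat_lit 595) (nat_lit 627) (nat_lit 4594) (.f (nat_lit 561) (nat_lit 559) (nat_lit 559) (.d (nat_lit 593) (nat_lit 596) (nat_lit 3632) (nat_lit 625) (nat_lit 5617)))) (.f (nat_lit 593) (nat_lit 625) (nat_lit 5617) (.f (nat_lit 561) (nat_lit 466) (nat_lit 5585) (.f (nat_lit 563) (nat_lit 527) (nat_lit 3599) (.d (nat_lit 564) (nat_lit 565) (nat_lit 1585) (nat_lit 592) (nat_lit 1584))))))))))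
noncomputable def s3152 : Cert := .r (nat_lit 18869812128501177264509710774503796433499995185341540522026907474751343623210314739829166948347900646451490313420764903077122343325272053234930137433682206587892745109504) (.p (nat_lit 561) (.a (.f (nat_lit 466) (nat_lit 593) (nat_lit 5585) (.f (nat_lit 529) (nat_lit 434) (nat_lit 5553) (.d (nat_lit 563) (nat_lit 564) (nat_lit 3600) (nat_lit 595) (nat_lit 4562)))) (.a (.f (nat_lit 563) (nat_lit 527) (nat_lit 3599) (.d (nat_lit 466) (nat_lit 593) (nat_lit 5585) (nat_lit 595) (nat_lit 4562))) (.a (.f (nat_lit 563) (nat_lit 527) (nat_lit 3599) (.d (nat_lit 595) (nat_lit 466) (nat_lit 4562) (nat_lit 596) (nat_lit 560))) (.a (.f (nat_lit 466) (nat_lit 593) (nat_lit 5585) (.f (nat_lit 529) (nat_lit 434) (nat_lit 5553) (.f (nat_lit 465) (nat_lit 433) (nat_lit 7601) (.f (nat_lit 499) (nat_lit 527) (nat_lit 2543) (.d (nat_lit 497) (nat_lit 500) (nat_lit 1520) (nat_lit 592) (nat_lit 5584))))))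 (.f (nat_lit 563) (nat_lit 527) (nat_lit 3599) (.f (nat_lit 529) (nat_lit 564) (nat_lit 3600) (.f (nat_lit 592) (nat_lit 591) (nat_lit 1583) (.d (nat_lit 497) (nat_lit 465) (nat_lit 5584) (nat_lit 624) (nat_lit 6640))))))))))
noncomputable def s3165 : Cert := .r (nat_lit 18869812128501177264509710774503796433499995185341540522026907474751343623210314739829166948347900646451490313420764903077122343325272053234930137433682206587892745109504) (.p (nat_lit 594) (.a (.f (nat_lit 497) (nat_lit 465) (nat_lit 7633) (.f (nat_lit 529) (nat_lit 626) (nat_lit 7665) (.d (nat_lit 499) (nat_lit 467) (nat_lit 6610) (nat_lit 500) (nat_lit 1520)))) (.a (.f (nat_lit 467) (nat_lit 499) (nat_lit 6610) (.f (nat_lit 466) (nat_lit 435) (nat_lit 6578) (.d (nat_lit 465) (nat_lit 433) (nat_lit 7601) (nat_lit 497) (nat_lit 7633)))) (.a (.f (nat_lit 499) (nat_lit 467) (nat_lit 6610) (.f (nat_lit 529) (nat_lit 527) (nat_lit 2543) (.d (nat_lit 500) (nat_lit 501)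 (nat_lit 1521) (nat_lit 531) (nat_lit 2544)))) (.f (nat_lit 497) (nat_lit 465) (nat_lit 7633) (.f (nat_lit 529) (nat_lit 626) (nat_lit 7665) (.f (nat_lit 559) (nat_lit 531) (nat_lit 1551) (.d (nat_lit 558) (nat_lit 527) (nat_lit 1550) (nat_lit 557) (nat_lit 2573)))))))))
noncomputable def s3176 : Cert := .r (nat_lit 18869812128501177264509710774503796433499995185341540522026907474751343623210314739829166948347900646451490313420764903077122343325272053234930137433682206587892745109504) (.p (nat_lit 594) (.a (.f (nat_lit 497) (nat_lit 465) (nat_lit 7633) (.f (nat_lit 529) (nat_lit 626) (nat_lit 7665) (.d (nat_lit 499) (nat_lit 467) (nat_lit 6610) (nat_lit 500) (nat_lit 1520)))) (.a (.f (nat_lit 467) (nat_lit 499) (nat_lit 6610) (.f (nat_lit 466) (nat_lit 435) (nat_lit 6578) (.d (nat_lit 465) (nat_lit 433) (nat_lit 7601) (nat_lit 497) (nat_lit 7633)))) (.a (.f (nat_lit 499) (nat_lit 467) (nat_lit 6610) (.f (nat_lit 529) (nat_lit 527)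 (nat_lit 2543) (.d (nat_lit 500) (nat_lit 501) (nat_lit 1521) (nat_lit 531) (nat_lit 2544)))) (.f (nat_lit 593) (nat_lit 625) (nat_lit 5617) (.f (nat_lit 561) (nat_lit 466) (nat_lit 5585) (.d (nat_lit 595) (nat_lit 596) (nat_lit 3632) (nat_lit 627) (nat_lit 4594))))))))
noncomputable def s3177 : Cert := .r (nat_lit 18869812128501177264509710774503796433499995185341540522026907474751343623210314739829166948347900646451490313420764903077122343325272053234930137433682206587892745109504) (.p (nat_lit 594) (.a (.f (nat_lit 593) (nat_lit 625) (nat_lit 5617) (.f (nat_lit 561) (nat_lit 466) (nat_lit 5585) (.d (nat_lit 559) (nat_lit 531) (nat_lit 2575) (nat_lit 558) (nat_lit 558)))) (.a (.f (nat_lit 497) (nat_lit 465) (nat_lit 7633) (.f (nat_lit 529) (nat_lit 626) (nat_lit 7665) (.f (nat_lit 559) (nat_lit 531) (nat_lit 1551) (.d (nat_lit 558) (nat_lit 527) (nat_lit 1550) (nat_lit 557) (nat_lit 2573))))) (.a (.f (nat_lit 595) (nat_lit 627)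 (nat_lit 4594) (.f (nat_lit 561) (nat_lit 559) (nat_lit 559) (.d (nat_lit 593) (nat_lit 596) (nat_lit 3632) (nat_lit 625) (nat_lit 5617)))) (.f (nat_lit 593) (nat_lit 625) (nat_lit 5617) (.f (nat_lit 561) (nat_lit 466) (nat_lit 5585) (.d (nat_lit 595) (nat_lit 596) (nat_lit 3632) (nat_lit 627) (nat_lit 4594))))))))
noncomputable def s3178 : Cert := .r (nat_lit 18869812128501177263691363122529760965996697761134640733972746963240577425839491897805133499246732007730672790339288863789400672293382035482625823297210858324560613212160) (.p (nat_lit 498) (.a (.p (nat_lit 594) (.a (.f (nat_lit 497) (nat_lit 465) (nat_lit 7633) (.f (nat_lit 529) (nat_lit 626) (nat_lit 7665) (.d (nat_lit 499) (nat_lit 467) (nat_lit 6610) (nat_lit 500) (nat_lit 1520)))) (.f (nat_lit 593) (nat_lit 625) (nat_lit 5617) (.f (nat_lit 561) (nat_lit 466) (nat_lit 5585) (.d (nat_lit 559) (nat_lit 531) (nat_lit 2575) (nat_lit 558) (nat_lit 558)))))) (.a s3165 (.a (.p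 (nat_lit 594) (.a (.f (nat_lit 593) (nat_lit 625) (nat_lit 5617) (.f (nat_lit 561) (nat_lit 466) (nat_lit 5585) (.d (nat_lit 559) (nat_lit 531) (nat_lit 2575) (nat_lit 558) (nat_lit 558)))) (.a (.f (nat_lit 467) (nat_lit 499) (nat_lit 6610) (.f (nat_lit 466) (nat_lit 435) (nat_lit 6578) (.d (nat_lit 465) (nat_lit 433) (nat_lit 7601) (nat_lit 497) (nat_lit 7633)))) (.f (nat_lit 595) (nat_lit 627) (nat_lit 4594) (.f (nat_lit 561) (nat_lit 559) (nat_lit 559) (.d (nat_lit 593) (nat_lit 596) (nat_lit 3632) (nat_lit 625) (nat_lit 5617))))))) (.a (.p (nat_lit 594) (.a (.f (nat_lit 593) (nat_lit 625) (nat_lit 5617) (.f (nat_lit 561) (nat_lit 466) (nat_lit 5585) (.d (nat_lit 559) (nat_lit 531) (nat_lit 2575) (nat_lit 558) (nat_lit 558)))) (.a (.f (nat_lit 499) (nat_lit 467) (nat_lit 6610) (.f (nat_lit 529) (nat_lit 527) (nat_lit 2543) (.d (nat_lit 500) (nat_lit 501) (nat_lit 1521) (nat_lit 531) (nat_lit 2544)))) (.f (nat_lit 595) (nat_lit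 627) (nat_lit 4594) (.f (nat_lit 561) (nat_lit 559) (nat_lit 559) (.d (nat_lit 593) (nat_lit 596) (nat_lit 3632) (nat_lit 625) (nat_lit 5617))))))) (.a (.p (nat_lit 594) (.a (.f (nat_lit 497) (nat_lit 465) (nat_lit 7633) (.f (nat_lit 529) (nat_lit 626) (nat_lit 7665) (.d (nat_lit 499) (nat_lit 467) (nat_lit 6610) (nat_lit 500) (nat_lit 1520)))) (.f (nat_lit 595) (nat_lit 627) (nat_lit 4594) (.f (nat_lit 561) (nat_lit 559) (nat_lit 559) (.d (nat_lit 593) (nat_lit 596) (nat_lit 3632) (nat_lit 625) (nat_lit 5617)))))) (.a (.p (nat_lit 561) (.a (.f (nat_lit 531) (nat_lit 559) (nat_lit 2575) (.d (nat_lit 532) (nat_lit 529) (nat_lit 1552) (nat_lit 533) (nat_lit 1553))) (.f (nat_lit 466) (nat_lit 593) (nat_lit 5585) (.f (nat_lit 435) (nat_lit 467) (nat_lit 6578) (.f (nat_lit 434) (nat_lit 403) (nat_lit 6546) (.d (nat_lit 433) (nat_lit 401) (nat_lit 7569) (nat_lit 465) (nat_lit 7601))))))) (.a s3176 s3177))))))))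
noncomputable def s3188 : Cert := .r (nat_lit 18869812128501177264509710774503796433499995185341540522026907474751343623210314739829166948347900646451490313420764903077122343325272053234930137433682206587892745109504) (.p (nat_lit 594) (.a (.f (nat_lit 497) (nat_lit 465) (nat_lit 7633) (.f (nat_lit 529) (nat_lit 626) (nat_lit 7665) (.d (nat_lit 499) (nat_lit 467) (nat_lit 6610) (nat_lit 500) (nat_lit 1520)))) (.a (.f (nat_lit 467) (nat_lit 499) (nat_lit 6610) (.f (nat_lit 466) (nat_lit 435) (nat_lit 6578) (.d (nat_lit 465) (nat_lit 433) (nat_lit 7601) (nat_lit 497) (nat_lit 7633)))) (.a (.f (nat_lit 499) (nat_lit 467) (nat_lit 6610) (.f (nat_lit 529) (nat_lit 527) (nat_lit 2543) (.d (nat_lit 500) (nat_lit 501) (nat_lit 1521) (nat_lit 531) (nat_lit 2544)))) (.f (nat_lit 497) (nat_lit 465) (nat_lit 7633) (.f (nat_lit 529) (nat_lit 626) (nat_lit 7665) (.f (nat_lit 563) (nat_lit 527) (nat_lit 527) (.d (nat_lit 564) (nat_lit 531) (nat_lit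 528) (nat_lit 561) (nat_lit 3600)))))))))
noncomputable def s3189 : Cert := .r (nat_lit 18869812128501177264509710774503796433499995185341540522026907474751343623210314739829166948347900646451490313420764903077122343325272053234930137433682206587892745109504) (.p (nat_lit 594) (.a (.f (nat_lit 595) (nat_lit 627) (nat_lit 4594) (.f (nat_lit 563) (nat_lit 466) (nat_lit 4562) (.f (nat_lit 593) (nat_lit 625) (nat_lit 5617) (.d (nat_lit 564) (nat_lit 565) (nat_lit 1585) (nat_lit 592) (nat_lit 2608))))) (.a (.f (nat_lit 593) (nat_lit 625) (nat_lit 5617) (.f (nat_lit 561) (nat_lit 466) (nat_lit 5585) (.d (nat_lit 595) (nat_lit 596) (nat_lit 3632) (nat_lit 627) (nat_lit 4594)))) (.f (nat_lit 497) (nat_lit 465) (nat_lit 7633) (.f (nat_lit 529) (nat_lit 626) (nat_lit 7665) (.f (nat_lit 563) (nat_lit 527) (nat_lit 527) (.d (nat_lit 564) (nat_lit 531) (nat_lit 528) (nat_lit 561) (nat_lit 3600))))))))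
noncomputable def s3190 : Cert := .r (nat_lit 18869812128501177264509710774503796433499995185341540522026907474751343623210314739829166948347900646451490313420764903077122343325272053234930137433682206587892745109504) (.p (nat_lit 594) (.a (.f (nat_lit 497) (nat_lit 465) (nat_lit 7633) (.f (nat_lit 529) (nat_lit 626) (nat_lit 7665) (.d (nat_lit 499) (nat_lit 467) (nat_lit 6610) (nat_lit 500) (nat_lit 1520)))) (.a (.f (nat_lit 625) (nat_lit 593) (nat_lit 5617) (.f (nat_lit 626) (nat_lit 657) (nat_lit 5649) (.d (nat_lit 499) (nat_lit 467) (nat_lit 6610) (nat_lit 531) (nat_lit 6642)))) (.a (.f (nat_lit 497) (nat_lit 465) (nat_lit 7633) (.f (nat_lit 529) (nat_lit 626) (nat_lit 7665) (.f (nat_lit 563) (nat_lit 527) (nat_lit 527) (.d (nat_lit 564) (nat_lit 531) (nat_lit 528) (nat_lit 561) (nat_lit 3600))))) (.f (nat_lit 499) (nat_lit 467) (nat_lit 6610) (.f (nat_lit 529) (nat_lit 527) (nat_lit 2543) (.d (nat_lit 500) (nat_lit 501) (nat_lit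 1521) (nat_lit 531) (nat_lit 2544))))))))
noncomputable def s3191 : Cert := .r (nat_lit 18869812128501177263691363122529760965996697761134640733972746963240577425839491897805133499246732007730672790339288863789400672293382035482625823297210858324560613212160) (.p (nat_lit 498) (.a (.p (nat_lit 594) (.a (.f (nat_lit 497) (nat_lit 465) (nat_lit 7633) (.f (nat_lit 529) (nat_lit 626) (nat_lit 7665) (.d (nat_lit 499) (nat_lit 467) (nat_lit 6610) (nat_lit 500) (nat_lit 1520)))) (.f (nat_lit 595) (nat_lit 627) (nat_lit 4594) (.f (nat_lit 563) (nat_lit 466) (nat_lit 4562) (.f (nat_lit 593) (nat_lit 625) (nat_lit 5617) (.d (nat_lit 564) (nat_lit 565) (nat_lit 1585) (nat_lit 592) (nat_lit 2608))))))) (.a (.p (nat_lit 594) (.a (.f (nat_lit 595) (nat_lit 627) (nat_lit 4594) (.f (nat_lit 563) (nat_lit 466) (nat_lit 4562) (.f (nat_lit 593) (nat_lit 625) (nat_lit 5617) (.d (nat_lit 564) (nat_lit 565) (nat_lit 1585) (nat_lit 592) (nat_lit 2608)))))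 (.a (.f (nat_lit 467) (nat_lit 499) (nat_lit 6610) (.f (nat_lit 466) (nat_lit 435) (nat_lit 6578) (.d (nat_lit 465) (nat_lit 433) (nat_lit 7601) (nat_lit 497) (nat_lit 7633)))) (.f (nat_lit 625) (nat_lit 593) (nat_lit 5617) (.f (nat_lit 626) (nat_lit 657) (nat_lit 5649) (.d (nat_lit 499) (nat_lit 467) (nat_lit 6610) (nat_lit 531) (nat_lit 6642))))))) (.a (.p (nat_lit 594) (.a (.f (nat_lit 595) (nat_lit 627) (nat_lit 4594) (.f (nat_lit 563) (nat_lit 466) (nat_lit 4562) (.f (nat_lit 593) (nat_lit 625) (nat_lit 5617) (.d (nat_lit 564) (nat_lit 565) (nat_lit 1585) (nat_lit 592) (nat_lit 2608))))) (.f (nat_lit 499) (nat_lit 467) (nat_lit 6610) (.f (nat_lit 529) (nat_lit 527) (nat_lit 2543) (.d (nat_lit 500) (nat_lit 501) (nat_lit 1521) (nat_lit 531) (nat_lit 2544)))))) (.a s3176 (.a s3188 (.a s3152 (.a s3189 s3190))))))))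
noncomputable def s3192 : Cert := .r (nat_lit 18869812124986400861704490948459027756867024433892689860299374593630612134736493787905533600559981471712008058190913152356962472978375577626770901665172955839509703950336) (.p (nat_lit 530) (.a (.p (nat_lit 561) (.a (.f (nat_lit 563) (nat_lit 527) (nat_lit 3599) (.d (nat_lit 531) (nat_lit 532) (nat_lit 2576) (nat_lit 559) (nat_lit 2575))) (.a (.f (nat_lit 531) (nat_lit 559) (nat_lit 2575) (.d (nat_lit 532) (nat_lit 529) (nat_lit 1552) (nat_lit 533) (nat_lit 1553))) (.f (nat_lit 563) (nat_lit 527) (nat_lit 3599) (.f (nat_lit 529) (nat_lit 564) (nat_lit 3600) (.f (nat_lit 592) (nat_lit 591) (nat_lit 1583) (.d (nat_lit 497) (nat_lit 465) (nat_lit 5584) (nat_lit 624) (nat_lit 6640)))))))) (.a s3103 (.a s3120 (.a s3133 (.a (.p (nat_lit 498) (.a (.p (nat_lit 594) (.a (.f (nat_lit 595) (nat_lit 627) (nat_lit 4594) (.f (nat_lit 561) (nat_lit 559) (nat_lit 559) (.d (nat_lit 466) (nat_lit 563)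 (nat_lit 4562) (nat_lit 593) (nat_lit 5585)))) (.f (nat_lit 497) (nat_lit 465) (nat_lit 7633) (.f (nat_lit 529) (nat_lit 626) (nat_lit 7665) (.d (nat_lit 499) (nat_lit 467) (nat_lit 6610) (nat_lit 500) (nat_lit 1520)))))) (.a (.p (nat_lit 594) (.a (.f (nat_lit 497) (nat_lit 465) (nat_lit 7633) (.f (nat_lit 529) (nat_lit 626) (nat_lit 7665) (.d (nat_lit 499) (nat_lit 467) (nat_lit 6610) (nat_lit 500) (nat_lit 1520)))) (.f (nat_lit 595) (nat_lit 627) (nat_lit 4594) (.f (nat_lit 563) (nat_lit 466) (nat_lit 4562) (.f (nat_lit 593) (nat_lit 625) (nat_lit 5617) (.d (nat_lit 564) (nat_lit 565) (nat_lit 1585) (nat_lit 592) (nat_lit 2608))))))) (.a s3138 (.a (.p (nat_lit 594) (.a (.f (nat_lit 497) (nat_lit 465) (nat_lit 7633) (.f (nat_lit 529) (nat_lit 626) (nat_lit 7665) (.d (nat_lit 499) (nat_lit 467) (nat_lit 6610) (nat_lit 500) (nat_lit 1520)))) (.f (nat_lit 595) (nat_lit 627) (nat_lit 4594) (.f (nat_lit 561) (nat_lit 559) (nat_lit 559)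 (.d (nat_lit 563) (nat_lit 466) (nat_lit 4562) (nat_lit 596) (nat_lit 560)))))) (.a (.p (nat_lit 594) (.a (.f (nat_lit 497) (nat_lit 465) (nat_lit 7633) (.f (nat_lit 529) (nat_lit 626) (nat_lit 7665) (.d (nat_lit 499) (nat_lit 467) (nat_lit 6610) (nat_lit 500) (nat_lit 1520)))) (.f (nat_lit 595) (nat_lit 627) (nat_lit 4594) (.f (nat_lit 561) (nat_lit 559) (nat_lit 559) (.d (nat_lit 593) (nat_lit 596) (nat_lit 3632) (nat_lit 625) (nat_lit 5617)))))) (.a s3152 (.p (nat_lit 594) (.a (.f (nat_lit 497) (nat_lit 465) (nat_lit 7633) (.f (nat_lit 529) (nat_lit 626) (nat_lit 7665) (.d (nat_lit 499) (nat_lit 467) (nat_lit 6610) (nat_lit 500) (nat_lit 1520)))) (.f (nat_lit 593) (nat_lit 625) (nat_lit 5617) (.f (nat_lit 561) (nat_lit 466) (nat_lit 5585) (.f (nat_lit 563) (nat_lit 527) (nat_lit 3599) (.d (nat_lit 564) (nat_lit 565) (nat_lit 1585) (nat_lit 592) (nat_lit 1584)))))))))))))) (.a s3178 s3191)))))))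
noncomputable def s3193 : Cert := .r (nat_lit 18869812124986400861909077861452536623742848789944414807312914721508303684079199498411541962835273631392212438961282162178892890736348082064846980199290792905342736924672) (.p (nat_lit 592) (.a (.f (nat_lit 591) (nat_lit 623) (nat_lit 5615) (.f (nat_lit 561) (nat_lit 563) (nat_lit 1583) (.d (nat_lit 464) (nat_lit 559) (nat_lit 5583) (nat_lit 593) (nat_lit 4560)))) (.a (.f (nat_lit 591) (nat_lit 623) (nat_lit 5615) (.f (nat_lit 593) (nat_lit 625) (nat_lit 4592) (.f (nat_lit 559) (nat_lit 464) (nat_lit 5583) (.d (nat_lit 558) (nat_lit 557) (nat_lit 557) (nat_lit 594) (nat_lit 3630))))) (.a (.f (nat_lit 591) (nat_lit 623) (nat_lit 5615) (.f (nat_lit 561) (nat_lit 563) (nat_lit 1583) (.d (nat_lit 590) (nat_lit 559) (nat_lit 1582) (nat_lit 589) (nat_lit 2605)))) (.a (.f (nat_lit 593) (nat_lit 625) (nat_lit 4592) (.f (nat_lit 561) (nat_lit 464) (nat_lit 4560) (.d (nat_lit 563) (nat_lit 564)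 (nat_lit 1584) (nat_lit 591) (nat_lit 1583)))) (.f (nat_lit 593) (nat_lit 625) (nat_lit 4592) (.f (nat_lit 561) (nat_lit 464) (nat_lit 4560) (.f (nat_lit 497) (nat_lit 465) (nat_lit 6608) (.f (nat_lit 529) (nat_lit 624) (nat_lit 6640) (.f (nat_lit 594) (nat_lit 626) (nat_lit 4593) (.d (nat_lit 559) (nat_lit 558) (nat_lit 558) (nat_lit 595) (nat_lit 559))))))))))))
noncomputable def s3206 : Cert := .r (nat_lit 18869812124986400861909077861452536623742848789944414807312914721508303684079199498411541962835273631392212438961282162178892890736348082064846980199290792905342736924672) (.p (nat_lit 592) (.a (.f (nat_lit 591) (nat_lit 623) (nat_lit 5615) (.f (nat_lit 561) (nat_lit 563) (nat_lit 1583) (.d (nat_lit 464) (nat_lit 559) (nat_lit 5583) (nat_lit 593) (nat_lit 4560)))) (.a (.f (nat_lit 591) (nat_lit 623) (nat_lit 5615) (.f (nat_lit 593) (nat_lit 625) (nat_lit 4592) (.f (nat_lit 559) (nat_lit 464) (nat_lit 5583) (.d (nat_lit 558)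 (nat_lit 557) (nat_lit 557) (nat_lit 594) (nat_lit 3630))))) (.a (.f (nat_lit 591) (nat_lit 623) (nat_lit 5615) (.f (nat_lit 561) (nat_lit 563) (nat_lit 1583) (.d (nat_lit 590) (nat_lit 559) (nat_lit 1582) (nat_lit 589) (nat_lit 2605)))) (.a (.f (nat_lit 593) (nat_lit 625) (nat_lit 4592) (.f (nat_lit 561) (nat_lit 464) (nat_lit 4560) (.d (nat_lit 563) (nat_lit 564) (nat_lit 1584) (nat_lit 591) (nat_lit 1583)))) (.f (nat_lit 593) (nat_lit 625) (nat_lit 4592) (.f (nat_lit 561) (nat_lit 464) (nat_lit 4560) (.f (nat_lit 563) (nat_lit 564) (nat_lit 1584) (.f (nat_lit 595) (nat_lit 596) (nat_lit 560) (.f (nat_lit 594) (nat_lit 559) (nat_lit 559) (.f (nat_lit 531) (nat_lit 532) (nat_lit 2576) (.d (nat_lit 499) (nat_lit 467) (nat_lit 5586) (nat_lit 626) (nat_lit 5618)))))))))))))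
noncomputable def s3220 : Cert := .r (nat_lit 18869812124986400861909077861452536623742848789944414807312914721508303684079199498411541962835273631392212438961282162178892890736348082064846980199290792905342736924672) (.p (nat_lit 464) (.a (.f (nat_lit 561) (nat_lit 593) (nat_lit 4560) (.f (nat_lit 529) (nat_lit 432) (nat_lit 4528) (.f (nat_lit 559) (nat_lit 591) (nat_lit 5583) (.d (nat_lit 530) (nat_lit 531) (nat_lit 2575) (nat_lit 558) (nat_lit 2574))))) (.a (.f (nat_lit 433) (nat_lit 465) (nat_lit 6576) (.f (nat_lit 432) (nat_lit 401) (nat_lit 6544) (.d (nat_lit 431) (nat_lit 399) (nat_lit 7567) (nat_lit 463) (nat_lit 7599)))) (.f (nat_lit 561) (nat_lit 593) (nat_lit 4560) (.f (nat_lit 559) (nat_lit 591) (nat_lit 5583) (.f (nat_lit 530) (nat_lit 531) (nat_lit 2575) (.f (nat_lit 529) (nat_lit 558) (nat_lit 2574) (.f (nat_lit 465) (nat_lit 433) (nat_lit 6576) (.d (nat_lit 594) (nat_lit 497) (nat_lit 4561) (nat_lit 595) (nat_lit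 559))))))))))
noncomputable def s3224 : Cert := .r (nat_lit 18869812124986400861704490948459027756867024433892689860299374593630612134736493787905533600559981471712008058190913152356962472978375577626770901665172955839509703950336) (.p (nat_lit 496) (.a s3193 (.a (.p (nat_lit 592) (.a (.f (nat_lit 591) (nat_lit 623) (nat_lit 5615) (.f (nat_lit 593) (nat_lit 625) (nat_lit 4592) (.f (nat_lit 559) (nat_lit 464) (nat_lit 5583) (.d (nat_lit 558) (nat_lit 557) (nat_lit 557) (nat_lit 594) (nat_lit 3630))))) (.f (nat_lit 497) (nat_lit 465) (nat_lit 6608) (.f (nat_lit 495) (nat_lit 463) (nat_lit 7631) (.f (nat_lit 529) (nat_lit 624) (nat_lit 6640) (.d (nat_lit 494) (nat_lit 493) (nat_lit 493) (nat_lit 530) (nat_lit 494))))))) (.a s3206 (.a s3220 (.a (.p (nat_lit 592) (.a (.f (nat_lit 591) (nat_lit 623) (nat_lit 5615) (.f (nat_lit 561) (nat_lit 563) (nat_lit 1583) (.d (nat_lit 590) (nat_lit 559) (nat_lit 1582) (nat_lit 589) (nat_lit 2605))))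 (.f (nat_lit 497) (nat_lit 465) (nat_lit 6608) (.f (nat_lit 495) (nat_lit 463) (nat_lit 7631) (.f (nat_lit 529) (nat_lit 624) (nat_lit 6640) (.d (nat_lit 494) (nat_lit 493) (nat_lit 493) (nat_lit 530) (nat_lit 494))))))) (.a (.p (nat_lit 592) (.a (.f (nat_lit 593) (nat_lit 625) (nat_lit 4592) (.f (nat_lit 561) (nat_lit 464) (nat_lit 4560) (.d (nat_lit 563) (nat_lit 564) (nat_lit 1584) (nat_lit 591) (nat_lit 1583)))) (.f (nat_lit 497) (nat_lit 465) (nat_lit 6608) (.f (nat_lit 495) (nat_lit 463) (nat_lit 7631) (.f (nat_lit 529) (nat_lit 624) (nat_lit 6640) (.d (nat_lit 494) (nat_lit 493) (nat_lit 493) (nat_lit 530) (nat_lit 494))))))) (.p (nat_lit 592) (.a (.f (nat_lit 593) (nat_lit 625) (nat_lit 4592) (.f (nat_lit 561) (nat_lit 464) (nat_lit 4560) (.f (nat_lit 497) (nat_lit 465) (nat_lit 6608) (.f (nat_lit 529) (nat_lit 624) (nat_lit 6640) (.f (nat_lit 594) (nat_lit 626) (nat_lit 4593) (.d (nat_lit 559) (nat_lit 558) (nat_lit 558)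 (nat_lit 595) (nat_lit 559))))))) (.a (.f (nat_lit 497) (nat_lit 465) (nat_lit 6608) (.f (nat_lit 495) (nat_lit 463) (nat_lit 7631) (.f (nat_lit 529) (nat_lit 624) (nat_lit 6640) (.d (nat_lit 494) (nat_lit 493) (nat_lit 493) (nat_lit 530) (nat_lit 494))))) (.f (nat_lit 593) (nat_lit 625) (nat_lit 4592) (.f (nat_lit 561) (nat_lit 464) (nat_lit 4560) (.f (nat_lit 563) (nat_lit 564) (nat_lit 1584) (.f (nat_lit 595) (nat_lit 596) (nat_lit 560) (.f (nat_lit 594) (nat_lit 559) (nat_lit 559) (.f (nat_lit 531) (nat_lit 532) (nat_lit 2576) (.d (nat_lit 499) (nat_lit 467) (nat_lit 5586) (nat_lit 626) (nat_lit 5618))))))))))))))))))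
noncomputable def s3235 : Cert := .r (nat_lit 16209045209811190869175494079248089194601395851564043574500726304403487138212284581610349447855157796998254466287401765934644211245289720274808682447528572317755697259046850527232) (.p (nat_lit 624) (.a (.f (nat_lit 527) (nat_lit 495) (nat_lit 7663) (.f (nat_lit 656) (nat_lit 559) (nat_lit 7695) (.d (nat_lit 655) (nat_lit 623) (nat_lit 5647) (nat_lit 687) (nat_lit 5679)))) (.a (.f (nat_lit 655) (nat_lit 623) (nat_lit 5647) (.f (nat_lit 656) (nat_lit 687) (nat_lit 5679) (.d (nat_lit 657) (nat_lit 625) (nat_lit 4624) (nat_lit 689) (nat_lit 4656)))) (.a (.f (nat_lit 527) (nat_lit 495) (nat_lit 7663) (.f (nat_lit 656) (nat_lit 559) (nat_lit 7695) (.d (nat_lit 657) (nat_lit 625) (nat_lit 4624) (nat_lit 689) (nat_lit 4656)))) (.f (nat_lit 527) (nat_lit 495) (nat_lit 7663) (.f (nat_lit 529) (nat_lit 497) (nat_lit 6640) (.f (nat_lit 530) (nat_lit 563) (nat_lit 527) (.d (nat_lit 559) (nat_lit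 531) (nat_lit 1551) (nat_lit 558) (nat_lit 1550)))))))))
noncomputable def s3256 : Cert := .r (nat_lit 16209045209811190869175494079248089194601395851564043574500726304403487138212284581610349447855157796998254466287401765934644211245289720274808682447528572317755697259046850527232) (.p (nat_lit 496) (.a (.f (nat_lit 495) (nat_lit 463) (nat_lit 7631) (.f (nat_lit 624) (nat_lit 527) (nat_lit 7663) (.d (nat_lit 497) (nat_lit 465) (nat_lit 6608) (nat_lit 529) (nat_lit 6640)))) (.a (.f (nat_lit 497) (nat_lit 465) (nat_lit 6608) (.f (nat_lit 495) (nat_lit 463) (nat_lit 7631) (.f (nat_lit 529) (nat_lit 624) (nat_lit 6640) (.d (nat_lit 494) (nat_lit 493) (nat_lit 493) (nat_lit 530) (nat_lit 494))))) (.a (.f (nat_lit 495) (nat_lit 463) (nat_lit 7631) (.f (nat_lit 624) (nat_lit 527) (nat_lit 7663) (.d (nat_lit 623) (nat_lit 591) (nat_lit 5615) (nat_lit 655) (nat_lit 5647)))) (.a (.f (nat_lit 463) (nat_lit 495) (nat_lit 7631) (.f (nat_lit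 464) (nat_lit 431) (nat_lit 7599) (.d (nat_lit 465) (nat_lit 433) (nat_lit 6576) (nat_lit 497) (nat_lit 6608)))) (.f (nat_lit 497) (nat_lit 465) (nat_lit 6608) (.f (nat_lit 624) (nat_lit 529) (nat_lit 6640) (.d (nat_lit 623) (nat_lit 591) (nat_lit 5615) (nat_lit 655) (nat_lit 5647)))))))))
noncomputable def s3261 : Cert := .r (nat_lit 16209045209811190869175494079248089194601395851564043574500726304403487138212284581610349447855157796998254466287401765934644211245289720274808682447528572317755697259046850527232) (.p (nat_lit 496) (.a (.f (nat_lit 495) (nat_lit 463) (nat_lit 7631) (.f (nat_lit 624) (nat_lit 527) (nat_lit 7663) (.d (nat_lit 497) (nat_lit 465) (nat_lit 6608) (nat_lit 529) (nat_lit 6640)))) (.a (.f (nat_lit 497) (nat_lit 465) (nat_lit 6608) (.f (nat_lit 495) (nat_lit 463) (nat_lit 7631) (.f (nat_lit 529) (nat_lit 624) (nat_lit 6640) (.d (nat_lit 494) (nat_lit 493) (nat_lit 493) (nat_lit 530) (nat_lit 494))))) (.a (.f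 (nat_lit 463) (nat_lit 495) (nat_lit 7631) (.f (nat_lit 464) (nat_lit 431) (nat_lit 7599) (.d (nat_lit 465) (nat_lit 433) (nat_lit 6576) (nat_lit 497) (nat_lit 6608)))) (.a (.f (nat_lit 495) (nat_lit 463) (nat_lit 7631) (.f (nat_lit 624) (nat_lit 527) (nat_lit 7663) (.d (nat_lit 625) (nat_lit 593) (nat_lit 4592) (nat_lit 657) (nat_lit 4624)))) (.f (nat_lit 497) (nat_lit 465) (nat_lit 6608) (.f (nat_lit 624) (nat_lit 529) (nat_lit 6640) (.d (nat_lit 625) (nat_lit 593) (nat_lit 4592) (nat_lit 657) (nat_lit 4624)))))))))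
noncomputable def s3276 : Cert := .r (nat_lit 18869812124986400861704490948459027756867024433892689860299374593630612134736493787905533600559981471712008058190913152356962472978375577626770901665172955839509703950336) (.p (nat_lit 496) (.a s3206 (.a (.p (nat_lit 592) (.a (.f (nat_lit 591) (nat_lit 623) (nat_lit 5615) (.f (nat_lit 593) (nat_lit 625) (nat_lit 4592) (.f (nat_lit 559) (nat_lit 464) (nat_lit 5583) (.d (nat_lit 558) (nat_lit 557) (nat_lit 557) (nat_lit 594) (nat_lit 3630))))) (.a (.f (nat_lit 495) (nat_lit 463) (nat_lit 7631) (.f (nat_lit 624) (nat_lit 527) (nat_lit 7663) (.d (nat_lit 623) (nat_lit 591) (nat_lit 5615) (nat_lit 655) (nat_lit 5647)))) (.f (nat_lit 463) (nat_lit 495) (nat_lit 7631) (.f (nat_lit 464) (nat_lit 431) (nat_lit 7599) (.d (nat_lit 465) (nat_lit 433) (nat_lit 6576) (nat_lit 497) (nat_lit 6608))))))) (.a (.p (nat_lit 561) (.a (.f (nat_lit 464) (nat_lit 593) (nat_lit 4560) (.f (nat_lit 431) (nat_lit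 463) (nat_lit 7599) (.f (nat_lit 432) (nat_lit 399) (nat_lit 7567) (.d (nat_lit 433) (nat_lit 401) (nat_lit 6544) (nat_lit 465) (nat_lit 6576))))) (.f (nat_lit 563) (nat_lit 527) (nat_lit 3599) (.f (nat_lit 595) (nat_lit 596) (nat_lit 560) (.f (nat_lit 531) (nat_lit 532) (nat_lit 2576) (.d (nat_lit 559) (nat_lit 530) (nat_lit 2575) (nat_lit 594) (nat_lit 559))))))) (.a (.p (nat_lit 592) (.a (.f (nat_lit 591) (nat_lit 623) (nat_lit 5615) (.f (nat_lit 561) (nat_lit 563) (nat_lit 1583) (.d (nat_lit 590) (nat_lit 559) (nat_lit 1582) (nat_lit 589) (nat_lit 2605)))) (.a (.f (nat_lit 495) (nat_lit 463) (nat_lit 7631) (.f (nat_lit 624) (nat_lit 527) (nat_lit 7663) (.d (nat_lit 623) (nat_lit 591) (nat_lit 5615) (nat_lit 655) (nat_lit 5647)))) (.f (nat_lit 495) (nat_lit 463) (nat_lit 7631) (.f (nat_lit 624) (nat_lit 527) (nat_lit 7663) (.d (nat_lit 625) (nat_lit 593) (nat_lit 4592) (nat_lit 657) (nat_lit 4624))))))) (.a (.p (nat_lit 592)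 (.a (.f (nat_lit 591) (nat_lit 623) (nat_lit 5615) (.f (nat_lit 561) (nat_lit 563) (nat_lit 1583) (.d (nat_lit 590) (nat_lit 559) (nat_lit 1582) (nat_lit 589) (nat_lit 2605)))) (.a (.f (nat_lit 495) (nat_lit 463) (nat_lit 7631) (.f (nat_lit 624) (nat_lit 527) (nat_lit 7663) (.d (nat_lit 623) (nat_lit 591) (nat_lit 5615) (nat_lit 655) (nat_lit 5647)))) (.f (nat_lit 463) (nat_lit 495) (nat_lit 7631) (.f (nat_lit 464) (nat_lit 431) (nat_lit 7599) (.d (nat_lit 465) (nat_lit 433) (nat_lit 6576) (nat_lit 497) (nat_lit 6608))))))) (.p (nat_lit 592) (.a (.f (nat_lit 593) (nat_lit 625) (nat_lit 4592) (.f (nat_lit 561) (nat_lit 464) (nat_lit 4560) (.d (nat_lit 563) (nat_lit 564) (nat_lit 1584) (nat_lit 591) (nat_lit 1583)))) (.a (.f (nat_lit 495) (nat_lit 463) (nat_lit 7631) (.f (nat_lit 624) (nat_lit 527) (nat_lit 7663) (.d (nat_lit 623) (nat_lit 591) (nat_lit 5615) (nat_lit 655) (nat_lit 5647)))) (.f (nat_lit 593) (nat_lit 625) (nat_lit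 4592) (.f (nat_lit 561) (nat_lit 464) (nat_lit 4560) (.d (nat_lit 563) (nat_lit 527) (nat_lit 3599) (nat_lit 564) (nat_lit 1584)))))))))))))
noncomputable def s3290 : Cert := .r (nat_lit 18869812124986400861909077861452536623742848789944414807312914721508303684079199498411541962835273631392212438961282162178892890736348082064846980199290792905342736924672) (.p (nat_lit 592) (.a (.f (nat_lit 591) (nat_lit 623) (nat_lit 5615) (.f (nat_lit 561) (nat_lit 563) (nat_lit 1583) (.d (nat_lit 590) (nat_lit 559) (nat_lit 1582) (nat_lit 589) (nat_lit 2605)))) (.a (.f (nat_lit 495) (nat_lit 463) (nat_lit 7631) (.f (nat_lit 624) (nat_lit 527) (nat_lit 7663) (.d (nat_lit 623) (nat_lit 591) (nat_lit 5615) (nat_lit 655) (nat_lit 5647)))) (.a (.f (nat_lit 495) (nat_lit 463) (nat_lit 7631) (.f (nat_lit 624) (nat_lit 527) (nat_lit 7663) (.f (nat_lit 657) (nat_lit 625) (nat_lit 4624) (.f (nat_lit 656) (nat_lit 689) (nat_lit 4656) (.f (nat_lit 561) (nat_lit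 529) (nat_lit 6672) (.f (nat_lit 591) (nat_lit 563) (nat_lit 1583) (.d (nat_lit 559) (nat_lit 464) (nat_lit 5583) (nat_lit 590) (nat_lit 1582)))))))) (.f (nat_lit 495) (nat_lit 463) (nat_lit 7631) (.f (nat_lit 624) (nat_lit 527) (nat_lit 7663) (.f (nat_lit 655) (nat_lit 623) (nat_lit 5647) (.f (nat_lit 656) (nat_lit 687) (nat_lit 5679) (.d (nat_lit 657) (nat_lit 625) (nat_lit 4624) (nat_lit 689) (nat_lit 4656))))))))))
noncomputable def s3327 : Cert := .r (nat_lit 18869812124986400861704490948459027756867024433892689860299374593630612134736493787905533600559981471712008058190913152356962472978375577626770901665172955839509703950336) (.p (nat_lit 561) (.a (.f (nat_lit 563) (nat_lit 527) (nat_lit 3599) (.f (nat_lit 529) (nat_lit 564) (nat_lit 3600) (.f (nat_lit 531) (nat_lit 532) (nat_lit 2576) (.f (nat_lit 530) (nat_lit 559) (nat_lit 1551) (.f (nat_lit 499) (nat_lit 500) (nat_lit 2544) (.d (nat_lit 467) (nat_lit 435) (nat_lit 5554)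 (nat_lit 594) (nat_lit 5586))))))) (.a (.p (nat_lit 559) (.a (.f (nat_lit 530) (nat_lit 531) (nat_lit 2575) (.f (nat_lit 529) (nat_lit 558) (nat_lit 2574) (.f (nat_lit 594) (nat_lit 595) (nat_lit 559) (.d (nat_lit 497) (nat_lit 465) (nat_lit 4561) (nat_lit 626) (nat_lit 7665))))) (.a (.f (nat_lit 594) (nat_lit 595) (nat_lit 559) (.f (nat_lit 530) (nat_lit 531) (nat_lit 2575) (.f (nat_lit 593) (nat_lit 558) (nat_lit 558) (.d (nat_lit 498) (nat_lit 466) (nat_lit 5585) (nat_lit 625) (nat_lit 5617))))) (.a (.f (nat_lit 591) (nat_lit 590) (nat_lit 1582) (.f (nat_lit 496) (nat_lit 464) (nat_lit 5583) (.f (nat_lit 594) (nat_lit 595) (nat_lit 559) (.f (nat_lit 593) (nat_lit 558) (nat_lit 558) (.d (nat_lit 625) (nat_lit 529) (nat_lit 7664) (nat_lit 657) (nat_lit 7696)))))) (.a (.f (nat_lit 530) (nat_lit 531) (nat_lit 2575) (.f (nat_lit 558) (nat_lit 529) (nat_lit 2574) (.d (nat_lit 590) (nat_lit 589) (nat_lit 1581) (nat_lit 591) (nat_lit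 1582)))) (.f (nat_lit 531) (nat_lit 530) (nat_lit 2575) (.f (nat_lit 563) (nat_lit 532) (nat_lit 2576) (.d (nat_lit 595) (nat_lit 594) (nat_lit 559) (nat_lit 596) (nat_lit 560))))))))) (.a (.f (nat_lit 563) (nat_lit 527) (nat_lit 3599) (.f (nat_lit 595) (nat_lit 596) (nat_lit 560) (.f (nat_lit 531) (nat_lit 532) (nat_lit 2576) (.d (nat_lit 559) (nat_lit 530) (nat_lit 2575) (nat_lit 594) (nat_lit 559))))) (.a (.f (nat_lit 563) (nat_lit 527) (nat_lit 3599) (.f (nat_lit 564) (nat_lit 529) (nat_lit 3600) (.d (nat_lit 596) (nat_lit 595) (nat_lit 560) (nat_lit 597) (nat_lit 561)))) (.p (nat_lit 559) (.a (.f (nat_lit 530) (nat_lit 531) (nat_lit 2575) (.f (nat_lit 529) (nat_lit 558) (nat_lit 2574) (.f (nat_lit 594) (nat_lit 595) (nat_lit 559) (.d (nat_lit 497) (nat_lit 465) (nat_lit 4561) (nat_lit 626) (nat_lit 7665))))) (.a (.f (nat_lit 594) (nat_lit 595) (nat_lit 559) (.f (nat_lit 530) (nat_lit 531) (nat_lit 2575) (.f (nat_lit 593) (nat_lit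 558) (nat_lit 558) (.d (nat_lit 498) (nat_lit 466) (nat_lit 5585) (nat_lit 625) (nat_lit 5617))))) (.a (.f (nat_lit 591) (nat_lit 590) (nat_lit 1582) (.f (nat_lit 496) (nat_lit 464) (nat_lit 5583) (.f (nat_lit 594) (nat_lit 595) (nat_lit 559) (.f (nat_lit 593) (nat_lit 558) (nat_lit 558) (.d (nat_lit 625) (nat_lit 529) (nat_lit 7664) (nat_lit 657) (nat_lit 7696)))))) (.a (.f (nat_lit 530) (nat_lit 531) (nat_lit 2575) (.f (nat_lit 558) (nat_lit 529) (nat_lit 2574) (.d (nat_lit 590) (nat_lit 589) (nat_lit 1581) (nat_lit 591) (nat_lit 1582)))) (.f (nat_lit 591) (nat_lit 590) (nat_lit 1582) (.f (nat_lit 496) (nat_lit 464) (nat_lit 5583) (.d (nat_lit 623) (nat_lit 527) (nat_lit 6639) (nat_lit 655) (nat_lit 6671))))))))))))))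
noncomputable def s3357 : Cert := .r (nat_lit 18869812124986400861909077861452536623742848789944414807312914721508303684079199498411541962835273631392212438961282162178892890736348082064846980199290792905342736924672) (.p (nat_lit 592) (.a (.f (nat_lit 495) (nat_lit 463) (nat_lit 7631) (.f (nat_lit 624) (nat_lit 527) (nat_lit 7663) (.d (nat_lit 497) (nat_lit 465) (nat_lit 6608) (nat_lit 529) (nat_lit 6640)))) (.a (.f (nat_lit 497) (nat_lit 465) (nat_lit 6608) (.f (nat_lit 495) (nat_lit 463) (nat_lit 7631) (.f (nat_lit 529) (nat_lit 624) (nat_lit 6640) (.d (nat_lit 494) (nat_lit 493) (nat_lit 493) (nat_lit 530) (nat_lit 494))))) (.a (.f (nat_lit 495) (nat_lit 463) (nat_lit 7631) (.f (nat_lit 624) (nat_lit 527) (nat_lit 7663) (.d (nat_lit 623) (nat_lit 591) (nat_lit 5615) (nat_lit 655) (nat_lit 5647)))) (.f (nat_lit 591) (nat_lit 623) (nat_lit 5615) (.f (nat_lit 593) (nat_lit 625) (nat_lit 4592) (.f (nat_lit 590) (nat_lit 561) (nat_lit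 2606) (.f (nat_lit 557) (nat_lit 558) (nat_lit 3629) (.f (nat_lit 589) (nat_lit 556) (nat_lit 3628) (.d (nat_lit 621) (nat_lit 620) (nat_lit 1612) (nat_lit 622) (nat_lit 1613)))))))))))
noncomputable def s3358 : Cert := .r (nat_lit 18869812124986400861909077861452536623742848789944414807312914721508303684079199498411541962835273631392212438961282162178892890736348082064846980199290792905342736924672) (.p (nat_lit 592) (.a (.f (nat_lit 495) (nat_lit 463) (nat_lit 7631) (.f (nat_lit 624) (nat_lit 527) (nat_lit 7663) (.d (nat_lit 497) (nat_lit 465) (nat_lit 6608) (nat_lit 529) (nat_lit 6640)))) (.a (.f (nat_lit 497) (nat_lit 465) (nat_lit 6608) (.f (nat_lit 495) (nat_lit 463) (nat_lit 7631) (.f (nat_lit 529) (nat_lit 624) (nat_lit 6640) (.d (nat_lit 494) (nat_lit 493) (nat_lit 493) (nat_lit 530) (nat_lit 494))))) (.a (.f (nat_lit 495) (nat_lit 463) (nat_lit 7631) (.f (nat_lit 624) (nat_lit 527) (nat_lit 7663) (.d (nat_lit 623) (nat_lit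 591) (nat_lit 5615) (nat_lit 655) (nat_lit 5647)))) (.a (.f (nat_lit 463) (nat_lit 495) (nat_lit 7631) (.f (nat_lit 464) (nat_lit 431) (nat_lit 7599) (.d (nat_lit 465) (nat_lit 433) (nat_lit 6576) (nat_lit 497) (nat_lit 6608)))) (.f (nat_lit 497) (nat_lit 465) (nat_lit 6608) (.f (nat_lit 624) (nat_lit 529) (nat_lit 6640) (.d (nat_lit 623) (nat_lit 591) (nat_lit 5615) (nat_lit 655) (nat_lit 5647)))))))))
noncomputable def s3360 : Cert := .r (nat_lit 18869812124986400861909077861452536623742848789944414807312914721508303684079199498411541962835273631392212438961282162178892890736348082064846980199290792905342736924672) (.p (nat_lit 592) (.a (.f (nat_lit 591) (nat_lit 623) (nat_lit 5615) (.f (nat_lit 593) (nat_lit 625) (nat_lit 4592) (.f (nat_lit 559) (nat_lit 464) (nat_lit 5583) (.d (nat_lit 558) (nat_lit 557) (nat_lit 557) (nat_lit 594) (nat_lit 3630))))) (.a (.f (nat_lit 497) (nat_lit 465) (nat_lit 6608) (.f (nat_lit 624) (nat_lit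 529) (nat_lit 6640) (.d (nat_lit 623) (nat_lit 591) (nat_lit 5615) (nat_lit 655) (nat_lit 5647)))) (.f (nat_lit 593) (nat_lit 625) (nat_lit 4592) (.f (nat_lit 561) (nat_lit 464) (nat_lit 4560) (.f (nat_lit 497) (nat_lit 465) (nat_lit 6608) (.f (nat_lit 529) (nat_lit 624) (nat_lit 6640) (.f (nat_lit 594) (nat_lit 626) (nat_lit 4593) (.d (nat_lit 559) (nat_lit 558) (nat_lit 558) (nat_lit 595) (nat_lit 559))))))))))
noncomputable def s3361 : Cert := .r (nat_lit 18869812124986400861704490948459027756867024433892689860299374593630612134736493787905533600559981471712008058190913152356962472978375577626770901665172955839509703950336) (.p (nat_lit 496) (.a (.p (nat_lit 592) (.a (.f (nat_lit 591) (nat_lit 623) (nat_lit 5615) (.f (nat_lit 593) (nat_lit 625) (nat_lit 4592) (.f (nat_lit 559) (nat_lit 464) (nat_lit 5583) (.d (nat_lit 558) (nat_lit 557) (nat_lit 557) (nat_lit 594) (nat_lit 3630))))) (.f (nat_lit 497) (nat_lit 465) (nat_lit 6608)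 (.f (nat_lit 495) (nat_lit 463) (nat_lit 7631) (.f (nat_lit 529) (nat_lit 624) (nat_lit 6640) (.d (nat_lit 494) (nat_lit 493) (nat_lit 493) (nat_lit 530) (nat_lit 494))))))) (.a (.p (nat_lit 592) (.a (.f (nat_lit 591) (nat_lit 623) (nat_lit 5615) (.f (nat_lit 593) (nat_lit 625) (nat_lit 4592) (.f (nat_lit 559) (nat_lit 464) (nat_lit 5583) (.d (nat_lit 558) (nat_lit 557) (nat_lit 557) (nat_lit 594) (nat_lit 3630))))) (.a (.f (nat_lit 495) (nat_lit 463) (nat_lit 7631) (.f (nat_lit 624) (nat_lit 527) (nat_lit 7663) (.d (nat_lit 623) (nat_lit 591) (nat_lit 5615) (nat_lit 655) (nat_lit 5647)))) (.f (nat_lit 463) (nat_lit 495) (nat_lit 7631) (.f (nat_lit 464) (nat_lit 431) (nat_lit 7599) (.d (nat_lit 465) (nat_lit 433) (nat_lit 6576) (nat_lit 497) (nat_lit 6608))))))) (.a (.p (nat_lit 592) (.a (.f (nat_lit 591) (nat_lit 623) (nat_lit 5615) (.f (nat_lit 593) (nat_lit 625) (nat_lit 4592) (.f (nat_lit 559) (nat_lit 464) (nat_lit 5583) (.d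 (nat_lit 558) (nat_lit 557) (nat_lit 557) (nat_lit 594) (nat_lit 3630))))) (.a (.f (nat_lit 495) (nat_lit 463) (nat_lit 7631) (.f (nat_lit 624) (nat_lit 527) (nat_lit 7663) (.d (nat_lit 623) (nat_lit 591) (nat_lit 5615) (nat_lit 655) (nat_lit 5647)))) (.f (nat_lit 495) (nat_lit 463) (nat_lit 7631) (.f (nat_lit 624) (nat_lit 527) (nat_lit 7663) (.d (nat_lit 625) (nat_lit 593) (nat_lit 4592) (nat_lit 657) (nat_lit 4624))))))) (.a s3220 (.a s3357 (.a s3358 (.a (.p (nat_lit 592) (.a (.f (nat_lit 495) (nat_lit 463) (nat_lit 7631) (.f (nat_lit 624) (nat_lit 527) (nat_lit 7663) (.d (nat_lit 497) (nat_lit 465) (nat_lit 6608) (nat_lit 529) (nat_lit 6640)))) (.a (.f (nat_lit 593) (nat_lit 625) (nat_lit 4592) (.f (nat_lit 561) (nat_lit 464) (nat_lit 4560) (.f (nat_lit 497) (nat_lit 465) (nat_lit 6608) (.f (nat_lit 529) (nat_lit 624) (nat_lit 6640) (.f (nat_lit 594) (nat_lit 626) (nat_lit 4593) (.d (nat_lit 559) (nat_lit 558) (nat_lit 558)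 (nat_lit 595) (nat_lit 559))))))) (.a (.f (nat_lit 463) (nat_lit 495) (nat_lit 7631) (.f (nat_lit 464) (nat_lit 431) (nat_lit 7599) (.d (nat_lit 465) (nat_lit 433) (nat_lit 6576) (nat_lit 497) (nat_lit 6608)))) (.f (nat_lit 495) (nat_lit 463) (nat_lit 7631) (.f (nat_lit 624) (nat_lit 527) (nat_lit 7663) (.d (nat_lit 625) (nat_lit 593) (nat_lit 4592) (nat_lit 657) (nat_lit 4624)))))))) s3360))))))))
noncomputable def s3362 : Cert := .r (nat_lit 16209045209811190869175494079248089194601395851564043574500726304403487138212284581610349447855157796998254466287401765934644211245289720274808682447528572317755697259046850527232) (.p (nat_lit 624) (.a (.f (nat_lit 527) (nat_lit 495) (nat_lit 7663) (.f (nat_lit 561) (nat_lit 563) (nat_lit 3599) (.d (nat_lit 529) (nat_lit 497) (nat_lit 6640) (nat_lit 656) (nat_lit 6672)))) (.a (.f (nat_lit 529) (nat_lit 497) (nat_lit 6640) (.f (nat_lit 561) (nat_lit 656) (nat_lit 6672) (.d (nat_lit 563) (nat_lit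 564) (nat_lit 3600) (nat_lit 591) (nat_lit 1583)))) (.a (.f (nat_lit 655) (nat_lit 623) (nat_lit 5647) (.f (nat_lit 656) (nat_lit 687) (nat_lit 5679) (.d (nat_lit 657) (nat_lit 625) (nat_lit 4624) (nat_lit 689) (nat_lit 4656)))) (.f (nat_lit 527) (nat_lit 495) (nat_lit 7663) (.f (nat_lit 529) (nat_lit 497) (nat_lit 6640) (.d (nat_lit 563) (nat_lit 530) (nat_lit 527) (nat_lit 561) (nat_lit 3599))))))))
noncomputable def s3368 : Cert := .r (nat_lit 16209045209811190869175494079248089194601395851564043574500726304403487138212284581610349447855157796998254466287401765934644211245289720274808682447528572317755697259046850527232) (.p (nat_lit 496) (.a (.f (nat_lit 591) (nat_lit 623) (nat_lit 5615) (.f (nat_lit 561) (nat_lit 563) (nat_lit 1583) (.d (nat_lit 464) (nat_lit 559) (nat_lit 5583) (nat_lit 593) (nat_lit 4560)))) (.a (.f (nat_lit 591) (nat_lit 623) (nat_lit 5615) (.f (nat_lit 593) (nat_lit 625) (nat_lit 4592) (.f (nat_lit 559)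 (nat_lit 464) (nat_lit 5583) (.d (nat_lit 558) (nat_lit 557) (nat_lit 557) (nat_lit 594) (nat_lit 3630))))) (.a (.f (nat_lit 591) (nat_lit 623) (nat_lit 5615) (.f (nat_lit 561) (nat_lit 563) (nat_lit 1583) (.d (nat_lit 590) (nat_lit 559) (nat_lit 1582) (nat_lit 589) (nat_lit 2605)))) (.a (.f (nat_lit 593) (nat_lit 625) (nat_lit 4592) (.f (nat_lit 561) (nat_lit 464) (nat_lit 4560) (.d (nat_lit 563) (nat_lit 564) (nat_lit 1584) (nat_lit 591) (nat_lit 1583)))) (.f (nat_lit 593) (nat_lit 625) (nat_lit 4592) (.f (nat_lit 561) (nat_lit 464) (nat_lit 4560) (.f (nat_lit 563) (nat_lit 564) (nat_lit 1584) (.f (nat_lit 595) (nat_lit 596) (nat_lit 560) (.f (nat_lit 594) (nat_lit 559) (nat_lit 559) (.f (nat_lit 531) (nat_lit 532) (nat_lit 2576) (.d (nat_lit 499) (nat_lit 467) (nat_lit 5586) (nat_lit 626) (nat_lit 5618)))))))))))))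
noncomputable def s3374 : Cert := .r (nat_lit 16209045209811190869175494079248089194601395851564043574500726304403487138212284581610349447855157796998254466287401765934644211245289720274808682447528572317755697259046850527232) (.p (nat_lit 496) (.a (.f (nat_lit 593) (nat_lit 625) (nat_lit 4592) (.f (nat_lit 561) (nat_lit 464) (nat_lit 4560) (.d (nat_lit 563) (nat_lit 564) (nat_lit 1584) (nat_lit 591) (nat_lit 1583)))) (.a (.f (nat_lit 495) (nat_lit 463) (nat_lit 7631) (.f (nat_lit 624) (nat_lit 527) (nat_lit 7663) (.d (nat_lit 625) (nat_lit 593) (nat_lit 4592) (nat_lit 657) (nat_lit 4624)))) (.a (.f (nat_lit 495) (nat_lit 463) (nat_lit 7631) (.f (nat_lit 624) (nat_lit 527) (nat_lit 7663) (.f (nat_lit 657) (nat_lit 625) (nat_lit 4624) (.f (nat_lit 656) (nat_lit 689) (nat_lit 4656) (.f (nat_lit 561) (nat_lit 529) (nat_lit 6672) (.f (nat_lit 591) (nat_lit 563) (nat_lit 1583) (.d (nat_lit 559) (nat_lit 464) (nat_lit 5583) (nat_lit 590)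 (nat_lit 1582)))))))) (.f (nat_lit 495) (nat_lit 463) (nat_lit 7631) (.f (nat_lit 527) (nat_lit 624) (nat_lit 7663) (.f (nat_lit 561) (nat_lit 563) (nat_lit 3599) (.f (nat_lit 464) (nat_lit 593) (nat_lit 4560) (.d (nat_lit 432) (nat_lit 400) (nat_lit 5519) (nat_lit 529) (nat_lit 4528))))))))))
noncomputable def s3375 : Cert := .r (nat_lit 18869812124986400861704490948459027756867024433892689860299374593630612134736493787905533600559981471712008058190913152356962472978375577626770901665172955839509703950336) (.p (nat_lit 592) (.a s3034 (.a s3368 (.a s3235 (.a (.p (nat_lit 496) (.a (.f (nat_lit 591) (nat_lit 623) (nat_lit 5615) (.f (nat_lit 593) (nat_lit 625) (nat_lit 4592) (.f (nat_lit 559) (nat_lit 464) (nat_lit 5583) (.d (nat_lit 558) (nat_lit 557) (nat_lit 557) (nat_lit 594) (nat_lit 3630))))) (.a (.f (nat_lit 495) (nat_lit 463) (nat_lit 7631) (.f (nat_lit 624) (nat_lit 527) (nat_lit 7663) (.d (nat_lit 623) (nat_lit 591) (nat_lit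 5615) (nat_lit 655) (nat_lit 5647)))) (.f (nat_lit 495) (nat_lit 463) (nat_lit 7631) (.f (nat_lit 624) (nat_lit 527) (nat_lit 7663) (.d (nat_lit 625) (nat_lit 593) (nat_lit 4592) (nat_lit 657) (nat_lit 4624))))))) (.a s3362 s3374))))))
noncomputable def s3391 : Cert := .r (nat_lit 18869812124986400861704490948459027756867024433892689860299374593630612134736493787905533600559981471712008058190913152356962472978375577626770901665172955839509703950336) (.p (nat_lit 592) (.a (.p (nat_lit 496) (.a (.f (nat_lit 591) (nat_lit 623) (nat_lit 5615) (.f (nat_lit 561) (nat_lit 563) (nat_lit 1583) (.d (nat_lit 464) (nat_lit 559) (nat_lit 5583) (nat_lit 593) (nat_lit 4560)))) (.f (nat_lit 495) (nat_lit 463) (nat_lit 7631) (.f (nat_lit 624) (nat_lit 527) (nat_lit 7663) (.d (nat_lit 497) (nat_lit 465) (nat_lit 6608) (nat_lit 529) (nat_lit 6640)))))) (.a s3034 (.a (.p (nat_lit 496) (.a (.f (nat_lit 591) (nat_lit 623) (nat_lit 5615) (.f (nat_lit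 561) (nat_lit 563) (nat_lit 1583) (.d (nat_lit 590) (nat_lit 559) (nat_lit 1582) (nat_lit 589) (nat_lit 2605)))) (.f (nat_lit 497) (nat_lit 465) (nat_lit 6608) (.f (nat_lit 495) (nat_lit 463) (nat_lit 7631) (.f (nat_lit 529) (nat_lit 624) (nat_lit 6640) (.d (nat_lit 494) (nat_lit 493) (nat_lit 493) (nat_lit 530) (nat_lit 494))))))) (.a s3256 (.a (.p (nat_lit 496) (.a (.f (nat_lit 591) (nat_lit 623) (nat_lit 5615) (.f (nat_lit 561) (nat_lit 563) (nat_lit 1583) (.d (nat_lit 590) (nat_lit 559) (nat_lit 1582) (nat_lit 589) (nat_lit 2605)))) (.a (.f (nat_lit 495) (nat_lit 463) (nat_lit 7631) (.f (nat_lit 624) (nat_lit 527) (nat_lit 7663) (.d (nat_lit 623) (nat_lit 591) (nat_lit 5615) (nat_lit 655) (nat_lit 5647)))) (.f (nat_lit 463) (nat_lit 495) (nat_lit 7631) (.f (nat_lit 464) (nat_lit 431) (nat_lit 7599) (.d (nat_lit 465) (nat_lit 433) (nat_lit 6576) (nat_lit 497) (nat_lit 6608))))))) (.a (.p (nat_lit 496) (.a (.f (nat_lit 591) (nat_lit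 623) (nat_lit 5615) (.f (nat_lit 561) (nat_lit 563) (nat_lit 1583) (.d (nat_lit 464) (nat_lit 559) (nat_lit 5583) (nat_lit 593) (nat_lit 4560)))) (.a (.f (nat_lit 495) (nat_lit 463) (nat_lit 7631) (.f (nat_lit 624) (nat_lit 527) (nat_lit 7663) (.d (nat_lit 623) (nat_lit 591) (nat_lit 5615) (nat_lit 655) (nat_lit 5647)))) (.f (nat_lit 495) (nat_lit 463) (nat_lit 7631) (.f (nat_lit 527) (nat_lit 624) (nat_lit 7663) (.f (nat_lit 561) (nat_lit 563) (nat_lit 3599) (.f (nat_lit 464) (nat_lit 593) (nat_lit 4560) (.d (nat_lit 432) (nat_lit 400) (nat_lit 5519) (nat_lit 529) (nat_lit 4528))))))))) (.a (.p (nat_lit 496) (.a (.f (nat_lit 591) (nat_lit 623) (nat_lit 5615) (.f (nat_lit 561) (nat_lit 563) (nat_lit 1583) (.d (nat_lit 590) (nat_lit 559) (nat_lit 1582) (nat_lit 589) (nat_lit 2605)))) (.f (nat_lit 463) (nat_lit 495) (nat_lit 7631) (.f (nat_lit 464) (nat_lit 431) (nat_lit 7599) (.d (nat_lit 465) (nat_lit 433) (nat_lit 6576) (nat_lit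 497) (nat_lit 6608)))))) (.a (.p (nat_lit 496) (.a (.f (nat_lit 591) (nat_lit 623) (nat_lit 5615) (.f (nat_lit 561) (nat_lit 563) (nat_lit 1583) (.d (nat_lit 464) (nat_lit 559) (nat_lit 5583) (nat_lit 593) (nat_lit 4560)))) (.a (.f (nat_lit 497) (nat_lit 465) (nat_lit 6608) (.f (nat_lit 624) (nat_lit 529) (nat_lit 6640) (.d (nat_lit 623) (nat_lit 591) (nat_lit 5615) (nat_lit 655) (nat_lit 5647)))) (.a (.f (nat_lit 465) (nat_lit 497) (nat_lit 6608) (.f (nat_lit 464) (nat_lit 433) (nat_lit 6576) (.f (nat_lit 561) (nat_lit 593) (nat_lit 4560) (.d (nat_lit 563) (nat_lit 527) (nat_lit 3599) (nat_lit 591) (nat_lit 1583))))) (.f (nat_lit 497) (nat_lit 465) (nat_lit 6608) (.f (nat_lit 624) (nat_lit 529) (nat_lit 6640) (.f (nat_lit 655) (nat_lit 623) (nat_lit 5647) (.f (nat_lit 656) (nat_lit 687) (nat_lit 5679) (.f (nat_lit 527) (nat_lit 559) (nat_lit 7695) (.f (nat_lit 561) (nat_lit 563) (nat_lit 3599) (.d (nat_lit 593) (nat_lit 464) (nat_lit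 4560) (nat_lit 688) (nat_lit 6704)))))))))))) (.a (.p (nat_lit 496) (.a (.f (nat_lit 495) (nat_lit 463) (nat_lit 7631) (.f (nat_lit 624) (nat_lit 527) (nat_lit 7663) (.d (nat_lit 497) (nat_lit 465) (nat_lit 6608) (nat_lit 529) (nat_lit 6640)))) (.a (.f (nat_lit 497) (nat_lit 465) (nat_lit 6608) (.f (nat_lit 495) (nat_lit 463) (nat_lit 7631) (.f (nat_lit 529) (nat_lit 624) (nat_lit 6640) (.d (nat_lit 494) (nat_lit 493) (nat_lit 493) (nat_lit 530) (nat_lit 494))))) (.a (.f (nat_lit 463) (nat_lit 495) (nat_lit 7631) (.f (nat_lit 464) (nat_lit 431) (nat_lit 7599) (.d (nat_lit 465) (nat_lit 433) (nat_lit 6576) (nat_lit 497) (nat_lit 6608)))) (.a (.f (nat_lit 495) (nat_lit 463) (nat_lit 7631) (.f (nat_lit 527) (nat_lit 624) (nat_lit 7663) (.f (nat_lit 561) (nat_lit 563) (nat_lit 3599) (.f (nat_lit 464) (nat_lit 593) (nat_lit 4560) (.d (nat_lit 432) (nat_lit 400) (nat_lit 5519) (nat_lit 529) (nat_lit 4528)))))) (.f (nat_lit 465) (nat_lit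 497) (nat_lit 6608) (.f (nat_lit 464) (nat_lit 433) (nat_lit 6576) (.f (nat_lit 561) (nat_lit 593) (nat_lit 4560) (.d (nat_lit 563) (nat_lit 527) (nat_lit 3599) (nat_lit 591) (nat_lit 1583)))))))))) (.p (nat_lit 496) (.a (.f (nat_lit 495) (nat_lit 463) (nat_lit 7631) (.f (nat_lit 624) (nat_lit 527) (nat_lit 7663) (.d (nat_lit 497) (nat_lit 465) (nat_lit 6608) (nat_lit 529) (nat_lit 6640)))) (.a (.f (nat_lit 497) (nat_lit 465) (nat_lit 6608) (.f (nat_lit 495) (nat_lit 463) (nat_lit 7631) (.f (nat_lit 529) (nat_lit 624) (nat_lit 6640) (.d (nat_lit 494) (nat_lit 493) (nat_lit 493) (nat_lit 530) (nat_lit 494))))) (.a (.f (nat_lit 463) (nat_lit 495) (nat_lit 7631) (.f (nat_lit 464) (nat_lit 431) (nat_lit 7599) (.d (nat_lit 465) (nat_lit 433) (nat_lit 6576) (nat_lit 497) (nat_lit 6608)))) (.a (.f (nat_lit 495) (nat_lit 463) (nat_lit 7631) (.f (nat_lit 527) (nat_lit 624) (nat_lit 7663) (.f (nat_lit 561) (nat_lit 563) (nat_lit 3599) (.f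 (nat_lit 464) (nat_lit 593) (nat_lit 4560) (.d (nat_lit 432) (nat_lit 400) (nat_lit 5519) (nat_lit 529) (nat_lit 4528)))))) (.f (nat_lit 497) (nat_lit 465) (nat_lit 6608) (.f (nat_lit 624) (nat_lit 529) (nat_lit 6640) (.f (nat_lit 655) (nat_lit 623) (nat_lit 5647) (.f (nat_lit 656) (nat_lit 687) (nat_lit 5679) (.f (nat_lit 527) (nat_lit 559) (nat_lit 7695) (.f (nat_lit 561) (nat_lit 563) (nat_lit 3599) (.d (nat_lit 593) (nat_lit 464) (nat_lit 4560) (nat_lit 688) (nat_lit 6704)))))))))))))))))))))))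
noncomputable def s3395 : Cert := .r (nat_lit 18869812128501177264509710774503796433499995185341540522026907474751343623210314739829166948347900646451490313420764903077122343325272053234930137433682206587892745109504) (.p (nat_lit 561) (.a (.f (nat_lit 466) (nat_lit 593) (nat_lit 5585) (.f (nat_lit 529) (nat_lit 434) (nat_lit 5553) (.d (nat_lit 563) (nat_lit 564) (nat_lit 3600) (nat_lit 595) (nat_lit 4562)))) (.a (.f (nat_lit 563) (nat_lit 527) (nat_lit 3599) (.d (nat_lit 466) (nat_lit 593) (nat_lit 5585) (nat_lit 595) (nat_lit 4562))) (.a (.f (nat_lit 563) (nat_lit 527) (nat_lit 3599) (.d (nat_lit 595) (nat_lit 466) (nat_lit 4562) (nat_lit 596) (nat_lit 560))) (.a (.f (nat_lit 466) (nat_lit 593) (nat_lit 5585) (.f (nat_lit 529) (nat_lit 434) (nat_lit 5553) (.f (nat_lit 465) (nat_lit 433) (nat_lit 7601) (.f (nat_lit 499) (nat_lit 527) (nat_lit 2543) (.d (nat_lit 497) (nat_lit 500) (nat_lit 1520) (nat_lit 592) (nat_lit 5584))))))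 (.f (nat_lit 563) (nat_lit 527) (nat_lit 3599) (.f (nat_lit 564) (nat_lit 529) (nat_lit 3600) (.d (nat_lit 596) (nat_lit 595) (nat_lit 560) (nat_lit 597) (nat_lit 561)))))))))
noncomputable def s3412 : Cert := .r (nat_lit 18869812124986400861704490948459027756867024433892689860299374593630612134736493787905533600559981471712008058190913152356962472978375577626770901665172955839509703950336) (.p (nat_lit 530) (.a s3103 (.a s3120 (.a s3133 (.a (.p (nat_lit 498) (.a (.p (nat_lit 594) (.a (.f (nat_lit 595) (nat_lit 627) (nat_lit 4594) (.f (nat_lit 561) (nat_lit 559) (nat_lit 559) (.d (nat_lit 466) (nat_lit 563) (nat_lit 4562) (nat_lit 593) (nat_lit 5585)))) (.f (nat_lit 497) (nat_lit 465) (nat_lit 7633) (.f (nat_lit 529) (nat_lit 626) (nat_lit 7665) (.d (nat_lit 499) (nat_lit 467) (nat_lit 6610) (nat_lit 500) (nat_lit 1520)))))) (.a (.p (nat_lit 594) (.a (.f (nat_lit 497) (nat_lit 465) (nat_lit 7633) (.f (nat_lit 529) (nat_lit 626)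 (nat_lit 7665) (.d (nat_lit 499) (nat_lit 467) (nat_lit 6610) (nat_lit 500) (nat_lit 1520)))) (.f (nat_lit 595) (nat_lit 627) (nat_lit 4594) (.f (nat_lit 563) (nat_lit 466) (nat_lit 4562) (.f (nat_lit 593) (nat_lit 625) (nat_lit 5617) (.d (nat_lit 564) (nat_lit 565) (nat_lit 1585) (nat_lit 592) (nat_lit 2608))))))) (.a s3138 (.a (.p (nat_lit 594) (.a (.f (nat_lit 497) (nat_lit 465) (nat_lit 7633) (.f (nat_lit 529) (nat_lit 626) (nat_lit 7665) (.d (nat_lit 499) (nat_lit 467) (nat_lit 6610) (nat_lit 500) (nat_lit 1520)))) (.f (nat_lit 595) (nat_lit 627) (nat_lit 4594) (.f (nat_lit 561) (nat_lit 559) (nat_lit 559) (.d (nat_lit 563) (nat_lit 466) (nat_lit 4562) (nat_lit 596) (nat_lit 560)))))) (.a (.p (nat_lit 594) (.a (.f (nat_lit 497) (nat_lit 465) (nat_lit 7633) (.f (nat_lit 529) (nat_lit 626) (nat_lit 7665) (.d (nat_lit 499) (nat_lit 467) (nat_lit 6610) (nat_lit 500) (nat_lit 1520)))) (.f (nat_lit 595) (nat_lit 627) (nat_lit 4594)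 (.f (nat_lit 561) (nat_lit 559) (nat_lit 559) (.d (nat_lit 593) (nat_lit 596) (nat_lit 3632) (nat_lit 625) (nat_lit 5617)))))) (.a s3395 (.p (nat_lit 594) (.a (.f (nat_lit 497) (nat_lit 465) (nat_lit 7633) (.f (nat_lit 529) (nat_lit 626) (nat_lit 7665) (.d (nat_lit 499) (nat_lit 467) (nat_lit 6610) (nat_lit 500) (nat_lit 1520)))) (.f (nat_lit 593) (nat_lit 625) (nat_lit 5617) (.f (nat_lit 561) (nat_lit 466) (nat_lit 5585) (.f (nat_lit 563) (nat_lit 527) (nat_lit 3599) (.d (nat_lit 564) (nat_lit 565) (nat_lit 1585) (nat_lit 592) (nat_lit 1584)))))))))))))) (.a (.p (nat_lit 561) (.a (.f (nat_lit 563) (nat_lit 527) (nat_lit 3599) (.d (nat_lit 531) (nat_lit 532) (nat_lit 2576) (nat_lit 559) (nat_lit 2575))) (.a (.f (nat_lit 531) (nat_lit 559) (nat_lit 2575) (.d (nat_lit 532) (nat_lit 529) (nat_lit 1552) (nat_lit 533) (nat_lit 1553))) (.a (.f (nat_lit 563) (nat_lit 527) (nat_lit 3599) (.f (nat_lit 529) (nat_lit 564) (nat_lit 3600) (.f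 (nat_lit 595) (nat_lit 596) (nat_lit 560) (.d (nat_lit 559) (nat_lit 558) (nat_lit 2574) (nat_lit 594) (nat_lit 559))))) (.f (nat_lit 563) (nat_lit 527) (nat_lit 3599) (.f (nat_lit 529) (nat_lit 564) (nat_lit 3600) (.f (nat_lit 531) (nat_lit 532) (nat_lit 1552) (.f (nat_lit 496) (nat_lit 495) (nat_lit 3567) (.d (nat_lit 464) (nat_lit 432) (nat_lit 4528) (nat_lit 593) (nat_lit 4560)))))))))) (.a s3178 (.a (.p (nat_lit 561) (.a (.f (nat_lit 563) (nat_lit 527) (nat_lit 3599) (.d (nat_lit 531) (nat_lit 532) (nat_lit 2576) (nat_lit 559) (nat_lit 2575))) (.a (.f (nat_lit 531) (nat_lit 559) (nat_lit 2575) (.d (nat_lit 532) (nat_lit 529) (nat_lit 1552) (nat_lit 533) (nat_lit 1553))) (.f (nat_lit 563) (nat_lit 527) (nat_lit 3599) (.f (nat_lit 564) (nat_lit 529) (nat_lit 3600) (.d (nat_lit 596) (nat_lit 595) (nat_lit 560) (nat_lit 597) (nat_lit 561))))))) (.p (nat_lit 498) (.a (.p (nat_lit 594) (.a (.f (nat_lit 497) (nat_lit 465) (nat_lit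 7633) (.f (nat_lit 529) (nat_lit 626) (nat_lit 7665) (.d (nat_lit 499) (nat_lit 467) (nat_lit 6610) (nat_lit 500) (nat_lit 1520)))) (.f (nat_lit 595) (nat_lit 627) (nat_lit 4594) (.f (nat_lit 563) (nat_lit 466) (nat_lit 4562) (.f (nat_lit 593) (nat_lit 625) (nat_lit 5617) (.d (nat_lit 564) (nat_lit 565) (nat_lit 1585) (nat_lit 592) (nat_lit 2608))))))) (.a (.p (nat_lit 594) (.a (.f (nat_lit 595) (nat_lit 627) (nat_lit 4594) (.f (nat_lit 563) (nat_lit 466) (nat_lit 4562) (.f (nat_lit 593) (nat_lit 625) (nat_lit 5617) (.d (nat_lit 564) (nat_lit 565) (nat_lit 1585) (nat_lit 592) (nat_lit 2608))))) (.a (.f (nat_lit 467) (nat_lit 499) (nat_lit 6610) (.f (nat_lit 466) (nat_lit 435) (nat_lit 6578) (.d (nat_lit 465) (nat_lit 433) (nat_lit 7601) (nat_lit 497) (nat_lit 7633)))) (.f (nat_lit 625) (nat_lit 593) (nat_lit 5617) (.f (nat_lit 626) (nat_lit 657) (nat_lit 5649) (.d (nat_lit 499) (nat_lit 467) (nat_lit 6610) (nat_lit 531) (nat_lit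 6642))))))) (.a (.p (nat_lit 594) (.a (.f (nat_lit 595) (nat_lit 627) (nat_lit 4594) (.f (nat_lit 563) (nat_lit 466) (nat_lit 4562) (.f (nat_lit 593) (nat_lit 625) (nat_lit 5617) (.d (nat_lit 564) (nat_lit 565) (nat_lit 1585) (nat_lit 592) (nat_lit 2608))))) (.f (nat_lit 499) (nat_lit 467) (nat_lit 6610) (.f (nat_lit 529) (nat_lit 527) (nat_lit 2543) (.d (nat_lit 500) (nat_lit 501) (nat_lit 1521) (nat_lit 531) (nat_lit 2544)))))) (.a s3176 (.a s3188 (.a s3395 (.a s3189 s3190))))))))))))))))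
noncomputable def s3449 : Cert := .r (nat_lit 64836180782635327105257550133865756107099233344784774323566786510389197141567267213334914537603630284999823986032247621314213099342709661479114454765656505907541824002709199519744) (.p (nat_lit 498) (.a (.f (nat_lit 467) (nat_lit 499) (nat_lit 6610) (.f (nat_lit 466) (nat_lit 435) (nat_lit 6578) (.d (nat_lit 465) (nat_lit 433) (nat_lit 7601) (nat_lit 497) (nat_lit 7633)))) (.a (.f (nat_lit 467) (nat_lit 499) (nat_lit 6610) (.f (nat_lit 466) (nat_lit 435) (nat_lit 6578) (.d (nat_lit 595) (nat_lit 563) (nat_lit 4562) (nat_lit 627) (nat_lit 4594)))) (.a (.f (nat_lit 595) (nat_lit 627) (nat_lit 4594) (.f (nat_lit 466) (nat_lit 563) (nat_lit 4562) (.d (nat_lit 465) (nat_lit 433) (nat_lit 7601) (nat_lit 497) (nat_lit 7633)))) (.f (nat_lit 499) (nat_lit 467) (nat_lit 6610) (.f (nat_lit 626) (nat_lit 531) (nat_lit 6642) (.d (nat_lit 627) (nat_lit 595) (nat_lit 4594) (nat_lit 659) (nat_lit 4626))))))))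
noncomputable def s3460 : Cert := .r (nat_lit 64836180782635327105257550133865756107099233344784774323566786510389197141567267213334914537603630284999823986032247621314213099342709661479114454765656505907541824002709199519744) (.p (nat_lit 498) (.a (.f (nat_lit 467) (nat_lit 499) (nat_lit 6610) (.f (nat_lit 466) (nat_lit 435) (nat_lit 6578) (.d (nat_lit 465) (nat_lit 433) (nat_lit 7601) (nat_lit 497) (nat_lit 7633)))) (.a (.f (nat_lit 625) (nat_lit 593) (nat_lit 5617) (.f (nat_lit 626) (nat_lit 657) (nat_lit 5649) (.d (nat_lit 499) (nat_lit 467) (nat_lit 6610) (nat_lit 531) (nat_lit 6642)))) (.a (.f (nat_lit 465) (nat_lit 497) (nat_lit 7633) (.f (nat_lit 466) (nat_lit 433) (nat_lit 7601) (.f (nat_lit 435) (nat_lit 467) (nat_lit 6578) (.f (nat_lit 434) (nat_lit 403) (nat_lit 6546) (.d (nat_lit 563) (nat_lit 531) (nat_lit 4530) (nat_lit 595) (nat_lit 4562)))))) (.f (nat_lit 625) (nat_lit 593) (nat_lit 5617) (.f (nat_lit 626) (nat_lit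 657) (nat_lit 5649) (.f (nat_lit 531) (nat_lit 499) (nat_lit 6642) (.f (nat_lit 563) (nat_lit 658) (nat_lit 6674) (.d (nat_lit 466) (nat_lit 434) (nat_lit 4530) (nat_lit 595) (nat_lit 4562))))))))))
noncomputable def s3461 : Cert := .r (nat_lit 64836180782635327101742773731878883933028500135655100996324835636715824771957301922231916427704030386313073450013582889165837387910271462164107996909801584275503921517658290257920) (.p (nat_lit 530) (.a (.p (nat_lit 498) (.a (.f (nat_lit 595) (nat_lit 627) (nat_lit 4594) (.f (nat_lit 563) (nat_lit 466) (nat_lit 4562) (.f (nat_lit 593) (nat_lit 625) (nat_lit 5617) (.d (nat_lit 564) (nat_lit 565) (nat_lit 1585) (nat_lit 592) (nat_lit 2608))))) (.a (.f (nat_lit 467) (nat_lit 499) (nat_lit 6610) (.f (nat_lit 466) (nat_lit 435) (nat_lit 6578) (.d (nat_lit 465) (nat_lit 433) (nat_lit 7601) (nat_lit 497) (nat_lit 7633)))) (.f (nat_lit 625) (nat_lit 593) (nat_lit 5617) (.f (nat_lit 626) (nat_lit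 657) (nat_lit 5649) (.d (nat_lit 499) (nat_lit 467) (nat_lit 6610) (nat_lit 531) (nat_lit 6642))))))) (.a (.p (nat_lit 626) (.a (.f (nat_lit 531) (nat_lit 499) (nat_lit 6642) (.f (nat_lit 561) (nat_lit 559) (nat_lit 2575) (.d (nat_lit 532) (nat_lit 533) (nat_lit 1553) (nat_lit 563) (nat_lit 2576)))) (.a (.f (nat_lit 531) (nat_lit 499) (nat_lit 6642) (.f (nat_lit 658) (nat_lit 563) (nat_lit 6674) (.d (nat_lit 657) (nat_lit 625) (nat_lit 5649) (nat_lit 689) (nat_lit 5681)))) (.f (nat_lit 657) (nat_lit 625) (nat_lit 5649) (.f (nat_lit 658) (nat_lit 689) (nat_lit 5681) (.d (nat_lit 659) (nat_lit 627) (nat_lit 4626) (nat_lit 691) (nat_lit 4658))))))) (.a (.p (nat_lit 498) (.a (.f (nat_lit 595) (nat_lit 627) (nat_lit 4594) (.f (nat_lit 563) (nat_lit 466) (nat_lit 4562) (.f (nat_lit 593) (nat_lit 625) (nat_lit 5617) (.d (nat_lit 564) (nat_lit 565) (nat_lit 1585) (nat_lit 592) (nat_lit 2608))))) (.a (.f (nat_lit 467) (nat_lit 499) (nat_lit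 6610) (.f (nat_lit 466) (nat_lit 435) (nat_lit 6578) (.d (nat_lit 465) (nat_lit 433) (nat_lit 7601) (nat_lit 497) (nat_lit 7633)))) (.f (nat_lit 625) (nat_lit 593) (nat_lit 5617) (.f (nat_lit 626) (nat_lit 657) (nat_lit 5649) (.d (nat_lit 627) (nat_lit 595) (nat_lit 4594) (nat_lit 659) (nat_lit 4626))))))) (.a (.p (nat_lit 498) (.a (.f (nat_lit 467) (nat_lit 499) (nat_lit 6610) (.f (nat_lit 466) (nat_lit 435) (nat_lit 6578) (.d (nat_lit 465) (nat_lit 433) (nat_lit 7601) (nat_lit 497) (nat_lit 7633)))) (.a (.f (nat_lit 625) (nat_lit 593) (nat_lit 5617) (.f (nat_lit 626) (nat_lit 657) (nat_lit 5649) (.d (nat_lit 499) (nat_lit 467) (nat_lit 6610) (nat_lit 531) (nat_lit 6642)))) (.f (nat_lit 625) (nat_lit 593) (nat_lit 5617) (.f (nat_lit 626) (nat_lit 657) (nat_lit 5649) (.d (nat_lit 627) (nat_lit 595) (nat_lit 4594) (nat_lit 659) (nat_lit 4626))))))) (.a (.p (nat_lit 498) (.a (.f (nat_lit 595) (nat_lit 627) (nat_lit 4594) (.f (nat_lit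 561) (nat_lit 559) (nat_lit 559) (.d (nat_lit 466) (nat_lit 563) (nat_lit 4562) (nat_lit 593) (nat_lit 5585)))) (.a (.f (nat_lit 595) (nat_lit 627) (nat_lit 4594) (.f (nat_lit 563) (nat_lit 466) (nat_lit 4562) (.f (nat_lit 593) (nat_lit 625) (nat_lit 5617) (.d (nat_lit 564) (nat_lit 565) (nat_lit 1585) (nat_lit 592) (nat_lit 2608))))) (.a (.f (nat_lit 595) (nat_lit 627) (nat_lit 4594) (.f (nat_lit 561) (nat_lit 559) (nat_lit 559) (.d (nat_lit 563) (nat_lit 466) (nat_lit 4562) (nat_lit 596) (nat_lit 560)))) (.a (.f (nat_lit 593) (nat_lit 625) (nat_lit 5617) (.f (nat_lit 561) (nat_lit 466) (nat_lit 5585) (.d (nat_lit 559) (nat_lit 531) (nat_lit 2575) (nat_lit 558) (nat_lit 558)))) (.f (nat_lit 595) (nat_lit 627) (nat_lit 4594) (.f (nat_lit 561) (nat_lit 559) (nat_lit 559) (.d (nat_lit 593) (nat_lit 596) (nat_lit 3632) (nat_lit 625) (nat_lit 5617))))))))) (.a s3449 s3460)))))))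
noncomputable def s3474 : Cert := .r (nat_lit 64836180782635327105257550134684103759073268812288071747773686298443357653078033410705737379627663734100992624753065144395689138630431332511004472517960820044013172266041331417088) (.f (nat_lit 499) (nat_lit 467) (nat_lit 6610) (.f (nat_lit 527) (nat_lit 529) (nat_lit 2543) (.f (nat_lit 625) (nat_lit 593) (nat_lit 5617) (.f (nat_lit 626) (nat_lit 657) (nat_lit 5649) (.f (nat_lit 659) (nat_lit 627) (nat_lit 4626) (.f (nat_lit 658) (nat_lit 691) (nat_lit 4658) (.f (nat_lit 624) (nat_lit 623) (nat_lit 623) (.f (nat_lit 592) (nat_lit 495) (nat_lit 7663) (.f (nat_lit 656) (nat_lit 559) (nat_lit 7695) (.f (nat_lit 687) (nat_lit 655) (nat_lit 5679) (.f (nat_lit 688) (nat_lit 719) (nat_lit 5711) (.d (nat_lit 689) (nat_lit 690) (nat_lit 2703) (nat_lit 721) (nat_lit 4688)))))))))))))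
noncomputable def s3484 : Cert := .r (nat_lit 64836180782635327105257550133865756107099233344784774323566786510389197141567267213334914537603630284999823986032247621314213099342709661479114454765656505907541824002709199519744) (.p (nat_lit 498) (.a (.f (nat_lit 595) (nat_lit 627) (nat_lit 4594) (.f (nat_lit 563) (nat_lit 466) (nat_lit 4562) (.f (nat_lit 593) (nat_lit 625) (nat_lit 5617) (.d (nat_lit 564) (nat_lit 565) (nat_lit 1585) (nat_lit 592) (nat_lit 2608))))) (.a (.f (nat_lit 467) (nat_lit 499) (nat_lit 6610) (.f (nat_lit 466) (nat_lit 435) (nat_lit 6578) (.d (nat_lit 595) (nat_lit 563) (nat_lit 4562) (nat_lit 627) (nat_lit 4594)))) (.a (.f (nat_lit 625) (nat_lit 593) (nat_lit 5617) (.f (nat_lit 626) (nat_lit 657) (nat_lit 5649) (.d (nat_lit 627) (nat_lit 595) (nat_lit 4594) (nat_lit 659) (nat_lit 4626)))) (.a s3474 (.f (nat_lit 467) (nat_lit 499) (nat_lit 6610) (.f (nat_lit 466) (nat_lit 435) (nat_lit 6578) (.f (nat_lit 563)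 (nat_lit 595) (nat_lit 4562) (.f (nat_lit 593) (nat_lit 625) (nat_lit 5617) (.f (nat_lit 592) (nat_lit 591) (nat_lit 2607) (.f (nat_lit 527) (nat_lit 529) (nat_lit 527) (.f (nat_lit 624) (nat_lit 495) (nat_lit 7663) (.f (nat_lit 656) (nat_lit 559) (nat_lit 7695) (.d (nat_lit 655) (nat_lit 623) (nat_lit 5647) (nat_lit 687) (nat_lit 5679)))))))))))))))
noncomputable def s3488 : Cert := .r (nat_lit 64836180782635327105257550133865756107099233344784774323566786510389197141567267213334914537603630284999823986032247621314213099342709661479114454765656505907541824002709199519744) (.p (nat_lit 498) (.a (.f (nat_lit 497) (nat_lit 465) (nat_lit 7633) (.f (nat_lit 529) (nat_lit 626) (nat_lit 7665) (.d (nat_lit 499) (nat_lit 467) (nat_lit 6610) (nat_lit 500) (nat_lit 1520)))) (.a (.f (nat_lit 467) (nat_lit 499) (nat_lit 6610) (.f (nat_lit 466) (nat_lit 435) (nat_lit 6578) (.d (nat_lit 465) (nat_lit 433) (nat_lit 7601) (nat_lit 497) (nat_lit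 7633)))) (.a (.f (nat_lit 467) (nat_lit 499) (nat_lit 6610) (.f (nat_lit 466) (nat_lit 435) (nat_lit 6578) (.d (nat_lit 595) (nat_lit 563) (nat_lit 4562) (nat_lit 627) (nat_lit 4594)))) (.f (nat_lit 497) (nat_lit 465) (nat_lit 7633) (.f (nat_lit 626) (nat_lit 529) (nat_lit 7665) (.d (nat_lit 625) (nat_lit 593) (nat_lit 5617) (nat_lit 657) (nat_lit 5649))))))))
noncomputable def s3499 : Cert := .r (nat_lit 64836180782635327105257550133865756107099233344784774323566786510389197141567267213334914537603630284999823986032247621314213099342709661479114454765656505907541824002709199519744) (.p (nat_lit 498) (.a (.f (nat_lit 497) (nat_lit 465) (nat_lit 7633) (.f (nat_lit 529) (nat_lit 626) (nat_lit 7665) (.d (nat_lit 499) (nat_lit 467) (nat_lit 6610) (nat_lit 500) (nat_lit 1520)))) (.a (.f (nat_lit 467) (nat_lit 499) (nat_lit 6610) (.f (nat_lit 466) (nat_lit 435) (nat_lit 6578) (.d (nat_lit 465) (nat_lit 433) (nat_lit 7601) (nat_lit 497)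 (nat_lit 7633)))) (.a (.f (nat_lit 467) (nat_lit 499) (nat_lit 6610) (.f (nat_lit 466) (nat_lit 435) (nat_lit 6578) (.d (nat_lit 595) (nat_lit 563) (nat_lit 4562) (nat_lit 627) (nat_lit 4594)))) (.f (nat_lit 595) (nat_lit 627) (nat_lit 4594) (.f (nat_lit 466) (nat_lit 563) (nat_lit 4562) (.d (nat_lit 465) (nat_lit 433) (nat_lit 7601) (nat_lit 497) (nat_lit 7633))))))))
noncomputable def s3506 : Cert := .r (nat_lit 64836180782635327105257550133865756107099233344784774323566786510389197141567267213334914537603630284999823986032247621314213099342709661479114454765656505907541824002709199519744) (.p (nat_lit 498) (.a (.f (nat_lit 595) (nat_lit 627) (nat_lit 4594) (.f (nat_lit 563) (nat_lit 466) (nat_lit 4562) (.f (nat_lit 593) (nat_lit 625) (nat_lit 5617) (.d (nat_lit 564) (nat_lit 565) (nat_lit 1585) (nat_lit 592) (nat_lit 2608))))) (.a (.f (nat_lit 467) (nat_lit 499) (nat_lit 6610) (.f (nat_lit 466) (nat_lit 435) (nat_lit 6578) (.d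 (nat_lit 465) (nat_lit 433) (nat_lit 7601) (nat_lit 497) (nat_lit 7633)))) (.f (nat_lit 497) (nat_lit 465) (nat_lit 7633) (.f (nat_lit 499) (nat_lit 467) (nat_lit 6610) (.f (nat_lit 500) (nat_lit 529) (nat_lit 1520) (.f (nat_lit 533) (nat_lit 532) (nat_lit 497) (.f (nat_lit 501) (nat_lit 534) (nat_lit 498) (.d (nat_lit 469) (nat_lit 468) (nat_lit 2513) (nat_lit 470) (nat_lit 2514))))))))))
noncomputable def s3507 : Cert := .r (nat_lit 64836180782635327105257550133865756107099233344784774323566786510389197141567267213334914537603630284999823986032247621314213099342709661479114454765656505907541824002709199519744) (.p (nat_lit 498) (.a (.f (nat_lit 497) (nat_lit 465) (nat_lit 7633) (.f (nat_lit 529) (nat_lit 626) (nat_lit 7665) (.d (nat_lit 499) (nat_lit 467) (nat_lit 6610) (nat_lit 500) (nat_lit 1520)))) (.a (.f (nat_lit 467) (nat_lit 499) (nat_lit 6610) (.f (nat_lit 466) (nat_lit 435) (nat_lit 6578) (.d (nat_lit 465) (nat_lit 433)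 (nat_lit 7601) (nat_lit 497) (nat_lit 7633)))) (.a (.f (nat_lit 467) (nat_lit 499) (nat_lit 6610) (.f (nat_lit 466) (nat_lit 435) (nat_lit 6578) (.f (nat_lit 563) (nat_lit 595) (nat_lit 4562) (.f (nat_lit 593) (nat_lit 625) (nat_lit 5617) (.f (nat_lit 592) (nat_lit 591) (nat_lit 2607) (.f (nat_lit 527) (nat_lit 529) (nat_lit 527) (.f (nat_lit 624) (nat_lit 495) (nat_lit 7663) (.f (nat_lit 656) (nat_lit 559) (nat_lit 7695) (.d (nat_lit 655) (nat_lit 623) (nat_lit 5647) (nat_lit 687) (nat_lit 5679)))))))))) (.f (nat_lit 497) (nat_lit 465) (nat_lit 7633) (.f (nat_lit 626) (nat_lit 529) (nat_lit 7665) (.d (nat_lit 625) (nat_lit 593) (nat_lit 5617) (nat_lit 657) (nat_lit 5649))))))))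
noncomputable def s3508 : Cert := .r (nat_lit 64836180782635327101742773731878883933028500135655100996324835636715824771957301922231916427704030386313073450013582889165837387910271462164107996909801584275503921517658290257920) (.p (nat_lit 530) (.a (.p (nat_lit 498) (.a (.f (nat_lit 497) (nat_lit 465) (nat_lit 7633) (.f (nat_lit 529) (nat_lit 626) (nat_lit 7665) (.d (nat_lit 499) (nat_lit 467) (nat_lit 6610) (nat_lit 500) (nat_lit 1520)))) (.f (nat_lit 595) (nat_lit 627) (nat_lit 4594) (.f (nat_lit 563) (nat_lit 466) (nat_lit 4562) (.f (nat_lit 593) (nat_lit 625) (nat_lit 5617) (.d (nat_lit 564) (nat_lit 565) (nat_lit 1585) (nat_lit 592) (nat_lit 2608))))))) (.a (.p (nat_lit 498) (.a (.f (nat_lit 595) (nat_lit 627) (nat_lit 4594) (.f (nat_lit 563) (nat_lit 466) (nat_lit 4562) (.f (nat_lit 593) (nat_lit 625) (nat_lit 5617) (.d (nat_lit 564) (nat_lit 565) (nat_lit 1585) (nat_lit 592) (nat_lit 2608))))) (.a (.f (nat_lit 467) (nat_lit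 499) (nat_lit 6610) (.f (nat_lit 466) (nat_lit 435) (nat_lit 6578) (.d (nat_lit 465) (nat_lit 433) (nat_lit 7601) (nat_lit 497) (nat_lit 7633)))) (.f (nat_lit 625) (nat_lit 593) (nat_lit 5617) (.f (nat_lit 626) (nat_lit 657) (nat_lit 5649) (.d (nat_lit 627) (nat_lit 595) (nat_lit 4594) (nat_lit 659) (nat_lit 4626))))))) (.a s3484 (.a s3488 (.a (.p (nat_lit 529) (.a (.f (nat_lit 626) (nat_lit 497) (nat_lit 7665) (.f (nat_lit 657) (nat_lit 625) (nat_lit 5649) (.f (nat_lit 658) (nat_lit 689) (nat_lit 5681) (.d (nat_lit 659) (nat_lit 627) (nat_lit 4626) (nat_lit 691) (nat_lit 4658))))) (.f (nat_lit 527) (nat_lit 563) (nat_lit 527) (.f (nat_lit 495) (nat_lit 494) (nat_lit 3566) (.f (nat_lit 559) (nat_lit 558) (nat_lit 1550) (.d (nat_lit 463) (nat_lit 431) (nat_lit 4527) (nat_lit 592) (nat_lit 4559))))))) (.a (.p (nat_lit 498) (.a (.f (nat_lit 497) (nat_lit 465) (nat_lit 7633) (.f (nat_lit 529) (nat_lit 626) (nat_lit 7665) (.d (nat_lit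 499) (nat_lit 467) (nat_lit 6610) (nat_lit 500) (nat_lit 1520)))) (.a (.f (nat_lit 467) (nat_lit 499) (nat_lit 6610) (.f (nat_lit 466) (nat_lit 435) (nat_lit 6578) (.d (nat_lit 465) (nat_lit 433) (nat_lit 7601) (nat_lit 497) (nat_lit 7633)))) (.f (nat_lit 625) (nat_lit 593) (nat_lit 5617) (.f (nat_lit 626) (nat_lit 657) (nat_lit 5649) (.d (nat_lit 627) (nat_lit 595) (nat_lit 4594) (nat_lit 659) (nat_lit 4626))))))) (.a s3499 (.a s3506 s3507)))))))))
noncomputable def s3517 : Cert := .r (nat_lit 64836180782635327101742773731878883933028500135655100996324835636715824771957301922231916427704030386313073450013582889165837387910271462164107996909801584275503921517658290257920) (.p (nat_lit 561) (.a (.f (nat_lit 563) (nat_lit 527) (nat_lit 3599) (.d (nat_lit 595) (nat_lit 559) (nat_lit 559) (nat_lit 596) (nat_lit 560))) (.a (.f (nat_lit 559) (nat_lit 595) (nat_lit 559) (.f (nat_lit 593) (nat_lit 558) (nat_lit 558) (.f (nat_lit 591) (nat_lit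 590) (nat_lit 1582) (.f (nat_lit 592) (nat_lit 563) (nat_lit 1583) (.d (nat_lit 623) (nat_lit 622) (nat_lit 1614) (nat_lit 655) (nat_lit 6671)))))) (.a (.f (nat_lit 559) (nat_lit 595) (nat_lit 559) (.f (nat_lit 558) (nat_lit 593) (nat_lit 558) (.d (nat_lit 590) (nat_lit 589) (nat_lit 1581) (nat_lit 591) (nat_lit 1582)))) (.f (nat_lit 563) (nat_lit 527) (nat_lit 3599) (.f (nat_lit 564) (nat_lit 529) (nat_lit 3600) (.d (nat_lit 532) (nat_lit 531) (nat_lit 2576) (nat_lit 533) (nat_lit 2577))))))))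
noncomputable def s3576 : Cert := .r (nat_lit 64836180782635327101742773731878883933028500135655100996324835636715824771957301922231916427704030386313073450013582889165837387910271462164107996909801584275503921517658290257920) (.p (nat_lit 529) (.a (.p (nat_lit 530) (.a (.f (nat_lit 531) (nat_lit 559) (nat_lit 1551) (.d (nat_lit 499) (nat_lit 500) (nat_lit 2544) (nat_lit 626) (nat_lit 6642))) (.a (.f (nat_lit 626) (nat_lit 497) (nat_lit 7665) (.f (nat_lit 657) (nat_lit 625) (nat_lit 5649) (.f (nat_lit 658) (nat_lit 689) (nat_lit 5681) (.d (nat_lit 659) (nat_lit 627) (nat_lit 4626) (nat_lit 691) (nat_lit 4658))))) (.f (nat_lit 559) (nat_lit 531) (nat_lit 1551) (.d (nat_lit 558) (nat_lit 527) (nat_lit 1550) (nat_lit 557) (nat_lit 2573)))))) (.a (.p (nat_lit 530) (.a (.f (nat_lit 531) (nat_lit 559) (nat_lit 1551) (.d (nat_lit 499) (nat_lit 500) (nat_lit 2544) (nat_lit 626) (nat_lit 6642))) (.a (.f (nat_lit 626) (nat_lit 497) (nat_lit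 7665) (.f (nat_lit 657) (nat_lit 625) (nat_lit 5649) (.f (nat_lit 658) (nat_lit 689) (nat_lit 5681) (.d (nat_lit 659) (nat_lit 627) (nat_lit 4626) (nat_lit 691) (nat_lit 4658))))) (.f (nat_lit 559) (nat_lit 531) (nat_lit 1551) (.d (nat_lit 558) (nat_lit 557) (nat_lit 2573) (nat_lit 561) (nat_lit 2574)))))) (.a (.p (nat_lit 559) (.a (.f (nat_lit 561) (nat_lit 595) (nat_lit 559) (.d (nat_lit 530) (nat_lit 531) (nat_lit 2575) (nat_lit 558) (nat_lit 2574))) (.a (.f (nat_lit 530) (nat_lit 531) (nat_lit 1551) (.d (nat_lit 558) (nat_lit 527) (nat_lit 1550) (nat_lit 557) (nat_lit 2573))) (.a (.f (nat_lit 561) (nat_lit 595) (nat_lit 559) (.d (nat_lit 558) (nat_lit 530) (nat_lit 2574) (nat_lit 557) (nat_lit 2573))) (.a (.f (nat_lit 561) (nat_lit 595) (nat_lit 559) (.d (nat_lit 558) (nat_lit 557) (nat_lit 2573) (nat_lit 593) (nat_lit 558))) (.f (nat_lit 561) (nat_lit 595) (nat_lit 559) (.f (nat_lit 530) (nat_lit 531) (nat_lit 1551) (.f (nat_lit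 626) (nat_lit 658) (nat_lit 7697) (.f (nat_lit 625) (nat_lit 657) (nat_lit 5649) (.f (nat_lit 591) (nat_lit 590) (nat_lit 1582) (.f (nat_lit 627) (nat_lit 659) (nat_lit 4626) (.d (nat_lit 592) (nat_lit 593) (nat_lit 591) (nat_lit 624) (nat_lit 3663))))))))))))) (.a (.p (nat_lit 561) (.a (.f (nat_lit 497) (nat_lit 465) (nat_lit 4561) (.d (nat_lit 626) (nat_lit 530) (nat_lit 7665) (nat_lit 593) (nat_lit 4593))) (.a (.f (nat_lit 559) (nat_lit 595) (nat_lit 559) (.d (nat_lit 558) (nat_lit 530) (nat_lit 2574) (nat_lit 557) (nat_lit 2573))) (.f (nat_lit 497) (nat_lit 465) (nat_lit 4561) (.d (nat_lit 626) (nat_lit 593) (nat_lit 4593) (nat_lit 658) (nat_lit 7697)))))) (.a (.p (nat_lit 561) (.a (.f (nat_lit 497) (nat_lit 465) (nat_lit 4561) (.d (nat_lit 626) (nat_lit 593) (nat_lit 4593) (nat_lit 658) (nat_lit 7697))) (.a (.f (nat_lit 559) (nat_lit 595) (nat_lit 559) (.d (nat_lit 558) (nat_lit 557) (nat_lit 2573) (nat_lit 593) (nat_lit 558)))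 (.f (nat_lit 559) (nat_lit 595) (nat_lit 559) (.f (nat_lit 558) (nat_lit 557) (nat_lit 2573) (.d (nat_lit 590) (nat_lit 589) (nat_lit 1581) (nat_lit 591) (nat_lit 1582))))))) (.a (.p (nat_lit 626) (.a (.f (nat_lit 497) (nat_lit 530) (nat_lit 7665) (.d (nat_lit 465) (nat_lit 433) (nat_lit 5552) (nat_lit 561) (nat_lit 4561))) (.a (.f (nat_lit 530) (nat_lit 497) (nat_lit 7665) (.f (nat_lit 657) (nat_lit 625) (nat_lit 5649) (.f (nat_lit 658) (nat_lit 689) (nat_lit 5681) (.d (nat_lit 659) (nat_lit 627) (nat_lit 4626) (nat_lit 691) (nat_lit 4658))))) (.a (.f (nat_lit 658) (nat_lit 561) (nat_lit 7697) (.f (nat_lit 657) (nat_lit 689) (nat_lit 5681) (.f (nat_lit 659) (nat_lit 691) (nat_lit 4658) (.d (nat_lit 530) (nat_lit 625) (nat_lit 5649) (nat_lit 627) (nat_lit 4626))))) (.f (nat_lit 561) (nat_lit 658) (nat_lit 7697) (.d (nat_lit 497) (nat_lit 465) (nat_lit 4561) (nat_lit 593) (nat_lit 4593))))))) (.p (nat_lit 559) (.a (.f (nat_lit 561)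 (nat_lit 595) (nat_lit 559) (.d (nat_lit 530) (nat_lit 531) (nat_lit 2575) (nat_lit 558) (nat_lit 2574))) (.a (.f (nat_lit 530) (nat_lit 531) (nat_lit 1551) (.d (nat_lit 558) (nat_lit 527) (nat_lit 1550) (nat_lit 557) (nat_lit 2573))) (.a (.f (nat_lit 561) (nat_lit 595) (nat_lit 559) (.d (nat_lit 558) (nat_lit 530) (nat_lit 2574) (nat_lit 557) (nat_lit 2573))) (.a (.f (nat_lit 561) (nat_lit 595) (nat_lit 559) (.d (nat_lit 558) (nat_lit 557) (nat_lit 2573) (nat_lit 593) (nat_lit 558))) (.f (nat_lit 561) (nat_lit 595) (nat_lit 559) (.f (nat_lit 530) (nat_lit 531) (nat_lit 1551) (.f (nat_lit 497) (nat_lit 465) (nat_lit 4561) (.f (nat_lit 592) (nat_lit 624) (nat_lit 6640) (.f (nat_lit 591) (nat_lit 590) (nat_lit 1582) (.f (nat_lit 623) (nat_lit 655) (nat_lit 6671) (.f (nat_lit 622) (nat_lit 593) (nat_lit 1614) (.f (nat_lit 527) (nat_lit 654) (nat_lit 5646) (.d (nat_lit 495) (nat_lit 463) (nat_lit 4559) (nat_lit 494) (nat_lit 3566))))))))))))))))))))))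
noncomputable def s3577 : Cert := .r (nat_lit 64836180782635327105257550133865756107099233344784774323566786510389197141567267213334914537603630284999823986032247621314213099342709661479114454765656505907541824002709199519744) (.p (nat_lit 498) (.a (.f (nat_lit 595) (nat_lit 627) (nat_lit 4594) (.f (nat_lit 563) (nat_lit 466) (nat_lit 4562) (.f (nat_lit 593) (nat_lit 625) (nat_lit 5617) (.d (nat_lit 564) (nat_lit 565) (nat_lit 1585) (nat_lit 592) (nat_lit 2608))))) (.a (.f (nat_lit 593) (nat_lit 625) (nat_lit 5617) (.f (nat_lit 561) (nat_lit 466) (nat_lit 5585) (.d (nat_lit 595) (nat_lit 596) (nat_lit 3632) (nat_lit 627) (nat_lit 4594)))) (.a (.f (nat_lit 467) (nat_lit 499) (nat_lit 6610) (.f (nat_lit 466) (nat_lit 435) (nat_lit 6578) (.d (nat_lit 595) (nat_lit 563) (nat_lit 4562) (nat_lit 627) (nat_lit 4594)))) (.a (.f (nat_lit 625) (nat_lit 593) (nat_lit 5617) (.f (nat_lit 626) (nat_lit 657) (nat_lit 5649) (.d (nat_lit 627) (nat_lit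 595) (nat_lit 4594) (nat_lit 659) (nat_lit 4626)))) (.f (nat_lit 593) (nat_lit 625) (nat_lit 5617) (.f (nat_lit 561) (nat_lit 466) (nat_lit 5585) (.f (nat_lit 563) (nat_lit 527) (nat_lit 3599) (.d (nat_lit 564) (nat_lit 565) (nat_lit 1585) (nat_lit 592) (nat_lit 1584))))))))))
noncomputable def s3586 : Cert := .r (nat_lit 64836180782635327101742773731878883933028500135655100996324835636715824771957301922231916427704030386313073450013582889165837387910271462164107996909801584275503921517658290257920) (.p (nat_lit 530) (.a (.p (nat_lit 498) (.a (.f (nat_lit 497) (nat_lit 465) (nat_lit 7633) (.f (nat_lit 529) (nat_lit 626) (nat_lit 7665) (.d (nat_lit 499) (nat_lit 467) (nat_lit 6610) (nat_lit 500) (nat_lit 1520)))) (.f (nat_lit 595) (nat_lit 627) (nat_lit 4594) (.f (nat_lit 563) (nat_lit 466) (nat_lit 4562) (.f (nat_lit 593) (nat_lit 625) (nat_lit 5617) (.d (nat_lit 564) (nat_lit 565) (nat_lit 1585) (nat_lit 592) (nat_lit 2608)))))))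 (.a (.p (nat_lit 498) (.a (.f (nat_lit 595) (nat_lit 627) (nat_lit 4594) (.f (nat_lit 563) (nat_lit 466) (nat_lit 4562) (.f (nat_lit 593) (nat_lit 625) (nat_lit 5617) (.d (nat_lit 564) (nat_lit 565) (nat_lit 1585) (nat_lit 592) (nat_lit 2608))))) (.a (.f (nat_lit 467) (nat_lit 499) (nat_lit 6610) (.f (nat_lit 466) (nat_lit 435) (nat_lit 6578) (.d (nat_lit 465) (nat_lit 433) (nat_lit 7601) (nat_lit 497) (nat_lit 7633)))) (.f (nat_lit 625) (nat_lit 593) (nat_lit 5617) (.f (nat_lit 626) (nat_lit 657) (nat_lit 5649) (.d (nat_lit 627) (nat_lit 595) (nat_lit 4594) (nat_lit 659) (nat_lit 4626))))))) (.a s3577 (.a s3488 (.a (.p (nat_lit 529) (.a (.f (nat_lit 626) (nat_lit 497) (nat_lit 7665) (.f (nat_lit 657) (nat_lit 625) (nat_lit 5649) (.f (nat_lit 658) (nat_lit 689) (nat_lit 5681) (.d (nat_lit 659) (nat_lit 627) (nat_lit 4626) (nat_lit 691) (nat_lit 4658))))) (.f (nat_lit 563) (nat_lit 527) (nat_lit 527) (.d (nat_lit 564) (nat_lit 561)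 (nat_lit 3600) (nat_lit 565) (nat_lit 3601))))) (.a (.p (nat_lit 498) (.a (.f (nat_lit 497) (nat_lit 465) (nat_lit 7633) (.f (nat_lit 529) (nat_lit 626) (nat_lit 7665) (.d (nat_lit 499) (nat_lit 467) (nat_lit 6610) (nat_lit 500) (nat_lit 1520)))) (.a (.f (nat_lit 467) (nat_lit 499) (nat_lit 6610) (.f (nat_lit 466) (nat_lit 435) (nat_lit 6578) (.d (nat_lit 465) (nat_lit 433) (nat_lit 7601) (nat_lit 497) (nat_lit 7633)))) (.f (nat_lit 625) (nat_lit 593) (nat_lit 5617) (.f (nat_lit 626) (nat_lit 657) (nat_lit 5649) (.d (nat_lit 627) (nat_lit 595) (nat_lit 4594) (nat_lit 659) (nat_lit 4626))))))) (.a s3499 (.a s3506 (.p (nat_lit 498) (.a (.f (nat_lit 497) (nat_lit 465) (nat_lit 7633) (.f (nat_lit 529) (nat_lit 626) (nat_lit 7665) (.d (nat_lit 499) (nat_lit 467) (nat_lit 6610) (nat_lit 500) (nat_lit 1520)))) (.a (.f (nat_lit 467) (nat_lit 499) (nat_lit 6610) (.f (nat_lit 466) (nat_lit 435) (nat_lit 6578) (.d (nat_lit 465) (nat_lit 433)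 (nat_lit 7601) (nat_lit 497) (nat_lit 7633)))) (.f (nat_lit 593) (nat_lit 625) (nat_lit 5617) (.f (nat_lit 561) (nat_lit 466) (nat_lit 5585) (.f (nat_lit 563) (nat_lit 527) (nat_lit 3599) (.d (nat_lit 564) (nat_lit 529) (nat_lit 3600) (nat_lit 565) (nat_lit 1585)))))))))))))))))
noncomputable def s3617 : Cert := .r (nat_lit 278469276042753369420402148738723445417256600439898613086045269325138017229042325413187331909864448152474679163998278974347610276945099961045809872791684546485728993599250561537364967030784) (.p (nat_lit 658) (.a (.f (nat_lit 657) (nat_lit 689) (nat_lit 5681) (.f (nat_lit 659) (nat_lit 691) (nat_lit 4658) (.d (nat_lit 530) (nat_lit 625) (nat_lit 5649) (nat_lit 627) (nat_lit 4626)))) (.a (.f (nat_lit 691) (nat_lit 659) (nat_lit 4658) (.f (nat_lit 690) (nat_lit 723) (nat_lit 4690) (.d (nat_lit 689) (nat_lit 657) (nat_lit 5681) (nat_lit 721) (nat_lit 5713)))) (.a (.f (nat_lit 691) (nat_lit 659) (nat_lit 4658) (.f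 (nat_lit 690) (nat_lit 723) (nat_lit 4690) (.f (nat_lit 593) (nat_lit 561) (nat_lit 7729) (.f (nat_lit 721) (nat_lit 689) (nat_lit 5713) (.d (nat_lit 722) (nat_lit 625) (nat_lit 7761) (nat_lit 753) (nat_lit 5745)))))) (.a (.f (nat_lit 657) (nat_lit 689) (nat_lit 5681) (.f (nat_lit 625) (nat_lit 530) (nat_lit 5649) (.f (nat_lit 593) (nat_lit 561) (nat_lit 7696) (.f (nat_lit 592) (nat_lit 624) (nat_lit 4624) (.d (nat_lit 591) (nat_lit 563) (nat_lit 2607) (nat_lit 590) (nat_lit 590)))))) (.f (nat_lit 659) (nat_lit 691) (nat_lit 4658) (.f (nat_lit 530) (nat_lit 627) (nat_lit 4626) (.f (nat_lit 625) (nat_lit 657) (nat_lit 5649) (.f (nat_lit 593) (nat_lit 498) (nat_lit 5617) (.d (nat_lit 690) (nat_lit 561) (nat_lit 7729) (nat_lit 722) (nat_lit 7761)))))))))))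
noncomputable def s3689 : Cert := .r (nat_lit 64836180782635327101742773731878883933028500135655100996324835636715824771957301922231916427704030386313073450013582889165837387910271462164107996909801584275503921517658290257920) (.p (nat_lit 626) (.a (.p (nat_lit 530) (.a (.f (nat_lit 531) (nat_lit 499) (nat_lit 6642) (.f (nat_lit 561) (nat_lit 559) (nat_lit 2575) (.d (nat_lit 532) (nat_lit 533) (nat_lit 1553) (nat_lit 563) (nat_lit 2576)))) (.a (.f (nat_lit 531) (nat_lit 499) (nat_lit 6642) (.f (nat_lit 658) (nat_lit 563) (nat_lit 6674) (.d (nat_lit 657) (nat_lit 625) (nat_lit 5649) (nat_lit 689) (nat_lit 5681)))) (.f (nat_lit 657) (nat_lit 625) (nat_lit 5649) (.f (nat_lit 658) (nat_lit 689) (nat_lit 5681) (.d (nat_lit 659) (nat_lit 627) (nat_lit 4626) (nat_lit 691) (nat_lit 4658))))))) (.a (.p (nat_lit 530) (.a (.f (nat_lit 531) (nat_lit 499) (nat_lit 6642) (.f (nat_lit 658) (nat_lit 563) (nat_lit 6674) (.d (nat_lit 657) (nat_lit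 625) (nat_lit 5649) (nat_lit 689) (nat_lit 5681)))) (.a (.f (nat_lit 657) (nat_lit 625) (nat_lit 5649) (.f (nat_lit 658) (nat_lit 689) (nat_lit 5681) (.d (nat_lit 659) (nat_lit 627) (nat_lit 4626) (nat_lit 691) (nat_lit 4658)))) (.a (.f (nat_lit 531) (nat_lit 499) (nat_lit 6642) (.f (nat_lit 658) (nat_lit 563) (nat_lit 6674) (.d (nat_lit 659) (nat_lit 627) (nat_lit 4626) (nat_lit 691) (nat_lit 4658)))) (.f (nat_lit 625) (nat_lit 657) (nat_lit 5649) (.f (nat_lit 627) (nat_lit 659) (nat_lit 4626) (.f (nat_lit 593) (nat_lit 498) (nat_lit 5617) (.d (nat_lit 592) (nat_lit 591) (nat_lit 591) (nat_lit 628) (nat_lit 3664))))))))) (.a s3617 (.a (.p (nat_lit 563) (.a (.f (nat_lit 561) (nat_lit 527) (nat_lit 3599) (.d (nat_lit 531) (nat_lit 532) (nat_lit 2576) (nat_lit 658) (nat_lit 6674))) (.a (.f (nat_lit 658) (nat_lit 531) (nat_lit 6674) (.f (nat_lit 657) (nat_lit 689) (nat_lit 5681) (.f (nat_lit 691) (nat_lit 659) (nat_lit 4658) (.f (nat_lit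 690) (nat_lit 723) (nat_lit 4690) (.f (nat_lit 593) (nat_lit 561) (nat_lit 7729) (.f (nat_lit 592) (nat_lit 591) (nat_lit 2607) (.d (nat_lit 625) (nat_lit 624) (nat_lit 4624) (nat_lit 722) (nat_lit 7761)))))))) (.a (.f (nat_lit 658) (nat_lit 531) (nat_lit 6674) (.f (nat_lit 689) (nat_lit 657) (nat_lit 5681) (.f (nat_lit 690) (nat_lit 721) (nat_lit 5713) (.d (nat_lit 691) (nat_lit 659) (nat_lit 4658) (nat_lit 723) (nat_lit 4690))))) (.a (.f (nat_lit 561) (nat_lit 527) (nat_lit 3599) (.f (nat_lit 592) (nat_lit 591) (nat_lit 1583) (.f (nat_lit 593) (nat_lit 564) (nat_lit 1584) (.f (nat_lit 625) (nat_lit 657) (nat_lit 7696) (.f (nat_lit 658) (nat_lit 690) (nat_lit 7729) (.f (nat_lit 659) (nat_lit 691) (nat_lit 4658) (.f (nat_lit 624) (nat_lit 623) (nat_lit 623) (.d (nat_lit 627) (nat_lit 628) (nat_lit 3664) (nat_lit 660) (nat_lit 624))))))))) (.f (nat_lit 561) (nat_lit 527) (nat_lit 3599) (.f (nat_lit 592) (nat_lit 591) (nat_lit 1583)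 (.f (nat_lit 564) (nat_lit 593) (nat_lit 1584) (.d (nat_lit 532) (nat_lit 531) (nat_lit 2576) (nat_lit 533) (nat_lit 2577)))))))))) (.a (.p (nat_lit 530) (.a (.f (nat_lit 657) (nat_lit 625) (nat_lit 5649) (.f (nat_lit 658) (nat_lit 689) (nat_lit 5681) (.d (nat_lit 659) (nat_lit 627) (nat_lit 4626) (nat_lit 691) (nat_lit 4658)))) (.a (.f (nat_lit 531) (nat_lit 499) (nat_lit 6642) (.f (nat_lit 561) (nat_lit 559) (nat_lit 2575) (.f (nat_lit 659) (nat_lit 627) (nat_lit 4626) (.f (nat_lit 658) (nat_lit 691) (nat_lit 4658) (.f (nat_lit 689) (nat_lit 657) (nat_lit 5681) (.d (nat_lit 690) (nat_lit 593) (nat_lit 7729) (nat_lit 721) (nat_lit 5713))))))) (.a (.f (nat_lit 531) (nat_lit 499) (nat_lit 6642) (.f (nat_lit 561) (nat_lit 559) (nat_lit 2575) (.f (nat_lit 659) (nat_lit 627) (nat_lit 4626) (.f (nat_lit 658) (nat_lit 691) (nat_lit 4658) (.f (nat_lit 593) (nat_lit 690) (nat_lit 7729) (.d (nat_lit 498) (nat_lit 466) (nat_lit 5585) (nat_lit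 625) (nat_lit 5617))))))) (.a (.f (nat_lit 625) (nat_lit 657) (nat_lit 5649) (.f (nat_lit 627) (nat_lit 659) (nat_lit 4626) (.f (nat_lit 593) (nat_lit 498) (nat_lit 5617) (.d (nat_lit 592) (nat_lit 591) (nat_lit 591) (nat_lit 628) (nat_lit 3664))))) (.f (nat_lit 625) (nat_lit 657) (nat_lit 5649) (.f (nat_lit 498) (nat_lit 593) (nat_lit 5617) (.d (nat_lit 499) (nat_lit 467) (nat_lit 6610) (nat_lit 531) (nat_lit 6642))))))))) (.a (.p (nat_lit 531) (.a (.f (nat_lit 563) (nat_lit 658) (nat_lit 6674) (.d (nat_lit 561) (nat_lit 527) (nat_lit 3599) (nat_lit 532) (nat_lit 2576))) (.a (.f (nat_lit 658) (nat_lit 563) (nat_lit 6674) (.f (nat_lit 689) (nat_lit 657) (nat_lit 5681) (.f (nat_lit 690) (nat_lit 721) (nat_lit 5713) (.d (nat_lit 691) (nat_lit 659) (nat_lit 4658) (nat_lit 723) (nat_lit 4690))))) (.a (.f (nat_lit 530) (nat_lit 499) (nat_lit 6642) (.f (nat_lit 561) (nat_lit 559) (nat_lit 2575) (.f (nat_lit 659) (nat_lit 627) (nat_lit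 4626) (.f (nat_lit 658) (nat_lit 691) (nat_lit 4658) (.f (nat_lit 689) (nat_lit 657) (nat_lit 5681) (.d (nat_lit 690) (nat_lit 593) (nat_lit 7729) (nat_lit 721) (nat_lit 5713))))))) (.f (nat_lit 530) (nat_lit 499) (nat_lit 6642) (.f (nat_lit 561) (nat_lit 559) (nat_lit 2575) (.d (nat_lit 532) (nat_lit 533) (nat_lit 1553) (nat_lit 563) (nat_lit 2576)))))))) (.a (.p (nat_lit 531) (.a (.f (nat_lit 563) (nat_lit 658) (nat_lit 6674) (.d (nat_lit 561) (nat_lit 527) (nat_lit 3599) (nat_lit 532) (nat_lit 2576))) (.a (.f (nat_lit 530) (nat_lit 499) (nat_lit 6642) (.f (nat_lit 561) (nat_lit 559) (nat_lit 2575) (.d (nat_lit 532) (nat_lit 533) (nat_lit 1553) (nat_lit 563) (nat_lit 2576)))) (.a (.f (nat_lit 530) (nat_lit 499) (nat_lit 6642) (.f (nat_lit 658) (nat_lit 563) (nat_lit 6674) (.d (nat_lit 659) (nat_lit 627) (nat_lit 4626) (nat_lit 691) (nat_lit 4658)))) (.f (nat_lit 530) (nat_lit 499) (nat_lit 6642) (.f (nat_lit 561) (nat_lit 559)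 (nat_lit 2575) (.f (nat_lit 659) (nat_lit 627) (nat_lit 4626) (.f (nat_lit 658) (nat_lit 691) (nat_lit 4658) (.f (nat_lit 593) (nat_lit 690) (nat_lit 7729) (.d (nat_lit 498) (nat_lit 466) (nat_lit 5585) (nat_lit 625) (nat_lit 5617))))))))))) (.a (.p (nat_lit 530) (.a (.f (nat_lit 531) (nat_lit 499) (nat_lit 6642) (.f (nat_lit 561) (nat_lit 559) (nat_lit 2575) (.d (nat_lit 532) (nat_lit 533) (nat_lit 1553) (nat_lit 563) (nat_lit 2576)))) (.f (nat_lit 625) (nat_lit 657) (nat_lit 5649) (.f (nat_lit 627) (nat_lit 659) (nat_lit 4626) (.f (nat_lit 593) (nat_lit 498) (nat_lit 5617) (.d (nat_lit 592) (nat_lit 591) (nat_lit 591) (nat_lit 628) (nat_lit 3664))))))) (.p (nat_lit 530) (.a (.f (nat_lit 531) (nat_lit 499) (nat_lit 6642) (.f (nat_lit 561) (nat_lit 559) (nat_lit 2575) (.d (nat_lit 532) (nat_lit 533) (nat_lit 1553) (nat_lit 563) (nat_lit 2576)))) (.a (.f (nat_lit 531) (nat_lit 499) (nat_lit 6642) (.f (nat_lit 658) (nat_lit 563) (nat_lit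 6674) (.d (nat_lit 657) (nat_lit 625) (nat_lit 5649) (nat_lit 689) (nat_lit 5681)))) (.a (.f (nat_lit 625) (nat_lit 657) (nat_lit 5649) (.f (nat_lit 498) (nat_lit 593) (nat_lit 5617) (.f (nat_lit 465) (nat_lit 497) (nat_lit 7633) (.f (nat_lit 466) (nat_lit 433) (nat_lit 7601) (.d (nat_lit 467) (nat_lit 435) (nat_lit 6578) (nat_lit 499) (nat_lit 6610)))))) (.f (nat_lit 625) (nat_lit 657) (nat_lit 5649) (.f (nat_lit 498) (nat_lit 593) (nat_lit 5617) (.f (nat_lit 465) (nat_lit 497) (nat_lit 7633) (.f (nat_lit 466) (nat_lit 433) (nat_lit 7601) (.f (nat_lit 435) (nat_lit 467) (nat_lit 6578) (.f (nat_lit 434) (nat_lit 403) (nat_lit 6546) (.f (nat_lit 563) (nat_lit 531) (nat_lit 4530) (.f (nat_lit 463) (nat_lit 464) (nat_lit 2479) (.f (nat_lit 527) (nat_lit 561) (nat_lit 3599) (.f (nat_lit 495) (nat_lit 431) (nat_lit 4527) (.d (nat_lit 592) (nat_lit 559) (nat_lit 4559) (nat_lit 624) (nat_lit 7663)))))))))))))))))))))))))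
noncomputable def s3695 : Cert := .r (nat_lit 64836180782635327105257550133865756107099233344784774323566786510389197141567267213334914537603630284999823986032247621314213099342709661479114454765656505907541824002709199519744) (.p (nat_lit 498) (.a (.f (nat_lit 497) (nat_lit 465) (nat_lit 7633) (.f (nat_lit 529) (nat_lit 626) (nat_lit 7665) (.d (nat_lit 499) (nat_lit 467) (nat_lit 6610) (nat_lit 500) (nat_lit 1520)))) (.a (.f (nat_lit 467) (nat_lit 499) (nat_lit 6610) (.f (nat_lit 466) (nat_lit 435) (nat_lit 6578) (.d (nat_lit 465) (nat_lit 433) (nat_lit 7601) (nat_lit 497) (nat_lit 7633)))) (.a (.f (nat_lit 625) (nat_lit 593) (nat_lit 5617) (.f (nat_lit 626) (nat_lit 657) (nat_lit 5649) (.d (nat_lit 499) (nat_lit 467) (nat_lit 6610) (nat_lit 531) (nat_lit 6642)))) (.f (nat_lit 497) (nat_lit 465) (nat_lit 7633) (.f (nat_lit 626) (nat_lit 529) (nat_lit 7665) (.d (nat_lit 625) (nat_lit 593) (nat_lit 5617) (nat_lit 657) (nat_lit 5649))))))))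
noncomputable def s3705 : Cert := .r (nat_lit 64836180782635327105257550133865756107099233344784774323566786510389197141567267213334914537603630284999823986032247621314213099342709661479114454765656505907541824002709199519744) (.p (nat_lit 498) (.a (.f (nat_lit 595) (nat_lit 627) (nat_lit 4594) (.f (nat_lit 563) (nat_lit 466) (nat_lit 4562) (.f (nat_lit 593) (nat_lit 625) (nat_lit 5617) (.d (nat_lit 564) (nat_lit 565) (nat_lit 1585) (nat_lit 592) (nat_lit 2608))))) (.a (.f (nat_lit 497) (nat_lit 465) (nat_lit 7633) (.f (nat_lit 626) (nat_lit 529) (nat_lit 7665) (.d (nat_lit 625) (nat_lit 593) (nat_lit 5617) (nat_lit 657) (nat_lit 5649)))) (.f (nat_lit 497) (nat_lit 465) (nat_lit 7633) (.f (nat_lit 529) (nat_lit 626) (nat_lit 7665) (.f (nat_lit 531) (nat_lit 559) (nat_lit 1551) (.f (nat_lit 563) (nat_lit 564) (nat_lit 528) (.d (nat_lit 466) (nat_lit 434) (nat_lit 4530) (nat_lit 595) (nat_lit 4562)))))))))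
noncomputable def s3706 : Cert := .r (nat_lit 64836180782635327105257550133865756107099233344784774323566786510389197141567267213334914537603630284999823986032247621314213099342709661479114454765656505907541824002709199519744) (.p (nat_lit 498) (.a (.f (nat_lit 497) (nat_lit 465) (nat_lit 7633) (.f (nat_lit 529) (nat_lit 626) (nat_lit 7665) (.d (nat_lit 499) (nat_lit 467) (nat_lit 6610) (nat_lit 500) (nat_lit 1520)))) (.a (.f (nat_lit 467) (nat_lit 499) (nat_lit 6610) (.f (nat_lit 466) (nat_lit 435) (nat_lit 6578) (.d (nat_lit 465) (nat_lit 433) (nat_lit 7601) (nat_lit 497) (nat_lit 7633)))) (.a (.f (nat_lit 499) (nat_lit 467) (nat_lit 6610) (.f (nat_lit 531) (nat_lit 626) (nat_lit 6642) (.d (nat_lit 529) (nat_lit 500) (nat_lit 2544) (nat_lit 559) (nat_lit 1551)))) (.f (nat_lit 497) (nat_lit 465) (nat_lit 7633) (.f (nat_lit 529) (nat_lit 626) (nat_lit 7665) (.f (nat_lit 531) (nat_lit 559) (nat_lit 1551) (.f (nat_lit 563) (nat_lit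 564) (nat_lit 528) (.d (nat_lit 466) (nat_lit 434) (nat_lit 4530) (nat_lit 595) (nat_lit 4562))))))))))
noncomputable def s3707 : Cert := .r (nat_lit 64836180782635327101742773731878883933028500135655100996324835636715824771957301922231916427704030386313073450013582889165837387910271462164107996909801584275503921517658290257920) (.p (nat_lit 530) (.a (.p (nat_lit 498) (.a (.f (nat_lit 497) (nat_lit 465) (nat_lit 7633) (.f (nat_lit 529) (nat_lit 626) (nat_lit 7665) (.d (nat_lit 499) (nat_lit 467) (nat_lit 6610) (nat_lit 500) (nat_lit 1520)))) (.f (nat_lit 595) (nat_lit 627) (nat_lit 4594) (.f (nat_lit 563) (nat_lit 466) (nat_lit 4562) (.f (nat_lit 593) (nat_lit 625) (nat_lit 5617) (.d (nat_lit 564) (nat_lit 565) (nat_lit 1585) (nat_lit 592) (nat_lit 2608))))))) (.a (.p (nat_lit 498) (.a (.f (nat_lit 595) (nat_lit 627) (nat_lit 4594) (.f (nat_lit 563) (nat_lit 466) (nat_lit 4562) (.f (nat_lit 593) (nat_lit 625) (nat_lit 5617) (.d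 (nat_lit 564) (nat_lit 565) (nat_lit 1585) (nat_lit 592) (nat_lit 2608))))) (.a (.f (nat_lit 467) (nat_lit 499) (nat_lit 6610) (.f (nat_lit 466) (nat_lit 435) (nat_lit 6578) (.d (nat_lit 465) (nat_lit 433) (nat_lit 7601) (nat_lit 497) (nat_lit 7633)))) (.f (nat_lit 625) (nat_lit 593) (nat_lit 5617) (.f (nat_lit 626) (nat_lit 657) (nat_lit 5649) (.d (nat_lit 499) (nat_lit 467) (nat_lit 6610) (nat_lit 531) (nat_lit 6642))))))) (.a (.p (nat_lit 498) (.a (.f (nat_lit 595) (nat_lit 627) (nat_lit 4594) (.f (nat_lit 563) (nat_lit 466) (nat_lit 4562) (.f (nat_lit 593) (nat_lit 625) (nat_lit 5617) (.d (nat_lit 564) (nat_lit 565) (nat_lit 1585) (nat_lit 592) (nat_lit 2608))))) (.a (.f (nat_lit 625) (nat_lit 593) (nat_lit 5617) (.f (nat_lit 626) (nat_lit 657) (nat_lit 5649) (.d (nat_lit 499) (nat_lit 467) (nat_lit 6610) (nat_lit 531) (nat_lit 6642)))) (.f (nat_lit 499) (nat_lit 467) (nat_lit 6610) (.f (nat_lit 531) (nat_lit 626) (nat_lit 6642)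 (.d (nat_lit 529) (nat_lit 500) (nat_lit 2544) (nat_lit 559) (nat_lit 1551))))))) (.a s3695 (.a (.p (nat_lit 529) (.a (.f (nat_lit 531) (nat_lit 559) (nat_lit 1551) (.d (nat_lit 499) (nat_lit 500) (nat_lit 2544) (nat_lit 626) (nat_lit 6642))) (.a (.f (nat_lit 626) (nat_lit 497) (nat_lit 7665) (.f (nat_lit 657) (nat_lit 625) (nat_lit 5649) (.f (nat_lit 658) (nat_lit 689) (nat_lit 5681) (.d (nat_lit 659) (nat_lit 627) (nat_lit 4626) (nat_lit 691) (nat_lit 4658))))) (.f (nat_lit 531) (nat_lit 559) (nat_lit 1551) (.f (nat_lit 563) (nat_lit 564) (nat_lit 528) (.d (nat_lit 499) (nat_lit 467) (nat_lit 5586) (nat_lit 500) (nat_lit 2544))))))) (.a s3705 (.a s3706 s3506))))))))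
noncomputable def s3715 : Cert := .r (nat_lit 64836180782635327105257550133865756107099233344784774323566786510389197141567267213334914537603630284999823986032247621314213099342709661479114454765656505907541824002709199519744) (.p (nat_lit 498) (.a (.f (nat_lit 593) (nat_lit 625) (nat_lit 5617) (.f (nat_lit 561) (nat_lit 466) (nat_lit 5585) (.d (nat_lit 559) (nat_lit 531) (nat_lit 2575) (nat_lit 558) (nat_lit 558)))) (.a (.f (nat_lit 625) (nat_lit 593) (nat_lit 5617) (.f (nat_lit 626) (nat_lit 657) (nat_lit 5649) (.d (nat_lit 499) (nat_lit 467) (nat_lit 6610) (nat_lit 531) (nat_lit 6642)))) (.a (.f (nat_lit 595) (nat_lit 627) (nat_lit 4594) (.f (nat_lit 561) (nat_lit 559) (nat_lit 559) (.d (nat_lit 593) (nat_lit 596) (nat_lit 3632) (nat_lit 625) (nat_lit 5617)))) (.f (nat_lit 499) (nat_lit 467) (nat_lit 6610) (.f (nat_lit 626) (nat_lit 531) (nat_lit 6642) (.d (nat_lit 627) (nat_lit 595) (nat_lit 4594) (nat_lit 659) (nat_lit 4626))))))))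
noncomputable def s3722 : Cert := .r (nat_lit 64836180782635327105257550133865756107099233344784774323566786510389197141567267213334914537603630284999823986032247621314213099342709661479114454765656505907541824002709199519744) (.p (nat_lit 498) (.a (.f (nat_lit 595) (nat_lit 627) (nat_lit 4594) (.f (nat_lit 561) (nat_lit 559) (nat_lit 559) (.d (nat_lit 466) (nat_lit 563) (nat_lit 4562) (nat_lit 593) (nat_lit 5585)))) (.a (.f (nat_lit 499) (nat_lit 467) (nat_lit 6610) (.f (nat_lit 531) (nat_lit 626) (nat_lit 6642) (.d (nat_lit 529) (nat_lit 500) (nat_lit 2544) (nat_lit 559) (nat_lit 1551)))) (.f (nat_lit 499) (nat_lit 467) (nat_lit 6610) (.f (nat_lit 531) (nat_lit 626) (nat_lit 6642) (.f (nat_lit 595) (nat_lit 627) (nat_lit 4594) (.f (nat_lit 563) (nat_lit 466) (nat_lit 4562) (.d (nat_lit 500) (nat_lit 468) (nat_lit 6611) (nat_lit 529) (nat_lit 2544)))))))))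
noncomputable def s3724 : Cert := .r (nat_lit 64836180782635327101742773731878883933028500135655100996324835636715824771957301922231916427704030386313073450013582889165837387910271462164107996909801584275503921517658290257920) (.p (nat_lit 530) (.a (.p (nat_lit 498) (.a (.f (nat_lit 595) (nat_lit 627) (nat_lit 4594) (.f (nat_lit 563) (nat_lit 466) (nat_lit 4562) (.f (nat_lit 593) (nat_lit 625) (nat_lit 5617) (.d (nat_lit 564) (nat_lit 565) (nat_lit 1585) (nat_lit 592) (nat_lit 2608))))) (.a (.f (nat_lit 625) (nat_lit 593) (nat_lit 5617) (.f (nat_lit 626) (nat_lit 657) (nat_lit 5649) (.d (nat_lit 499) (nat_lit 467) (nat_lit 6610) (nat_lit 531) (nat_lit 6642)))) (.f (nat_lit 499) (nat_lit 467) (nat_lit 6610) (.f (nat_lit 531) (nat_lit 626) (nat_lit 6642) (.d (nat_lit 529) (nat_lit 500) (nat_lit 2544) (nat_lit 559) (nat_lit 1551))))))) (.a (.p (nat_lit 626) (.a (.f (nat_lit 531) (nat_lit 499) (nat_lit 6642) (.f (nat_lit 561) (nat_lit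 559) (nat_lit 2575) (.d (nat_lit 532) (nat_lit 533) (nat_lit 1553) (nat_lit 563) (nat_lit 2576)))) (.a (.f (nat_lit 531) (nat_lit 499) (nat_lit 6642) (.f (nat_lit 658) (nat_lit 563) (nat_lit 6674) (.d (nat_lit 657) (nat_lit 625) (nat_lit 5649) (nat_lit 689) (nat_lit 5681)))) (.f (nat_lit 657) (nat_lit 625) (nat_lit 5649) (.f (nat_lit 658) (nat_lit 689) (nat_lit 5681) (.d (nat_lit 659) (nat_lit 627) (nat_lit 4626) (nat_lit 691) (nat_lit 4658))))))) (.a (.p (nat_lit 498) (.a (.f (nat_lit 595) (nat_lit 627) (nat_lit 4594) (.f (nat_lit 561) (nat_lit 559) (nat_lit 559) (.d (nat_lit 466) (nat_lit 563) (nat_lit 4562) (nat_lit 593) (nat_lit 5585)))) (.a (.f (nat_lit 595) (nat_lit 627) (nat_lit 4594) (.f (nat_lit 563) (nat_lit 466) (nat_lit 4562) (.f (nat_lit 593) (nat_lit 625) (nat_lit 5617) (.d (nat_lit 564) (nat_lit 565) (nat_lit 1585) (nat_lit 592) (nat_lit 2608))))) (.a (.f (nat_lit 595) (nat_lit 627) (nat_lit 4594) (.f (nat_lit 561)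 (nat_lit 559) (nat_lit 559) (.d (nat_lit 563) (nat_lit 466) (nat_lit 4562) (nat_lit 596) (nat_lit 560)))) (.a (.f (nat_lit 595) (nat_lit 627) (nat_lit 4594) (.f (nat_lit 561) (nat_lit 559) (nat_lit 559) (.d (nat_lit 593) (nat_lit 596) (nat_lit 3632) (nat_lit 625) (nat_lit 5617)))) (.f (nat_lit 593) (nat_lit 625) (nat_lit 5617) (.f (nat_lit 561) (nat_lit 466) (nat_lit 5585) (.f (nat_lit 559) (nat_lit 558) (nat_lit 558) (.f (nat_lit 591) (nat_lit 590) (nat_lit 1582) (.f (nat_lit 592) (nat_lit 563) (nat_lit 1583) (.d (nat_lit 623) (nat_lit 622) (nat_lit 1614) (nat_lit 655) (nat_lit 6671)))))))))))) (.a s3715 (.a (.p (nat_lit 498) (.a (.f (nat_lit 595) (nat_lit 627) (nat_lit 4594) (.f (nat_lit 563) (nat_lit 466) (nat_lit 4562) (.f (nat_lit 593) (nat_lit 625) (nat_lit 5617) (.d (nat_lit 564) (nat_lit 565) (nat_lit 1585) (nat_lit 592) (nat_lit 2608))))) (.a (.f (nat_lit 625) (nat_lit 593) (nat_lit 5617) (.f (nat_lit 626) (nat_lit 657)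 (nat_lit 5649) (.d (nat_lit 499) (nat_lit 467) (nat_lit 6610) (nat_lit 531) (nat_lit 6642)))) (.f (nat_lit 467) (nat_lit 499) (nat_lit 6610) (.f (nat_lit 466) (nat_lit 435) (nat_lit 6578) (.d (nat_lit 595) (nat_lit 563) (nat_lit 4562) (nat_lit 627) (nat_lit 4594))))))) (.a s3722 (.p (nat_lit 498) (.a (.f (nat_lit 593) (nat_lit 625) (nat_lit 5617) (.f (nat_lit 561) (nat_lit 466) (nat_lit 5585) (.d (nat_lit 559) (nat_lit 531) (nat_lit 2575) (nat_lit 558) (nat_lit 558)))) (.a (.f (nat_lit 625) (nat_lit 593) (nat_lit 5617) (.f (nat_lit 626) (nat_lit 657) (nat_lit 5649) (.d (nat_lit 499) (nat_lit 467) (nat_lit 6610) (nat_lit 531) (nat_lit 6642)))) (.a (.f (nat_lit 593) (nat_lit 625) (nat_lit 5617) (.f (nat_lit 561) (nat_lit 466) (nat_lit 5585) (.f (nat_lit 559) (nat_lit 558) (nat_lit 558) (.f (nat_lit 591) (nat_lit 590) (nat_lit 1582) (.f (nat_lit 592) (nat_lit 563) (nat_lit 1583) (.d (nat_lit 623) (nat_lit 622) (nat_lit 1614) (nat_lit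 655) (nat_lit 6671))))))) (.f (nat_lit 499) (nat_lit 467) (nat_lit 6610) (.f (nat_lit 531) (nat_lit 626) (nat_lit 6642) (.d (nat_lit 529) (nat_lit 500) (nat_lit 2544) (nat_lit 559) (nat_lit 1551)))))))))))))))
noncomputable def s3730 : Cert := .r (nat_lit 64836180782635327105257550133865756107099233344784774323566786510389197141567267213334914537603630284999823986032247621314213099342709661479114454765656505907541824002709199519744) (.p (nat_lit 498) (.a (.f (nat_lit 497) (nat_lit 465) (nat_lit 7633) (.f (nat_lit 529) (nat_lit 626) (nat_lit 7665) (.d (nat_lit 499) (nat_lit 467) (nat_lit 6610) (nat_lit 500) (nat_lit 1520)))) (.a (.f (nat_lit 467) (nat_lit 499) (nat_lit 6610) (.f (nat_lit 466) (nat_lit 435) (nat_lit 6578) (.d (nat_lit 465) (nat_lit 433) (nat_lit 7601) (nat_lit 497) (nat_lit 7633)))) (.a (.f (nat_lit 499) (nat_lit 467) (nat_lit 6610) (.f (nat_lit 531) (nat_lit 626) (nat_lit 6642) (.d (nat_lit 529) (nat_lit 500) (nat_lit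 2544) (nat_lit 559) (nat_lit 1551)))) (.f (nat_lit 497) (nat_lit 465) (nat_lit 7633) (.f (nat_lit 529) (nat_lit 626) (nat_lit 7665) (.f (nat_lit 559) (nat_lit 531) (nat_lit 1551) (.d (nat_lit 558) (nat_lit 557) (nat_lit 2573) (nat_lit 561) (nat_lit 2574)))))))))
noncomputable def s3736 : Cert := .r (nat_lit 64836180782635327105257550133865756107099233344784774323566786510389197141567267213334914537603630284999823986032247621314213099342709661479114454765656505907541824002709199519744) (.p (nat_lit 498) (.a (.f (nat_lit 497) (nat_lit 465) (nat_lit 7633) (.f (nat_lit 529) (nat_lit 626) (nat_lit 7665) (.d (nat_lit 499) (nat_lit 467) (nat_lit 6610) (nat_lit 500) (nat_lit 1520)))) (.a (.f (nat_lit 467) (nat_lit 499) (nat_lit 6610) (.f (nat_lit 466) (nat_lit 435) (nat_lit 6578) (.d (nat_lit 465) (nat_lit 433) (nat_lit 7601) (nat_lit 497) (nat_lit 7633)))) (.a (.f (nat_lit 499) (nat_lit 467) (nat_lit 6610) (.f (nat_lit 531) (nat_lit 626)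 (nat_lit 6642) (.f (nat_lit 595) (nat_lit 627) (nat_lit 4594) (.f (nat_lit 563) (nat_lit 466) (nat_lit 4562) (.d (nat_lit 500) (nat_lit 468) (nat_lit 6611) (nat_lit 529) (nat_lit 2544)))))) (.f (nat_lit 497) (nat_lit 465) (nat_lit 7633) (.f (nat_lit 529) (nat_lit 626) (nat_lit 7665) (.f (nat_lit 595) (nat_lit 627) (nat_lit 4594) (.f (nat_lit 563) (nat_lit 466) (nat_lit 4562) (.d (nat_lit 561) (nat_lit 564) (nat_lit 3600) (nat_lit 596) (nat_lit 560))))))))))
noncomputable def s3737 : Cert := .r (nat_lit 64836180782635327105257550133865756107099233344784774323566786510389197141567267213334914537603630284999823986032247621314213099342709661479114454765656505907541824002709199519744) (.p (nat_lit 498) (.a (.f (nat_lit 595) (nat_lit 627) (nat_lit 4594) (.f (nat_lit 561) (nat_lit 559) (nat_lit 559) (.d (nat_lit 563) (nat_lit 466) (nat_lit 4562) (nat_lit 596) (nat_lit 560)))) (.a (.f (nat_lit 497) (nat_lit 465) (nat_lit 7633) (.f (nat_lit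 529) (nat_lit 626) (nat_lit 7665) (.f (nat_lit 531) (nat_lit 559) (nat_lit 1551) (.f (nat_lit 563) (nat_lit 564) (nat_lit 528) (.d (nat_lit 466) (nat_lit 434) (nat_lit 4530) (nat_lit 595) (nat_lit 4562)))))) (.a (.f (nat_lit 497) (nat_lit 465) (nat_lit 7633) (.f (nat_lit 529) (nat_lit 626) (nat_lit 7665) (.f (nat_lit 559) (nat_lit 531) (nat_lit 1551) (.d (nat_lit 558) (nat_lit 557) (nat_lit 2573) (nat_lit 561) (nat_lit 2574))))) (.f (nat_lit 497) (nat_lit 465) (nat_lit 7633) (.f (nat_lit 529) (nat_lit 626) (nat_lit 7665) (.f (nat_lit 595) (nat_lit 627) (nat_lit 4594) (.f (nat_lit 563) (nat_lit 466) (nat_lit 4562) (.d (nat_lit 561) (nat_lit 564) (nat_lit 3600) (nat_lit 596) (nat_lit 560))))))))))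
noncomputable def s3738 : Cert := .r (nat_lit 64836180782635327105257550133865756107099233344784774323566786510389197141567267213334914537603630284999823986032247621314213099342709661479114454765656505907541824002709199519744) (.p (nat_lit 498) (.a (.f (nat_lit 595) (nat_lit 627) (nat_lit 4594) (.f (nat_lit 561) (nat_lit 559) (nat_lit 559) (.d (nat_lit 563) (nat_lit 466) (nat_lit 4562) (nat_lit 596) (nat_lit 560)))) (.a (.f (nat_lit 467) (nat_lit 499) (nat_lit 6610) (.f (nat_lit 466) (nat_lit 435) (nat_lit 6578) (.d (nat_lit 465) (nat_lit 433) (nat_lit 7601) (nat_lit 497) (nat_lit 7633)))) (.f (nat_lit 497) (nat_lit 465) (nat_lit 7633) (.f (nat_lit 499) (nat_lit 467) (nat_lit 6610) (.f (nat_lit 500) (nat_lit 529) (nat_lit 1520) (.f (nat_lit 533) (nat_lit 532) (nat_lit 497) (.f (nat_lit 501) (nat_lit 534) (nat_lit 498) (.d (nat_lit 469) (nat_lit 468) (nat_lit 2513) (nat_lit 470) (nat_lit 2514))))))))))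
noncomputable def s3739 : Cert := .r (nat_lit 64836180782635327101742773731878883933028500135655100996324835636715824771957301922231916427704030386313073450013582889165837387910271462164107996909801584275503921517658290257920) (.p (nat_lit 530) (.a (.p (nat_lit 529) (.a (.f (nat_lit 531) (nat_lit 559) (nat_lit 1551) (.d (nat_lit 499) (nat_lit 500) (nat_lit 2544) (nat_lit 626) (nat_lit 6642))) (.a (.f (nat_lit 626) (nat_lit 497) (nat_lit 7665) (.f (nat_lit 657) (nat_lit 625) (nat_lit 5649) (.f (nat_lit 658) (nat_lit 689) (nat_lit 5681) (.d (nat_lit 659) (nat_lit 627) (nat_lit 4626) (nat_lit 691) (nat_lit 4658))))) (.f (nat_lit 531) (nat_lit 559) (nat_lit 1551) (.f (nat_lit 563) (nat_lit 564) (nat_lit 528) (.d (nat_lit 499) (nat_lit 467) (nat_lit 5586) (nat_lit 500) (nat_lit 2544))))))) (.a (.p (nat_lit 626) (.a (.f (nat_lit 531) (nat_lit 499) (nat_lit 6642) (.f (nat_lit 561) (nat_lit 559) (nat_lit 2575) (.d (nat_lit 532) (nat_lit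 533) (nat_lit 1553) (nat_lit 563) (nat_lit 2576)))) (.a (.f (nat_lit 531) (nat_lit 499) (nat_lit 6642) (.f (nat_lit 658) (nat_lit 563) (nat_lit 6674) (.d (nat_lit 657) (nat_lit 625) (nat_lit 5649) (nat_lit 689) (nat_lit 5681)))) (.f (nat_lit 657) (nat_lit 625) (nat_lit 5649) (.f (nat_lit 658) (nat_lit 689) (nat_lit 5681) (.d (nat_lit 659) (nat_lit 627) (nat_lit 4626) (nat_lit 691) (nat_lit 4658))))))) (.a (.p (nat_lit 498) (.a (.f (nat_lit 497) (nat_lit 465) (nat_lit 7633) (.f (nat_lit 529) (nat_lit 626) (nat_lit 7665) (.d (nat_lit 499) (nat_lit 467) (nat_lit 6610) (nat_lit 500) (nat_lit 1520)))) (.f (nat_lit 595) (nat_lit 627) (nat_lit 4594) (.f (nat_lit 561) (nat_lit 559) (nat_lit 559) (.d (nat_lit 563) (nat_lit 466) (nat_lit 4562) (nat_lit 596) (nat_lit 560)))))) (.a s3730 (.a s3736 (.a s3737 s3738)))))))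
noncomputable def s3761 : Cert := .r (nat_lit 81045225973576705845931866949422482179170868230352120136932872080819937316538974369105772087653654582751346444588976596909568446798598709460541101730559254928086662937195436834816) (.p (nat_lit 593) (.a (.f (nat_lit 595) (nat_lit 559) (nat_lit 3631) (.f (nat_lit 624) (nat_lit 623) (nat_lit 1615) (.d (nat_lit 625) (nat_lit 596) (nat_lit 1616) (nat_lit 657) (nat_lit 4624)))) (.a (.f (nat_lit 559) (nat_lit 595) (nat_lit 3631) (.d (nat_lit 558) (nat_lit 557) (nat_lit 557) (nat_lit 591) (nat_lit 3630))) (.a (.f (nat_lit 591) (nat_lit 563) (nat_lit 2607) (.f (nat_lit 623) (nat_lit 622) (nat_lit 1614) (.d (nat_lit 624) (nat_lit 595) (nat_lit 1615) (nat_lit 655) (nat_lit 5647)))) (.f (nat_lit 591) (nat_lit 563) (nat_lit 2607) (.f (nat_lit 559) (nat_lit 558) (nat_lit 3630) (.d (nat_lit 623) (nat_lit 622) (nat_lit 1614) (nat_lit 655) (nat_lit 6671))))))))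
noncomputable def s3771 : Cert := .r (nat_lit 81045225973576705845931866949422482179170868230352120136932872080819937316538974369105772087653654582751346444588976596909568446798598709460541101730559254928086662937195436834816) (.p (nat_lit 561) (.a (.f (nat_lit 563) (nat_lit 591) (nat_lit 1583) (.d (nat_lit 595) (nat_lit 559) (nat_lit 559) (nat_lit 596) (nat_lit 560))) (.a (.f (nat_lit 559) (nat_lit 595) (nat_lit 559) (.f (nat_lit 590) (nat_lit 591) (nat_lit 1582) (.f (nat_lit 558) (nat_lit 589) (nat_lit 1581) (.d (nat_lit 529) (nat_lit 530) (nat_lit 2574) (nat_lit 557) (nat_lit 2573))))) (.a (.f (nat_lit 563) (nat_lit 591) (nat_lit 1583) (.f (nat_lit 529) (nat_lit 564) (nat_lit 3600) (.d (nat_lit 497) (nat_lit 465) (nat_lit 4561) (nat_lit 624) (nat_lit 6640)))) (.f (nat_lit 595) (nat_lit 559) (nat_lit 559) (.d (nat_lit 596) (nat_lit 563) (nat_lit 560) (nat_lit 597) (nat_lit 3633)))))))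
noncomputable def s3796 : Cert := .r (nat_lit 81045225973576705845931866949422482179170868230352120136932872080819937316538974369105772087653654582751346444588976596909568446798598709460541101730559254928086662937195436834816) (.p (nat_lit 624) (.a (.f (nat_lit 655) (nat_lit 623) (nat_lit 5647) (.f (nat_lit 656) (nat_lit 687) (nat_lit 5679) (.d (nat_lit 657) (nat_lit 625) (nat_lit 4624) (nat_lit 689) (nat_lit 4656)))) (.a (.f (nat_lit 529) (nat_lit 497) (nat_lit 6640) (.f (nat_lit 561) (nat_lit 656) (nat_lit 6672) (.d (nat_lit 563) (nat_lit 564) (nat_lit 3600) (nat_lit 591) (nat_lit 1583)))) (.f (nat_lit 625) (nat_lit 657) (nat_lit 4624) (.f (nat_lit 623) (nat_lit 655) (nat_lit 5647) (.f (nat_lit 593) (nat_lit 622) (nat_lit 2638) (.f (nat_lit 591) (nat_lit 563) (nat_lit 2607) (.d (nat_lit 590) (nat_lit 561) (nat_lit 2606) (nat_lit 589) (nat_lit 589)))))))))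
noncomputable def s3797 : Cert := .r (nat_lit 64836180782635327101742773731878883933028500135655100996324835636715824771957301922231916427704030386313073450013582889165837387910271462164107996909801584275503921517658290257920) (.p (nat_lit 592) (.a (.p (nat_lit 561) (.a (.f (nat_lit 563) (nat_lit 591) (nat_lit 1583) (.d (nat_lit 595) (nat_lit 559) (nat_lit 559) (nat_lit 596) (nat_lit 560))) (.a (.f (nat_lit 559) (nat_lit 595) (nat_lit 559) (.f (nat_lit 593) (nat_lit 558) (nat_lit 558) (.f (nat_lit 591) (nat_lit 590) (nat_lit 1582) (.d (nat_lit 623) (nat_lit 622) (nat_lit 1614) (nat_lit 655) (nat_lit 6671))))) (.a (.f (nat_lit 563) (nat_lit 591) (nat_lit 1583) (.d (nat_lit 564) (nat_lit 529) (nat_lit 3600) (nat_lit 593) (nat_lit 1584))) (.f (nat_lit 595) (nat_lit 559) (nat_lit 559) (.d (nat_lit 596) (nat_lit 593) (nat_lit 3632) (nat_lit 597) (nat_lit 3633))))))) (.a s3761 (.a s3771 (.a (.p (nat_lit 624) (.a (.f (nat_lit 655) (nat_lit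 623) (nat_lit 5647) (.f (nat_lit 656) (nat_lit 687) (nat_lit 5679) (.d (nat_lit 657) (nat_lit 625) (nat_lit 4624) (nat_lit 689) (nat_lit 4656)))) (.a (.f (nat_lit 623) (nat_lit 655) (nat_lit 5647) (.f (nat_lit 593) (nat_lit 595) (nat_lit 1615) (.d (nat_lit 622) (nat_lit 591) (nat_lit 1614) (nat_lit 621) (nat_lit 2637)))) (.f (nat_lit 529) (nat_lit 497) (nat_lit 6640) (.f (nat_lit 561) (nat_lit 656) (nat_lit 6672) (.f (nat_lit 559) (nat_lit 595) (nat_lit 559) (.d (nat_lit 558) (nat_lit 530) (nat_lit 2574) (nat_lit 557) (nat_lit 2573)))))))) (.a (.p (nat_lit 624) (.a (.f (nat_lit 655) (nat_lit 623) (nat_lit 5647) (.f (nat_lit 656) (nat_lit 687) (nat_lit 5679) (.d (nat_lit 657) (nat_lit 625) (nat_lit 4624) (nat_lit 689) (nat_lit 4656)))) (.a (.f (nat_lit 623) (nat_lit 655) (nat_lit 5647) (.f (nat_lit 593) (nat_lit 595) (nat_lit 1615) (.d (nat_lit 622) (nat_lit 591) (nat_lit 1614) (nat_lit 621) (nat_lit 2637)))) (.f (nat_lit 529) (nat_lit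 497) (nat_lit 6640) (.f (nat_lit 561) (nat_lit 656) (nat_lit 6672) (.d (nat_lit 563) (nat_lit 564) (nat_lit 3600) (nat_lit 591) (nat_lit 1583))))))) (.a (.p (nat_lit 624) (.a (.f (nat_lit 655) (nat_lit 623) (nat_lit 5647) (.f (nat_lit 656) (nat_lit 687) (nat_lit 5679) (.d (nat_lit 657) (nat_lit 625) (nat_lit 4624) (nat_lit 689) (nat_lit 4656)))) (.a (.f (nat_lit 529) (nat_lit 497) (nat_lit 6640) (.f (nat_lit 561) (nat_lit 656) (nat_lit 6672) (.f (nat_lit 559) (nat_lit 595) (nat_lit 559) (.d (nat_lit 558) (nat_lit 530) (nat_lit 2574) (nat_lit 557) (nat_lit 2573))))) (.f (nat_lit 625) (nat_lit 657) (nat_lit 4624) (.f (nat_lit 623) (nat_lit 655) (nat_lit 5647) (.d (nat_lit 593) (nat_lit 595) (nat_lit 1615) (nat_lit 622) (nat_lit 2638))))))) s3796)))))))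
noncomputable def s3810 : Cert := .r (nat_lit 64836180782635327101742773731878883933028500135655100996324835636715824771957301922231916427704030386313073450013582889165837387910271462164107996909801584275503921517658290257920) (.p (nat_lit 592) (.a (.p (nat_lit 561) (.a (.f (nat_lit 563) (nat_lit 591) (nat_lit 1583) (.d (nat_lit 595) (nat_lit 559) (nat_lit 559) (nat_lit 596) (nat_lit 560))) (.a (.f (nat_lit 559) (nat_lit 595) (nat_lit 559) (.f (nat_lit 593) (nat_lit 558) (nat_lit 558) (.f (nat_lit 591) (nat_lit 590) (nat_lit 1582) (.d (nat_lit 623) (nat_lit 622) (nat_lit 1614) (nat_lit 655) (nat_lit 6671))))) (.a (.f (nat_lit 563) (nat_lit 591) (nat_lit 1583) (.d (nat_lit 564) (nat_lit 529) (nat_lit 3600) (nat_lit 593) (nat_lit 1584))) (.f (nat_lit 595) (nat_lit 559) (nat_lit 559) (.d (nat_lit 596) (nat_lit 593) (nat_lit 3632) (nat_lit 597) (nat_lit 3633))))))) (.a s3761 (.a (.p (nat_lit 624) (.a (.f (nat_lit 655) (nat_lit 623)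 (nat_lit 5647) (.f (nat_lit 656) (nat_lit 687) (nat_lit 5679) (.d (nat_lit 657) (nat_lit 625) (nat_lit 4624) (nat_lit 689) (nat_lit 4656)))) (.a (.f (nat_lit 529) (nat_lit 497) (nat_lit 6640) (.f (nat_lit 561) (nat_lit 656) (nat_lit 6672) (.d (nat_lit 563) (nat_lit 564) (nat_lit 3600) (nat_lit 591) (nat_lit 1583)))) (.f (nat_lit 625) (nat_lit 657) (nat_lit 4624) (.f (nat_lit 623) (nat_lit 655) (nat_lit 5647) (.f (nat_lit 626) (nat_lit 595) (nat_lit 2639) (.d (nat_lit 591) (nat_lit 590) (nat_lit 3662) (nat_lit 627) (nat_lit 3663)))))))) (.a (.p (nat_lit 624) (.a (.f (nat_lit 655) (nat_lit 623) (nat_lit 5647) (.f (nat_lit 656) (nat_lit 687) (nat_lit 5679) (.d (nat_lit 657) (nat_lit 625) (nat_lit 4624) (nat_lit 689) (nat_lit 4656)))) (.a (.f (nat_lit 623) (nat_lit 655) (nat_lit 5647) (.f (nat_lit 593) (nat_lit 595) (nat_lit 1615) (.d (nat_lit 622) (nat_lit 591) (nat_lit 1614) (nat_lit 621) (nat_lit 2637)))) (.f (nat_lit 529) (nat_lit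 497) (nat_lit 6640) (.f (nat_lit 561) (nat_lit 656) (nat_lit 6672) (.f (nat_lit 559) (nat_lit 595) (nat_lit 559) (.d (nat_lit 558) (nat_lit 557) (nat_lit 2573) (nat_lit 593) (nat_lit 558)))))))) (.a (.p (nat_lit 561) (.a (.f (nat_lit 563) (nat_lit 591) (nat_lit 1583) (.d (nat_lit 595) (nat_lit 559) (nat_lit 559) (nat_lit 596) (nat_lit 560))) (.a (.f (nat_lit 595) (nat_lit 559) (nat_lit 559) (.d (nat_lit 596) (nat_lit 593) (nat_lit 3632) (nat_lit 597) (nat_lit 3633))) (.f (nat_lit 563) (nat_lit 591) (nat_lit 1583) (.d (nat_lit 564) (nat_lit 529) (nat_lit 3600) (nat_lit 593) (nat_lit 1584)))))) (.a (.p (nat_lit 624) (.a (.f (nat_lit 655) (nat_lit 623) (nat_lit 5647) (.f (nat_lit 656) (nat_lit 687) (nat_lit 5679) (.d (nat_lit 657) (nat_lit 625) (nat_lit 4624) (nat_lit 689) (nat_lit 4656)))) (.a (.f (nat_lit 529) (nat_lit 497) (nat_lit 6640) (.f (nat_lit 561) (nat_lit 656) (nat_lit 6672) (.f (nat_lit 559) (nat_lit 595) (nat_lit 559)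 (.d (nat_lit 558) (nat_lit 557) (nat_lit 2573) (nat_lit 593) (nat_lit 558))))) (.f (nat_lit 625) (nat_lit 657) (nat_lit 4624) (.f (nat_lit 623) (nat_lit 655) (nat_lit 5647) (.d (nat_lit 593) (nat_lit 595) (nat_lit 1615) (nat_lit 622) (nat_lit 2638))))))) s3796)))))))
noncomputable def s3813 : Cert := .r (nat_lit 64836180782635327105257550133865756107099233344784774323566786510389197141567267213334914537603630284999823986032247621314213099342709661479114454765656505907541824002709199519744) (.p (nat_lit 626) (.a (.f (nat_lit 657) (nat_lit 625) (nat_lit 5649) (.f (nat_lit 658) (nat_lit 689) (nat_lit 5681) (.d (nat_lit 659) (nat_lit 627) (nat_lit 4626) (nat_lit 691) (nat_lit 4658)))) (.a (.f (nat_lit 531) (nat_lit 499) (nat_lit 6642) (.f (nat_lit 561) (nat_lit 559) (nat_lit 2575) (.f (nat_lit 659) (nat_lit 627) (nat_lit 4626) (.f (nat_lit 658) (nat_lit 691) (nat_lit 4658) (.f (nat_lit 689) (nat_lit 657) (nat_lit 5681) (.d (nat_lit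 690) (nat_lit 593) (nat_lit 7729) (nat_lit 721) (nat_lit 5713))))))) (.f (nat_lit 531) (nat_lit 499) (nat_lit 6642) (.d (nat_lit 559) (nat_lit 529) (nat_lit 1551) (nat_lit 561) (nat_lit 2575))))))
noncomputable def s3816 : Cert := .r (nat_lit 64836180782635327101742773731878883933028500135655100996324835636715824771957301922231916427704030386313073450013582889165837387910271462164107996909801584275503921517658290257920) (.p (nat_lit 530) (.a s3695 (.a (.p (nat_lit 498) (.a (.f (nat_lit 467) (nat_lit 499) (nat_lit 6610) (.f (nat_lit 466) (nat_lit 435) (nat_lit 6578) (.d (nat_lit 465) (nat_lit 433) (nat_lit 7601) (nat_lit 497) (nat_lit 7633)))) (.a (.f (nat_lit 625) (nat_lit 593) (nat_lit 5617) (.f (nat_lit 626) (nat_lit 657) (nat_lit 5649) (.d (nat_lit 499) (nat_lit 467) (nat_lit 6610) (nat_lit 531) (nat_lit 6642)))) (.f (nat_lit 625) (nat_lit 593) (nat_lit 5617) (.f (nat_lit 626) (nat_lit 657) (nat_lit 5649) (.d (nat_lit 627) (nat_lit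 595) (nat_lit 4594) (nat_lit 659) (nat_lit 4626))))))) (.a s3715 (.a (.p (nat_lit 498) (.a (.f (nat_lit 497) (nat_lit 465) (nat_lit 7633) (.f (nat_lit 529) (nat_lit 626) (nat_lit 7665) (.d (nat_lit 499) (nat_lit 467) (nat_lit 6610) (nat_lit 500) (nat_lit 1520)))) (.a (.f (nat_lit 467) (nat_lit 499) (nat_lit 6610) (.f (nat_lit 466) (nat_lit 435) (nat_lit 6578) (.d (nat_lit 465) (nat_lit 433) (nat_lit 7601) (nat_lit 497) (nat_lit 7633)))) (.f (nat_lit 625) (nat_lit 593) (nat_lit 5617) (.f (nat_lit 626) (nat_lit 657) (nat_lit 5649) (.d (nat_lit 627) (nat_lit 595) (nat_lit 4594) (nat_lit 659) (nat_lit 4626))))))) (.a s3813 (.a s3730 (.a (.p (nat_lit 498) (.a (.f (nat_lit 593) (nat_lit 625) (nat_lit 5617) (.f (nat_lit 561) (nat_lit 466) (nat_lit 5585) (.d (nat_lit 559) (nat_lit 531) (nat_lit 2575) (nat_lit 558) (nat_lit 558)))) (.a (.f (nat_lit 497) (nat_lit 465) (nat_lit 7633) (.f (nat_lit 626) (nat_lit 529) (nat_lit 7665) (.d (nat_lit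 625) (nat_lit 593) (nat_lit 5617) (nat_lit 657) (nat_lit 5649)))) (.f (nat_lit 497) (nat_lit 465) (nat_lit 7633) (.f (nat_lit 529) (nat_lit 626) (nat_lit 7665) (.f (nat_lit 559) (nat_lit 531) (nat_lit 1551) (.d (nat_lit 558) (nat_lit 557) (nat_lit 2573) (nat_lit 561) (nat_lit 2574)))))))) (.p (nat_lit 498) (.a (.f (nat_lit 595) (nat_lit 627) (nat_lit 4594) (.f (nat_lit 561) (nat_lit 559) (nat_lit 559) (.d (nat_lit 593) (nat_lit 596) (nat_lit 3632) (nat_lit 625) (nat_lit 5617)))) (.f (nat_lit 467) (nat_lit 499) (nat_lit 6610) (.f (nat_lit 466) (nat_lit 435) (nat_lit 6578) (.d (nat_lit 465) (nat_lit 433) (nat_lit 7601) (nat_lit 497) (nat_lit 7633))))))))))))))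
noncomputable def s3830 : Cert := .r (nat_lit 64836180782635327101742773731878883933028500135655100996324835636715824771957301922231916427704030386313073450013582889165837387910271462164107996909801584275503921517658290257920) (.p (nat_lit 530) (.a (.p (nat_lit 498) (.a (.f (nat_lit 497) (nat_lit 465) (nat_lit 7633) (.f (nat_lit 529) (nat_lit 626) (nat_lit 7665) (.d (nat_lit 499) (nat_lit 467) (nat_lit 6610) (nat_lit 500) (nat_lit 1520)))) (.f (nat_lit 595) (nat_lit 627) (nat_lit 4594) (.f (nat_lit 563) (nat_lit 466) (nat_lit 4562) (.f (nat_lit 593) (nat_lit 625) (nat_lit 5617) (.d (nat_lit 564) (nat_lit 565) (nat_lit 1585) (nat_lit 592) (nat_lit 2608))))))) (.a (.p (nat_lit 498) (.a (.f (nat_lit 595) (nat_lit 627) (nat_lit 4594) (.f (nat_lit 563) (nat_lit 466) (nat_lit 4562) (.f (nat_lit 593) (nat_lit 625) (nat_lit 5617) (.d (nat_lit 564) (nat_lit 565) (nat_lit 1585) (nat_lit 592) (nat_lit 2608))))) (.a (.f (nat_lit 467) (nat_lit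 499) (nat_lit 6610) (.f (nat_lit 466) (nat_lit 435) (nat_lit 6578) (.d (nat_lit 465) (nat_lit 433) (nat_lit 7601) (nat_lit 497) (nat_lit 7633)))) (.f (nat_lit 625) (nat_lit 593) (nat_lit 5617) (.f (nat_lit 626) (nat_lit 657) (nat_lit 5649) (.d (nat_lit 499) (nat_lit 467) (nat_lit 6610) (nat_lit 531) (nat_lit 6642))))))) (.a (.p (nat_lit 498) (.a (.f (nat_lit 595) (nat_lit 627) (nat_lit 4594) (.f (nat_lit 563) (nat_lit 466) (nat_lit 4562) (.f (nat_lit 593) (nat_lit 625) (nat_lit 5617) (.d (nat_lit 564) (nat_lit 565) (nat_lit 1585) (nat_lit 592) (nat_lit 2608))))) (.a (.f (nat_lit 625) (nat_lit 593) (nat_lit 5617) (.f (nat_lit 626) (nat_lit 657) (nat_lit 5649) (.d (nat_lit 499) (nat_lit 467) (nat_lit 6610) (nat_lit 531) (nat_lit 6642)))) (.f (nat_lit 467) (nat_lit 499) (nat_lit 6610) (.f (nat_lit 466) (nat_lit 435) (nat_lit 6578) (.d (nat_lit 595) (nat_lit 563) (nat_lit 4562) (nat_lit 627) (nat_lit 4594))))))) (.a s3695 (.a (.p (nat_lit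 626) (.a (.f (nat_lit 531) (nat_lit 499) (nat_lit 6642) (.f (nat_lit 658) (nat_lit 563) (nat_lit 6674) (.d (nat_lit 657) (nat_lit 625) (nat_lit 5649) (nat_lit 689) (nat_lit 5681)))) (.a (.f (nat_lit 657) (nat_lit 625) (nat_lit 5649) (.f (nat_lit 658) (nat_lit 689) (nat_lit 5681) (.d (nat_lit 659) (nat_lit 627) (nat_lit 4626) (nat_lit 691) (nat_lit 4658)))) (.a (.f (nat_lit 531) (nat_lit 499) (nat_lit 6642) (.f (nat_lit 658) (nat_lit 563) (nat_lit 6674) (.d (nat_lit 659) (nat_lit 627) (nat_lit 4626) (nat_lit 691) (nat_lit 4658)))) (.f (nat_lit 529) (nat_lit 497) (nat_lit 7665) (.f (nat_lit 531) (nat_lit 499) (nat_lit 6642) (.f (nat_lit 561) (nat_lit 532) (nat_lit 1552) (.f (nat_lit 563) (nat_lit 564) (nat_lit 528) (.f (nat_lit 595) (nat_lit 596) (nat_lit 560) (.f (nat_lit 627) (nat_lit 659) (nat_lit 4626) (.f (nat_lit 592) (nat_lit 591) (nat_lit 1583) (.d (nat_lit 628) (nat_lit 593) (nat_lit 592) (nat_lit 660) (nat_lit 4627)))))))))))))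 (.a s3736 (.a (.p (nat_lit 498) (.a (.f (nat_lit 593) (nat_lit 625) (nat_lit 5617) (.f (nat_lit 561) (nat_lit 466) (nat_lit 5585) (.d (nat_lit 595) (nat_lit 596) (nat_lit 3632) (nat_lit 627) (nat_lit 4594)))) (.a (.f (nat_lit 497) (nat_lit 465) (nat_lit 7633) (.f (nat_lit 626) (nat_lit 529) (nat_lit 7665) (.d (nat_lit 625) (nat_lit 593) (nat_lit 5617) (nat_lit 657) (nat_lit 5649)))) (.f (nat_lit 497) (nat_lit 465) (nat_lit 7633) (.f (nat_lit 626) (nat_lit 529) (nat_lit 7665) (.d (nat_lit 627) (nat_lit 595) (nat_lit 4594) (nat_lit 659) (nat_lit 4626))))))) s3506))))))))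
noncomputable def s3834 : Cert := .r (nat_lit 64836180782635327101742773731878883933028500135655100996324835636715824771957301922231916427704030386313073450013582889165837387910271462164107996909801584275503921517658290257920) (.p (nat_lit 530) (.a s3706 (.a s3449 (.a s3722 (.a (.p (nat_lit 498) (.a (.f (nat_lit 497) (nat_lit 465) (nat_lit 7633) (.f (nat_lit 529) (nat_lit 626) (nat_lit 7665) (.d (nat_lit 499) (nat_lit 467) (nat_lit 6610) (nat_lit 500) (nat_lit 1520)))) (.f (nat_lit 595) (nat_lit 627) (nat_lit 4594) (.f (nat_lit 561) (nat_lit 559) (nat_lit 559) (.d (nat_lit 563) (nat_lit 466) (nat_lit 4562) (nat_lit 596) (nat_lit 560)))))) (.a (.p (nat_lit 529) (.a (.f (nat_lit 531) (nat_lit 559) (nat_lit 1551) (.d (nat_lit 499) (nat_lit 500) (nat_lit 2544) (nat_lit 626) (nat_lit 6642))) (.a (.f (nat_lit 497) (nat_lit 626) (nat_lit 7665) (.d (nat_lit 465) (nat_lit 433) (nat_lit 4529) (nat_lit 561) (nat_lit 4561))) (.f (nat_lit 531)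 (nat_lit 559) (nat_lit 1551) (.f (nat_lit 563) (nat_lit 564) (nat_lit 528) (.d (nat_lit 499) (nat_lit 467) (nat_lit 5586) (nat_lit 500) (nat_lit 2544))))))) (.a s3730 (.a s3737 s3738))))))))
noncomputable def s3836 : Cert := .r (nat_lit 64836180782635327105257550133865756107099233344784774323566786510389197141567267213334914537603630284999823986032247621314213099342709661479114454765656505907541824002709199519744) (.p (nat_lit 498) (.a (.f (nat_lit 593) (nat_lit 625) (nat_lit 5617) (.f (nat_lit 561) (nat_lit 466) (nat_lit 5585) (.d (nat_lit 559) (nat_lit 531) (nat_lit 2575) (nat_lit 558) (nat_lit 558)))) (.a (.f (nat_lit 467) (nat_lit 499) (nat_lit 6610) (.f (nat_lit 466) (nat_lit 435) (nat_lit 6578) (.d (nat_lit 465) (nat_lit 433) (nat_lit 7601) (nat_lit 497) (nat_lit 7633)))) (.f (nat_lit 497) (nat_lit 465) (nat_lit 7633) (.f (nat_lit 499) (nat_lit 467) (nat_lit 6610) (.f (nat_lit 500) (nat_lit 529) (nat_lit 1520) (.f (nat_lit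 533) (nat_lit 532) (nat_lit 497) (.f (nat_lit 501) (nat_lit 534) (nat_lit 498) (.d (nat_lit 469) (nat_lit 468) (nat_lit 2513) (nat_lit 470) (nat_lit 2514))))))))))
noncomputable def s3837 : Cert := .r (nat_lit 64836180782635327101742773731878883933028500135655100996324835636715824771957301922231916427704030386313073450013582889165837387910271462164107996909801584275503921517658290257920) (.p (nat_lit 530) (.a s3695 (.a (.p (nat_lit 626) (.a (.f (nat_lit 531) (nat_lit 499) (nat_lit 6642) (.f (nat_lit 561) (nat_lit 559) (nat_lit 2575) (.d (nat_lit 532) (nat_lit 533) (nat_lit 1553) (nat_lit 563) (nat_lit 2576)))) (.a (.f (nat_lit 531) (nat_lit 499) (nat_lit 6642) (.f (nat_lit 658) (nat_lit 563) (nat_lit 6674) (.d (nat_lit 657) (nat_lit 625) (nat_lit 5649) (nat_lit 689) (nat_lit 5681)))) (.f (nat_lit 657) (nat_lit 625) (nat_lit 5649) (.f (nat_lit 658) (nat_lit 689) (nat_lit 5681) (.d (nat_lit 659) (nat_lit 627) (nat_lit 4626) (nat_lit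 691) (nat_lit 4658))))))) (.a (.p (nat_lit 498) (.a (.f (nat_lit 497) (nat_lit 465) (nat_lit 7633) (.f (nat_lit 529) (nat_lit 626) (nat_lit 7665) (.d (nat_lit 499) (nat_lit 467) (nat_lit 6610) (nat_lit 500) (nat_lit 1520)))) (.a (.f (nat_lit 467) (nat_lit 499) (nat_lit 6610) (.f (nat_lit 466) (nat_lit 435) (nat_lit 6578) (.d (nat_lit 465) (nat_lit 433) (nat_lit 7601) (nat_lit 497) (nat_lit 7633)))) (.f (nat_lit 593) (nat_lit 625) (nat_lit 5617) (.f (nat_lit 561) (nat_lit 466) (nat_lit 5585) (.f (nat_lit 559) (nat_lit 558) (nat_lit 558) (.f (nat_lit 591) (nat_lit 590) (nat_lit 1582) (.f (nat_lit 592) (nat_lit 563) (nat_lit 1583) (.d (nat_lit 623) (nat_lit 622) (nat_lit 1614) (nat_lit 655) (nat_lit 6671)))))))))) (.a (.p (nat_lit 498) (.a (.f (nat_lit 593) (nat_lit 625) (nat_lit 5617) (.f (nat_lit 561) (nat_lit 466) (nat_lit 5585) (.d (nat_lit 559) (nat_lit 531) (nat_lit 2575) (nat_lit 558) (nat_lit 558)))) (.a (.f (nat_lit 497) (nat_lit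 465) (nat_lit 7633) (.f (nat_lit 626) (nat_lit 529) (nat_lit 7665) (.d (nat_lit 625) (nat_lit 593) (nat_lit 5617) (nat_lit 657) (nat_lit 5649)))) (.f (nat_lit 497) (nat_lit 465) (nat_lit 7633) (.f (nat_lit 529) (nat_lit 626) (nat_lit 7665) (.f (nat_lit 559) (nat_lit 531) (nat_lit 1551) (.d (nat_lit 558) (nat_lit 557) (nat_lit 2573) (nat_lit 561) (nat_lit 2574)))))))) (.a s3730 s3836))))))
noncomputable def s3838 : Cert := .r (nat_lit 64836180767539477402456608322912665609075424571987416114659073923210999570974805272663321019359523485602438379847709389042782008311189123644408826379555847269773137343060708950016) (.p (nat_lit 562) (.a s3461 (.a s3707 (.a s3724 (.a s3739 (.a s3797 (.a s3810 (.a s3816 (.a s3830 (.a s3834 s3837))))))))))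
noncomputable def s3862 : Cert := .r (nat_lit 81045225973576705849446643351409354353241601439481793464174822954493309686148939660208770197553254481438096980607641329057944158231036908775547559586414176560124565422246346096640) (.p (nat_lit 624) (.a (.f (nat_lit 657) (nat_lit 625) (nat_lit 4624) (.f (nat_lit 656) (nat_lit 689) (nat_lit 4656) (.d (nat_lit 527) (nat_lit 495) (nat_lit 7663) (nat_lit 559) (nat_lit 7695)))) (.a (.f (nat_lit 657) (nat_lit 625) (nat_lit 4624) (.f (nat_lit 656) (nat_lit 689) (nat_lit 4656) (.d (nat_lit 655) (nat_lit 623) (nat_lit 5647) (nat_lit 687) (nat_lit 5679)))) (.a (.f (nat_lit 527) (nat_lit 495) (nat_lit 7663) (.f (nat_lit 656) (nat_lit 559) (nat_lit 7695) (.d (nat_lit 655) (nat_lit 623) (nat_lit 5647) (nat_lit 687) (nat_lit 5679)))) (.f (nat_lit 625) (nat_lit 657) (nat_lit 4624) (.f (nat_lit 623) (nat_lit 655) (nat_lit 5647) (.f (nat_lit 626) (nat_lit 595) (nat_lit 2639) (.d (nat_lit 591) (nat_lit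 590) (nat_lit 3662) (nat_lit 627) (nat_lit 3663)))))))))
noncomputable def s3885 : Cert := .r (nat_lit 81045225973576705849446643351409354353241601439481793464174822954493309686148939660208770197553254481438096980607641329057944158231036908775547559586414176560124565422246346096640) (.p (nat_lit 624) (.a (.f (nat_lit 657) (nat_lit 625) (nat_lit 4624) (.f (nat_lit 656) (nat_lit 689) (nat_lit 4656) (.d (nat_lit 655) (nat_lit 623) (nat_lit 5647) (nat_lit 687) (nat_lit 5679)))) (.a (.f (nat_lit 623) (nat_lit 655) (nat_lit 5647) (.f (nat_lit 593) (nat_lit 595) (nat_lit 1615) (.d (nat_lit 591) (nat_lit 563) (nat_lit 2607) (nat_lit 622) (nat_lit 1614)))) (.a (.f (nat_lit 657) (nat_lit 625) (nat_lit 4624) (.f (nat_lit 656) (nat_lit 689) (nat_lit 4656) (.f (nat_lit 687) (nat_lit 655) (nat_lit 5679) (.f (nat_lit 688) (nat_lit 719) (nat_lit 5711) (.f (nat_lit 659) (nat_lit 658) (nat_lit 1679) (.f (nat_lit 627) (nat_lit 626) (nat_lit 4626)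 (.d (nat_lit 595) (nat_lit 563) (nat_lit 7698) (nat_lit 691) (nat_lit 7730)))))))) (.f (nat_lit 657) (nat_lit 625) (nat_lit 4624) (.f (nat_lit 689) (nat_lit 656) (nat_lit 4656) (.f (nat_lit 626) (nat_lit 658) (nat_lit 5681) (.f (nat_lit 627) (nat_lit 659) (nat_lit 4626) (.f (nat_lit 593) (nat_lit 591) (nat_lit 591) (.d (nat_lit 595) (nat_lit 623) (nat_lit 1615) (nat_lit 628) (nat_lit 592)))))))))))
noncomputable def s3895 : Cert := .r (nat_lit 81045225973576705849446643351409354353241601439481793464174822954493309686148939660208770197553254481438096980607641329057944158231036908775547559586414176560124565422246346096640) (.p (nat_lit 624) (.a (.f (nat_lit 657) (nat_lit 625) (nat_lit 4624) (.f (nat_lit 656) (nat_lit 689) (nat_lit 4656) (.d (nat_lit 527) (nat_lit 495) (nat_lit 7663) (nat_lit 559) (nat_lit 7695)))) (.a (.f (nat_lit 657) (nat_lit 625) (nat_lit 4624) (.f (nat_lit 656) (nat_lit 689) (nat_lit 4656) (.d (nat_lit 655) (nat_lit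 623) (nat_lit 5647) (nat_lit 687) (nat_lit 5679)))) (.a (.f (nat_lit 527) (nat_lit 495) (nat_lit 7663) (.f (nat_lit 656) (nat_lit 559) (nat_lit 7695) (.d (nat_lit 655) (nat_lit 623) (nat_lit 5647) (nat_lit 687) (nat_lit 5679)))) (.f (nat_lit 625) (nat_lit 657) (nat_lit 4624) (.f (nat_lit 623) (nat_lit 655) (nat_lit 5647) (.d (nat_lit 593) (nat_lit 595) (nat_lit 1615) (nat_lit 622) (nat_lit 2638))))))))
noncomputable def s3907 : Cert := .r (nat_lit 64836180782635327105257550133865756107099233344784774323566786510389197141567267213334914537603630284999823986032247621314213099342709661479114454765656505907541824002709199519744) (.p (nat_lit 498) (.a (.f (nat_lit 595) (nat_lit 627) (nat_lit 4594) (.f (nat_lit 563) (nat_lit 466) (nat_lit 4562) (.f (nat_lit 593) (nat_lit 625) (nat_lit 5617) (.d (nat_lit 564) (nat_lit 565) (nat_lit 1585) (nat_lit 592) (nat_lit 2608))))) (.a (.f (nat_lit 467) (nat_lit 499) (nat_lit 6610) (.f (nat_lit 466)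 (nat_lit 435) (nat_lit 6578) (.d (nat_lit 465) (nat_lit 433) (nat_lit 7601) (nat_lit 497) (nat_lit 7633)))) (.f (nat_lit 593) (nat_lit 625) (nat_lit 5617) (.f (nat_lit 595) (nat_lit 627) (nat_lit 4594) (.f (nat_lit 592) (nat_lit 559) (nat_lit 3631) (.d (nat_lit 563) (nat_lit 564) (nat_lit 2608) (nat_lit 591) (nat_lit 2607))))))))
noncomputable def s3908 : Cert := .r (nat_lit 64836180782635327105257550133865756107099233344784774323566786510389197141567267213334914537603630284999823986032247621314213099342709661479114454765656505907541824002709199519744) (.p (nat_lit 626) (.a (.f (nat_lit 531) (nat_lit 499) (nat_lit 6642) (.f (nat_lit 658) (nat_lit 563) (nat_lit 6674) (.d (nat_lit 657) (nat_lit 625) (nat_lit 5649) (nat_lit 689) (nat_lit 5681)))) (.a (.f (nat_lit 657) (nat_lit 625) (nat_lit 5649) (.f (nat_lit 658) (nat_lit 689) (nat_lit 5681) (.d (nat_lit 659) (nat_lit 627) (nat_lit 4626) (nat_lit 691) (nat_lit 4658)))) (.a (.f (nat_lit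 531) (nat_lit 499) (nat_lit 6642) (.f (nat_lit 658) (nat_lit 563) (nat_lit 6674) (.d (nat_lit 659) (nat_lit 627) (nat_lit 4626) (nat_lit 691) (nat_lit 4658)))) (.f (nat_lit 625) (nat_lit 657) (nat_lit 5649) (.f (nat_lit 627) (nat_lit 659) (nat_lit 4626) (.f (nat_lit 593) (nat_lit 498) (nat_lit 5617) (.d (nat_lit 592) (nat_lit 591) (nat_lit 591) (nat_lit 628) (nat_lit 3664)))))))))
noncomputable def s3909 : Cert := .r (nat_lit 64836180782635327101742773731878883933028500135655100996324835636715824771957301922231916427704030386313073450013582889165837387910271462164107996909801584275503921517658290257920) (.p (nat_lit 530) (.a (.p (nat_lit 498) (.a (.f (nat_lit 595) (nat_lit 627) (nat_lit 4594) (.f (nat_lit 563) (nat_lit 466) (nat_lit 4562) (.f (nat_lit 593) (nat_lit 625) (nat_lit 5617) (.d (nat_lit 564) (nat_lit 565) (nat_lit 1585) (nat_lit 592) (nat_lit 2608))))) (.a (.f (nat_lit 467) (nat_lit 499) (nat_lit 6610) (.f (nat_lit 466)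 (nat_lit 435) (nat_lit 6578) (.d (nat_lit 465) (nat_lit 433) (nat_lit 7601) (nat_lit 497) (nat_lit 7633)))) (.f (nat_lit 625) (nat_lit 593) (nat_lit 5617) (.f (nat_lit 626) (nat_lit 657) (nat_lit 5649) (.d (nat_lit 499) (nat_lit 467) (nat_lit 6610) (nat_lit 531) (nat_lit 6642))))))) (.a (.p (nat_lit 498) (.a (.f (nat_lit 595) (nat_lit 627) (nat_lit 4594) (.f (nat_lit 563) (nat_lit 466) (nat_lit 4562) (.f (nat_lit 593) (nat_lit 625) (nat_lit 5617) (.d (nat_lit 564) (nat_lit 565) (nat_lit 1585) (nat_lit 592) (nat_lit 2608))))) (.a (.f (nat_lit 625) (nat_lit 593) (nat_lit 5617) (.f (nat_lit 626) (nat_lit 657) (nat_lit 5649) (.d (nat_lit 499) (nat_lit 467) (nat_lit 6610) (nat_lit 531) (nat_lit 6642)))) (.f (nat_lit 467) (nat_lit 499) (nat_lit 6610) (.f (nat_lit 466) (nat_lit 435) (nat_lit 6578) (.d (nat_lit 595) (nat_lit 563) (nat_lit 4562) (nat_lit 627) (nat_lit 4594))))))) (.a (.p (nat_lit 498) (.a (.f (nat_lit 467) (nat_lit 499)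 (nat_lit 6610) (.f (nat_lit 466) (nat_lit 435) (nat_lit 6578) (.d (nat_lit 465) (nat_lit 433) (nat_lit 7601) (nat_lit 497) (nat_lit 7633)))) (.a (.f (nat_lit 625) (nat_lit 593) (nat_lit 5617) (.f (nat_lit 626) (nat_lit 657) (nat_lit 5649) (.d (nat_lit 499) (nat_lit 467) (nat_lit 6610) (nat_lit 531) (nat_lit 6642)))) (.f (nat_lit 595) (nat_lit 627) (nat_lit 4594) (.f (nat_lit 466) (nat_lit 563) (nat_lit 4562) (.d (nat_lit 465) (nat_lit 433) (nat_lit 7601) (nat_lit 497) (nat_lit 7633))))))) (.a (.p (nat_lit 498) (.a (.f (nat_lit 595) (nat_lit 627) (nat_lit 4594) (.f (nat_lit 563) (nat_lit 466) (nat_lit 4562) (.f (nat_lit 593) (nat_lit 625) (nat_lit 5617) (.d (nat_lit 564) (nat_lit 565) (nat_lit 1585) (nat_lit 592) (nat_lit 2608))))) (.a (.f (nat_lit 467) (nat_lit 499) (nat_lit 6610) (.f (nat_lit 466) (nat_lit 435) (nat_lit 6578) (.d (nat_lit 465) (nat_lit 433) (nat_lit 7601) (nat_lit 497) (nat_lit 7633)))) (.f (nat_lit 625) (nat_lit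 593) (nat_lit 5617) (.f (nat_lit 626) (nat_lit 657) (nat_lit 5649) (.d (nat_lit 627) (nat_lit 595) (nat_lit 4594) (nat_lit 659) (nat_lit 4626))))))) (.a (.p (nat_lit 592) (.a (.p (nat_lit 593) (.a (.f (nat_lit 591) (nat_lit 563) (nat_lit 2607) (.d (nat_lit 559) (nat_lit 558) (nat_lit 3630) (nat_lit 595) (nat_lit 3631))) (.a (.f (nat_lit 595) (nat_lit 559) (nat_lit 3631) (.f (nat_lit 624) (nat_lit 623) (nat_lit 1615) (.d (nat_lit 625) (nat_lit 596) (nat_lit 1616) (nat_lit 657) (nat_lit 4624)))) (.f (nat_lit 591) (nat_lit 563) (nat_lit 2607) (.f (nat_lit 626) (nat_lit 627) (nat_lit 591) (.d (nat_lit 625) (nat_lit 590) (nat_lit 590) (nat_lit 657) (nat_lit 5649))))))) (.a s3862 (.a (.p (nat_lit 593) (.a (.f (nat_lit 591) (nat_lit 563) (nat_lit 2607) (.d (nat_lit 559) (nat_lit 558) (nat_lit 3630) (nat_lit 595) (nat_lit 3631))) (.a (.f (nat_lit 559) (nat_lit 595) (nat_lit 3631) (.d (nat_lit 558) (nat_lit 557) (nat_lit 557) (nat_lit 591)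 (nat_lit 3630))) (.a (.f (nat_lit 591) (nat_lit 563) (nat_lit 2607) (.f (nat_lit 626) (nat_lit 627) (nat_lit 591) (.d (nat_lit 625) (nat_lit 590) (nat_lit 590) (nat_lit 657) (nat_lit 5649)))) (.f (nat_lit 595) (nat_lit 559) (nat_lit 3631) (.f (nat_lit 563) (nat_lit 564) (nat_lit 2608) (.d (nat_lit 627) (nat_lit 628) (nat_lit 592) (nat_lit 659) (nat_lit 7698)))))))) (.a s3885 (.a (.p (nat_lit 593) (.a (.f (nat_lit 591) (nat_lit 563) (nat_lit 2607) (.d (nat_lit 559) (nat_lit 558) (nat_lit 3630) (nat_lit 595) (nat_lit 3631))) (.a (.f (nat_lit 559) (nat_lit 595) (nat_lit 3631) (.d (nat_lit 558) (nat_lit 557) (nat_lit 557) (nat_lit 591) (nat_lit 3630))) (.a (.f (nat_lit 563) (nat_lit 591) (nat_lit 2607) (.d (nat_lit 564) (nat_lit 565) (nat_lit 1585) (nat_lit 595) (nat_lit 2608))) (.a (.f (nat_lit 595) (nat_lit 559) (nat_lit 3631) (.f (nat_lit 563) (nat_lit 564) (nat_lit 2608) (.d (nat_lit 627) (nat_lit 628) (nat_lit 592) (nat_lit 659)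 (nat_lit 7698)))) (.f (nat_lit 591) (nat_lit 563) (nat_lit 2607) (.f (nat_lit 559) (nat_lit 558) (nat_lit 3630) (.d (nat_lit 623) (nat_lit 622) (nat_lit 1614) (nat_lit 655) (nat_lit 6671))))))))) (.a s3895 (.p (nat_lit 624) (.a (.f (nat_lit 657) (nat_lit 625) (nat_lit 4624) (.f (nat_lit 656) (nat_lit 689) (nat_lit 4656) (.d (nat_lit 527) (nat_lit 495) (nat_lit 7663) (nat_lit 559) (nat_lit 7695)))) (.a (.f (nat_lit 657) (nat_lit 625) (nat_lit 4624) (.f (nat_lit 656) (nat_lit 689) (nat_lit 4656) (.d (nat_lit 655) (nat_lit 623) (nat_lit 5647) (nat_lit 687) (nat_lit 5679)))) (.a (.f (nat_lit 527) (nat_lit 495) (nat_lit 7663) (.f (nat_lit 656) (nat_lit 559) (nat_lit 7695) (.d (nat_lit 655) (nat_lit 623) (nat_lit 5647) (nat_lit 687) (nat_lit 5679)))) (.f (nat_lit 625) (nat_lit 657) (nat_lit 4624) (.f (nat_lit 623) (nat_lit 655) (nat_lit 5647) (.f (nat_lit 593) (nat_lit 622) (nat_lit 2638) (.f (nat_lit 591) (nat_lit 563) (nat_lit 2607)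 (.d (nat_lit 590) (nat_lit 589) (nat_lit 589) (nat_lit 626) (nat_lit 590))))))))))))))))) (.a s3449 (.a (.p (nat_lit 498) (.a (.f (nat_lit 467) (nat_lit 499) (nat_lit 6610) (.f (nat_lit 466) (nat_lit 435) (nat_lit 6578) (.d (nat_lit 465) (nat_lit 433) (nat_lit 7601) (nat_lit 497) (nat_lit 7633)))) (.a (.f (nat_lit 625) (nat_lit 593) (nat_lit 5617) (.f (nat_lit 626) (nat_lit 657) (nat_lit 5649) (.d (nat_lit 499) (nat_lit 467) (nat_lit 6610) (nat_lit 531) (nat_lit 6642)))) (.f (nat_lit 625) (nat_lit 593) (nat_lit 5617) (.f (nat_lit 626) (nat_lit 657) (nat_lit 5649) (.d (nat_lit 627) (nat_lit 595) (nat_lit 4594) (nat_lit 659) (nat_lit 4626))))))) (.a s3907 (.a s3908 s3460))))))))))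
noncomputable def s3916 : Cert := .r (nat_lit 81045225973576705845931866949422482179170868230352120136932872080819937316538974369105772087653654582751346444588976596909568446798598709460541101730559254928086662937195436834816) (.p (nat_lit 624) (.a (.f (nat_lit 655) (nat_lit 623) (nat_lit 5647) (.f (nat_lit 656) (nat_lit 687) (nat_lit 5679) (.d (nat_lit 657) (nat_lit 625) (nat_lit 4624) (nat_lit 689) (nat_lit 4656)))) (.a (.f (nat_lit 527) (nat_lit 495) (nat_lit 7663) (.f (nat_lit 656) (nat_lit 559) (nat_lit 7695) (.d (nat_lit 655) (nat_lit 623) (nat_lit 5647) (nat_lit 687) (nat_lit 5679)))) (.a (.f (nat_lit 527) (nat_lit 495) (nat_lit 7663) (.f (nat_lit 656) (nat_lit 559) (nat_lit 7695) (.d (nat_lit 657) (nat_lit 625) (nat_lit 4624) (nat_lit 689) (nat_lit 4656)))) (.f (nat_lit 625) (nat_lit 657) (nat_lit 4624) (.f (nat_lit 623) (nat_lit 655) (nat_lit 5647) (.f (nat_lit 626) (nat_lit 595) (nat_lit 2639) (.d (nat_lit 591) (nat_lit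 590) (nat_lit 3662) (nat_lit 627) (nat_lit 3663)))))))))
noncomputable def s3929 : Cert := .r (nat_lit 81045225973576705845931866949422482179170868230352120136932872080819937316538974369105772087653654582751346444588976596909568446798598709460541101730559254928086662937195436834816) (.p (nat_lit 593) (.a (.f (nat_lit 559) (nat_lit 595) (nat_lit 3631) (.d (nat_lit 558) (nat_lit 557) (nat_lit 557) (nat_lit 591) (nat_lit 3630))) (.a (.f (nat_lit 591) (nat_lit 563) (nat_lit 2607) (.f (nat_lit 626) (nat_lit 627) (nat_lit 591) (.f (nat_lit 590) (nat_lit 625) (nat_lit 590) (.d (nat_lit 622) (nat_lit 621) (nat_lit 1613) (nat_lit 623) (nat_lit 1614))))) (.f (nat_lit 595) (nat_lit 559) (nat_lit 3631) (.f (nat_lit 563) (nat_lit 564) (nat_lit 2608) (.f (nat_lit 627) (nat_lit 628) (nat_lit 592) (.f (nat_lit 659) (nat_lit 691) (nat_lit 7730) (.f (nat_lit 658) (nat_lit 690) (nat_lit 5682) (.f (nat_lit 531) (nat_lit 626) (nat_lit 6674) (.f (nat_lit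 499) (nat_lit 467) (nat_lit 5586) (.d (nat_lit 500) (nat_lit 468) (nat_lit 6611) (nat_lit 532) (nat_lit 6643))))))))))))
noncomputable def s3948 : Cert := .r (nat_lit 81045225973576705845931866949422482179170868230352120136932872080819937316538974369105772087653654582751346444588976596909568446798598709460541101730559254928086662937195436834816) (.p (nat_lit 593) (.a (.f (nat_lit 591) (nat_lit 563) (nat_lit 2607) (.f (nat_lit 623) (nat_lit 622) (nat_lit 1614) (.d (nat_lit 624) (nat_lit 595) (nat_lit 1615) (nat_lit 655) (nat_lit 5647)))) (.a (.f (nat_lit 591) (nat_lit 563) (nat_lit 2607) (.f (nat_lit 626) (nat_lit 627) (nat_lit 591) (.f (nat_lit 590) (nat_lit 625) (nat_lit 590) (.d (nat_lit 622) (nat_lit 621) (nat_lit 1613) (nat_lit 623) (nat_lit 1614))))) (.a (.p (nat_lit 624) (.a (.d (nat_lit 623) (nat_lit 595) (nat_lit 1615) (nat_lit 655) (nat_lit 5647)) (.a (.f (nat_lit 625) (nat_lit 657) (nat_lit 4624) (.f (nat_lit 595) (nat_lit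 596) (nat_lit 1616) (.f (nat_lit 627) (nat_lit 628) (nat_lit 592) (.f (nat_lit 626) (nat_lit 591) (nat_lit 591) (.d (nat_lit 659) (nat_lit 660) (nat_lit 624) (nat_lit 691) (nat_lit 7730)))))) (.f (nat_lit 625) (nat_lit 657) (nat_lit 4624) (.d (nat_lit 623) (nat_lit 622) (nat_lit 2638) (nat_lit 655) (nat_lit 5647)))))) (.a (.f (nat_lit 563) (nat_lit 591) (nat_lit 2607) (.d (nat_lit 564) (nat_lit 565) (nat_lit 1585) (nat_lit 595) (nat_lit 2608))) (.p (nat_lit 624) (.a (.d (nat_lit 623) (nat_lit 595) (nat_lit 1615) (nat_lit 655) (nat_lit 5647)) (.a (.f (nat_lit 625) (nat_lit 657) (nat_lit 4624) (.f (nat_lit 595) (nat_lit 596) (nat_lit 1616) (.f (nat_lit 627) (nat_lit 628) (nat_lit 592) (.f (nat_lit 563) (nat_lit 564) (nat_lit 2608) (.f (nat_lit 659) (nat_lit 691) (nat_lit 7730) (.d (nat_lit 660) (nat_lit 626) (nat_lit 624) (nat_lit 692) (nat_lit 4659))))))) (.f (nat_lit 625) (nat_lit 657) (nat_lit 4624) (.d (nat_lit 623) (nat_lit 622)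 (nat_lit 2638) (nat_lit 655) (nat_lit 5647)))))))))))
noncomputable def s3949 : Cert := .r (nat_lit 81045225973576705845931866949422482179170868230352120136932872080819937316538974369105772087653654582751346444588976596909568446798598709460541101730559254928086662937195436834816) (.p (nat_lit 593) (.a (.f (nat_lit 559) (nat_lit 595) (nat_lit 3631) (.d (nat_lit 558) (nat_lit 557) (nat_lit 557) (nat_lit 591) (nat_lit 3630))) (.a (.f (nat_lit 591) (nat_lit 563) (nat_lit 2607) (.f (nat_lit 623) (nat_lit 622) (nat_lit 1614) (.d (nat_lit 624) (nat_lit 595) (nat_lit 1615) (nat_lit 655) (nat_lit 5647)))) (.a (.f (nat_lit 595) (nat_lit 559) (nat_lit 3631) (.f (nat_lit 563) (nat_lit 564) (nat_lit 2608) (.f (nat_lit 627) (nat_lit 628) (nat_lit 592) (.f (nat_lit 659) (nat_lit 691) (nat_lit 7730) (.f (nat_lit 658) (nat_lit 690) (nat_lit 5682) (.f (nat_lit 531) (nat_lit 626) (nat_lit 6674) (.f (nat_lit 499) (nat_lit 467) (nat_lit 5586) (.d (nat_lit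 500) (nat_lit 468) (nat_lit 6611) (nat_lit 532) (nat_lit 6643))))))))) (.f (nat_lit 591) (nat_lit 563) (nat_lit 2607) (.f (nat_lit 559) (nat_lit 558) (nat_lit 3630) (.d (nat_lit 623) (nat_lit 622) (nat_lit 1614) (nat_lit 655) (nat_lit 6671))))))))
noncomputable def s3954 : Cert := .r (nat_lit 81045225973576705845931866949422482179170868230352120136932872080819937316538974369105772087653654582751346444588976596909568446798598709460541101730559254928086662937195436834816) (.p (nat_lit 593) (.a (.f (nat_lit 559) (nat_lit 595) (nat_lit 3631) (.d (nat_lit 558) (nat_lit 557) (nat_lit 557) (nat_lit 591) (nat_lit 3630))) (.a (.f (nat_lit 563) (nat_lit 591) (nat_lit 2607) (.d (nat_lit 564) (nat_lit 565) (nat_lit 1585) (nat_lit 595) (nat_lit 2608))) (.a (.f (nat_lit 595) (nat_lit 559) (nat_lit 3631) (.f (nat_lit 563) (nat_lit 564) (nat_lit 2608) (.f (nat_lit 627) (nat_lit 628) (nat_lit 592) (.f (nat_lit 659) (nat_lit 691) (nat_lit 7730) (.f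 (nat_lit 658) (nat_lit 690) (nat_lit 5682) (.f (nat_lit 531) (nat_lit 626) (nat_lit 6674) (.f (nat_lit 499) (nat_lit 467) (nat_lit 5586) (.d (nat_lit 500) (nat_lit 468) (nat_lit 6611) (nat_lit 532) (nat_lit 6643))))))))) (.f (nat_lit 591) (nat_lit 563) (nat_lit 2607) (.f (nat_lit 626) (nat_lit 627) (nat_lit 591) (.f (nat_lit 625) (nat_lit 590) (nat_lit 590) (.d (nat_lit 657) (nat_lit 624) (nat_lit 4624) (nat_lit 689) (nat_lit 7728)))))))))
noncomputable def s3955 : Cert := .r (nat_lit 81045225973576705845931866949422482179170868230352120136932872080819937316538974369105772087653654582751346444588976596909568446798598709460541101730559254928086662937195436834816) (.p (nat_lit 624) (.a (.f (nat_lit 655) (nat_lit 623) (nat_lit 5647) (.f (nat_lit 656) (nat_lit 687) (nat_lit 5679) (.d (nat_lit 657) (nat_lit 625) (nat_lit 4624) (nat_lit 689) (nat_lit 4656)))) (.a (.f (nat_lit 527) (nat_lit 495) (nat_lit 7663) (.f (nat_lit 656) (nat_lit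 559) (nat_lit 7695) (.d (nat_lit 655) (nat_lit 623) (nat_lit 5647) (nat_lit 687) (nat_lit 5679)))) (.a (.f (nat_lit 527) (nat_lit 495) (nat_lit 7663) (.f (nat_lit 656) (nat_lit 559) (nat_lit 7695) (.d (nat_lit 657) (nat_lit 625) (nat_lit 4624) (nat_lit 689) (nat_lit 4656)))) (.f (nat_lit 625) (nat_lit 657) (nat_lit 4624) (.f (nat_lit 623) (nat_lit 655) (nat_lit 5647) (.d (nat_lit 593) (nat_lit 595) (nat_lit 1615) (nat_lit 622) (nat_lit 2638))))))))
noncomputable def s3961 : Cert := .r (nat_lit 81045225973576705845931866949422482179170868230352120136932872080819937316538974369105772087653654582751346444588976596909568446798598709460541101730559254928086662937195436834816) (.p (nat_lit 624) (.a (.f (nat_lit 655) (nat_lit 623) (nat_lit 5647) (.f (nat_lit 656) (nat_lit 687) (nat_lit 5679) (.d (nat_lit 657) (nat_lit 625) (nat_lit 4624) (nat_lit 689) (nat_lit 4656)))) (.a (.f (nat_lit 527) (nat_lit 495) (nat_lit 7663) (.f (nat_lit 656)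 (nat_lit 559) (nat_lit 7695) (.d (nat_lit 655) (nat_lit 623) (nat_lit 5647) (nat_lit 687) (nat_lit 5679)))) (.a (.f (nat_lit 527) (nat_lit 495) (nat_lit 7663) (.f (nat_lit 656) (nat_lit 559) (nat_lit 7695) (.d (nat_lit 657) (nat_lit 625) (nat_lit 4624) (nat_lit 689) (nat_lit 4656)))) (.f (nat_lit 625) (nat_lit 657) (nat_lit 4624) (.f (nat_lit 623) (nat_lit 655) (nat_lit 5647) (.f (nat_lit 593) (nat_lit 622) (nat_lit 2638) (.f (nat_lit 591) (nat_lit 563) (nat_lit 2607) (.d (nat_lit 590) (nat_lit 589) (nat_lit 589) (nat_lit 626) (nat_lit 590))))))))))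
noncomputable def s3962 : Cert := .r (nat_lit 64836180782635327101742773731878883933028500135655100996324835636715824771957301922231916427704030386313073450013582889165837387910271462164107996909801584275503921517658290257920) (.p (nat_lit 592) (.a s3916 (.a s3761 (.a s3929 (.a s3948 (.a s3949 (.a s3954 (.a s3955 s3961))))))))
noncomputable def s3968 : Cert := .r (nat_lit 64836180782635327101742773731878883933028500135655100996324835636715824771957301922231916427704030386313073450013582889165837387910271462164107996909801584275503921517658290257920) (.p (nat_lit 530) (.a s3695 (.a (.p (nat_lit 498) (.a (.f (nat_lit 467) (nat_lit 499) (nat_lit 6610) (.f (nat_lit 466) (nat_lit 435) (nat_lit 6578) (.d (nat_lit 465) (nat_lit 433) (nat_lit 7601) (nat_lit 497) (nat_lit 7633)))) (.a (.f (nat_lit 625) (nat_lit 593) (nat_lit 5617) (.f (nat_lit 626) (nat_lit 657) (nat_lit 5649) (.d (nat_lit 499) (nat_lit 467) (nat_lit 6610) (nat_lit 531)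 (nat_lit 6642)))) (.f (nat_lit 595) (nat_lit 627) (nat_lit 4594) (.f (nat_lit 466) (nat_lit 563) (nat_lit 4562) (.d (nat_lit 465) (nat_lit 433) (nat_lit 7601) (nat_lit 497) (nat_lit 7633))))))) (.a (.p (nat_lit 498) (.a (.f (nat_lit 499) (nat_lit 467) (nat_lit 6610) (.f (nat_lit 529) (nat_lit 527) (nat_lit 2543) (.d (nat_lit 500) (nat_lit 501) (nat_lit 1521) (nat_lit 531) (nat_lit 2544)))) (.a (.f (nat_lit 625) (nat_lit 593) (nat_lit 5617) (.f (nat_lit 626) (nat_lit 657) (nat_lit 5649) (.d (nat_lit 499) (nat_lit 467) (nat_lit 6610) (nat_lit 531) (nat_lit 6642)))) (.f (nat_lit 625) (nat_lit 593) (nat_lit 5617) (.f (nat_lit 626) (nat_lit 657) (nat_lit 5649) (.d (nat_lit 627) (nat_lit 595) (nat_lit 4594) (nat_lit 659) (nat_lit 4626))))))) (.a s3488 (.a (.p (nat_lit 529) (.a (.f (nat_lit 531) (nat_lit 559) (nat_lit 1551) (.d (nat_lit 499) (nat_lit 500) (nat_lit 2544) (nat_lit 626) (nat_lit 6642))) (.a (.f (nat_lit 626) (nat_lit 497)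 (nat_lit 7665) (.f (nat_lit 657) (nat_lit 625) (nat_lit 5649) (.f (nat_lit 658) (nat_lit 689) (nat_lit 5681) (.d (nat_lit 659) (nat_lit 627) (nat_lit 4626) (nat_lit 691) (nat_lit 4658))))) (.f (nat_lit 531) (nat_lit 559) (nat_lit 1551) (.f (nat_lit 563) (nat_lit 564) (nat_lit 528) (.d (nat_lit 499) (nat_lit 467) (nat_lit 5586) (nat_lit 500) (nat_lit 2544))))))) (.a (.p (nat_lit 529) (.a (.f (nat_lit 626) (nat_lit 497) (nat_lit 7665) (.f (nat_lit 657) (nat_lit 625) (nat_lit 5649) (.f (nat_lit 658) (nat_lit 689) (nat_lit 5681) (.d (nat_lit 659) (nat_lit 627) (nat_lit 4626) (nat_lit 691) (nat_lit 4658))))) (.f (nat_lit 563) (nat_lit 527) (nat_lit 527) (.d (nat_lit 564) (nat_lit 531) (nat_lit 528) (nat_lit 565) (nat_lit 3601))))) (.a s3706 (.p (nat_lit 498) (.a (.f (nat_lit 467) (nat_lit 499) (nat_lit 6610) (.f (nat_lit 466) (nat_lit 435) (nat_lit 6578) (.d (nat_lit 465) (nat_lit 433) (nat_lit 7601) (nat_lit 497) (nat_lit 7633)))) (.a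 (.f (nat_lit 499) (nat_lit 467) (nat_lit 6610) (.f (nat_lit 529) (nat_lit 527) (nat_lit 2543) (.d (nat_lit 500) (nat_lit 501) (nat_lit 1521) (nat_lit 531) (nat_lit 2544)))) (.f (nat_lit 595) (nat_lit 627) (nat_lit 4594) (.f (nat_lit 466) (nat_lit 563) (nat_lit 4562) (.d (nat_lit 465) (nat_lit 433) (nat_lit 7601) (nat_lit 497) (nat_lit 7633)))))))))))))))
noncomputable def s3973 : Cert := .r (nat_lit 64836180782635327105257550133865756107099233344784774323566786510389197141567267213334914537603630284999823986032247621314213099342709661479114454765656505907541824002709199519744) (.p (nat_lit 498) (.a (.f (nat_lit 499) (nat_lit 467) (nat_lit 6610) (.f (nat_lit 529) (nat_lit 527) (nat_lit 2543) (.d (nat_lit 500) (nat_lit 501) (nat_lit 1521) (nat_lit 531) (nat_lit 2544)))) (.a (.f (nat_lit 499) (nat_lit 467) (nat_lit 6610) (.f (nat_lit 531) (nat_lit 626) (nat_lit 6642) (.d (nat_lit 529) (nat_lit 500) (nat_lit 2544) (nat_lit 559) (nat_lit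 1551)))) (.a (.f (nat_lit 467) (nat_lit 499) (nat_lit 6610) (.f (nat_lit 466) (nat_lit 435) (nat_lit 6578) (.d (nat_lit 595) (nat_lit 563) (nat_lit 4562) (nat_lit 627) (nat_lit 4594)))) (.f (nat_lit 595) (nat_lit 627) (nat_lit 4594) (.f (nat_lit 563) (nat_lit 466) (nat_lit 4562) (.f (nat_lit 529) (nat_lit 527) (nat_lit 527) (.d (nat_lit 531) (nat_lit 559) (nat_lit 1551) (nat_lit 564) (nat_lit 528)))))))))
noncomputable def s3975 : Cert := .r (nat_lit 64836180782635327101742773731878883933028500135655100996324835636715824771957301922231916427704030386313073450013582889165837387910271462164107996909801584275503921517658290257920) (.p (nat_lit 530) (.a (.p (nat_lit 529) (.a (.f (nat_lit 531) (nat_lit 559) (nat_lit 1551) (.d (nat_lit 499) (nat_lit 500) (nat_lit 2544) (nat_lit 626) (nat_lit 6642))) (.a (.f (nat_lit 626) (nat_lit 497) (nat_lit 7665) (.f (nat_lit 657) (nat_lit 625) (nat_lit 5649) (.f (nat_lit 658) (nat_lit 689) (nat_lit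 5681) (.d (nat_lit 659) (nat_lit 627) (nat_lit 4626) (nat_lit 691) (nat_lit 4658))))) (.f (nat_lit 531) (nat_lit 559) (nat_lit 1551) (.f (nat_lit 563) (nat_lit 564) (nat_lit 528) (.d (nat_lit 499) (nat_lit 467) (nat_lit 5586) (nat_lit 500) (nat_lit 2544))))))) (.a s3449 (.a s3973 (.a (.p (nat_lit 529) (.a (.f (nat_lit 626) (nat_lit 497) (nat_lit 7665) (.f (nat_lit 657) (nat_lit 625) (nat_lit 5649) (.f (nat_lit 658) (nat_lit 689) (nat_lit 5681) (.d (nat_lit 659) (nat_lit 627) (nat_lit 4626) (nat_lit 691) (nat_lit 4658))))) (.f (nat_lit 527) (nat_lit 563) (nat_lit 527) (.f (nat_lit 495) (nat_lit 494) (nat_lit 3566) (.f (nat_lit 559) (nat_lit 558) (nat_lit 1550) (.d (nat_lit 463) (nat_lit 431) (nat_lit 4527) (nat_lit 592) (nat_lit 4559))))))) (.a (.p (nat_lit 529) (.a (.f (nat_lit 531) (nat_lit 559) (nat_lit 1551) (.d (nat_lit 499) (nat_lit 500) (nat_lit 2544) (nat_lit 626) (nat_lit 6642))) (.a (.f (nat_lit 626) (nat_lit 497) (nat_lit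 7665) (.f (nat_lit 657) (nat_lit 625) (nat_lit 5649) (.f (nat_lit 658) (nat_lit 689) (nat_lit 5681) (.d (nat_lit 659) (nat_lit 627) (nat_lit 4626) (nat_lit 691) (nat_lit 4658))))) (.f (nat_lit 559) (nat_lit 531) (nat_lit 1551) (.d (nat_lit 558) (nat_lit 527) (nat_lit 1550) (nat_lit 557) (nat_lit 2573)))))) (.a (.p (nat_lit 498) (.a (.f (nat_lit 467) (nat_lit 499) (nat_lit 6610) (.f (nat_lit 466) (nat_lit 435) (nat_lit 6578) (.d (nat_lit 465) (nat_lit 433) (nat_lit 7601) (nat_lit 497) (nat_lit 7633)))) (.a (.f (nat_lit 499) (nat_lit 467) (nat_lit 6610) (.f (nat_lit 529) (nat_lit 527) (nat_lit 2543) (.d (nat_lit 500) (nat_lit 501) (nat_lit 1521) (nat_lit 531) (nat_lit 2544)))) (.f (nat_lit 595) (nat_lit 627) (nat_lit 4594) (.f (nat_lit 466) (nat_lit 563) (nat_lit 4562) (.d (nat_lit 465) (nat_lit 433) (nat_lit 7601) (nat_lit 497) (nat_lit 7633))))))) s3706)))))))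
noncomputable def s3981 : Cert := .r (nat_lit 64836180782635327105257550133865756107099233344784774323566786510389197141567267213334914537603630284999823986032247621314213099342709661479114454765656505907541824002709199519744) (.p (nat_lit 498) (.a (.f (nat_lit 497) (nat_lit 465) (nat_lit 7633) (.f (nat_lit 529) (nat_lit 626) (nat_lit 7665) (.f (nat_lit 559) (nat_lit 531) (nat_lit 1551) (.d (nat_lit 558) (nat_lit 527) (nat_lit 1550) (nat_lit 557) (nat_lit 2573))))) (.a (.f (nat_lit 497) (nat_lit 465) (nat_lit 7633) (.f (nat_lit 626) (nat_lit 529) (nat_lit 7665) (.d (nat_lit 625) (nat_lit 593) (nat_lit 5617) (nat_lit 657) (nat_lit 5649)))) (.a (.f (nat_lit 625) (nat_lit 593) (nat_lit 5617) (.f (nat_lit 626) (nat_lit 657) (nat_lit 5649) (.d (nat_lit 627) (nat_lit 595) (nat_lit 4594) (nat_lit 659) (nat_lit 4626)))) (.f (nat_lit 593) (nat_lit 625) (nat_lit 5617) (.f (nat_lit 595) (nat_lit 627) (nat_lit 4594) (.f (nat_lit 559) (nat_lit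 592) (nat_lit 3631) (.f (nat_lit 529) (nat_lit 531) (nat_lit 1551) (.d (nat_lit 558) (nat_lit 527) (nat_lit 1550) (nat_lit 557) (nat_lit 2573))))))))))
noncomputable def s3982 : Cert := .r (nat_lit 64836180782635327105257550133865756107099233344784774323566786510389197141567267213334914537603630284999823986032247621314213099342709661479114454765656505907541824002709199519744) (.p (nat_lit 498) (.a (.f (nat_lit 497) (nat_lit 465) (nat_lit 7633) (.f (nat_lit 529) (nat_lit 626) (nat_lit 7665) (.d (nat_lit 499) (nat_lit 467) (nat_lit 6610) (nat_lit 500) (nat_lit 1520)))) (.a (.f (nat_lit 467) (nat_lit 499) (nat_lit 6610) (.f (nat_lit 466) (nat_lit 435) (nat_lit 6578) (.d (nat_lit 465) (nat_lit 433) (nat_lit 7601) (nat_lit 497) (nat_lit 7633)))) (.a (.f (nat_lit 499) (nat_lit 467) (nat_lit 6610) (.f (nat_lit 529) (nat_lit 527) (nat_lit 2543) (.d (nat_lit 500) (nat_lit 501) (nat_lit 1521) (nat_lit 531) (nat_lit 2544)))) (.f (nat_lit 497)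 (nat_lit 465) (nat_lit 7633) (.f (nat_lit 626) (nat_lit 529) (nat_lit 7665) (.d (nat_lit 627) (nat_lit 595) (nat_lit 4594) (nat_lit 659) (nat_lit 4626))))))))
noncomputable def s3983 : Cert := .r (nat_lit 64836180782635327105257550133865756107099233344784774323566786510389197141567267213334914537603630284999823986032247621314213099342709661479114454765656505907541824002709199519744) (.p (nat_lit 498) (.a (.f (nat_lit 467) (nat_lit 499) (nat_lit 6610) (.f (nat_lit 466) (nat_lit 435) (nat_lit 6578) (.d (nat_lit 465) (nat_lit 433) (nat_lit 7601) (nat_lit 497) (nat_lit 7633)))) (.a (.f (nat_lit 499) (nat_lit 467) (nat_lit 6610) (.f (nat_lit 529) (nat_lit 527) (nat_lit 2543) (.d (nat_lit 500) (nat_lit 501) (nat_lit 1521) (nat_lit 531) (nat_lit 2544)))) (.f (nat_lit 593) (nat_lit 625) (nat_lit 5617) (.f (nat_lit 595) (nat_lit 627) (nat_lit 4594) (.f (nat_lit 559) (nat_lit 592) (nat_lit 3631) (.f (nat_lit 529) (nat_lit 531) (nat_lit 1551)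 (.d (nat_lit 558) (nat_lit 527) (nat_lit 1550) (nat_lit 557) (nat_lit 2573)))))))))
noncomputable def s3984 : Cert := .r (nat_lit 64836180782635327101742773731878883933028500135655100996324835636715824771957301922231916427704030386313073450013582889165837387910271462164107996909801584275503921517658290257920) (.p (nat_lit 530) (.a s3695 (.a (.p (nat_lit 498) (.a (.f (nat_lit 467) (nat_lit 499) (nat_lit 6610) (.f (nat_lit 466) (nat_lit 435) (nat_lit 6578) (.d (nat_lit 465) (nat_lit 433) (nat_lit 7601) (nat_lit 497) (nat_lit 7633)))) (.a (.f (nat_lit 625) (nat_lit 593) (nat_lit 5617) (.f (nat_lit 626) (nat_lit 657) (nat_lit 5649) (.d (nat_lit 499) (nat_lit 467) (nat_lit 6610) (nat_lit 531) (nat_lit 6642)))) (.f (nat_lit 625) (nat_lit 593) (nat_lit 5617) (.f (nat_lit 626) (nat_lit 657) (nat_lit 5649) (.d (nat_lit 627) (nat_lit 595) (nat_lit 4594) (nat_lit 659) (nat_lit 4626))))))) (.a (.p (nat_lit 498) (.a (.f (nat_lit 499) (nat_lit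 467) (nat_lit 6610) (.f (nat_lit 529) (nat_lit 527) (nat_lit 2543) (.d (nat_lit 500) (nat_lit 501) (nat_lit 1521) (nat_lit 531) (nat_lit 2544)))) (.a (.f (nat_lit 625) (nat_lit 593) (nat_lit 5617) (.f (nat_lit 626) (nat_lit 657) (nat_lit 5649) (.d (nat_lit 499) (nat_lit 467) (nat_lit 6610) (nat_lit 531) (nat_lit 6642)))) (.f (nat_lit 625) (nat_lit 593) (nat_lit 5617) (.f (nat_lit 626) (nat_lit 657) (nat_lit 5649) (.d (nat_lit 627) (nat_lit 595) (nat_lit 4594) (nat_lit 659) (nat_lit 4626))))))) (.a (.p (nat_lit 498) (.a (.f (nat_lit 497) (nat_lit 465) (nat_lit 7633) (.f (nat_lit 529) (nat_lit 626) (nat_lit 7665) (.d (nat_lit 499) (nat_lit 467) (nat_lit 6610) (nat_lit 500) (nat_lit 1520)))) (.a (.f (nat_lit 467) (nat_lit 499) (nat_lit 6610) (.f (nat_lit 466) (nat_lit 435) (nat_lit 6578) (.d (nat_lit 465) (nat_lit 433) (nat_lit 7601) (nat_lit 497) (nat_lit 7633)))) (.f (nat_lit 625) (nat_lit 593) (nat_lit 5617) (.f (nat_lit 626) (nat_lit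 657) (nat_lit 5649) (.d (nat_lit 627) (nat_lit 595) (nat_lit 4594) (nat_lit 659) (nat_lit 4626))))))) (.a (.p (nat_lit 529) (.a (.f (nat_lit 531) (nat_lit 559) (nat_lit 1551) (.d (nat_lit 499) (nat_lit 500) (nat_lit 2544) (nat_lit 626) (nat_lit 6642))) (.a (.f (nat_lit 626) (nat_lit 497) (nat_lit 7665) (.f (nat_lit 657) (nat_lit 625) (nat_lit 5649) (.f (nat_lit 658) (nat_lit 689) (nat_lit 5681) (.d (nat_lit 659) (nat_lit 627) (nat_lit 4626) (nat_lit 691) (nat_lit 4658))))) (.f (nat_lit 559) (nat_lit 531) (nat_lit 1551) (.d (nat_lit 558) (nat_lit 527) (nat_lit 1550) (nat_lit 557) (nat_lit 2573)))))) (.a s3981 (.a s3982 s3983))))))))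
noncomputable def s3985 : Cert := .r (nat_lit 64836180782635327101742773731878883933028500135655100996324835636715824771957301922231916427704030386313073450013582889165837387910271462164107996909801584275503921517658290257920) (.p (nat_lit 530) (.a (.p (nat_lit 498) (.a (.f (nat_lit 497) (nat_lit 465) (nat_lit 7633) (.f (nat_lit 529) (nat_lit 626) (nat_lit 7665) (.d (nat_lit 499) (nat_lit 467) (nat_lit 6610) (nat_lit 500) (nat_lit 1520)))) (.f (nat_lit 595) (nat_lit 627) (nat_lit 4594) (.f (nat_lit 563) (nat_lit 466) (nat_lit 4562) (.f (nat_lit 593) (nat_lit 625) (nat_lit 5617) (.d (nat_lit 564) (nat_lit 565) (nat_lit 1585) (nat_lit 592) (nat_lit 2608))))))) (.a (.p (nat_lit 498) (.a (.f (nat_lit 595) (nat_lit 627) (nat_lit 4594) (.f (nat_lit 563) (nat_lit 466) (nat_lit 4562) (.f (nat_lit 593) (nat_lit 625) (nat_lit 5617) (.d (nat_lit 564) (nat_lit 565) (nat_lit 1585) (nat_lit 592) (nat_lit 2608))))) (.a (.f (nat_lit 467) (nat_lit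 499) (nat_lit 6610) (.f (nat_lit 466) (nat_lit 435) (nat_lit 6578) (.d (nat_lit 465) (nat_lit 433) (nat_lit 7601) (nat_lit 497) (nat_lit 7633)))) (.f (nat_lit 625) (nat_lit 593) (nat_lit 5617) (.f (nat_lit 626) (nat_lit 657) (nat_lit 5649) (.d (nat_lit 499) (nat_lit 467) (nat_lit 6610) (nat_lit 531) (nat_lit 6642))))))) (.a (.p (nat_lit 498) (.a (.f (nat_lit 595) (nat_lit 627) (nat_lit 4594) (.f (nat_lit 563) (nat_lit 466) (nat_lit 4562) (.f (nat_lit 593) (nat_lit 625) (nat_lit 5617) (.d (nat_lit 564) (nat_lit 565) (nat_lit 1585) (nat_lit 592) (nat_lit 2608))))) (.a (.f (nat_lit 625) (nat_lit 593) (nat_lit 5617) (.f (nat_lit 626) (nat_lit 657) (nat_lit 5649) (.d (nat_lit 499) (nat_lit 467) (nat_lit 6610) (nat_lit 531) (nat_lit 6642)))) (.f (nat_lit 467) (nat_lit 499) (nat_lit 6610) (.f (nat_lit 466) (nat_lit 435) (nat_lit 6578) (.d (nat_lit 595) (nat_lit 563) (nat_lit 4562) (nat_lit 627) (nat_lit 4594))))))) (.a s3695 (.a (.p (nat_lit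 529) (.a (.f (nat_lit 626) (nat_lit 497) (nat_lit 7665) (.f (nat_lit 657) (nat_lit 625) (nat_lit 5649) (.f (nat_lit 658) (nat_lit 689) (nat_lit 5681) (.d (nat_lit 659) (nat_lit 627) (nat_lit 4626) (nat_lit 691) (nat_lit 4658))))) (.f (nat_lit 563) (nat_lit 527) (nat_lit 527) (.d (nat_lit 564) (nat_lit 531) (nat_lit 528) (nat_lit 565) (nat_lit 3601))))) (.a s3449 s3506)))))))
noncomputable def s4000 : Cert := .r (nat_lit 81045225973576705845931866949422482179170868230352120136932872080819937316538974369105772087653654582751346444588976596909568446798598709460541101730559254928086662937195436834816) (.p (nat_lit 624) (.a (.f (nat_lit 655) (nat_lit 623) (nat_lit 5647) (.f (nat_lit 656) (nat_lit 687) (nat_lit 5679) (.d (nat_lit 657) (nat_lit 625) (nat_lit 4624) (nat_lit 689) (nat_lit 4656)))) (.a (.f (nat_lit 623) (nat_lit 655) (nat_lit 5647) (.f (nat_lit 593) (nat_lit 595) (nat_lit 1615) (.d (nat_lit 622) (nat_lit 591) (nat_lit 1614)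 (nat_lit 621) (nat_lit 2637)))) (.f (nat_lit 529) (nat_lit 497) (nat_lit 6640) (.f (nat_lit 527) (nat_lit 495) (nat_lit 7663) (.f (nat_lit 563) (nat_lit 530) (nat_lit 527) (.f (nat_lit 593) (nat_lit 591) (nat_lit 2607) (.d (nat_lit 564) (nat_lit 565) (nat_lit 1585) (nat_lit 595) (nat_lit 2608)))))))))
noncomputable def s4001 : Cert := .r (nat_lit 81045225973576705845931866949422482179170868230352120136932872080819937316538974369105772087653654582751346444588976596909568446798598709460541101730559254928086662937195436834816) (.p (nat_lit 593) (.a (.f (nat_lit 559) (nat_lit 595) (nat_lit 3631) (.d (nat_lit 558) (nat_lit 557) (nat_lit 557) (nat_lit 591) (nat_lit 3630))) (.a (.f (nat_lit 591) (nat_lit 563) (nat_lit 2607) (.f (nat_lit 623) (nat_lit 622) (nat_lit 1614) (.d (nat_lit 624) (nat_lit 595) (nat_lit 1615) (nat_lit 655) (nat_lit 5647)))) (.a (.f (nat_lit 595) (nat_lit 559) (nat_lit 3631) (.f (nat_lit 563) (nat_lit 564) (nat_lit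 2608) (.f (nat_lit 627) (nat_lit 628) (nat_lit 592) (.d (nat_lit 659) (nat_lit 530) (nat_lit 7698) (nat_lit 691) (nat_lit 7730))))) (.f (nat_lit 591) (nat_lit 563) (nat_lit 2607) (.f (nat_lit 559) (nat_lit 558) (nat_lit 3630) (.d (nat_lit 623) (nat_lit 622) (nat_lit 1614) (nat_lit 655) (nat_lit 6671))))))))
noncomputable def s4002 : Cert := .r (nat_lit 64836180782635327101742773731878883933028500135655100996324835636715824771957301922231916427704030386313073450013582889165837387910271462164107996909801584275503921517658290257920) (.p (nat_lit 592) (.a s3916 (.a s3761 (.a (.p (nat_lit 593) (.a (.f (nat_lit 559) (nat_lit 595) (nat_lit 3631) (.d (nat_lit 558) (nat_lit 557) (nat_lit 557) (nat_lit 591) (nat_lit 3630))) (.a (.f (nat_lit 591) (nat_lit 563) (nat_lit 2607) (.f (nat_lit 626) (nat_lit 627) (nat_lit 591) (.f (nat_lit 625) (nat_lit 590) (nat_lit 590) (.d (nat_lit 657) (nat_lit 530) (nat_lit 5649) (nat_lit 689) (nat_lit 7728)))))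 (.f (nat_lit 595) (nat_lit 559) (nat_lit 3631) (.f (nat_lit 563) (nat_lit 564) (nat_lit 2608) (.f (nat_lit 627) (nat_lit 628) (nat_lit 592) (.d (nat_lit 659) (nat_lit 530) (nat_lit 7698) (nat_lit 691) (nat_lit 7730)))))))) (.a s4000 (.a s4001 (.a s3955 s3961)))))))
noncomputable def s4004 : Cert := .r (nat_lit 64836180782635327105257550133865756107099233344784774323566786510389197141567267213334914537603630284999823986032247621314213099342709661479114454765656505907541824002709199519744) (.p (nat_lit 498) (.a (.f (nat_lit 497) (nat_lit 465) (nat_lit 7633) (.f (nat_lit 529) (nat_lit 626) (nat_lit 7665) (.f (nat_lit 559) (nat_lit 531) (nat_lit 1551) (.d (nat_lit 558) (nat_lit 527) (nat_lit 1550) (nat_lit 557) (nat_lit 2573))))) (.a (.f (nat_lit 497) (nat_lit 465) (nat_lit 7633) (.f (nat_lit 529) (nat_lit 626) (nat_lit 7665) (.f (nat_lit 531) (nat_lit 559) (nat_lit 1551) (.f (nat_lit 563) (nat_lit 564) (nat_lit 528) (.d (nat_lit 466)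 (nat_lit 434) (nat_lit 4530) (nat_lit 595) (nat_lit 4562)))))) (.a (.f (nat_lit 595) (nat_lit 627) (nat_lit 4594) (.f (nat_lit 466) (nat_lit 563) (nat_lit 4562) (.d (nat_lit 465) (nat_lit 433) (nat_lit 7601) (nat_lit 497) (nat_lit 7633)))) (.f (nat_lit 595) (nat_lit 627) (nat_lit 4594) (.f (nat_lit 563) (nat_lit 466) (nat_lit 4562) (.f (nat_lit 529) (nat_lit 527) (nat_lit 527) (.d (nat_lit 531) (nat_lit 559) (nat_lit 1551) (nat_lit 564) (nat_lit 528)))))))))
noncomputable def s4005 : Cert := .r (nat_lit 64836180782635327101742773731878883933028500135655100996324835636715824771957301922231916427704030386313073450013582889165837387910271462164107996909801584275503921517658290257920) (.p (nat_lit 530) (.a s3706 (.a s3449 (.a s3973 (.a s3499 (.a (.p (nat_lit 529) (.a (.f (nat_lit 531) (nat_lit 559) (nat_lit 1551) (.d (nat_lit 499) (nat_lit 500) (nat_lit 2544) (nat_lit 626) (nat_lit 6642))) (.a (.f (nat_lit 527) (nat_lit 563) (nat_lit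 527) (.f (nat_lit 495) (nat_lit 494) (nat_lit 3566) (.f (nat_lit 559) (nat_lit 558) (nat_lit 1550) (.d (nat_lit 463) (nat_lit 431) (nat_lit 4527) (nat_lit 592) (nat_lit 4559))))) (.f (nat_lit 563) (nat_lit 527) (nat_lit 527) (.d (nat_lit 564) (nat_lit 531) (nat_lit 528) (nat_lit 565) (nat_lit 3601)))))) (.a s3982 (.a s4004 (.p (nat_lit 498) (.a (.f (nat_lit 467) (nat_lit 499) (nat_lit 6610) (.f (nat_lit 466) (nat_lit 435) (nat_lit 6578) (.d (nat_lit 465) (nat_lit 433) (nat_lit 7601) (nat_lit 497) (nat_lit 7633)))) (.a (.f (nat_lit 499) (nat_lit 467) (nat_lit 6610) (.f (nat_lit 529) (nat_lit 527) (nat_lit 2543) (.d (nat_lit 500) (nat_lit 501) (nat_lit 1521) (nat_lit 531) (nat_lit 2544)))) (.f (nat_lit 595) (nat_lit 627) (nat_lit 4594) (.f (nat_lit 466) (nat_lit 563) (nat_lit 4562) (.d (nat_lit 465) (nat_lit 433) (nat_lit 7601) (nat_lit 497) (nat_lit 7633)))))))))))))))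
noncomputable def s4007 : Cert := .r (nat_lit 64836180782635327105257550133865756107099233344784774323566786510389197141567267213334914537603630284999823986032247621314213099342709661479114454765656505907541824002709199519744) (.p (nat_lit 529) (.a (.f (nat_lit 531) (nat_lit 559) (nat_lit 1551) (.f (nat_lit 563) (nat_lit 564) (nat_lit 528) (.d (nat_lit 499) (nat_lit 467) (nat_lit 5586) (nat_lit 500) (nat_lit 2544)))) (.a (.f (nat_lit 527) (nat_lit 563) (nat_lit 527) (.f (nat_lit 495) (nat_lit 494) (nat_lit 3566) (.f (nat_lit 559) (nat_lit 558) (nat_lit 1550) (.d (nat_lit 463) (nat_lit 431) (nat_lit 4527) (nat_lit 592) (nat_lit 4559))))) (.a (.f (nat_lit 559) (nat_lit 531) (nat_lit 1551) (.d (nat_lit 558) (nat_lit 527) (nat_lit 1550) (nat_lit 557) (nat_lit 2573))) (.f (nat_lit 563) (nat_lit 527) (nat_lit 527) (.d (nat_lit 564) (nat_lit 531) (nat_lit 528) (nat_lit 565) (nat_lit 3601)))))))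
noncomputable def s4028 : Cert := .r (nat_lit 64836180782635327101742773731878883933028500135655100996324835636715824771957301922231916427704030386313073450013582889165837387910271462164107996909801584275503921517658290257920) (.p (nat_lit 530) (.a s3506 (.a s3907 (.a (.p (nat_lit 498) (.a (.f (nat_lit 595) (nat_lit 627) (nat_lit 4594) (.f (nat_lit 563) (nat_lit 466) (nat_lit 4562) (.f (nat_lit 593) (nat_lit 625) (nat_lit 5617) (.d (nat_lit 564) (nat_lit 565) (nat_lit 1585) (nat_lit 592) (nat_lit 2608))))) (.f (nat_lit 499) (nat_lit 467) (nat_lit 6610) (.f (nat_lit 529) (nat_lit 527) (nat_lit 2543) (.d (nat_lit 500) (nat_lit 501) (nat_lit 1521) (nat_lit 531) (nat_lit 2544)))))) (.a (.p (nat_lit 498) (.a (.f (nat_lit 467) (nat_lit 499) (nat_lit 6610) (.f (nat_lit 466) (nat_lit 435) (nat_lit 6578) (.d (nat_lit 465) (nat_lit 433) (nat_lit 7601) (nat_lit 497) (nat_lit 7633)))) (.a (.f (nat_lit 499) (nat_lit 467) (nat_lit 6610) (.f (nat_lit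 529) (nat_lit 527) (nat_lit 2543) (.d (nat_lit 500) (nat_lit 501) (nat_lit 1521) (nat_lit 531) (nat_lit 2544)))) (.f (nat_lit 595) (nat_lit 627) (nat_lit 4594) (.f (nat_lit 466) (nat_lit 563) (nat_lit 4562) (.d (nat_lit 465) (nat_lit 433) (nat_lit 7601) (nat_lit 497) (nat_lit 7633))))))) (.a s4007 (.a s3983 (.a (.p (nat_lit 498) (.a (.f (nat_lit 595) (nat_lit 627) (nat_lit 4594) (.f (nat_lit 563) (nat_lit 466) (nat_lit 4562) (.f (nat_lit 593) (nat_lit 625) (nat_lit 5617) (.d (nat_lit 564) (nat_lit 565) (nat_lit 1585) (nat_lit 592) (nat_lit 2608))))) (.a (.f (nat_lit 595) (nat_lit 627) (nat_lit 4594) (.f (nat_lit 466) (nat_lit 563) (nat_lit 4562) (.d (nat_lit 465) (nat_lit 433) (nat_lit 7601) (nat_lit 497) (nat_lit 7633)))) (.a (.f (nat_lit 593) (nat_lit 625) (nat_lit 5617) (.f (nat_lit 595) (nat_lit 627) (nat_lit 4594) (.f (nat_lit 559) (nat_lit 592) (nat_lit 3631) (.f (nat_lit 529) (nat_lit 531) (nat_lit 1551) (.d (nat_lit 558)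 (nat_lit 527) (nat_lit 1550) (nat_lit 557) (nat_lit 2573)))))) (.f (nat_lit 465) (nat_lit 497) (nat_lit 7633) (.f (nat_lit 466) (nat_lit 433) (nat_lit 7601) (.f (nat_lit 435) (nat_lit 467) (nat_lit 6578) (.f (nat_lit 434) (nat_lit 403) (nat_lit 6546) (.f (nat_lit 563) (nat_lit 531) (nat_lit 4530) (.f (nat_lit 593) (nat_lit 625) (nat_lit 5617) (.f (nat_lit 592) (nat_lit 591) (nat_lit 2607) (.f (nat_lit 527) (nat_lit 529) (nat_lit 527) (.f (nat_lit 624) (nat_lit 495) (nat_lit 7663) (.f (nat_lit 656) (nat_lit 559) (nat_lit 7695) (.d (nat_lit 655) (nat_lit 623) (nat_lit 5647) (nat_lit 687) (nat_lit 5679)))))))))))))))) (.p (nat_lit 529) (.a (.f (nat_lit 527) (nat_lit 563) (nat_lit 527) (.f (nat_lit 495) (nat_lit 494) (nat_lit 3566) (.f (nat_lit 559) (nat_lit 558) (nat_lit 1550) (.d (nat_lit 463) (nat_lit 431) (nat_lit 4527) (nat_lit 592) (nat_lit 4559))))) (.a (.f (nat_lit 531) (nat_lit 559) (nat_lit 1551) (.f (nat_lit 563) (nat_lit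 564) (nat_lit 528) (.f (nat_lit 500) (nat_lit 499) (nat_lit 2544) (.f (nat_lit 532) (nat_lit 501) (nat_lit 2545) (.f (nat_lit 595) (nat_lit 627) (nat_lit 6643) (.f (nat_lit 498) (nat_lit 466) (nat_lit 4562) (.d (nat_lit 497) (nat_lit 465) (nat_lit 7633) (nat_lit 533) (nat_lit 3569)))))))) (.a (.f (nat_lit 559) (nat_lit 531) (nat_lit 1551) (.d (nat_lit 558) (nat_lit 527) (nat_lit 1550) (nat_lit 557) (nat_lit 2573))) (.f (nat_lit 563) (nat_lit 527) (nat_lit 527) (.d (nat_lit 564) (nat_lit 531) (nat_lit 528) (nat_lit 565) (nat_lit 3601)))))))))))))))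
noncomputable def s4029 : Cert := .r (nat_lit 64836180782635327101742773731878883933028500135655100996324835636715824771957301922231916427704030386313073450013582889165837387910271462164107996909801584275503921517658290257920) (.p (nat_lit 530) (.a s3695 (.a s3908 (.a (.p (nat_lit 529) (.a (.f (nat_lit 626) (nat_lit 497) (nat_lit 7665) (.f (nat_lit 657) (nat_lit 625) (nat_lit 5649) (.f (nat_lit 658) (nat_lit 689) (nat_lit 5681) (.d (nat_lit 659) (nat_lit 627) (nat_lit 4626) (nat_lit 691) (nat_lit 4658))))) (.f (nat_lit 527) (nat_lit 563) (nat_lit 527) (.f (nat_lit 495) (nat_lit 494) (nat_lit 3566) (.f (nat_lit 559) (nat_lit 558) (nat_lit 1550) (.d (nat_lit 463) (nat_lit 431) (nat_lit 4527) (nat_lit 592) (nat_lit 4559))))))) (.a (.p (nat_lit 529) (.a (.f (nat_lit 531) (nat_lit 559) (nat_lit 1551) (.d (nat_lit 499) (nat_lit 500) (nat_lit 2544) (nat_lit 626) (nat_lit 6642))) (.a (.f (nat_lit 527) (nat_lit 563) (nat_lit 527) (.f (nat_lit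 495) (nat_lit 494) (nat_lit 3566) (.f (nat_lit 559) (nat_lit 558) (nat_lit 1550) (.d (nat_lit 463) (nat_lit 431) (nat_lit 4527) (nat_lit 592) (nat_lit 4559))))) (.f (nat_lit 563) (nat_lit 527) (nat_lit 527) (.d (nat_lit 564) (nat_lit 531) (nat_lit 528) (nat_lit 565) (nat_lit 3601)))))) s4007)))))
noncomputable def s4033 : Cert := .r (nat_lit 64836180782635327101742773731878883933028500135655100996324835636715824771957301922231916427704030386313073450013582889165837387910271462164107996909801584275503921517658290257920) (.p (nat_lit 530) (.a s3695 (.a s3460 (.a (.p (nat_lit 529) (.a (.f (nat_lit 531) (nat_lit 559) (nat_lit 1551) (.d (nat_lit 499) (nat_lit 500) (nat_lit 2544) (nat_lit 626) (nat_lit 6642))) (.a (.f (nat_lit 527) (nat_lit 563) (nat_lit 527) (.f (nat_lit 495) (nat_lit 494) (nat_lit 3566) (.f (nat_lit 559) (nat_lit 558) (nat_lit 1550) (.d (nat_lit 463) (nat_lit 431) (nat_lit 4527) (nat_lit 592) (nat_lit 4559))))) (.f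 (nat_lit 563) (nat_lit 527) (nat_lit 527) (.d (nat_lit 564) (nat_lit 531) (nat_lit 528) (nat_lit 565) (nat_lit 3601)))))) (.a s3507 (.a (.p (nat_lit 529) (.a (.f (nat_lit 527) (nat_lit 563) (nat_lit 527) (.f (nat_lit 495) (nat_lit 494) (nat_lit 3566) (.f (nat_lit 559) (nat_lit 558) (nat_lit 1550) (.d (nat_lit 463) (nat_lit 431) (nat_lit 4527) (nat_lit 592) (nat_lit 4559))))) (.f (nat_lit 497) (nat_lit 626) (nat_lit 7665) (.d (nat_lit 465) (nat_lit 433) (nat_lit 4529) (nat_lit 498) (nat_lit 7633))))) s4007))))))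
noncomputable def s4046 : Cert := .r (nat_lit 64836180782635327101742773731878883933028500135655100996324835636715824771957301922231916427704030386313073450013582889165837387910271462164107996909801584275503921517658290257920) (.p (nat_lit 561) (.a (.f (nat_lit 563) (nat_lit 527) (nat_lit 3599) (.d (nat_lit 595) (nat_lit 559) (nat_lit 559) (nat_lit 596) (nat_lit 560))) (.a (.f (nat_lit 559) (nat_lit 595) (nat_lit 559) (.f (nat_lit 593) (nat_lit 558) (nat_lit 558) (.f (nat_lit 591) (nat_lit 590) (nat_lit 1582) (.f (nat_lit 592) (nat_lit 563) (nat_lit 1583) (.d (nat_lit 623) (nat_lit 622) (nat_lit 1614) (nat_lit 655) (nat_lit 6671)))))) (.a (.f (nat_lit 559) (nat_lit 595) (nat_lit 559) (.f (nat_lit 593) (nat_lit 558) (nat_lit 558) (.f (nat_lit 530) (nat_lit 531) (nat_lit 2575) (.d (nat_lit 498) (nat_lit 466) (nat_lit 5585) (nat_lit 625) (nat_lit 5617))))) (.a (.f (nat_lit 563) (nat_lit 527) (nat_lit 3599) (.f (nat_lit 595) (nat_lit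 596) (nat_lit 560) (.f (nat_lit 531) (nat_lit 532) (nat_lit 2576) (.d (nat_lit 499) (nat_lit 467) (nat_lit 5586) (nat_lit 626) (nat_lit 5618))))) (.f (nat_lit 563) (nat_lit 527) (nat_lit 3599) (.f (nat_lit 531) (nat_lit 532) (nat_lit 2576) (.f (nat_lit 530) (nat_lit 559) (nat_lit 2575) (.d (nat_lit 499) (nat_lit 467) (nat_lit 5586) (nat_lit 626) (nat_lit 6642))))))))))
noncomputable def s4047 : Cert := .r (nat_lit 64836180782635327101742773731878883933028500135655100996324835636715824771957301922231916427704030386313073450013582889165837387910271462164107996909801584275503921517658290257920) (.p (nat_lit 561) (.a (.f (nat_lit 563) (nat_lit 527) (nat_lit 3599) (.d (nat_lit 595) (nat_lit 559) (nat_lit 559) (nat_lit 596) (nat_lit 560))) (.a (.f (nat_lit 559) (nat_lit 595) (nat_lit 559) (.f (nat_lit 593) (nat_lit 558) (nat_lit 558) (.f (nat_lit 530) (nat_lit 531) (nat_lit 2575) (.d (nat_lit 498) (nat_lit 466) (nat_lit 5585) (nat_lit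 625) (nat_lit 5617))))) (.a (.f (nat_lit 563) (nat_lit 527) (nat_lit 3599) (.f (nat_lit 595) (nat_lit 596) (nat_lit 560) (.f (nat_lit 531) (nat_lit 532) (nat_lit 2576) (.d (nat_lit 499) (nat_lit 467) (nat_lit 5586) (nat_lit 626) (nat_lit 5618))))) (.f (nat_lit 563) (nat_lit 527) (nat_lit 3599) (.f (nat_lit 531) (nat_lit 532) (nat_lit 2576) (.f (nat_lit 530) (nat_lit 559) (nat_lit 2575) (.d (nat_lit 499) (nat_lit 467) (nat_lit 5586) (nat_lit 626) (nat_lit 6642)))))))))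
noncomputable def s4061 : Cert := .r (nat_lit 64836180782635327101742773731878883933028500135655100996324835636715824771957301922231916427704030386313073450013582889165837387910271462164107996909801584275503921517658290257920) (.p (nat_lit 561) (.a (.f (nat_lit 563) (nat_lit 527) (nat_lit 3599) (.d (nat_lit 595) (nat_lit 559) (nat_lit 559) (nat_lit 596) (nat_lit 560))) (.a (.f (nat_lit 559) (nat_lit 595) (nat_lit 559) (.f (nat_lit 593) (nat_lit 558) (nat_lit 558) (.f (nat_lit 591) (nat_lit 590) (nat_lit 1582) (.f (nat_lit 592) (nat_lit 563) (nat_lit 1583) (.d (nat_lit 623) (nat_lit 622) (nat_lit 1614) (nat_lit 655) (nat_lit 6671)))))) (.a (.f (nat_lit 559) (nat_lit 595) (nat_lit 559) (.f (nat_lit 558) (nat_lit 593) (nat_lit 558) (.d (nat_lit 590) (nat_lit 589) (nat_lit 1581) (nat_lit 591) (nat_lit 1582)))) (.a (.f (nat_lit 563) (nat_lit 527) (nat_lit 3599) (.f (nat_lit 595) (nat_lit 596) (nat_lit 560) (.f (nat_lit 592) (nat_lit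 591) (nat_lit 1583) (.f (nat_lit 593) (nat_lit 564) (nat_lit 1584) (.f (nat_lit 625) (nat_lit 657) (nat_lit 7696) (.f (nat_lit 627) (nat_lit 628) (nat_lit 592) (.d (nat_lit 530) (nat_lit 498) (nat_lit 5617) (nat_lit 659) (nat_lit 7698)))))))) (.f (nat_lit 563) (nat_lit 527) (nat_lit 3599) (.f (nat_lit 592) (nat_lit 591) (nat_lit 1583) (.f (nat_lit 564) (nat_lit 593) (nat_lit 1584) (.f (nat_lit 533) (nat_lit 532) (nat_lit 2577) (.f (nat_lit 565) (nat_lit 534) (nat_lit 2578) (.d (nat_lit 597) (nat_lit 596) (nat_lit 561) (nat_lit 598) (nat_lit 562))))))))))))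
noncomputable def s4062 : Cert := .r (nat_lit 64836180782635327101742773731878883933028500135655100996324835636715824771957301922231916427704030386313073450013582889165837387910271462164107996909801584275503921517658290257920) (.p (nat_lit 561) (.a (.f (nat_lit 563) (nat_lit 527) (nat_lit 3599) (.d (nat_lit 595) (nat_lit 559) (nat_lit 559) (nat_lit 596) (nat_lit 560))) (.a (.f (nat_lit 559) (nat_lit 595) (nat_lit 559) (.f (nat_lit 593) (nat_lit 558) (nat_lit 558) (.f (nat_lit 591) (nat_lit 590) (nat_lit 1582) (.f (nat_lit 592) (nat_lit 563) (nat_lit 1583) (.d (nat_lit 623) (nat_lit 622) (nat_lit 1614) (nat_lit 655) (nat_lit 6671)))))) (.a (.f (nat_lit 559) (nat_lit 595) (nat_lit 559) (.f (nat_lit 558) (nat_lit 593) (nat_lit 558) (.d (nat_lit 590) (nat_lit 589) (nat_lit 1581) (nat_lit 591) (nat_lit 1582)))) (.a (.f (nat_lit 563) (nat_lit 527) (nat_lit 3599) (.f (nat_lit 595) (nat_lit 596) (nat_lit 560) (.f (nat_lit 531) (nat_lit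 532) (nat_lit 2576) (.d (nat_lit 499) (nat_lit 467) (nat_lit 5586) (nat_lit 626) (nat_lit 5618))))) (.f (nat_lit 563) (nat_lit 527) (nat_lit 3599) (.f (nat_lit 531) (nat_lit 532) (nat_lit 2576) (.f (nat_lit 530) (nat_lit 559) (nat_lit 2575) (.d (nat_lit 499) (nat_lit 467) (nat_lit 5586) (nat_lit 626) (nat_lit 6642))))))))))
noncomputable def s4109 : Cert := .r (nat_lit 278469276042753369420402148738723445417256600439898613086045269325138017229042325413187331909864448152474679163998278974347610276945099961045809872791684546485728993599250561537364967030784) (.p (nat_lit 657) (.a (.f (nat_lit 530) (nat_lit 625) (nat_lit 5649) (.f (nat_lit 658) (nat_lit 689) (nat_lit 5681) (.d (nat_lit 659) (nat_lit 627) (nat_lit 4626) (nat_lit 691) (nat_lit 4658)))) (.a (.f (nat_lit 689) (nat_lit 658) (nat_lit 5681) (.f (nat_lit 625) (nat_lit 721) (nat_lit 6737) (.f (nat_lit 624) (nat_lit 592) (nat_lit 4624) (.f (nat_lit 595) (nat_lit 623) (nat_lit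 2639) (.d (nat_lit 596) (nat_lit 597) (nat_lit 1617) (nat_lit 627) (nat_lit 2640)))))) (.a (.f (nat_lit 658) (nat_lit 689) (nat_lit 5681) (.f (nat_lit 659) (nat_lit 691) (nat_lit 4658) (.f (nat_lit 627) (nat_lit 530) (nat_lit 4626) (.d (nat_lit 628) (nat_lit 629) (nat_lit 1649) (nat_lit 656) (nat_lit 2672))))) (.a (.f (nat_lit 530) (nat_lit 625) (nat_lit 5649) (.f (nat_lit 627) (nat_lit 659) (nat_lit 4626) (.f (nat_lit 498) (nat_lit 595) (nat_lit 4594) (.d (nat_lit 499) (nat_lit 467) (nat_lit 6610) (nat_lit 531) (nat_lit 6642))))) (.f (nat_lit 625) (nat_lit 530) (nat_lit 5649) (.d (nat_lit 689) (nat_lit 658) (nat_lit 5681) (nat_lit 721) (nat_lit 6737))))))))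
noncomputable def s4116 : Cert := .r (nat_lit 64836180782635327101742773731878883933028500135655100996324835636715824771957301922231916427704030386313073450013582889165837387910271462164107996909801584275503921517658290257920) (.p (nat_lit 626) (.a (.p (nat_lit 530) (.a (.f (nat_lit 531) (nat_lit 499) (nat_lit 6642) (.f (nat_lit 561) (nat_lit 559) (nat_lit 2575) (.d (nat_lit 532) (nat_lit 533) (nat_lit 1553) (nat_lit 563) (nat_lit 2576)))) (.a (.f (nat_lit 531) (nat_lit 499) (nat_lit 6642) (.f (nat_lit 658) (nat_lit 563) (nat_lit 6674) (.d (nat_lit 657) (nat_lit 625) (nat_lit 5649) (nat_lit 689) (nat_lit 5681)))) (.f (nat_lit 657) (nat_lit 625) (nat_lit 5649) (.f (nat_lit 658) (nat_lit 689) (nat_lit 5681) (.d (nat_lit 659) (nat_lit 627) (nat_lit 4626) (nat_lit 691) (nat_lit 4658))))))) (.a (.p (nat_lit 530) (.a (.f (nat_lit 531) (nat_lit 499) (nat_lit 6642) (.f (nat_lit 658) (nat_lit 563) (nat_lit 6674) (.d (nat_lit 657) (nat_lit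 625) (nat_lit 5649) (nat_lit 689) (nat_lit 5681)))) (.a (.f (nat_lit 657) (nat_lit 625) (nat_lit 5649) (.f (nat_lit 658) (nat_lit 689) (nat_lit 5681) (.d (nat_lit 659) (nat_lit 627) (nat_lit 4626) (nat_lit 691) (nat_lit 4658)))) (.a (.f (nat_lit 531) (nat_lit 499) (nat_lit 6642) (.f (nat_lit 658) (nat_lit 563) (nat_lit 6674) (.d (nat_lit 659) (nat_lit 627) (nat_lit 4626) (nat_lit 691) (nat_lit 4658)))) (.f (nat_lit 499) (nat_lit 531) (nat_lit 6642) (.f (nat_lit 498) (nat_lit 467) (nat_lit 6610) (.d (nat_lit 627) (nat_lit 595) (nat_lit 4594) (nat_lit 659) (nat_lit 4626)))))))) (.a (.p (nat_lit 658) (.a (.f (nat_lit 657) (nat_lit 689) (nat_lit 5681) (.f (nat_lit 659) (nat_lit 691) (nat_lit 4658) (.d (nat_lit 530) (nat_lit 625) (nat_lit 5649) (nat_lit 627) (nat_lit 4626)))) (.a (.f (nat_lit 691) (nat_lit 659) (nat_lit 4658) (.f (nat_lit 690) (nat_lit 723) (nat_lit 4690) (.d (nat_lit 689) (nat_lit 657) (nat_lit 5681) (nat_lit 721) (nat_lit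 5713)))) (.a (.f (nat_lit 691) (nat_lit 659) (nat_lit 4658) (.f (nat_lit 690) (nat_lit 723) (nat_lit 4690) (.f (nat_lit 595) (nat_lit 563) (nat_lit 6706) (.f (nat_lit 721) (nat_lit 689) (nat_lit 5713) (.d (nat_lit 722) (nat_lit 627) (nat_lit 6738) (nat_lit 753) (nat_lit 5745)))))) (.a (.f (nat_lit 657) (nat_lit 689) (nat_lit 5681) (.f (nat_lit 625) (nat_lit 530) (nat_lit 5649) (.f (nat_lit 624) (nat_lit 592) (nat_lit 4624) (.d (nat_lit 623) (nat_lit 595) (nat_lit 2639) (nat_lit 622) (nat_lit 622))))) (.f (nat_lit 691) (nat_lit 659) (nat_lit 4658) (.f (nat_lit 690) (nat_lit 723) (nat_lit 4690) (.f (nat_lit 595) (nat_lit 563) (nat_lit 6706) (.f (nat_lit 627) (nat_lit 722) (nat_lit 6738) (.f (nat_lit 530) (nat_lit 498) (nat_lit 4594) (.f (nat_lit 625) (nat_lit 657) (nat_lit 5649) (.d (nat_lit 596) (nat_lit 597) (nat_lit 1617) (nat_lit 624) (nat_lit 2640))))))))))))) (.a (.p (nat_lit 563) (.a (.f (nat_lit 561) (nat_lit 527) (nat_lit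 3599) (.d (nat_lit 595) (nat_lit 559) (nat_lit 559) (nat_lit 596) (nat_lit 560))) (.a (.f (nat_lit 658) (nat_lit 531) (nat_lit 6674) (.f (nat_lit 595) (nat_lit 690) (nat_lit 6706) (.d (nat_lit 561) (nat_lit 559) (nat_lit 559) (nat_lit 596) (nat_lit 560)))) (.a (.f (nat_lit 658) (nat_lit 531) (nat_lit 6674) (.f (nat_lit 690) (nat_lit 595) (nat_lit 6706) (.d (nat_lit 689) (nat_lit 657) (nat_lit 5681) (nat_lit 721) (nat_lit 5713)))) (.f (nat_lit 561) (nat_lit 527) (nat_lit 3599) (.d (nat_lit 531) (nat_lit 532) (nat_lit 2576) (nat_lit 658) (nat_lit 6674))))))) (.a s4109 (.a (.p (nat_lit 530) (.a (.f (nat_lit 531) (nat_lit 499) (nat_lit 6642) (.f (nat_lit 561) (nat_lit 559) (nat_lit 2575) (.d (nat_lit 532) (nat_lit 533) (nat_lit 1553) (nat_lit 563) (nat_lit 2576)))) (.a (.f (nat_lit 531) (nat_lit 499) (nat_lit 6642) (.f (nat_lit 658) (nat_lit 563) (nat_lit 6674) (.d (nat_lit 659) (nat_lit 627) (nat_lit 4626) (nat_lit 691) (nat_lit 4658))))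 (.a (.f (nat_lit 627) (nat_lit 659) (nat_lit 4626) (.f (nat_lit 595) (nat_lit 498) (nat_lit 4594) (.f (nat_lit 561) (nat_lit 559) (nat_lit 559) (.d (nat_lit 563) (nat_lit 527) (nat_lit 3599) (nat_lit 596) (nat_lit 560))))) (.f (nat_lit 499) (nat_lit 531) (nat_lit 6642) (.f (nat_lit 498) (nat_lit 467) (nat_lit 6610) (.d (nat_lit 627) (nat_lit 595) (nat_lit 4594) (nat_lit 659) (nat_lit 4626)))))))) (.p (nat_lit 530) (.a (.f (nat_lit 531) (nat_lit 499) (nat_lit 6642) (.f (nat_lit 561) (nat_lit 559) (nat_lit 2575) (.d (nat_lit 532) (nat_lit 533) (nat_lit 1553) (nat_lit 563) (nat_lit 2576)))) (.a (.f (nat_lit 499) (nat_lit 531) (nat_lit 6642) (.f (nat_lit 498) (nat_lit 467) (nat_lit 6610) (.d (nat_lit 627) (nat_lit 595) (nat_lit 4594) (nat_lit 659) (nat_lit 4626)))) (.f (nat_lit 627) (nat_lit 659) (nat_lit 4626) (.f (nat_lit 595) (nat_lit 498) (nat_lit 4594) (.f (nat_lit 561) (nat_lit 559) (nat_lit 559) (.d (nat_lit 563) (nat_lit 527)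 (nat_lit 3599) (nat_lit 596) (nat_lit 560)))))))))))))))
noncomputable def s4168 : Cert := .r (nat_lit 81045225973576705845931866949422482179170868230352120136932872080819937316538974369105772087653654582751346444588976596909568446798598709460541101730559254928086662937195436834816) (.p (nat_lit 624) (.a (.f (nat_lit 655) (nat_lit 623) (nat_lit 5647) (.f (nat_lit 656) (nat_lit 687) (nat_lit 5679) (.d (nat_lit 657) (nat_lit 625) (nat_lit 4624) (nat_lit 689) (nat_lit 4656)))) (.a (.f (nat_lit 623) (nat_lit 655) (nat_lit 5647) (.f (nat_lit 593) (nat_lit 595) (nat_lit 1615) (.d (nat_lit 622) (nat_lit 591) (nat_lit 1614) (nat_lit 621) (nat_lit 2637)))) (.a (.f (nat_lit 625) (nat_lit 657) (nat_lit 4624) (.f (nat_lit 527) (nat_lit 495) (nat_lit 7663) (.f (nat_lit 656) (nat_lit 559) (nat_lit 7695) (.f (nat_lit 687) (nat_lit 655) (nat_lit 5679) (.f (nat_lit 688) (nat_lit 719) (nat_lit 5711) (.f (nat_lit 593) (nat_lit 720) (nat_lit 6736)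 (.f (nat_lit 595) (nat_lit 596) (nat_lit 1616) (.f (nat_lit 627) (nat_lit 628) (nat_lit 592) (.f (nat_lit 626) (nat_lit 591) (nat_lit 591) (.d (nat_lit 530) (nat_lit 498) (nat_lit 5617) (nat_lit 659) (nat_lit 4626))))))))))) (.f (nat_lit 527) (nat_lit 495) (nat_lit 7663) (.f (nat_lit 559) (nat_lit 656) (nat_lit 7695) (.f (nat_lit 593) (nat_lit 595) (nat_lit 3631) (.d (nat_lit 558) (nat_lit 557) (nat_lit 557) (nat_lit 591) (nat_lit 3630)))))))))
noncomputable def s4208 : Cert := .r (nat_lit 81045225973576705849446643351409354353241601439481793464174822954493309686148939660208770197553254481438096980607641329057944158231036908775547559586414176560124565422246346096640) (.p (nat_lit 624) (.a (.f (nat_lit 657) (nat_lit 625) (nat_lit 4624) (.f (nat_lit 656) (nat_lit 689) (nat_lit 4656) (.d (nat_lit 655) (nat_lit 623) (nat_lit 5647) (nat_lit 687) (nat_lit 5679)))) (.a (.f (nat_lit 623) (nat_lit 655) (nat_lit 5647) (.f (nat_lit 593) (nat_lit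 595) (nat_lit 1615) (.d (nat_lit 622) (nat_lit 591) (nat_lit 1614) (nat_lit 621) (nat_lit 2637)))) (.a (.f (nat_lit 657) (nat_lit 625) (nat_lit 4624) (.f (nat_lit 656) (nat_lit 689) (nat_lit 4656) (.f (nat_lit 687) (nat_lit 655) (nat_lit 5679) (.f (nat_lit 688) (nat_lit 719) (nat_lit 5711) (.f (nat_lit 659) (nat_lit 658) (nat_lit 1679) (.f (nat_lit 627) (nat_lit 626) (nat_lit 4626) (.f (nat_lit 595) (nat_lit 691) (nat_lit 7730) (.d (nat_lit 593) (nat_lit 561) (nat_lit 6704) (nat_lit 628) (nat_lit 592))))))))) (.f (nat_lit 657) (nat_lit 625) (nat_lit 4624) (.f (nat_lit 689) (nat_lit 656) (nat_lit 4656) (.f (nat_lit 626) (nat_lit 658) (nat_lit 5681) (.f (nat_lit 627) (nat_lit 659) (nat_lit 4626) (.f (nat_lit 593) (nat_lit 591) (nat_lit 591) (.d (nat_lit 595) (nat_lit 623) (nat_lit 1615) (nat_lit 628) (nat_lit 592)))))))))))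
noncomputable def s4254 : Cert := .r (nat_lit 81045225973576705849446643351409354353241601439481793464174822954493309686148939660208770197553254481438096980607641329057944158231036908775547559586414176560124565422246346096640) (.p (nat_lit 626) (.a (.f (nat_lit 625) (nat_lit 657) (nat_lit 5649) (.f (nat_lit 627) (nat_lit 659) (nat_lit 4626) (.d (nat_lit 593) (nat_lit 591) (nat_lit 591) (nat_lit 628) (nat_lit 3664)))) (.a (.f (nat_lit 659) (nat_lit 627) (nat_lit 4626) (.f (nat_lit 658) (nat_lit 691) (nat_lit 4658) (.d (nat_lit 657) (nat_lit 625) (nat_lit 5649) (nat_lit 689) (nat_lit 5681)))) (.a (.f (nat_lit 627) (nat_lit 659) (nat_lit 4626) (.f (nat_lit 593) (nat_lit 591) (nat_lit 591) (.d (nat_lit 595) (nat_lit 559) (nat_lit 3631) (nat_lit 628) (nat_lit 592)))) (.a (.f (nat_lit 657) (nat_lit 625) (nat_lit 5649) (.f (nat_lit 658) (nat_lit 689) (nat_lit 5681) (.f (nat_lit 691) (nat_lit 659) (nat_lit 4658) (.f (nat_lit 690) (nat_lit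 723) (nat_lit 4690) (.f (nat_lit 561) (nat_lit 593) (nat_lit 7729) (.d (nat_lit 531) (nat_lit 499) (nat_lit 6642) (nat_lit 559) (nat_lit 2575))))))) (.f (nat_lit 531) (nat_lit 499) (nat_lit 6642) (.f (nat_lit 559) (nat_lit 561) (nat_lit 2575) (.f (nat_lit 593) (nat_lit 595) (nat_lit 3631) (.d (nat_lit 558) (nat_lit 557) (nat_lit 557) (nat_lit 591) (nat_lit 3630))))))))))
noncomputable def s4272 : Cert := .r (nat_lit 81045225973576705845931866949422482179170868230352120136932872080819937316538974369105772087653654582751346444588976596909568446798598709460541101730559254928086662937195436834816) (.p (nat_lit 624) (.a (.f (nat_lit 655) (nat_lit 623) (nat_lit 5647) (.f (nat_lit 656) (nat_lit 687) (nat_lit 5679) (.d (nat_lit 657) (nat_lit 625) (nat_lit 4624) (nat_lit 689) (nat_lit 4656)))) (.a (.f (nat_lit 527) (nat_lit 495) (nat_lit 7663) (.f (nat_lit 656) (nat_lit 559) (nat_lit 7695) (.d (nat_lit 655) (nat_lit 623) (nat_lit 5647) (nat_lit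 687) (nat_lit 5679)))) (.a (.f (nat_lit 527) (nat_lit 495) (nat_lit 7663) (.f (nat_lit 656) (nat_lit 559) (nat_lit 7695) (.d (nat_lit 657) (nat_lit 625) (nat_lit 4624) (nat_lit 689) (nat_lit 4656)))) (.f (nat_lit 625) (nat_lit 657) (nat_lit 4624) (.f (nat_lit 623) (nat_lit 655) (nat_lit 5647) (.f (nat_lit 622) (nat_lit 593) (nat_lit 2638) (.f (nat_lit 590) (nat_lit 589) (nat_lit 3661) (.f (nat_lit 591) (nat_lit 626) (nat_lit 3662) (.f (nat_lit 559) (nat_lit 561) (nat_lit 1582) (.d (nat_lit 527) (nat_lit 495) (nat_lit 5614) (nat_lit 654) (nat_lit 5646))))))))))))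
noncomputable def s4299 : Cert := .r (nat_lit 64836180782635327101742773731878883933028500135655100996324835636715824771957301922231916427704030386313073450013582889165837387910271462164107996909801584275503921517658290257920) (.p (nat_lit 592) (.a (.p (nat_lit 624) (.a (.f (nat_lit 655) (nat_lit 623) (nat_lit 5647) (.f (nat_lit 656) (nat_lit 687) (nat_lit 5679) (.d (nat_lit 657) (nat_lit 625) (nat_lit 4624) (nat_lit 689) (nat_lit 4656)))) (.a (.f (nat_lit 623) (nat_lit 655) (nat_lit 5647) (.f (nat_lit 593) (nat_lit 595) (nat_lit 1615) (.d (nat_lit 622) (nat_lit 591) (nat_lit 1614) (nat_lit 621) (nat_lit 2637)))) (.f (nat_lit 527) (nat_lit 495) (nat_lit 7663) (.f (nat_lit 559) (nat_lit 656) (nat_lit 7695) (.d (nat_lit 595) (nat_lit 561) (nat_lit 559) (nat_lit 593) (nat_lit 3631))))))) (.a (.p (nat_lit 530) (.a (.p (nat_lit 498) (.a (.f (nat_lit 593) (nat_lit 625) (nat_lit 5617) (.d (nat_lit 595) (nat_lit 559) (nat_lit 3631) (nat_lit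 627) (nat_lit 4594))) (.f (nat_lit 465) (nat_lit 497) (nat_lit 7633) (.f (nat_lit 466) (nat_lit 433) (nat_lit 7601) (.d (nat_lit 467) (nat_lit 435) (nat_lit 6578) (nat_lit 499) (nat_lit 6610)))))) (.a (.p (nat_lit 624) (.a (.f (nat_lit 657) (nat_lit 625) (nat_lit 4624) (.f (nat_lit 656) (nat_lit 689) (nat_lit 4656) (.d (nat_lit 655) (nat_lit 623) (nat_lit 5647) (nat_lit 687) (nat_lit 5679)))) (.a (.f (nat_lit 623) (nat_lit 655) (nat_lit 5647) (.f (nat_lit 593) (nat_lit 595) (nat_lit 1615) (.d (nat_lit 622) (nat_lit 591) (nat_lit 1614) (nat_lit 621) (nat_lit 2637)))) (.a (.f (nat_lit 657) (nat_lit 625) (nat_lit 4624) (.f (nat_lit 656) (nat_lit 689) (nat_lit 4656) (.f (nat_lit 687) (nat_lit 655) (nat_lit 5679) (.f (nat_lit 688) (nat_lit 719) (nat_lit 5711) (.f (nat_lit 559) (nat_lit 591) (nat_lit 7727) (.d (nat_lit 561) (nat_lit 531) (nat_lit 2575) (nat_lit 593) (nat_lit 6704))))))) (.f (nat_lit 657) (nat_lit 625) (nat_lit 4624) (.f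 (nat_lit 689) (nat_lit 656) (nat_lit 4656) (.f (nat_lit 626) (nat_lit 658) (nat_lit 5681) (.f (nat_lit 627) (nat_lit 659) (nat_lit 4626) (.f (nat_lit 593) (nat_lit 591) (nat_lit 591) (.d (nat_lit 595) (nat_lit 623) (nat_lit 1615) (nat_lit 628) (nat_lit 592))))))))))) (.a (.p (nat_lit 498) (.a (.f (nat_lit 465) (nat_lit 497) (nat_lit 7633) (.f (nat_lit 466) (nat_lit 433) (nat_lit 7601) (.d (nat_lit 467) (nat_lit 435) (nat_lit 6578) (nat_lit 499) (nat_lit 6610)))) (.f (nat_lit 627) (nat_lit 595) (nat_lit 4594) (.f (nat_lit 626) (nat_lit 659) (nat_lit 4626) (.f (nat_lit 625) (nat_lit 657) (nat_lit 5649) (.f (nat_lit 624) (nat_lit 591) (nat_lit 3663) (.d (nat_lit 655) (nat_lit 623) (nat_lit 5647) (nat_lit 656) (nat_lit 1647)))))))) (.a (.p (nat_lit 498) (.a (.f (nat_lit 465) (nat_lit 497) (nat_lit 7633) (.f (nat_lit 466) (nat_lit 433) (nat_lit 7601) (.d (nat_lit 467) (nat_lit 435) (nat_lit 6578) (nat_lit 499) (nat_lit 6610)))) (.f (nat_lit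 595) (nat_lit 627) (nat_lit 4594) (.d (nat_lit 559) (nat_lit 561) (nat_lit 559) (nat_lit 593) (nat_lit 3631))))) (.p (nat_lit 498) (.a (.f (nat_lit 465) (nat_lit 497) (nat_lit 7633) (.f (nat_lit 466) (nat_lit 433) (nat_lit 7601) (.d (nat_lit 467) (nat_lit 435) (nat_lit 6578) (nat_lit 499) (nat_lit 6610)))) (.a (.f (nat_lit 593) (nat_lit 625) (nat_lit 5617) (.f (nat_lit 561) (nat_lit 466) (nat_lit 5585) (.f (nat_lit 591) (nat_lit 590) (nat_lit 2606) (.f (nat_lit 559) (nat_lit 558) (nat_lit 558) (.d (nat_lit 623) (nat_lit 622) (nat_lit 1614) (nat_lit 655) (nat_lit 6671)))))) (.f (nat_lit 625) (nat_lit 593) (nat_lit 5617) (.d (nat_lit 657) (nat_lit 624) (nat_lit 4624) (nat_lit 626) (nat_lit 5649))))))))))) (.a s4168 (.a s3916 (.a (.p (nat_lit 593) (.a (.f (nat_lit 559) (nat_lit 595) (nat_lit 3631) (.d (nat_lit 558) (nat_lit 557) (nat_lit 557) (nat_lit 561) (nat_lit 558))) (.a (.f (nat_lit 559) (nat_lit 595) (nat_lit 3631) (.d (nat_lit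 558) (nat_lit 557) (nat_lit 557) (nat_lit 591) (nat_lit 3630))) (.a (.p (nat_lit 595) (.a (.f (nat_lit 561) (nat_lit 596) (nat_lit 3632) (.f (nat_lit 591) (nat_lit 590) (nat_lit 2606) (.d (nat_lit 627) (nat_lit 626) (nat_lit 591) (nat_lit 628) (nat_lit 592)))) (.a (.f (nat_lit 627) (nat_lit 628) (nat_lit 592) (.f (nat_lit 626) (nat_lit 591) (nat_lit 591) (.d (nat_lit 530) (nat_lit 498) (nat_lit 4594) (nat_lit 659) (nat_lit 4626)))) (.a (.f (nat_lit 596) (nat_lit 561) (nat_lit 3632) (.d (nat_lit 628) (nat_lit 627) (nat_lit 592) (nat_lit 629) (nat_lit 593))) (.a (.f (nat_lit 596) (nat_lit 561) (nat_lit 3632) (.f (nat_lit 565) (nat_lit 564) (nat_lit 2609) (.f (nat_lit 597) (nat_lit 566) (nat_lit 2610) (.d (nat_lit 629) (nat_lit 628) (nat_lit 593) (nat_lit 630) (nat_lit 594))))) (.f (nat_lit 561) (nat_lit 596) (nat_lit 3632) (.f (nat_lit 591) (nat_lit 590) (nat_lit 2606) (.f (nat_lit 657) (nat_lit 625) (nat_lit 7696) (.f (nat_lit 626)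 (nat_lit 627) (nat_lit 591) (.d (nat_lit 658) (nat_lit 689) (nat_lit 5681) (nat_lit 690) (nat_lit 7729))))))))))) (.p (nat_lit 561) (.a (.f (nat_lit 591) (nat_lit 590) (nat_lit 2606) (.f (nat_lit 559) (nat_lit 558) (nat_lit 558) (.d (nat_lit 623) (nat_lit 622) (nat_lit 1614) (nat_lit 655) (nat_lit 6671)))) (.a (.f (nat_lit 591) (nat_lit 590) (nat_lit 2606) (.f (nat_lit 657) (nat_lit 625) (nat_lit 7696) (.f (nat_lit 626) (nat_lit 627) (nat_lit 591) (.d (nat_lit 658) (nat_lit 689) (nat_lit 5681) (nat_lit 690) (nat_lit 7729))))) (.f (nat_lit 625) (nat_lit 657) (nat_lit 7696) (.f (nat_lit 530) (nat_lit 498) (nat_lit 5617) (.d (nat_lit 559) (nat_lit 531) (nat_lit 2575) (nat_lit 558) (nat_lit 558))))))))))) (.a (.p (nat_lit 530) (.a (.p (nat_lit 498) (.a (.f (nat_lit 465) (nat_lit 497) (nat_lit 7633) (.f (nat_lit 466) (nat_lit 433) (nat_lit 7601) (.d (nat_lit 467) (nat_lit 435) (nat_lit 6578) (nat_lit 499) (nat_lit 6610)))) (.f (nat_lit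 627) (nat_lit 595) (nat_lit 4594) (.f (nat_lit 626) (nat_lit 659) (nat_lit 4626) (.f (nat_lit 625) (nat_lit 657) (nat_lit 5649) (.f (nat_lit 624) (nat_lit 591) (nat_lit 3663) (.d (nat_lit 655) (nat_lit 623) (nat_lit 5647) (nat_lit 656) (nat_lit 1647)))))))) (.a s4208 (.a (.p (nat_lit 498) (.a (.f (nat_lit 465) (nat_lit 497) (nat_lit 7633) (.f (nat_lit 466) (nat_lit 433) (nat_lit 7601) (.d (nat_lit 467) (nat_lit 435) (nat_lit 6578) (nat_lit 499) (nat_lit 6610)))) (.a (.f (nat_lit 499) (nat_lit 467) (nat_lit 6610) (.f (nat_lit 626) (nat_lit 531) (nat_lit 6642) (.d (nat_lit 627) (nat_lit 595) (nat_lit 4594) (nat_lit 659) (nat_lit 4626)))) (.f (nat_lit 593) (nat_lit 625) (nat_lit 5617) (.f (nat_lit 627) (nat_lit 595) (nat_lit 4594) (.d (nat_lit 626) (nat_lit 591) (nat_lit 591) (nat_lit 659) (nat_lit 4626))))))) (.a (.p (nat_lit 498) (.a (.f (nat_lit 465) (nat_lit 497) (nat_lit 7633) (.f (nat_lit 466) (nat_lit 433) (nat_lit 7601) (.d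 (nat_lit 467) (nat_lit 435) (nat_lit 6578) (nat_lit 499) (nat_lit 6610)))) (.a (.f (nat_lit 499) (nat_lit 467) (nat_lit 6610) (.f (nat_lit 626) (nat_lit 531) (nat_lit 6642) (.d (nat_lit 627) (nat_lit 595) (nat_lit 4594) (nat_lit 659) (nat_lit 4626)))) (.f (nat_lit 627) (nat_lit 595) (nat_lit 4594) (.f (nat_lit 626) (nat_lit 659) (nat_lit 4626) (.f (nat_lit 593) (nat_lit 591) (nat_lit 591) (.f (nat_lit 466) (nat_lit 561) (nat_lit 5585) (.d (nat_lit 465) (nat_lit 433) (nat_lit 7601) (nat_lit 497) (nat_lit 7633))))))))) (.a (.p (nat_lit 498) (.a (.f (nat_lit 465) (nat_lit 497) (nat_lit 7633) (.f (nat_lit 466) (nat_lit 433) (nat_lit 7601) (.d (nat_lit 467) (nat_lit 435) (nat_lit 6578) (nat_lit 499) (nat_lit 6610)))) (.a (.f (nat_lit 593) (nat_lit 625) (nat_lit 5617) (.f (nat_lit 595) (nat_lit 627) (nat_lit 4594) (.d (nat_lit 561) (nat_lit 466) (nat_lit 5585) (nat_lit 596) (nat_lit 3632)))) (.f (nat_lit 593) (nat_lit 625) (nat_lit 5617)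 (.f (nat_lit 595) (nat_lit 627) (nat_lit 4594) (.f (nat_lit 596) (nat_lit 561) (nat_lit 3632) (.f (nat_lit 565) (nat_lit 564) (nat_lit 2609) (.f (nat_lit 597) (nat_lit 566) (nat_lit 2610) (.d (nat_lit 629) (nat_lit 628) (nat_lit 593) (nat_lit 630) (nat_lit 594)))))))))) (.p (nat_lit 498) (.a (.f (nat_lit 465) (nat_lit 497) (nat_lit 7633) (.f (nat_lit 466) (nat_lit 433) (nat_lit 7601) (.d (nat_lit 467) (nat_lit 435) (nat_lit 6578) (nat_lit 499) (nat_lit 6610)))) (.f (nat_lit 625) (nat_lit 593) (nat_lit 5617) (.d (nat_lit 657) (nat_lit 624) (nat_lit 4624) (nat_lit 626) (nat_lit 5649))))))))))) (.a (.p (nat_lit 624) (.a (.f (nat_lit 623) (nat_lit 655) (nat_lit 5647) (.f (nat_lit 593) (nat_lit 595) (nat_lit 1615) (.d (nat_lit 622) (nat_lit 591) (nat_lit 1614) (nat_lit 621) (nat_lit 2637)))) (.a (.f (nat_lit 527) (nat_lit 495) (nat_lit 7663) (.f (nat_lit 656) (nat_lit 559) (nat_lit 7695) (.d (nat_lit 655) (nat_lit 623) (nat_lit 5647)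 (nat_lit 687) (nat_lit 5679)))) (.f (nat_lit 527) (nat_lit 495) (nat_lit 7663) (.f (nat_lit 559) (nat_lit 656) (nat_lit 7695) (.d (nat_lit 595) (nat_lit 561) (nat_lit 559) (nat_lit 593) (nat_lit 3631))))))) (.a (.p (nat_lit 530) (.a (.p (nat_lit 498) (.a (.f (nat_lit 593) (nat_lit 625) (nat_lit 5617) (.d (nat_lit 595) (nat_lit 559) (nat_lit 3631) (nat_lit 627) (nat_lit 4594))) (.f (nat_lit 465) (nat_lit 497) (nat_lit 7633) (.f (nat_lit 466) (nat_lit 433) (nat_lit 7601) (.d (nat_lit 467) (nat_lit 435) (nat_lit 6578) (nat_lit 499) (nat_lit 6610)))))) (.a s4254 (.a (.p (nat_lit 498) (.a (.f (nat_lit 465) (nat_lit 497) (nat_lit 7633) (.f (nat_lit 466) (nat_lit 433) (nat_lit 7601) (.d (nat_lit 467) (nat_lit 435) (nat_lit 6578) (nat_lit 499) (nat_lit 6610)))) (.a (.f (nat_lit 499) (nat_lit 467) (nat_lit 6610) (.f (nat_lit 626) (nat_lit 531) (nat_lit 6642) (.d (nat_lit 627) (nat_lit 595) (nat_lit 4594) (nat_lit 659) (nat_lit 4626)))) (.f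 (nat_lit 627) (nat_lit 595) (nat_lit 4594) (.f (nat_lit 626) (nat_lit 659) (nat_lit 4626) (.f (nat_lit 625) (nat_lit 657) (nat_lit 5649) (.f (nat_lit 624) (nat_lit 591) (nat_lit 3663) (.f (nat_lit 527) (nat_lit 495) (nat_lit 7663) (.d (nat_lit 656) (nat_lit 559) (nat_lit 7695) (nat_lit 655) (nat_lit 1647)))))))))) (.a (.p (nat_lit 498) (.a (.f (nat_lit 465) (nat_lit 497) (nat_lit 7633) (.f (nat_lit 466) (nat_lit 433) (nat_lit 7601) (.d (nat_lit 467) (nat_lit 435) (nat_lit 6578) (nat_lit 499) (nat_lit 6610)))) (.a (.f (nat_lit 499) (nat_lit 467) (nat_lit 6610) (.f (nat_lit 626) (nat_lit 531) (nat_lit 6642) (.d (nat_lit 627) (nat_lit 595) (nat_lit 4594) (nat_lit 659) (nat_lit 4626)))) (.f (nat_lit 593) (nat_lit 625) (nat_lit 5617) (.f (nat_lit 627) (nat_lit 595) (nat_lit 4594) (.d (nat_lit 626) (nat_lit 591) (nat_lit 591) (nat_lit 659) (nat_lit 4626))))))) (.a (.p (nat_lit 498) (.a (.f (nat_lit 593) (nat_lit 625) (nat_lit 5617) (.d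 (nat_lit 595) (nat_lit 559) (nat_lit 3631) (nat_lit 627) (nat_lit 4594))) (.a (.f (nat_lit 627) (nat_lit 595) (nat_lit 4594) (.f (nat_lit 626) (nat_lit 659) (nat_lit 4626) (.f (nat_lit 625) (nat_lit 657) (nat_lit 5649) (.f (nat_lit 624) (nat_lit 591) (nat_lit 3663) (.f (nat_lit 527) (nat_lit 495) (nat_lit 7663) (.d (nat_lit 656) (nat_lit 559) (nat_lit 7695) (nat_lit 655) (nat_lit 1647))))))) (.a (.f (nat_lit 625) (nat_lit 593) (nat_lit 5617) (.d (nat_lit 657) (nat_lit 624) (nat_lit 4624) (nat_lit 626) (nat_lit 5649))) (.f (nat_lit 595) (nat_lit 627) (nat_lit 4594) (.d (nat_lit 559) (nat_lit 561) (nat_lit 559) (nat_lit 593) (nat_lit 3631))))))) (.a (.p (nat_lit 498) (.a (.f (nat_lit 465) (nat_lit 497) (nat_lit 7633) (.f (nat_lit 466) (nat_lit 433) (nat_lit 7601) (.d (nat_lit 467) (nat_lit 435) (nat_lit 6578) (nat_lit 499) (nat_lit 6610)))) (.f (nat_lit 595) (nat_lit 627) (nat_lit 4594) (.d (nat_lit 559) (nat_lit 561) (nat_lit 559)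 (nat_lit 593) (nat_lit 3631))))) (.p (nat_lit 498) (.a (.f (nat_lit 465) (nat_lit 497) (nat_lit 7633) (.f (nat_lit 466) (nat_lit 433) (nat_lit 7601) (.d (nat_lit 467) (nat_lit 435) (nat_lit 6578) (nat_lit 499) (nat_lit 6610)))) (.f (nat_lit 625) (nat_lit 593) (nat_lit 5617) (.d (nat_lit 657) (nat_lit 624) (nat_lit 4624) (nat_lit 626) (nat_lit 5649)))))))))))) (.a (.p (nat_lit 624) (.a (.f (nat_lit 655) (nat_lit 623) (nat_lit 5647) (.f (nat_lit 656) (nat_lit 687) (nat_lit 5679) (.d (nat_lit 657) (nat_lit 625) (nat_lit 4624) (nat_lit 689) (nat_lit 4656)))) (.a (.f (nat_lit 527) (nat_lit 495) (nat_lit 7663) (.f (nat_lit 559) (nat_lit 656) (nat_lit 7695) (.d (nat_lit 595) (nat_lit 561) (nat_lit 559) (nat_lit 593) (nat_lit 3631)))) (.f (nat_lit 625) (nat_lit 657) (nat_lit 4624) (.f (nat_lit 623) (nat_lit 655) (nat_lit 5647) (.d (nat_lit 593) (nat_lit 595) (nat_lit 1615) (nat_lit 622) (nat_lit 2638))))))) (.a s4272 (.p (nat_lit 530) (.a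 (.p (nat_lit 498) (.a (.f (nat_lit 593) (nat_lit 625) (nat_lit 5617) (.d (nat_lit 595) (nat_lit 559) (nat_lit 3631) (nat_lit 627) (nat_lit 4594))) (.f (nat_lit 465) (nat_lit 497) (nat_lit 7633) (.f (nat_lit 466) (nat_lit 433) (nat_lit 7601) (.d (nat_lit 467) (nat_lit 435) (nat_lit 6578) (nat_lit 499) (nat_lit 6610)))))) (.a s4254 (.a (.p (nat_lit 627) (.a (.f (nat_lit 626) (nat_lit 659) (nat_lit 4626) (.f (nat_lit 625) (nat_lit 657) (nat_lit 5649) (.f (nat_lit 595) (nat_lit 498) (nat_lit 4594) (.d (nat_lit 596) (nat_lit 597) (nat_lit 1617) (nat_lit 624) (nat_lit 2640))))) (.a (.f (nat_lit 626) (nat_lit 659) (nat_lit 4626) (.f (nat_lit 625) (nat_lit 657) (nat_lit 5649) (.f (nat_lit 624) (nat_lit 591) (nat_lit 3663) (.d (nat_lit 595) (nat_lit 596) (nat_lit 2640) (nat_lit 623) (nat_lit 2639))))) (.a (.f (nat_lit 626) (nat_lit 659) (nat_lit 4626) (.f (nat_lit 498) (nat_lit 595) (nat_lit 4594) (.d (nat_lit 499) (nat_lit 467) (nat_lit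 6610) (nat_lit 531) (nat_lit 6642)))) (.a (.f (nat_lit 498) (nat_lit 595) (nat_lit 4594) (.f (nat_lit 467) (nat_lit 499) (nat_lit 6610) (.f (nat_lit 466) (nat_lit 435) (nat_lit 6578) (.d (nat_lit 465) (nat_lit 433) (nat_lit 7601) (nat_lit 497) (nat_lit 7633))))) (.f (nat_lit 626) (nat_lit 659) (nat_lit 4626) (.f (nat_lit 625) (nat_lit 657) (nat_lit 5649) (.f (nat_lit 624) (nat_lit 591) (nat_lit 3663) (.f (nat_lit 527) (nat_lit 495) (nat_lit 7663) (.f (nat_lit 531) (nat_lit 499) (nat_lit 6642) (.d (nat_lit 559) (nat_lit 561) (nat_lit 2575) (nat_lit 656) (nat_lit 7695)))))))))))) (.a (.p (nat_lit 498) (.a (.f (nat_lit 465) (nat_lit 497) (nat_lit 7633) (.f (nat_lit 466) (nat_lit 433) (nat_lit 7601) (.d (nat_lit 467) (nat_lit 435) (nat_lit 6578) (nat_lit 499) (nat_lit 6610)))) (.a (.f (nat_lit 499) (nat_lit 467) (nat_lit 6610) (.f (nat_lit 626) (nat_lit 531) (nat_lit 6642) (.d (nat_lit 627) (nat_lit 595) (nat_lit 4594) (nat_lit 659)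 (nat_lit 4626)))) (.f (nat_lit 593) (nat_lit 625) (nat_lit 5617) (.f (nat_lit 627) (nat_lit 595) (nat_lit 4594) (.d (nat_lit 626) (nat_lit 591) (nat_lit 591) (nat_lit 659) (nat_lit 4626))))))) (.a (.p (nat_lit 593) (.a (.f (nat_lit 595) (nat_lit 559) (nat_lit 3631) (.f (nat_lit 624) (nat_lit 623) (nat_lit 1615) (.d (nat_lit 625) (nat_lit 596) (nat_lit 1616) (nat_lit 657) (nat_lit 4624)))) (.a (.f (nat_lit 559) (nat_lit 595) (nat_lit 3631) (.d (nat_lit 558) (nat_lit 557) (nat_lit 557) (nat_lit 591) (nat_lit 3630))) (.f (nat_lit 625) (nat_lit 498) (nat_lit 5617) (.d (nat_lit 657) (nat_lit 561) (nat_lit 6673) (nat_lit 626) (nat_lit 5649)))))) (.a (.p (nat_lit 498) (.a (.f (nat_lit 465) (nat_lit 497) (nat_lit 7633) (.f (nat_lit 466) (nat_lit 433) (nat_lit 7601) (.d (nat_lit 467) (nat_lit 435) (nat_lit 6578) (nat_lit 499) (nat_lit 6610)))) (.f (nat_lit 595) (nat_lit 627) (nat_lit 4594) (.d (nat_lit 559) (nat_lit 561) (nat_lit 559) (nat_lit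 593) (nat_lit 3631))))) (.p (nat_lit 498) (.a (.f (nat_lit 465) (nat_lit 497) (nat_lit 7633) (.f (nat_lit 466) (nat_lit 433) (nat_lit 7601) (.d (nat_lit 467) (nat_lit 435) (nat_lit 6578) (nat_lit 499) (nat_lit 6610)))) (.f (nat_lit 625) (nat_lit 593) (nat_lit 5617) (.d (nat_lit 657) (nat_lit 624) (nat_lit 4624) (nat_lit 626) (nat_lit 5649)))))))))))))))))))))))
noncomputable def s4341 : Cert := .r (nat_lit 64836180782635327105257550133865756107099233344784774323566786510389197141567267213334914537603630284999823986032247621314213099342709661479114454765656505907541824002709199519744) (.p (nat_lit 592) (.a s3885 (.a (.p (nat_lit 626) (.a (.f (nat_lit 659) (nat_lit 627) (nat_lit 4626) (.f (nat_lit 658) (nat_lit 691) (nat_lit 4658) (.d (nat_lit 657) (nat_lit 625) (nat_lit 5649) (nat_lit 689) (nat_lit 5681)))) (.a (.f (nat_lit 531) (nat_lit 499) (nat_lit 6642) (.f (nat_lit 563) (nat_lit 658) (nat_lit 6674) (.d (nat_lit 561) (nat_lit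 527) (nat_lit 3599) (nat_lit 532) (nat_lit 2576)))) (.f (nat_lit 625) (nat_lit 657) (nat_lit 5649) (.f (nat_lit 627) (nat_lit 659) (nat_lit 4626) (.f (nat_lit 624) (nat_lit 591) (nat_lit 3663) (.d (nat_lit 595) (nat_lit 596) (nat_lit 2640) (nat_lit 623) (nat_lit 2639)))))))) (.a (.p (nat_lit 626) (.a (.f (nat_lit 625) (nat_lit 657) (nat_lit 5649) (.f (nat_lit 627) (nat_lit 659) (nat_lit 4626) (.d (nat_lit 593) (nat_lit 591) (nat_lit 591) (nat_lit 628) (nat_lit 3664)))) (.a (.f (nat_lit 659) (nat_lit 627) (nat_lit 4626) (.f (nat_lit 658) (nat_lit 691) (nat_lit 4658) (.d (nat_lit 657) (nat_lit 625) (nat_lit 5649) (nat_lit 689) (nat_lit 5681)))) (.f (nat_lit 531) (nat_lit 499) (nat_lit 6642) (.f (nat_lit 563) (nat_lit 658) (nat_lit 6674) (.d (nat_lit 561) (nat_lit 527) (nat_lit 3599) (nat_lit 532) (nat_lit 2576))))))) (.a s4208 (.a (.p (nat_lit 626) (.a (.f (nat_lit 531) (nat_lit 499) (nat_lit 6642) (.f (nat_lit 563) (nat_lit 658)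 (nat_lit 6674) (.d (nat_lit 561) (nat_lit 527) (nat_lit 3599) (nat_lit 532) (nat_lit 2576)))) (.a (.f (nat_lit 531) (nat_lit 499) (nat_lit 6642) (.f (nat_lit 563) (nat_lit 658) (nat_lit 6674) (.d (nat_lit 561) (nat_lit 532) (nat_lit 2576) (nat_lit 591) (nat_lit 1583)))) (.f (nat_lit 627) (nat_lit 659) (nat_lit 4626) (.f (nat_lit 593) (nat_lit 591) (nat_lit 591) (.d (nat_lit 628) (nat_lit 595) (nat_lit 592) (nat_lit 629) (nat_lit 3665))))))) (.a (.p (nat_lit 624) (.a (.f (nat_lit 657) (nat_lit 625) (nat_lit 4624) (.f (nat_lit 656) (nat_lit 689) (nat_lit 4656) (.d (nat_lit 655) (nat_lit 623) (nat_lit 5647) (nat_lit 687) (nat_lit 5679)))) (.a (.f (nat_lit 623) (nat_lit 655) (nat_lit 5647) (.f (nat_lit 593) (nat_lit 595) (nat_lit 1615) (.d (nat_lit 591) (nat_lit 563) (nat_lit 2607) (nat_lit 622) (nat_lit 1614)))) (.a (.f (nat_lit 657) (nat_lit 625) (nat_lit 4624) (.f (nat_lit 656) (nat_lit 689) (nat_lit 4656) (.f (nat_lit 687) (nat_lit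 655) (nat_lit 5679) (.f (nat_lit 688) (nat_lit 719) (nat_lit 5711) (.f (nat_lit 561) (nat_lit 593) (nat_lit 6704) (.d (nat_lit 527) (nat_lit 495) (nat_lit 7663) (nat_lit 563) (nat_lit 3599))))))) (.f (nat_lit 527) (nat_lit 495) (nat_lit 7663) (.f (nat_lit 563) (nat_lit 561) (nat_lit 3599) (.f (nat_lit 593) (nat_lit 591) (nat_lit 2607) (.d (nat_lit 564) (nat_lit 565) (nat_lit 1585) (nat_lit 595) (nat_lit 2608))))))))) (.p (nat_lit 624) (.a (.f (nat_lit 657) (nat_lit 625) (nat_lit 4624) (.f (nat_lit 656) (nat_lit 689) (nat_lit 4656) (.d (nat_lit 655) (nat_lit 623) (nat_lit 5647) (nat_lit 687) (nat_lit 5679)))) (.a (.f (nat_lit 527) (nat_lit 495) (nat_lit 7663) (.f (nat_lit 561) (nat_lit 563) (nat_lit 3599) (.f (nat_lit 655) (nat_lit 623) (nat_lit 5647) (.f (nat_lit 656) (nat_lit 687) (nat_lit 5679) (.f (nat_lit 689) (nat_lit 657) (nat_lit 4656) (.d (nat_lit 688) (nat_lit 593) (nat_lit 6704) (nat_lit 721) (nat_lit 4688))))))) (.a (.f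 (nat_lit 657) (nat_lit 625) (nat_lit 4624) (.f (nat_lit 656) (nat_lit 689) (nat_lit 4656) (.f (nat_lit 687) (nat_lit 655) (nat_lit 5679) (.f (nat_lit 688) (nat_lit 719) (nat_lit 5711) (.f (nat_lit 659) (nat_lit 658) (nat_lit 1679) (.f (nat_lit 627) (nat_lit 626) (nat_lit 4626) (.d (nat_lit 595) (nat_lit 563) (nat_lit 7698) (nat_lit 691) (nat_lit 7730)))))))) (.a (.f (nat_lit 625) (nat_lit 657) (nat_lit 4624) (.f (nat_lit 623) (nat_lit 655) (nat_lit 5647) (.d (nat_lit 593) (nat_lit 595) (nat_lit 1615) (nat_lit 622) (nat_lit 2638)))) (.a (.f (nat_lit 623) (nat_lit 655) (nat_lit 5647) (.f (nat_lit 593) (nat_lit 595) (nat_lit 1615) (.d (nat_lit 622) (nat_lit 621) (nat_lit 2637) (nat_lit 625) (nat_lit 2638)))) (.f (nat_lit 657) (nat_lit 625) (nat_lit 4624) (.f (nat_lit 656) (nat_lit 689) (nat_lit 4656) (.f (nat_lit 527) (nat_lit 495) (nat_lit 7663) (.f (nat_lit 561) (nat_lit 563) (nat_lit 3599) (.f (nat_lit 593) (nat_lit 688) (nat_lit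 6704) (.d (nat_lit 595) (nat_lit 596) (nat_lit 3632) (nat_lit 623) (nat_lit 1615))))))))))))))))))))
noncomputable def s4351 : Cert := .r (nat_lit 64836180782635327101742773731878883933028500135655100996324835636715824771957301922231916427704030386313073450013582889165837387910271462164107996909801584275503921517658290257920) (.p (nat_lit 530) (.a (.p (nat_lit 498) (.a (.f (nat_lit 595) (nat_lit 627) (nat_lit 4594) (.f (nat_lit 563) (nat_lit 466) (nat_lit 4562) (.f (nat_lit 593) (nat_lit 625) (nat_lit 5617) (.d (nat_lit 564) (nat_lit 565) (nat_lit 1585) (nat_lit 592) (nat_lit 2608))))) (.a (.f (nat_lit 467) (nat_lit 499) (nat_lit 6610) (.f (nat_lit 466) (nat_lit 435) (nat_lit 6578) (.d (nat_lit 465) (nat_lit 433) (nat_lit 7601) (nat_lit 497) (nat_lit 7633)))) (.f (nat_lit 625) (nat_lit 593) (nat_lit 5617) (.f (nat_lit 626) (nat_lit 657) (nat_lit 5649) (.d (nat_lit 499) (nat_lit 467) (nat_lit 6610) (nat_lit 531) (nat_lit 6642)))))))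 (.a (.p (nat_lit 498) (.a (.f (nat_lit 595) (nat_lit 627) (nat_lit 4594) (.f (nat_lit 563) (nat_lit 466) (nat_lit 4562) (.f (nat_lit 593) (nat_lit 625) (nat_lit 5617) (.d (nat_lit 564) (nat_lit 565) (nat_lit 1585) (nat_lit 592) (nat_lit 2608))))) (.a (.f (nat_lit 625) (nat_lit 593) (nat_lit 5617) (.f (nat_lit 626) (nat_lit 657) (nat_lit 5649) (.d (nat_lit 499) (nat_lit 467) (nat_lit 6610) (nat_lit 531) (nat_lit 6642)))) (.f (nat_lit 467) (nat_lit 499) (nat_lit 6610) (.f (nat_lit 466) (nat_lit 435) (nat_lit 6578) (.d (nat_lit 595) (nat_lit 563) (nat_lit 4562) (nat_lit 627) (nat_lit 4594))))))) (.a (.p (nat_lit 498) (.a (.f (nat_lit 467) (nat_lit 499) (nat_lit 6610) (.f (nat_lit 466) (nat_lit 435) (nat_lit 6578) (.d (nat_lit 465) (nat_lit 433) (nat_lit 7601) (nat_lit 497) (nat_lit 7633)))) (.a (.f (nat_lit 625) (nat_lit 593) (nat_lit 5617) (.f (nat_lit 626) (nat_lit 657) (nat_lit 5649) (.d (nat_lit 499) (nat_lit 467) (nat_lit 6610)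 (nat_lit 531) (nat_lit 6642)))) (.f (nat_lit 595) (nat_lit 627) (nat_lit 4594) (.f (nat_lit 466) (nat_lit 563) (nat_lit 4562) (.d (nat_lit 465) (nat_lit 433) (nat_lit 7601) (nat_lit 497) (nat_lit 7633))))))) (.a (.p (nat_lit 498) (.a (.f (nat_lit 595) (nat_lit 627) (nat_lit 4594) (.f (nat_lit 563) (nat_lit 466) (nat_lit 4562) (.f (nat_lit 593) (nat_lit 625) (nat_lit 5617) (.d (nat_lit 564) (nat_lit 565) (nat_lit 1585) (nat_lit 592) (nat_lit 2608))))) (.a (.f (nat_lit 467) (nat_lit 499) (nat_lit 6610) (.f (nat_lit 466) (nat_lit 435) (nat_lit 6578) (.d (nat_lit 465) (nat_lit 433) (nat_lit 7601) (nat_lit 497) (nat_lit 7633)))) (.f (nat_lit 625) (nat_lit 593) (nat_lit 5617) (.f (nat_lit 626) (nat_lit 657) (nat_lit 5649) (.d (nat_lit 627) (nat_lit 595) (nat_lit 4594) (nat_lit 659) (nat_lit 4626))))))) (.a s4341 (.a s3449 (.a (.p (nat_lit 498) (.a (.f (nat_lit 467) (nat_lit 499) (nat_lit 6610) (.f (nat_lit 466) (nat_lit 435) (nat_lit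 6578) (.d (nat_lit 465) (nat_lit 433) (nat_lit 7601) (nat_lit 497) (nat_lit 7633)))) (.a (.f (nat_lit 625) (nat_lit 593) (nat_lit 5617) (.f (nat_lit 626) (nat_lit 657) (nat_lit 5649) (.d (nat_lit 499) (nat_lit 467) (nat_lit 6610) (nat_lit 531) (nat_lit 6642)))) (.f (nat_lit 625) (nat_lit 593) (nat_lit 5617) (.f (nat_lit 626) (nat_lit 657) (nat_lit 5649) (.d (nat_lit 627) (nat_lit 595) (nat_lit 4594) (nat_lit 659) (nat_lit 4626))))))) (.a (.p (nat_lit 498) (.a (.f (nat_lit 595) (nat_lit 627) (nat_lit 4594) (.f (nat_lit 563) (nat_lit 466) (nat_lit 4562) (.f (nat_lit 593) (nat_lit 625) (nat_lit 5617) (.d (nat_lit 564) (nat_lit 565) (nat_lit 1585) (nat_lit 592) (nat_lit 2608))))) (.a (.f (nat_lit 593) (nat_lit 625) (nat_lit 5617) (.f (nat_lit 561) (nat_lit 466) (nat_lit 5585) (.d (nat_lit 595) (nat_lit 596) (nat_lit 3632) (nat_lit 627) (nat_lit 4594)))) (.a (.f (nat_lit 595) (nat_lit 627) (nat_lit 4594) (.f (nat_lit 466) (nat_lit 563)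 (nat_lit 4562) (.d (nat_lit 465) (nat_lit 433) (nat_lit 7601) (nat_lit 497) (nat_lit 7633)))) (.a (.f (nat_lit 625) (nat_lit 593) (nat_lit 5617) (.f (nat_lit 626) (nat_lit 657) (nat_lit 5649) (.d (nat_lit 627) (nat_lit 595) (nat_lit 4594) (nat_lit 659) (nat_lit 4626)))) (.f (nat_lit 593) (nat_lit 625) (nat_lit 5617) (.f (nat_lit 561) (nat_lit 466) (nat_lit 5585) (.f (nat_lit 563) (nat_lit 527) (nat_lit 3599) (.d (nat_lit 564) (nat_lit 565) (nat_lit 1585) (nat_lit 592) (nat_lit 1584)))))))))) (.a (.p (nat_lit 498) (.a (.f (nat_lit 595) (nat_lit 627) (nat_lit 4594) (.f (nat_lit 563) (nat_lit 466) (nat_lit 4562) (.f (nat_lit 593) (nat_lit 625) (nat_lit 5617) (.d (nat_lit 564) (nat_lit 565) (nat_lit 1585) (nat_lit 592) (nat_lit 2608))))) (.a (.f (nat_lit 467) (nat_lit 499) (nat_lit 6610) (.f (nat_lit 466) (nat_lit 435) (nat_lit 6578) (.d (nat_lit 465) (nat_lit 433) (nat_lit 7601) (nat_lit 497) (nat_lit 7633)))) (.f (nat_lit 593) (nat_lit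 625) (nat_lit 5617) (.f (nat_lit 595) (nat_lit 627) (nat_lit 4594) (.f (nat_lit 596) (nat_lit 561) (nat_lit 3632) (.f (nat_lit 564) (nat_lit 565) (nat_lit 2609) (.f (nat_lit 563) (nat_lit 592) (nat_lit 2608) (.f (nat_lit 628) (nat_lit 629) (nat_lit 593) (.d (nat_lit 499) (nat_lit 467) (nat_lit 6610) (nat_lit 531) (nat_lit 4595))))))))))) (.a s3908 s3460)))))))))))
noncomputable def s4369 : Cert := .r (nat_lit 64836180782635327105257550133865756107099233344784774323566786510389197141567267213334914537603630284999823986032247621314213099342709661479114454765656505907541824002709199519744) (.p (nat_lit 498) (.a (.f (nat_lit 595) (nat_lit 627) (nat_lit 4594) (.f (nat_lit 561) (nat_lit 559) (nat_lit 559) (.d (nat_lit 593) (nat_lit 596) (nat_lit 3632) (nat_lit 625) (nat_lit 5617)))) (.a (.f (nat_lit 625) (nat_lit 593) (nat_lit 5617) (.f (nat_lit 626) (nat_lit 657) (nat_lit 5649) (.d (nat_lit 627) (nat_lit 595) (nat_lit 4594) (nat_lit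 659) (nat_lit 4626)))) (.a (.f (nat_lit 499) (nat_lit 467) (nat_lit 6610) (.f (nat_lit 529) (nat_lit 527) (nat_lit 2543) (.f (nat_lit 627) (nat_lit 595) (nat_lit 4594) (.f (nat_lit 626) (nat_lit 659) (nat_lit 4626) (.f (nat_lit 561) (nat_lit 658) (nat_lit 7697) (.f (nat_lit 559) (nat_lit 558) (nat_lit 2574) (.f (nat_lit 625) (nat_lit 657) (nat_lit 5649) (.f (nat_lit 591) (nat_lit 590) (nat_lit 1582) (.f (nat_lit 624) (nat_lit 592) (nat_lit 3663) (.d (nat_lit 655) (nat_lit 623) (nat_lit 6671) (nat_lit 656) (nat_lit 1647))))))))))) (.a (.f (nat_lit 595) (nat_lit 627) (nat_lit 4594) (.f (nat_lit 561) (nat_lit 559) (nat_lit 559) (.d (nat_lit 593) (nat_lit 466) (nat_lit 5585) (nat_lit 596) (nat_lit 3632)))) (.a s3474 (.f (nat_lit 593) (nat_lit 625) (nat_lit 5617) (.f (nat_lit 561) (nat_lit 466) (nat_lit 5585) (.d (nat_lit 559) (nat_lit 558) (nat_lit 558) (nat_lit 595) (nat_lit 559))))))))))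
noncomputable def s4376 : Cert := .r (nat_lit 64836180782635327105257550133865756107099233344784774323566786510389197141567267213334914537603630284999823986032247621314213099342709661479114454765656505907541824002709199519744) (.p (nat_lit 498) (.a (.f (nat_lit 499) (nat_lit 467) (nat_lit 6610) (.f (nat_lit 529) (nat_lit 527) (nat_lit 2543) (.d (nat_lit 500) (nat_lit 501) (nat_lit 1521) (nat_lit 531) (nat_lit 2544)))) (.a (.f (nat_lit 499) (nat_lit 467) (nat_lit 6610) (.f (nat_lit 531) (nat_lit 626) (nat_lit 6642) (.d (nat_lit 529) (nat_lit 500) (nat_lit 2544) (nat_lit 559) (nat_lit 1551)))) (.a (.f (nat_lit 499) (nat_lit 467) (nat_lit 6610) (.f (nat_lit 626) (nat_lit 531) (nat_lit 6642) (.d (nat_lit 627) (nat_lit 595) (nat_lit 4594) (nat_lit 659) (nat_lit 4626)))) (.f (nat_lit 595) (nat_lit 627) (nat_lit 4594) (.f (nat_lit 561) (nat_lit 559) (nat_lit 559) (.d (nat_lit 593) (nat_lit 466) (nat_lit 5585) (nat_lit 596) (nat_lit 3632))))))))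
noncomputable def s4379 : Cert := .r (nat_lit 64836180782635327101742773731878883933028500135655100996324835636715824771957301922231916427704030386313073450013582889165837387910271462164107996909801584275503921517658290257920) (.p (nat_lit 530) (.a s3715 (.a (.p (nat_lit 498) (.a (.f (nat_lit 499) (nat_lit 467) (nat_lit 6610) (.f (nat_lit 529) (nat_lit 527) (nat_lit 2543) (.d (nat_lit 500) (nat_lit 501) (nat_lit 1521) (nat_lit 531) (nat_lit 2544)))) (.a (.f (nat_lit 625) (nat_lit 593) (nat_lit 5617) (.f (nat_lit 626) (nat_lit 657) (nat_lit 5649) (.d (nat_lit 499) (nat_lit 467) (nat_lit 6610) (nat_lit 531) (nat_lit 6642)))) (.f (nat_lit 625) (nat_lit 593) (nat_lit 5617) (.f (nat_lit 626) (nat_lit 657) (nat_lit 5649) (.d (nat_lit 627) (nat_lit 595) (nat_lit 4594) (nat_lit 659) (nat_lit 4626))))))) (.a s4369 (.a s3813 (.a (.p (nat_lit 498) (.a (.f (nat_lit 499) (nat_lit 467) (nat_lit 6610) (.f (nat_lit 529) (nat_lit 527) (nat_lit 2543)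 (.d (nat_lit 500) (nat_lit 501) (nat_lit 1521) (nat_lit 531) (nat_lit 2544)))) (.a (.f (nat_lit 499) (nat_lit 467) (nat_lit 6610) (.f (nat_lit 531) (nat_lit 626) (nat_lit 6642) (.d (nat_lit 529) (nat_lit 500) (nat_lit 2544) (nat_lit 559) (nat_lit 1551)))) (.a (.f (nat_lit 499) (nat_lit 467) (nat_lit 6610) (.f (nat_lit 626) (nat_lit 531) (nat_lit 6642) (.d (nat_lit 627) (nat_lit 595) (nat_lit 4594) (nat_lit 659) (nat_lit 4626)))) (.a (.f (nat_lit 499) (nat_lit 467) (nat_lit 6610) (.f (nat_lit 529) (nat_lit 527) (nat_lit 2543) (.f (nat_lit 627) (nat_lit 595) (nat_lit 4594) (.f (nat_lit 626) (nat_lit 659) (nat_lit 4626) (.f (nat_lit 561) (nat_lit 658) (nat_lit 7697) (.f (nat_lit 559) (nat_lit 558) (nat_lit 2574) (.f (nat_lit 625) (nat_lit 657) (nat_lit 5649) (.f (nat_lit 591) (nat_lit 590) (nat_lit 1582) (.f (nat_lit 624) (nat_lit 592) (nat_lit 3663) (.d (nat_lit 655) (nat_lit 623) (nat_lit 6671) (nat_lit 656) (nat_lit 1647)))))))))))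 (.f (nat_lit 595) (nat_lit 627) (nat_lit 4594) (.f (nat_lit 559) (nat_lit 561) (nat_lit 559) (.f (nat_lit 529) (nat_lit 531) (nat_lit 1551) (.d (nat_lit 558) (nat_lit 527) (nat_lit 1550) (nat_lit 557) (nat_lit 2573)))))))))) (.a (.p (nat_lit 498) (.a (.f (nat_lit 593) (nat_lit 625) (nat_lit 5617) (.f (nat_lit 561) (nat_lit 466) (nat_lit 5585) (.d (nat_lit 559) (nat_lit 531) (nat_lit 2575) (nat_lit 558) (nat_lit 558)))) (.a (.f (nat_lit 625) (nat_lit 593) (nat_lit 5617) (.f (nat_lit 626) (nat_lit 657) (nat_lit 5649) (.d (nat_lit 627) (nat_lit 595) (nat_lit 4594) (nat_lit 659) (nat_lit 4626)))) (.f (nat_lit 595) (nat_lit 627) (nat_lit 4594) (.f (nat_lit 559) (nat_lit 561) (nat_lit 559) (.f (nat_lit 529) (nat_lit 531) (nat_lit 1551) (.d (nat_lit 558) (nat_lit 527) (nat_lit 1550) (nat_lit 557) (nat_lit 2573)))))))) (.a s4376 (.a (.p (nat_lit 498) (.a (.f (nat_lit 593) (nat_lit 625) (nat_lit 5617) (.f (nat_lit 561) (nat_lit 466) (nat_lit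 5585) (.d (nat_lit 559) (nat_lit 531) (nat_lit 2575) (nat_lit 558) (nat_lit 558)))) (.a (.f (nat_lit 499) (nat_lit 467) (nat_lit 6610) (.f (nat_lit 529) (nat_lit 527) (nat_lit 2543) (.d (nat_lit 500) (nat_lit 501) (nat_lit 1521) (nat_lit 531) (nat_lit 2544)))) (.f (nat_lit 595) (nat_lit 627) (nat_lit 4594) (.f (nat_lit 561) (nat_lit 559) (nat_lit 559) (.d (nat_lit 593) (nat_lit 596) (nat_lit 3632) (nat_lit 625) (nat_lit 5617))))))) (.p (nat_lit 498) (.a (.f (nat_lit 593) (nat_lit 625) (nat_lit 5617) (.f (nat_lit 561) (nat_lit 466) (nat_lit 5585) (.d (nat_lit 559) (nat_lit 531) (nat_lit 2575) (nat_lit 558) (nat_lit 558)))) (.a (.f (nat_lit 499) (nat_lit 467) (nat_lit 6610) (.f (nat_lit 529) (nat_lit 527) (nat_lit 2543) (.d (nat_lit 500) (nat_lit 501) (nat_lit 1521) (nat_lit 531) (nat_lit 2544)))) (.f (nat_lit 593) (nat_lit 625) (nat_lit 5617) (.f (nat_lit 561) (nat_lit 466) (nat_lit 5585) (.d (nat_lit 559) (nat_lit 558) (nat_lit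 558) (nat_lit 595) (nat_lit 559))))))))))))))))
noncomputable def s4383 : Cert := .r (nat_lit 64836180782635327105257550133865756107099233344784774323566786510389197141567267213334914537603630284999823986032247621314213099342709661479114454765656505907541824002709199519744) (.p (nat_lit 498) (.a (.f (nat_lit 499) (nat_lit 467) (nat_lit 6610) (.f (nat_lit 529) (nat_lit 527) (nat_lit 2543) (.d (nat_lit 500) (nat_lit 501) (nat_lit 1521) (nat_lit 531) (nat_lit 2544)))) (.a (.f (nat_lit 499) (nat_lit 467) (nat_lit 6610) (.f (nat_lit 531) (nat_lit 626) (nat_lit 6642) (.f (nat_lit 595) (nat_lit 627) (nat_lit 4594) (.f (nat_lit 563) (nat_lit 466) (nat_lit 4562) (.d (nat_lit 500) (nat_lit 468) (nat_lit 6611) (nat_lit 529) (nat_lit 2544)))))) (.a (.f (nat_lit 467) (nat_lit 499) (nat_lit 6610) (.f (nat_lit 466) (nat_lit 435) (nat_lit 6578) (.d (nat_lit 595) (nat_lit 563) (nat_lit 4562) (nat_lit 627) (nat_lit 4594)))) (.f (nat_lit 595) (nat_lit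 627) (nat_lit 4594) (.f (nat_lit 563) (nat_lit 466) (nat_lit 4562) (.d (nat_lit 527) (nat_lit 529) (nat_lit 527) (nat_lit 561) (nat_lit 3599))))))))
noncomputable def s4386 : Cert := .r (nat_lit 64836180782635327101742773731878883933028500135655100996324835636715824771957301922231916427704030386313073450013582889165837387910271462164107996909801584275503921517658290257920) (.p (nat_lit 530) (.a (.p (nat_lit 498) (.a (.f (nat_lit 595) (nat_lit 627) (nat_lit 4594) (.f (nat_lit 563) (nat_lit 466) (nat_lit 4562) (.f (nat_lit 593) (nat_lit 625) (nat_lit 5617) (.d (nat_lit 564) (nat_lit 565) (nat_lit 1585) (nat_lit 592) (nat_lit 2608))))) (.a (.f (nat_lit 625) (nat_lit 593) (nat_lit 5617) (.f (nat_lit 626) (nat_lit 657) (nat_lit 5649) (.d (nat_lit 499) (nat_lit 467) (nat_lit 6610) (nat_lit 531) (nat_lit 6642)))) (.f (nat_lit 467) (nat_lit 499) (nat_lit 6610) (.f (nat_lit 466) (nat_lit 435) (nat_lit 6578) (.d (nat_lit 595) (nat_lit 563)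 (nat_lit 4562) (nat_lit 627) (nat_lit 4594))))))) (.a (.p (nat_lit 498) (.a (.f (nat_lit 499) (nat_lit 467) (nat_lit 6610) (.f (nat_lit 529) (nat_lit 527) (nat_lit 2543) (.d (nat_lit 500) (nat_lit 501) (nat_lit 1521) (nat_lit 531) (nat_lit 2544)))) (.a (.f (nat_lit 625) (nat_lit 593) (nat_lit 5617) (.f (nat_lit 626) (nat_lit 657) (nat_lit 5649) (.d (nat_lit 499) (nat_lit 467) (nat_lit 6610) (nat_lit 531) (nat_lit 6642)))) (.f (nat_lit 625) (nat_lit 593) (nat_lit 5617) (.f (nat_lit 626) (nat_lit 657) (nat_lit 5649) (.d (nat_lit 627) (nat_lit 595) (nat_lit 4594) (nat_lit 659) (nat_lit 4626))))))) (.a s3577 (.a s4341 (.a s4383 (.a (.p (nat_lit 498) (.a (.f (nat_lit 595) (nat_lit 627) (nat_lit 4594) (.f (nat_lit 563) (nat_lit 466) (nat_lit 4562) (.f (nat_lit 593) (nat_lit 625) (nat_lit 5617) (.d (nat_lit 564) (nat_lit 565) (nat_lit 1585) (nat_lit 592) (nat_lit 2608))))) (.a (.f (nat_lit 593) (nat_lit 625) (nat_lit 5617) (.f (nat_lit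 561) (nat_lit 466) (nat_lit 5585) (.d (nat_lit 595) (nat_lit 596) (nat_lit 3632) (nat_lit 627) (nat_lit 4594)))) (.a (.f (nat_lit 595) (nat_lit 627) (nat_lit 4594) (.f (nat_lit 563) (nat_lit 466) (nat_lit 4562) (.d (nat_lit 527) (nat_lit 529) (nat_lit 527) (nat_lit 561) (nat_lit 3599)))) (.a (.f (nat_lit 625) (nat_lit 593) (nat_lit 5617) (.f (nat_lit 626) (nat_lit 657) (nat_lit 5649) (.d (nat_lit 627) (nat_lit 595) (nat_lit 4594) (nat_lit 659) (nat_lit 4626)))) (.f (nat_lit 593) (nat_lit 625) (nat_lit 5617) (.f (nat_lit 561) (nat_lit 466) (nat_lit 5585) (.f (nat_lit 563) (nat_lit 527) (nat_lit 3599) (.d (nat_lit 564) (nat_lit 565) (nat_lit 1585) (nat_lit 592) (nat_lit 1584)))))))))) (.a (.p (nat_lit 498) (.a (.f (nat_lit 595) (nat_lit 627) (nat_lit 4594) (.f (nat_lit 563) (nat_lit 466) (nat_lit 4562) (.f (nat_lit 593) (nat_lit 625) (nat_lit 5617) (.d (nat_lit 564) (nat_lit 565) (nat_lit 1585) (nat_lit 592) (nat_lit 2608))))) (.f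 (nat_lit 499) (nat_lit 467) (nat_lit 6610) (.f (nat_lit 529) (nat_lit 527) (nat_lit 2543) (.d (nat_lit 500) (nat_lit 501) (nat_lit 1521) (nat_lit 531) (nat_lit 2544)))))) (.a s3908 (.p (nat_lit 498) (.a (.f (nat_lit 593) (nat_lit 625) (nat_lit 5617) (.f (nat_lit 561) (nat_lit 466) (nat_lit 5585) (.f (nat_lit 563) (nat_lit 527) (nat_lit 3599) (.d (nat_lit 564) (nat_lit 565) (nat_lit 1585) (nat_lit 592) (nat_lit 1584))))) (.a (.f (nat_lit 625) (nat_lit 593) (nat_lit 5617) (.f (nat_lit 626) (nat_lit 657) (nat_lit 5649) (.d (nat_lit 499) (nat_lit 467) (nat_lit 6610) (nat_lit 531) (nat_lit 6642)))) (.f (nat_lit 499) (nat_lit 467) (nat_lit 6610) (.f (nat_lit 529) (nat_lit 527) (nat_lit 2543) (.d (nat_lit 500) (nat_lit 501) (nat_lit 1521) (nat_lit 531) (nat_lit 2544))))))))))))))))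
noncomputable def s4403 : Cert := .r (nat_lit 64836180782635327101742773731878883933028500135655100996324835636715824771957301922231916427704030386313073450013582889165837387910271462164107996909801584275503921517658290257920) (.p (nat_lit 530) (.a (.p (nat_lit 626) (.a (.f (nat_lit 531) (nat_lit 499) (nat_lit 6642) (.f (nat_lit 561) (nat_lit 559) (nat_lit 2575) (.d (nat_lit 532) (nat_lit 533) (nat_lit 1553) (nat_lit 563) (nat_lit 2576)))) (.a (.f (nat_lit 531) (nat_lit 499) (nat_lit 6642) (.f (nat_lit 658) (nat_lit 563) (nat_lit 6674) (.d (nat_lit 657) (nat_lit 625) (nat_lit 5649) (nat_lit 689) (nat_lit 5681)))) (.f (nat_lit 657) (nat_lit 625) (nat_lit 5649) (.f (nat_lit 658) (nat_lit 689) (nat_lit 5681) (.d (nat_lit 659) (nat_lit 627) (nat_lit 4626) (nat_lit 691) (nat_lit 4658))))))) (.a s3908 (.a (.p (nat_lit 498) (.a (.f (nat_lit 593) (nat_lit 625) (nat_lit 5617) (.f (nat_lit 561) (nat_lit 466) (nat_lit 5585) (.f (nat_lit 563)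 (nat_lit 527) (nat_lit 3599) (.d (nat_lit 564) (nat_lit 565) (nat_lit 1585) (nat_lit 592) (nat_lit 1584))))) (.a (.f (nat_lit 593) (nat_lit 625) (nat_lit 5617) (.f (nat_lit 561) (nat_lit 466) (nat_lit 5585) (.f (nat_lit 559) (nat_lit 558) (nat_lit 558) (.f (nat_lit 591) (nat_lit 590) (nat_lit 1582) (.f (nat_lit 592) (nat_lit 563) (nat_lit 1583) (.d (nat_lit 623) (nat_lit 622) (nat_lit 1614) (nat_lit 655) (nat_lit 6671))))))) (.a s3474 (.a (.f (nat_lit 593) (nat_lit 625) (nat_lit 5617) (.f (nat_lit 561) (nat_lit 466) (nat_lit 5585) (.f (nat_lit 563) (nat_lit 527) (nat_lit 3599) (.d (nat_lit 564) (nat_lit 529) (nat_lit 3600) (nat_lit 565) (nat_lit 1585))))) (.f (nat_lit 467) (nat_lit 499) (nat_lit 6610) (.f (nat_lit 466) (nat_lit 435) (nat_lit 6578) (.f (nat_lit 433) (nat_lit 465) (nat_lit 7601) (.f (nat_lit 434) (nat_lit 401) (nat_lit 7569) (.f (nat_lit 529) (nat_lit 561) (nat_lit 5553) (.f (nat_lit 527) (nat_lit 563) (nat_lit 527)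 (.f (nat_lit 495) (nat_lit 494) (nat_lit 3566) (.d (nat_lit 431) (nat_lit 432) (nat_lit 431) (nat_lit 463) (nat_lit 4527)))))))))))))) (.a s3813 (.p (nat_lit 561) (.a (.f (nat_lit 531) (nat_lit 559) (nat_lit 2575) (.d (nat_lit 532) (nat_lit 533) (nat_lit 1553) (nat_lit 563) (nat_lit 2576))) (.a (.f (nat_lit 563) (nat_lit 527) (nat_lit 3599) (.f (nat_lit 564) (nat_lit 529) (nat_lit 3600) (.d (nat_lit 592) (nat_lit 591) (nat_lit 1583) (nat_lit 593) (nat_lit 1584)))) (.f (nat_lit 559) (nat_lit 531) (nat_lit 2575) (.d (nat_lit 558) (nat_lit 529) (nat_lit 2574) (nat_lit 593) (nat_lit 558)))))))))))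
noncomputable def s4412 : Cert := .r (nat_lit 64836180782635327101742773731878883933028500135655100996324835636715824771957301922231916427704030386313073450013582889165837387910271462164107996909801584275503921517658290257920) (.p (nat_lit 561) (.a (.f (nat_lit 563) (nat_lit 527) (nat_lit 3599) (.d (nat_lit 595) (nat_lit 559) (nat_lit 559) (nat_lit 596) (nat_lit 560))) (.a (.f (nat_lit 559) (nat_lit 595) (nat_lit 559) (.f (nat_lit 558) (nat_lit 593) (nat_lit 558) (.d (nat_lit 590) (nat_lit 589) (nat_lit 1581) (nat_lit 591) (nat_lit 1582)))) (.a (.f (nat_lit 563) (nat_lit 527) (nat_lit 3599) (.f (nat_lit 564) (nat_lit 529) (nat_lit 3600) (.d (nat_lit 596) (nat_lit 595) (nat_lit 560) (nat_lit 597) (nat_lit 561)))) (.f (nat_lit 563) (nat_lit 527) (nat_lit 3599) (.f (nat_lit 529) (nat_lit 564) (nat_lit 3600) (.f (nat_lit 497) (nat_lit 465) (nat_lit 4561) (.d (nat_lit 626) (nat_lit 530) (nat_lit 7665) (nat_lit 593) (nat_lit 4593)))))))))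
noncomputable def s4424 : Cert := .r (nat_lit 64836180782635327105257550133865756107099233344784774323566786510389197141567267213334914537603630284999823986032247621314213099342709661479114454765656505907541824002709199519744) (.p (nat_lit 498) (.a (.f (nat_lit 497) (nat_lit 465) (nat_lit 7633) (.f (nat_lit 529) (nat_lit 626) (nat_lit 7665) (.d (nat_lit 499) (nat_lit 467) (nat_lit 6610) (nat_lit 500) (nat_lit 1520)))) (.a (.f (nat_lit 467) (nat_lit 499) (nat_lit 6610) (.f (nat_lit 466) (nat_lit 435) (nat_lit 6578) (.d (nat_lit 465) (nat_lit 433) (nat_lit 7601) (nat_lit 497) (nat_lit 7633)))) (.a (.f (nat_lit 467) (nat_lit 499) (nat_lit 6610) (.f (nat_lit 466) (nat_lit 435) (nat_lit 6578) (.f (nat_lit 433) (nat_lit 465) (nat_lit 7601) (.f (nat_lit 434) (nat_lit 401) (nat_lit 7569) (.f (nat_lit 529) (nat_lit 561) (nat_lit 5553) (.f (nat_lit 527) (nat_lit 563) (nat_lit 527) (.f (nat_lit 495) (nat_lit 494) (nat_lit 3566) (.d (nat_lit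 431) (nat_lit 432) (nat_lit 431) (nat_lit 463) (nat_lit 4527))))))))) (.a (.f (nat_lit 497) (nat_lit 465) (nat_lit 7633) (.f (nat_lit 529) (nat_lit 626) (nat_lit 7665) (.f (nat_lit 563) (nat_lit 527) (nat_lit 527) (.d (nat_lit 564) (nat_lit 561) (nat_lit 3600) (nat_lit 565) (nat_lit 3601))))) (.f (nat_lit 499) (nat_lit 467) (nat_lit 6610) (.f (nat_lit 529) (nat_lit 527) (nat_lit 2543) (.d (nat_lit 497) (nat_lit 500) (nat_lit 1520) (nat_lit 626) (nat_lit 7665)))))))))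
noncomputable def s4425 : Cert := .r (nat_lit 64836180782635327101742773731878883933028500135655100996324835636715824771957301922231916427704030386313073450013582889165837387910271462164107996909801584275503921517658290257920) (.p (nat_lit 530) (.a s3736 (.a s3449 (.a s4383 (.a s3499 (.a (.p (nat_lit 529) (.a (.f (nat_lit 626) (nat_lit 497) (nat_lit 7665) (.f (nat_lit 657) (nat_lit 625) (nat_lit 5649) (.f (nat_lit 658) (nat_lit 689) (nat_lit 5681) (.d (nat_lit 659) (nat_lit 627) (nat_lit 4626) (nat_lit 691) (nat_lit 4658))))) (.f (nat_lit 563) (nat_lit 527) (nat_lit 527) (.d (nat_lit 564) (nat_lit 531) (nat_lit 528) (nat_lit 561) (nat_lit 3600))))) (.a s3982 (.a (.p (nat_lit 498) (.a (.f (nat_lit 467) (nat_lit 499) (nat_lit 6610) (.f (nat_lit 466) (nat_lit 435) (nat_lit 6578) (.d (nat_lit 465) (nat_lit 433) (nat_lit 7601) (nat_lit 497) (nat_lit 7633)))) (.a (.f (nat_lit 499) (nat_lit 467) (nat_lit 6610) (.f (nat_lit 529) (nat_lit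 527) (nat_lit 2543) (.d (nat_lit 500) (nat_lit 501) (nat_lit 1521) (nat_lit 531) (nat_lit 2544)))) (.f (nat_lit 595) (nat_lit 627) (nat_lit 4594) (.f (nat_lit 466) (nat_lit 563) (nat_lit 4562) (.d (nat_lit 465) (nat_lit 433) (nat_lit 7601) (nat_lit 497) (nat_lit 7633))))))) s4424))))))))
noncomputable def s4427 : Cert := .r (nat_lit 64836180782635327101742773731878883933028500135655100996324835636715824771957301922231916427704030386313073450013582889165837387910271462164107996909801584275503921517658290257920) (.p (nat_lit 530) (.a s3695 (.a (.p (nat_lit 626) (.a (.f (nat_lit 531) (nat_lit 499) (nat_lit 6642) (.f (nat_lit 561) (nat_lit 559) (nat_lit 2575) (.d (nat_lit 532) (nat_lit 533) (nat_lit 1553) (nat_lit 563) (nat_lit 2576)))) (.a (.f (nat_lit 531) (nat_lit 499) (nat_lit 6642) (.f (nat_lit 658) (nat_lit 563) (nat_lit 6674) (.d (nat_lit 657) (nat_lit 625) (nat_lit 5649) (nat_lit 689) (nat_lit 5681)))) (.f (nat_lit 657) (nat_lit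 625) (nat_lit 5649) (.f (nat_lit 658) (nat_lit 689) (nat_lit 5681) (.d (nat_lit 659) (nat_lit 627) (nat_lit 4626) (nat_lit 691) (nat_lit 4658))))))) (.a (.p (nat_lit 498) (.a (.f (nat_lit 497) (nat_lit 465) (nat_lit 7633) (.f (nat_lit 529) (nat_lit 626) (nat_lit 7665) (.d (nat_lit 499) (nat_lit 467) (nat_lit 6610) (nat_lit 500) (nat_lit 1520)))) (.a (.f (nat_lit 467) (nat_lit 499) (nat_lit 6610) (.f (nat_lit 466) (nat_lit 435) (nat_lit 6578) (.d (nat_lit 465) (nat_lit 433) (nat_lit 7601) (nat_lit 497) (nat_lit 7633)))) (.f (nat_lit 593) (nat_lit 625) (nat_lit 5617) (.f (nat_lit 561) (nat_lit 466) (nat_lit 5585) (.f (nat_lit 563) (nat_lit 527) (nat_lit 3599) (.d (nat_lit 564) (nat_lit 529) (nat_lit 3600) (nat_lit 565) (nat_lit 1585)))))))) (.a (.p (nat_lit 529) (.a (.f (nat_lit 626) (nat_lit 497) (nat_lit 7665) (.f (nat_lit 657) (nat_lit 625) (nat_lit 5649) (.f (nat_lit 658) (nat_lit 689) (nat_lit 5681) (.d (nat_lit 659) (nat_lit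 627) (nat_lit 4626) (nat_lit 691) (nat_lit 4658))))) (.f (nat_lit 563) (nat_lit 527) (nat_lit 527) (.d (nat_lit 564) (nat_lit 531) (nat_lit 528) (nat_lit 561) (nat_lit 3600))))) (.a s3730 (.p (nat_lit 498) (.a (.f (nat_lit 593) (nat_lit 625) (nat_lit 5617) (.f (nat_lit 561) (nat_lit 466) (nat_lit 5585) (.d (nat_lit 559) (nat_lit 531) (nat_lit 2575) (nat_lit 558) (nat_lit 558)))) (.a (.f (nat_lit 467) (nat_lit 499) (nat_lit 6610) (.f (nat_lit 466) (nat_lit 435) (nat_lit 6578) (.d (nat_lit 465) (nat_lit 433) (nat_lit 7601) (nat_lit 497) (nat_lit 7633)))) (.f (nat_lit 499) (nat_lit 467) (nat_lit 6610) (.f (nat_lit 529) (nat_lit 527) (nat_lit 2543) (.d (nat_lit 500) (nat_lit 501) (nat_lit 1521) (nat_lit 531) (nat_lit 2544)))))))))))))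
noncomputable def s4459 : Cert := .r (nat_lit 81045225958480856146645701540456263855217792666684435255267110367315112115556477719537176679309147682040711374423103096786513067199516370940841931200313517922355878762597855526912) (.p (nat_lit 624) (.a (.f (nat_lit 529) (nat_lit 497) (nat_lit 6640) (.f (nat_lit 656) (nat_lit 561) (nat_lit 6672) (.d (nat_lit 527) (nat_lit 495) (nat_lit 7663) (nat_lit 559) (nat_lit 7695)))) (.a (.f (nat_lit 529) (nat_lit 497) (nat_lit 6640) (.f (nat_lit 656) (nat_lit 561) (nat_lit 6672) (.d (nat_lit 655) (nat_lit 623) (nat_lit 5647) (nat_lit 687) (nat_lit 5679)))) (.a (.f (nat_lit 527) (nat_lit 495) (nat_lit 7663) (.f (nat_lit 656) (nat_lit 559) (nat_lit 7695) (.d (nat_lit 655) (nat_lit 623) (nat_lit 5647) (nat_lit 687) (nat_lit 5679)))) (.f (nat_lit 623) (nat_lit 655) (nat_lit 5647) (.f (nat_lit 625) (nat_lit 657) (nat_lit 4624) (.f (nat_lit 626) (nat_lit 595) (nat_lit 2639) (.d (nat_lit 591) (nat_lit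 590) (nat_lit 3662) (nat_lit 627) (nat_lit 3663)))))))))
noncomputable def s4486 : Cert := .r (nat_lit 81045225958480856146645701540456263855217792666684435255267110367315112115556477719537176679309147682040711374423103096786513067199516370940841931200313517922355878762597855526912) (.p (nat_lit 593) (.a (.f (nat_lit 559) (nat_lit 595) (nat_lit 3631) (.d (nat_lit 558) (nat_lit 557) (nat_lit 557) (nat_lit 561) (nat_lit 558))) (.a (.f (nat_lit 559) (nat_lit 595) (nat_lit 3631) (.d (nat_lit 558) (nat_lit 557) (nat_lit 557) (nat_lit 591) (nat_lit 3630))) (.a (.p (nat_lit 591) (.a (.f (nat_lit 626) (nat_lit 627) (nat_lit 591) (.f (nat_lit 590) (nat_lit 625) (nat_lit 590) (.d (nat_lit 622) (nat_lit 621) (nat_lit 1613) (nat_lit 623) (nat_lit 1614)))) (.a (.f (nat_lit 622) (nat_lit 623) (nat_lit 1614) (.f (nat_lit 590) (nat_lit 621) (nat_lit 1613) (.f (nat_lit 557) (nat_lit 558) (nat_lit 3629) (.d (nat_lit 589) (nat_lit 556) (nat_lit 3628)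 (nat_lit 561) (nat_lit 2605))))) (.a (.f (nat_lit 626) (nat_lit 627) (nat_lit 591) (.f (nat_lit 590) (nat_lit 625) (nat_lit 590) (.f (nat_lit 589) (nat_lit 561) (nat_lit 2605) (.d (nat_lit 557) (nat_lit 556) (nat_lit 3628) (nat_lit 558) (nat_lit 3629))))) (.f (nat_lit 627) (nat_lit 626) (nat_lit 591) (.f (nat_lit 595) (nat_lit 628) (nat_lit 592) (.f (nat_lit 564) (nat_lit 563) (nat_lit 2608) (.d (nat_lit 596) (nat_lit 561) (nat_lit 3632) (nat_lit 565) (nat_lit 2609))))))))) (.a (.p (nat_lit 591) (.a (.f (nat_lit 626) (nat_lit 627) (nat_lit 591) (.f (nat_lit 590) (nat_lit 625) (nat_lit 590) (.d (nat_lit 622) (nat_lit 621) (nat_lit 1613) (nat_lit 623) (nat_lit 1614)))) (.a (.f (nat_lit 622) (nat_lit 623) (nat_lit 1614) (.f (nat_lit 590) (nat_lit 621) (nat_lit 1613) (.f (nat_lit 557) (nat_lit 558) (nat_lit 3629) (.d (nat_lit 589) (nat_lit 556) (nat_lit 3628) (nat_lit 561) (nat_lit 2605))))) (.a (.f (nat_lit 626) (nat_lit 627) (nat_lit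 591) (.f (nat_lit 590) (nat_lit 625) (nat_lit 590) (.f (nat_lit 589) (nat_lit 561) (nat_lit 2605) (.d (nat_lit 557) (nat_lit 556) (nat_lit 3628) (nat_lit 558) (nat_lit 3629))))) (.f (nat_lit 559) (nat_lit 558) (nat_lit 3630) (.d (nat_lit 623) (nat_lit 622) (nat_lit 1614) (nat_lit 655) (nat_lit 6671))))))) (.f (nat_lit 595) (nat_lit 559) (nat_lit 3631) (.f (nat_lit 596) (nat_lit 561) (nat_lit 3632) (.d (nat_lit 564) (nat_lit 563) (nat_lit 2608) (nat_lit 565) (nat_lit 2609)))))))))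
noncomputable def s4504 : Cert := .r (nat_lit 81045225958480856146645701540456263855217792666684435255267110367315112115556477719537176679309147682040711374423103096786513067199516370940841931200313517922355878762597855526912) (.p (nat_lit 624) (.a (.f (nat_lit 529) (nat_lit 497) (nat_lit 6640) (.f (nat_lit 656) (nat_lit 561) (nat_lit 6672) (.d (nat_lit 527) (nat_lit 495) (nat_lit 7663) (nat_lit 559) (nat_lit 7695)))) (.a (.f (nat_lit 529) (nat_lit 497) (nat_lit 6640) (.f (nat_lit 656) (nat_lit 561) (nat_lit 6672) (.d (nat_lit 655) (nat_lit 623) (nat_lit 5647) (nat_lit 687) (nat_lit 5679)))) (.a (.f (nat_lit 527) (nat_lit 495) (nat_lit 7663) (.f (nat_lit 656) (nat_lit 559) (nat_lit 7695) (.d (nat_lit 655) (nat_lit 623) (nat_lit 5647) (nat_lit 687) (nat_lit 5679)))) (.f (nat_lit 623) (nat_lit 655) (nat_lit 5647) (.f (nat_lit 593) (nat_lit 595) (nat_lit 1615) (.d (nat_lit 622) (nat_lit 621) (nat_lit 2637) (nat_lit 625) (nat_lit 2638))))))))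
noncomputable def s4511 : Cert := .r (nat_lit 81045225958480856146645701540456263855217792666684435255267110367315112115556477719537176679309147682040711374423103096786513067199516370940841931200313517922355878762597855526912) (.p (nat_lit 624) (.a (.f (nat_lit 529) (nat_lit 497) (nat_lit 6640) (.f (nat_lit 656) (nat_lit 561) (nat_lit 6672) (.d (nat_lit 527) (nat_lit 495) (nat_lit 7663) (nat_lit 559) (nat_lit 7695)))) (.a (.f (nat_lit 529) (nat_lit 497) (nat_lit 6640) (.f (nat_lit 656) (nat_lit 561) (nat_lit 6672) (.d (nat_lit 655) (nat_lit 623) (nat_lit 5647) (nat_lit 687) (nat_lit 5679)))) (.a (.f (nat_lit 527) (nat_lit 495) (nat_lit 7663) (.f (nat_lit 656) (nat_lit 559) (nat_lit 7695) (.d (nat_lit 655) (nat_lit 623) (nat_lit 5647) (nat_lit 687) (nat_lit 5679)))) (.f (nat_lit 623) (nat_lit 655) (nat_lit 5647) (.f (nat_lit 625) (nat_lit 657) (nat_lit 4624) (.f (nat_lit 622) (nat_lit 593) (nat_lit 2638) (.f (nat_lit 589) (nat_lit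 590) (nat_lit 3661) (.f (nat_lit 621) (nat_lit 588) (nat_lit 3660) (.d (nat_lit 653) (nat_lit 652) (nat_lit 1644) (nat_lit 654) (nat_lit 1645)))))))))))
noncomputable def s4535 : Cert := .r (nat_lit 81045225973576705845931866949422482179170868230352120136932872080819937316538974369105772087653654582751346444588976596909568446798598709460541101730559254928086662937195436834816) (.p (nat_lit 624) (.a (.f (nat_lit 655) (nat_lit 623) (nat_lit 5647) (.f (nat_lit 656) (nat_lit 687) (nat_lit 5679) (.d (nat_lit 657) (nat_lit 625) (nat_lit 4624) (nat_lit 689) (nat_lit 4656)))) (.a (.f (nat_lit 623) (nat_lit 655) (nat_lit 5647) (.f (nat_lit 593) (nat_lit 595) (nat_lit 1615) (.d (nat_lit 622) (nat_lit 591) (nat_lit 1614) (nat_lit 621) (nat_lit 2637)))) (.a (.f (nat_lit 657) (nat_lit 625) (nat_lit 4624) (.f (nat_lit 656) (nat_lit 689) (nat_lit 4656) (.f (nat_lit 687) (nat_lit 655) (nat_lit 5679) (.f (nat_lit 688) (nat_lit 719) (nat_lit 5711)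 (.f (nat_lit 561) (nat_lit 593) (nat_lit 6704) (.d (nat_lit 527) (nat_lit 495) (nat_lit 7663) (nat_lit 563) (nat_lit 3599))))))) (.f (nat_lit 527) (nat_lit 495) (nat_lit 7663) (.f (nat_lit 563) (nat_lit 561) (nat_lit 3599) (.f (nat_lit 593) (nat_lit 591) (nat_lit 2607) (.d (nat_lit 564) (nat_lit 565) (nat_lit 1585) (nat_lit 595) (nat_lit 2608)))))))))
noncomputable def s4547 : Cert := .r (nat_lit 81045225973576705845931866949422482179170868230352120136932872080819937316538974369105772087653654582751346444588976596909568446798598709460541101730559254928086662937195436834816) (.p (nat_lit 624) (.a (.f (nat_lit 655) (nat_lit 623) (nat_lit 5647) (.f (nat_lit 656) (nat_lit 687) (nat_lit 5679) (.d (nat_lit 657) (nat_lit 625) (nat_lit 4624) (nat_lit 689) (nat_lit 4656)))) (.a (.f (nat_lit 623) (nat_lit 655) (nat_lit 5647) (.f (nat_lit 593) (nat_lit 595) (nat_lit 1615) (.d (nat_lit 622) (nat_lit 591) (nat_lit 1614) (nat_lit 621) (nat_lit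 2637)))) (.f (nat_lit 529) (nat_lit 497) (nat_lit 6640) (.f (nat_lit 561) (nat_lit 656) (nat_lit 6672) (.f (nat_lit 625) (nat_lit 657) (nat_lit 4624) (.f (nat_lit 626) (nat_lit 658) (nat_lit 7697) (.f (nat_lit 627) (nat_lit 591) (nat_lit 3663) (.d (nat_lit 659) (nat_lit 530) (nat_lit 4626) (nat_lit 660) (nat_lit 624))))))))))
noncomputable def s4552 : Cert := .r (nat_lit 64836180782635327101742773731878883933028500135655100996324835636715824771957301922231916427704030386313073450013582889165837387910271462164107996909801584275503921517658290257920) (.p (nat_lit 592) (.a (.p (nat_lit 624) (.a (.f (nat_lit 655) (nat_lit 623) (nat_lit 5647) (.f (nat_lit 656) (nat_lit 687) (nat_lit 5679) (.d (nat_lit 657) (nat_lit 625) (nat_lit 4624) (nat_lit 689) (nat_lit 4656)))) (.a (.f (nat_lit 623) (nat_lit 655) (nat_lit 5647) (.f (nat_lit 593) (nat_lit 595) (nat_lit 1615) (.d (nat_lit 622) (nat_lit 591) (nat_lit 1614) (nat_lit 621) (nat_lit 2637))))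 (.f (nat_lit 529) (nat_lit 497) (nat_lit 6640) (.f (nat_lit 561) (nat_lit 656) (nat_lit 6672) (.d (nat_lit 563) (nat_lit 564) (nat_lit 3600) (nat_lit 591) (nat_lit 1583))))))) (.a s4000 (.a s4535 (.a (.p (nat_lit 624) (.a (.f (nat_lit 655) (nat_lit 623) (nat_lit 5647) (.f (nat_lit 656) (nat_lit 687) (nat_lit 5679) (.d (nat_lit 657) (nat_lit 625) (nat_lit 4624) (nat_lit 689) (nat_lit 4656)))) (.a (.f (nat_lit 529) (nat_lit 497) (nat_lit 6640) (.f (nat_lit 561) (nat_lit 656) (nat_lit 6672) (.d (nat_lit 563) (nat_lit 564) (nat_lit 3600) (nat_lit 591) (nat_lit 1583)))) (.f (nat_lit 625) (nat_lit 657) (nat_lit 4624) (.f (nat_lit 623) (nat_lit 655) (nat_lit 5647) (.f (nat_lit 626) (nat_lit 595) (nat_lit 2639) (.d (nat_lit 591) (nat_lit 590) (nat_lit 3662) (nat_lit 627) (nat_lit 3663)))))))) (.a (.p (nat_lit 563) (.a (.d (nat_lit 561) (nat_lit 527) (nat_lit 3599) (nat_lit 591) (nat_lit 1583)) (.a (.d (nat_lit 591) (nat_lit 561) (nat_lit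 1583) (nat_lit 593) (nat_lit 2607)) (.a (.f (nat_lit 593) (nat_lit 591) (nat_lit 2607) (.d (nat_lit 564) (nat_lit 565) (nat_lit 1585) (nat_lit 595) (nat_lit 2608))) (.f (nat_lit 561) (nat_lit 527) (nat_lit 3599) (.d (nat_lit 564) (nat_lit 529) (nat_lit 3600) (nat_lit 593) (nat_lit 1584))))))) (.a s4547 (.p (nat_lit 624) (.a (.f (nat_lit 655) (nat_lit 623) (nat_lit 5647) (.f (nat_lit 656) (nat_lit 687) (nat_lit 5679) (.d (nat_lit 657) (nat_lit 625) (nat_lit 4624) (nat_lit 689) (nat_lit 4656)))) (.f (nat_lit 529) (nat_lit 497) (nat_lit 6640) (.f (nat_lit 527) (nat_lit 495) (nat_lit 7663) (.d (nat_lit 563) (nat_lit 530) (nat_lit 527) (nat_lit 561) (nat_lit 3599)))))))))))))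
noncomputable def s4553 : Cert := .r (nat_lit 64836180782635327101742773731878883933028500135655100996324835636715824771957301922231916427704030386313073450013582889165837387910271462164107996909801584275503921517658290257920) (.p (nat_lit 530) (.a (.p (nat_lit 529) (.a (.f (nat_lit 531) (nat_lit 559) (nat_lit 1551) (.d (nat_lit 499) (nat_lit 500) (nat_lit 2544) (nat_lit 626) (nat_lit 6642))) (.a (.f (nat_lit 626) (nat_lit 497) (nat_lit 7665) (.f (nat_lit 657) (nat_lit 625) (nat_lit 5649) (.f (nat_lit 658) (nat_lit 689) (nat_lit 5681) (.d (nat_lit 659) (nat_lit 627) (nat_lit 4626) (nat_lit 691) (nat_lit 4658))))) (.f (nat_lit 531) (nat_lit 559) (nat_lit 1551) (.f (nat_lit 563) (nat_lit 564) (nat_lit 528) (.d (nat_lit 499) (nat_lit 467) (nat_lit 5586) (nat_lit 500) (nat_lit 2544))))))) (.a (.p (nat_lit 626) (.a (.f (nat_lit 531) (nat_lit 499) (nat_lit 6642) (.f (nat_lit 561) (nat_lit 559) (nat_lit 2575) (.d (nat_lit 532) (nat_lit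 533) (nat_lit 1553) (nat_lit 563) (nat_lit 2576)))) (.a (.f (nat_lit 531) (nat_lit 499) (nat_lit 6642) (.f (nat_lit 658) (nat_lit 563) (nat_lit 6674) (.d (nat_lit 657) (nat_lit 625) (nat_lit 5649) (nat_lit 689) (nat_lit 5681)))) (.f (nat_lit 657) (nat_lit 625) (nat_lit 5649) (.f (nat_lit 658) (nat_lit 689) (nat_lit 5681) (.d (nat_lit 659) (nat_lit 627) (nat_lit 4626) (nat_lit 691) (nat_lit 4658))))))) (.a (.p (nat_lit 529) (.a (.f (nat_lit 626) (nat_lit 497) (nat_lit 7665) (.f (nat_lit 657) (nat_lit 625) (nat_lit 5649) (.f (nat_lit 658) (nat_lit 689) (nat_lit 5681) (.d (nat_lit 659) (nat_lit 627) (nat_lit 4626) (nat_lit 691) (nat_lit 4658))))) (.f (nat_lit 527) (nat_lit 563) (nat_lit 527) (.f (nat_lit 495) (nat_lit 494) (nat_lit 3566) (.f (nat_lit 559) (nat_lit 558) (nat_lit 1550) (.d (nat_lit 463) (nat_lit 431) (nat_lit 4527) (nat_lit 592) (nat_lit 4559))))))) (.a s3813 (.a (.p (nat_lit 529) (.a (.f (nat_lit 626) (nat_lit 497)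 (nat_lit 7665) (.f (nat_lit 657) (nat_lit 625) (nat_lit 5649) (.f (nat_lit 658) (nat_lit 689) (nat_lit 5681) (.d (nat_lit 659) (nat_lit 627) (nat_lit 4626) (nat_lit 691) (nat_lit 4658))))) (.f (nat_lit 563) (nat_lit 527) (nat_lit 527) (.d (nat_lit 564) (nat_lit 531) (nat_lit 528) (nat_lit 561) (nat_lit 3600))))) (.p (nat_lit 561) (.a (.f (nat_lit 531) (nat_lit 559) (nat_lit 2575) (.d (nat_lit 532) (nat_lit 533) (nat_lit 1553) (nat_lit 563) (nat_lit 2576))) (.a (.f (nat_lit 563) (nat_lit 527) (nat_lit 3599) (.f (nat_lit 564) (nat_lit 529) (nat_lit 3600) (.d (nat_lit 592) (nat_lit 591) (nat_lit 1583) (nat_lit 593) (nat_lit 1584)))) (.f (nat_lit 559) (nat_lit 531) (nat_lit 2575) (.d (nat_lit 558) (nat_lit 529) (nat_lit 2574) (nat_lit 593) (nat_lit 558))))))))))))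
noncomputable def s4563 : Cert := .r (nat_lit 64836180782635327101742773731878883933028500135655100996324835636715824771957301922231916427704030386313073450013582889165837387910271462164107996909801584275503921517658290257920) (.p (nat_lit 561) (.a (.f (nat_lit 563) (nat_lit 527) (nat_lit 3599) (.d (nat_lit 595) (nat_lit 559) (nat_lit 559) (nat_lit 596) (nat_lit 560))) (.a (.f (nat_lit 595) (nat_lit 559) (nat_lit 559) (.d (nat_lit 596) (nat_lit 563) (nat_lit 560) (nat_lit 597) (nat_lit 3633))) (.a (.f (nat_lit 559) (nat_lit 595) (nat_lit 559) (.f (nat_lit 590) (nat_lit 591) (nat_lit 1582) (.f (nat_lit 558) (nat_lit 589) (nat_lit 1581) (.f (nat_lit 557) (nat_lit 529) (nat_lit 2573) (.f (nat_lit 556) (nat_lit 527) (nat_lit 2572) (.d (nat_lit 524) (nat_lit 523) (nat_lit 3595) (nat_lit 525) (nat_lit 3596))))))) (.f (nat_lit 563) (nat_lit 527) (nat_lit 3599) (.f (nat_lit 564) (nat_lit 529) (nat_lit 3600) (.d (nat_lit 532) (nat_lit 531)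 (nat_lit 2576) (nat_lit 533) (nat_lit 2577))))))))
noncomputable def s4592 : Cert := .r (nat_lit 81045225973576705845931866949422482179170868230352120136932872080819937316538974369105772087653654582751346444588976596909568446798598709460541101730559254928086662937195436834816) (.p (nat_lit 624) (.a (.f (nat_lit 655) (nat_lit 623) (nat_lit 5647) (.f (nat_lit 656) (nat_lit 687) (nat_lit 5679) (.d (nat_lit 657) (nat_lit 625) (nat_lit 4624) (nat_lit 689) (nat_lit 4656)))) (.a (.f (nat_lit 623) (nat_lit 655) (nat_lit 5647) (.f (nat_lit 593) (nat_lit 595) (nat_lit 1615) (.d (nat_lit 622) (nat_lit 591) (nat_lit 1614) (nat_lit 621) (nat_lit 2637)))) (.f (nat_lit 529) (nat_lit 497) (nat_lit 6640) (.f (nat_lit 561) (nat_lit 656) (nat_lit 6672) (.f (nat_lit 625) (nat_lit 657) (nat_lit 4624) (.f (nat_lit 626) (nat_lit 658) (nat_lit 7697) (.f (nat_lit 627) (nat_lit 591) (nat_lit 3663) (.f (nat_lit 595) (nat_lit 596) (nat_lit 2640) (.d (nat_lit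 659) (nat_lit 660) (nat_lit 624) (nat_lit 691) (nat_lit 7730)))))))))))
noncomputable def s4610 : Cert := .r (nat_lit 64836180782635327101742773731878883933028500135655100996324835636715824771957301922231916427704030386313073450013582889165837387910271462164107996909801584275503921517658290257920) (.p (nat_lit 592) (.a (.p (nat_lit 624) (.a (.f (nat_lit 655) (nat_lit 623) (nat_lit 5647) (.f (nat_lit 656) (nat_lit 687) (nat_lit 5679) (.d (nat_lit 657) (nat_lit 625) (nat_lit 4624) (nat_lit 689) (nat_lit 4656)))) (.a (.f (nat_lit 623) (nat_lit 655) (nat_lit 5647) (.f (nat_lit 593) (nat_lit 595) (nat_lit 1615) (.d (nat_lit 622) (nat_lit 591) (nat_lit 1614) (nat_lit 621) (nat_lit 2637)))) (.f (nat_lit 527) (nat_lit 495) (nat_lit 7663) (.f (nat_lit 559) (nat_lit 656) (nat_lit 7695) (.d (nat_lit 595) (nat_lit 561) (nat_lit 559) (nat_lit 593) (nat_lit 3631))))))) (.a (.p (nat_lit 624) (.a (.f (nat_lit 655) (nat_lit 623) (nat_lit 5647) (.f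 (nat_lit 656) (nat_lit 687) (nat_lit 5679) (.d (nat_lit 657) (nat_lit 625) (nat_lit 4624) (nat_lit 689) (nat_lit 4656)))) (.a (.f (nat_lit 623) (nat_lit 655) (nat_lit 5647) (.f (nat_lit 593) (nat_lit 595) (nat_lit 1615) (.d (nat_lit 622) (nat_lit 591) (nat_lit 1614) (nat_lit 621) (nat_lit 2637)))) (.f (nat_lit 529) (nat_lit 497) (nat_lit 6640) (.f (nat_lit 561) (nat_lit 656) (nat_lit 6672) (.f (nat_lit 559) (nat_lit 595) (nat_lit 559) (.d (nat_lit 558) (nat_lit 557) (nat_lit 2573) (nat_lit 593) (nat_lit 558)))))))) (.a s3916 (.a (.p (nat_lit 559) (.a (.d (nat_lit 595) (nat_lit 561) (nat_lit 559) (nat_lit 593) (nat_lit 3631)) (.a (.f (nat_lit 593) (nat_lit 595) (nat_lit 3631) (.d (nat_lit 558) (nat_lit 557) (nat_lit 557) (nat_lit 591) (nat_lit 3630))) (.a (.f (nat_lit 561) (nat_lit 595) (nat_lit 559) (.f (nat_lit 590) (nat_lit 591) (nat_lit 1582) (.f (nat_lit 558) (nat_lit 589) (nat_lit 1581) (.f (nat_lit 557) (nat_lit 529) (nat_lit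 2573) (.f (nat_lit 556) (nat_lit 527) (nat_lit 2572) (.d (nat_lit 524) (nat_lit 523) (nat_lit 3595) (nat_lit 525) (nat_lit 3596))))))) (.p (nat_lit 561) (.a (.f (nat_lit 593) (nat_lit 558) (nat_lit 558) (.f (nat_lit 591) (nat_lit 590) (nat_lit 1582) (.d (nat_lit 623) (nat_lit 622) (nat_lit 1614) (nat_lit 655) (nat_lit 6671)))) (.a (.f (nat_lit 590) (nat_lit 591) (nat_lit 1582) (.f (nat_lit 558) (nat_lit 589) (nat_lit 1581) (.f (nat_lit 557) (nat_lit 529) (nat_lit 2573) (.f (nat_lit 556) (nat_lit 527) (nat_lit 2572) (.d (nat_lit 524) (nat_lit 523) (nat_lit 3595) (nat_lit 525) (nat_lit 3596)))))) (.a (.f (nat_lit 558) (nat_lit 593) (nat_lit 558) (.f (nat_lit 557) (nat_lit 529) (nat_lit 2573) (.d (nat_lit 589) (nat_lit 588) (nat_lit 1580) (nat_lit 590) (nat_lit 1581)))) (.a (.f (nat_lit 591) (nat_lit 590) (nat_lit 1582) (.f (nat_lit 623) (nat_lit 655) (nat_lit 6671) (.f (nat_lit 593) (nat_lit 622) (nat_lit 1614) (.f (nat_lit 626) (nat_lit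 627) (nat_lit 591) (.d (nat_lit 529) (nat_lit 497) (nat_lit 4593) (nat_lit 658) (nat_lit 7697)))))) (.f (nat_lit 558) (nat_lit 593) (nat_lit 558) (.f (nat_lit 557) (nat_lit 529) (nat_lit 2573) (.d (nat_lit 556) (nat_lit 527) (nat_lit 2572) (nat_lit 591) (nat_lit 556))))))))))))) (.a s4592 (.a (.p (nat_lit 561) (.a (.f (nat_lit 595) (nat_lit 559) (nat_lit 559) (.d (nat_lit 596) (nat_lit 593) (nat_lit 3632) (nat_lit 597) (nat_lit 3633))) (.a (.f (nat_lit 559) (nat_lit 595) (nat_lit 559) (.f (nat_lit 590) (nat_lit 591) (nat_lit 1582) (.f (nat_lit 558) (nat_lit 589) (nat_lit 1581) (.f (nat_lit 529) (nat_lit 557) (nat_lit 2573) (.d (nat_lit 497) (nat_lit 465) (nat_lit 4561) (nat_lit 624) (nat_lit 6640)))))) (.a (.p (nat_lit 529) (.a (.f (nat_lit 497) (nat_lit 465) (nat_lit 5584) (.d (nat_lit 626) (nat_lit 593) (nat_lit 4593) (nat_lit 658) (nat_lit 7697))) (.a (.f (nat_lit 624) (nat_lit 656) (nat_lit 6672) (.f (nat_lit 625) (nat_lit 657)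 (nat_lit 4624) (.f (nat_lit 626) (nat_lit 658) (nat_lit 7697) (.f (nat_lit 627) (nat_lit 591) (nat_lit 3663) (.f (nat_lit 595) (nat_lit 596) (nat_lit 2640) (.d (nat_lit 659) (nat_lit 660) (nat_lit 624) (nat_lit 691) (nat_lit 7730))))))) (.d (nat_lit 497) (nat_lit 465) (nat_lit 4561) (nat_lit 624) (nat_lit 6640))))) (.p (nat_lit 529) (.a (.f (nat_lit 497) (nat_lit 465) (nat_lit 5584) (.d (nat_lit 626) (nat_lit 593) (nat_lit 4593) (nat_lit 658) (nat_lit 7697))) (.a (.f (nat_lit 624) (nat_lit 656) (nat_lit 6672) (.f (nat_lit 625) (nat_lit 657) (nat_lit 4624) (.f (nat_lit 626) (nat_lit 658) (nat_lit 7697) (.f (nat_lit 591) (nat_lit 627) (nat_lit 3663) (.d (nat_lit 590) (nat_lit 559) (nat_lit 1582) (nat_lit 589) (nat_lit 2605)))))) (.d (nat_lit 497) (nat_lit 465) (nat_lit 4561) (nat_lit 624) (nat_lit 6640))))))))) (.a (.p (nat_lit 624) (.a (.f (nat_lit 655) (nat_lit 623) (nat_lit 5647) (.f (nat_lit 656) (nat_lit 687) (nat_lit 5679) (.d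 (nat_lit 657) (nat_lit 625) (nat_lit 4624) (nat_lit 689) (nat_lit 4656)))) (.a (.f (nat_lit 527) (nat_lit 495) (nat_lit 7663) (.f (nat_lit 559) (nat_lit 656) (nat_lit 7695) (.d (nat_lit 595) (nat_lit 561) (nat_lit 559) (nat_lit 593) (nat_lit 3631)))) (.f (nat_lit 625) (nat_lit 657) (nat_lit 4624) (.f (nat_lit 623) (nat_lit 655) (nat_lit 5647) (.d (nat_lit 593) (nat_lit 595) (nat_lit 1615) (nat_lit 622) (nat_lit 2638))))))) s4272))))))))
noncomputable def s4615 : Cert := .r (nat_lit 64836180782635327101742773731878883933028500135655100996324835636715824771957301922231916427704030386313073450013582889165837387910271462164107996909801584275503921517658290257920) (.p (nat_lit 592) (.a (.p (nat_lit 624) (.a (.f (nat_lit 655) (nat_lit 623) (nat_lit 5647) (.f (nat_lit 656) (nat_lit 687) (nat_lit 5679) (.d (nat_lit 657) (nat_lit 625) (nat_lit 4624) (nat_lit 689) (nat_lit 4656)))) (.a (.f (nat_lit 623) (nat_lit 655) (nat_lit 5647) (.f (nat_lit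 593) (nat_lit 595) (nat_lit 1615) (.d (nat_lit 622) (nat_lit 591) (nat_lit 1614) (nat_lit 621) (nat_lit 2637)))) (.f (nat_lit 529) (nat_lit 497) (nat_lit 6640) (.f (nat_lit 561) (nat_lit 656) (nat_lit 6672) (.d (nat_lit 563) (nat_lit 564) (nat_lit 3600) (nat_lit 591) (nat_lit 1583))))))) (.a s3948 (.a (.p (nat_lit 624) (.a (.f (nat_lit 655) (nat_lit 623) (nat_lit 5647) (.f (nat_lit 656) (nat_lit 687) (nat_lit 5679) (.d (nat_lit 657) (nat_lit 625) (nat_lit 4624) (nat_lit 689) (nat_lit 4656)))) (.a (.f (nat_lit 529) (nat_lit 497) (nat_lit 6640) (.f (nat_lit 561) (nat_lit 656) (nat_lit 6672) (.d (nat_lit 563) (nat_lit 564) (nat_lit 3600) (nat_lit 591) (nat_lit 1583)))) (.f (nat_lit 625) (nat_lit 657) (nat_lit 4624) (.f (nat_lit 623) (nat_lit 655) (nat_lit 5647) (.f (nat_lit 626) (nat_lit 595) (nat_lit 2639) (.d (nat_lit 591) (nat_lit 590) (nat_lit 3662) (nat_lit 627) (nat_lit 3663)))))))) (.a (.p (nat_lit 563) (.a (.d (nat_lit 561)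 (nat_lit 527) (nat_lit 3599) (nat_lit 591) (nat_lit 1583)) (.a (.d (nat_lit 591) (nat_lit 561) (nat_lit 1583) (nat_lit 593) (nat_lit 2607)) (.a (.f (nat_lit 593) (nat_lit 591) (nat_lit 2607) (.d (nat_lit 564) (nat_lit 565) (nat_lit 1585) (nat_lit 595) (nat_lit 2608))) (.f (nat_lit 561) (nat_lit 527) (nat_lit 3599) (.d (nat_lit 564) (nat_lit 529) (nat_lit 3600) (nat_lit 593) (nat_lit 1584))))))) (.a s4592 (.a (.p (nat_lit 624) (.a (.f (nat_lit 655) (nat_lit 623) (nat_lit 5647) (.f (nat_lit 656) (nat_lit 687) (nat_lit 5679) (.d (nat_lit 657) (nat_lit 625) (nat_lit 4624) (nat_lit 689) (nat_lit 4656)))) (.a (.f (nat_lit 529) (nat_lit 497) (nat_lit 6640) (.f (nat_lit 561) (nat_lit 656) (nat_lit 6672) (.d (nat_lit 527) (nat_lit 495) (nat_lit 7663) (nat_lit 563) (nat_lit 3599)))) (.f (nat_lit 625) (nat_lit 657) (nat_lit 4624) (.f (nat_lit 623) (nat_lit 655) (nat_lit 5647) (.d (nat_lit 593) (nat_lit 595) (nat_lit 1615) (nat_lit 622) (nat_lit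 2638))))))) s3796)))))))
noncomputable def s4640 : Cert := .r (nat_lit 81045225973576705845931866949422482179170868230352120136932872080819937316538974369105772087653654582751346444588976596909568446798598709460541101730559254928086662937195436834816) (.p (nat_lit 624) (.a (.f (nat_lit 527) (nat_lit 495) (nat_lit 7663) (.f (nat_lit 656) (nat_lit 559) (nat_lit 7695) (.d (nat_lit 657) (nat_lit 625) (nat_lit 4624) (nat_lit 689) (nat_lit 4656)))) (.a (.f (nat_lit 529) (nat_lit 497) (nat_lit 6640) (.f (nat_lit 561) (nat_lit 656) (nat_lit 6672) (.d (nat_lit 563) (nat_lit 564) (nat_lit 3600) (nat_lit 591) (nat_lit 1583)))) (.f (nat_lit 529) (nat_lit 497) (nat_lit 6640) (.f (nat_lit 527) (nat_lit 495) (nat_lit 7663) (.f (nat_lit 561) (nat_lit 563) (nat_lit 3599) (.f (nat_lit 625) (nat_lit 657) (nat_lit 4624) (.f (nat_lit 626) (nat_lit 658) (nat_lit 7697) (.f (nat_lit 591) (nat_lit 627) (nat_lit 3663) (.d (nat_lit 590) (nat_lit 559) (nat_lit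 1582) (nat_lit 589) (nat_lit 2605)))))))))))
noncomputable def s4647 : Cert := .r (nat_lit 81045225973576705845931866949422482179170868230352120136932872080819937316538974369105772087653654582751346444588976596909568446798598709460541101730559254928086662937195436834816) (.p (nat_lit 624) (.a (.f (nat_lit 655) (nat_lit 623) (nat_lit 5647) (.f (nat_lit 656) (nat_lit 687) (nat_lit 5679) (.d (nat_lit 657) (nat_lit 625) (nat_lit 4624) (nat_lit 689) (nat_lit 4656)))) (.a (.f (nat_lit 527) (nat_lit 495) (nat_lit 7663) (.f (nat_lit 656) (nat_lit 559) (nat_lit 7695) (.d (nat_lit 655) (nat_lit 623) (nat_lit 5647) (nat_lit 687) (nat_lit 5679)))) (.a (.f (nat_lit 527) (nat_lit 495) (nat_lit 7663) (.f (nat_lit 656) (nat_lit 559) (nat_lit 7695) (.d (nat_lit 657) (nat_lit 625) (nat_lit 4624) (nat_lit 689) (nat_lit 4656)))) (.f (nat_lit 625) (nat_lit 657) (nat_lit 4624) (.f (nat_lit 623) (nat_lit 655) (nat_lit 5647) (.f (nat_lit 622) (nat_lit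 593) (nat_lit 2638) (.f (nat_lit 589) (nat_lit 590) (nat_lit 3661) (.f (nat_lit 621) (nat_lit 588) (nat_lit 3660) (.d (nat_lit 653) (nat_lit 652) (nat_lit 1644) (nat_lit 654) (nat_lit 1645)))))))))))
noncomputable def s4654 : Cert := .r (nat_lit 64836180782635327101742773731878883933028500135655100996324835636715824771957301922231916427704030386313073450013582889165837387910271462164107996909801584275503921517658290257920) (.p (nat_lit 592) (.a s4272 (.a s3796 (.a s3961 (.a (.p (nat_lit 624) (.a (.f (nat_lit 655) (nat_lit 623) (nat_lit 5647) (.f (nat_lit 656) (nat_lit 687) (nat_lit 5679) (.d (nat_lit 657) (nat_lit 625) (nat_lit 4624) (nat_lit 689) (nat_lit 4656)))) (.a (.f (nat_lit 527) (nat_lit 495) (nat_lit 7663) (.f (nat_lit 656) (nat_lit 559) (nat_lit 7695) (.d (nat_lit 655) (nat_lit 623) (nat_lit 5647) (nat_lit 687) (nat_lit 5679)))) (.a (.f (nat_lit 527) (nat_lit 495) (nat_lit 7663) (.f (nat_lit 656) (nat_lit 559) (nat_lit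 7695) (.d (nat_lit 657) (nat_lit 625) (nat_lit 4624) (nat_lit 689) (nat_lit 4656)))) (.f (nat_lit 527) (nat_lit 495) (nat_lit 7663) (.f (nat_lit 561) (nat_lit 563) (nat_lit 3599) (.f (nat_lit 529) (nat_lit 497) (nat_lit 6640) (.f (nat_lit 623) (nat_lit 655) (nat_lit 5647) (.f (nat_lit 625) (nat_lit 657) (nat_lit 4624) (.f (nat_lit 626) (nat_lit 658) (nat_lit 7697) (.d (nat_lit 591) (nat_lit 590) (nat_lit 3662) (nat_lit 627) (nat_lit 3663)))))))))))) (.a (.p (nat_lit 561) (.a (.d (nat_lit 563) (nat_lit 527) (nat_lit 3599) (nat_lit 591) (nat_lit 1583)) (.a (.f (nat_lit 591) (nat_lit 563) (nat_lit 1583) (.d (nat_lit 590) (nat_lit 559) (nat_lit 1582) (nat_lit 589) (nat_lit 2605))) (.a (.p (nat_lit 559) (.a (.f (nat_lit 593) (nat_lit 558) (nat_lit 558) (.f (nat_lit 591) (nat_lit 590) (nat_lit 1582) (.d (nat_lit 623) (nat_lit 622) (nat_lit 1614) (nat_lit 655) (nat_lit 6671)))) (.a (.f (nat_lit 590) (nat_lit 591) (nat_lit 1582) (.f (nat_lit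 558) (nat_lit 589) (nat_lit 1581) (.f (nat_lit 557) (nat_lit 529) (nat_lit 2573) (.f (nat_lit 556) (nat_lit 527) (nat_lit 2572) (.d (nat_lit 524) (nat_lit 523) (nat_lit 3595) (nat_lit 525) (nat_lit 3596)))))) (.a (.f (nat_lit 558) (nat_lit 593) (nat_lit 558) (.f (nat_lit 557) (nat_lit 529) (nat_lit 2573) (.d (nat_lit 589) (nat_lit 588) (nat_lit 1580) (nat_lit 590) (nat_lit 1581)))) (.a (.f (nat_lit 591) (nat_lit 590) (nat_lit 1582) (.f (nat_lit 623) (nat_lit 655) (nat_lit 6671) (.f (nat_lit 593) (nat_lit 622) (nat_lit 1614) (.f (nat_lit 626) (nat_lit 627) (nat_lit 591) (.d (nat_lit 529) (nat_lit 497) (nat_lit 4593) (nat_lit 658) (nat_lit 7697)))))) (.f (nat_lit 558) (nat_lit 593) (nat_lit 558) (.f (nat_lit 557) (nat_lit 529) (nat_lit 2573) (.d (nat_lit 556) (nat_lit 527) (nat_lit 2572) (nat_lit 591) (nat_lit 556))))))))) (.f (nat_lit 563) (nat_lit 527) (nat_lit 3599) (.d (nat_lit 564) (nat_lit 529) (nat_lit 3600) (nat_lit 593) (nat_lit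 1584))))))) (.a s4640 (.a s4647 (.p (nat_lit 624) (.a (.f (nat_lit 655) (nat_lit 623) (nat_lit 5647) (.f (nat_lit 656) (nat_lit 687) (nat_lit 5679) (.d (nat_lit 657) (nat_lit 625) (nat_lit 4624) (nat_lit 689) (nat_lit 4656)))) (.a (.f (nat_lit 527) (nat_lit 495) (nat_lit 7663) (.f (nat_lit 656) (nat_lit 559) (nat_lit 7695) (.d (nat_lit 655) (nat_lit 623) (nat_lit 5647) (nat_lit 687) (nat_lit 5679)))) (.a (.f (nat_lit 527) (nat_lit 495) (nat_lit 7663) (.f (nat_lit 656) (nat_lit 559) (nat_lit 7695) (.d (nat_lit 657) (nat_lit 625) (nat_lit 4624) (nat_lit 689) (nat_lit 4656)))) (.f (nat_lit 527) (nat_lit 495) (nat_lit 7663) (.f (nat_lit 563) (nat_lit 561) (nat_lit 3599) (.f (nat_lit 593) (nat_lit 591) (nat_lit 2607) (.f (nat_lit 625) (nat_lit 657) (nat_lit 4624) (.d (nat_lit 623) (nat_lit 622) (nat_lit 2638) (nat_lit 655) (nat_lit 5647))))))))))))))))))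
noncomputable def s4664 : Cert := .r (nat_lit 64836180782635327101742773731878883933028500135655100996324835636715824771957301922231916427704030386313073450013582889165837387910271462164107996909801584275503921517658290257920) (.p (nat_lit 561) (.a (.f (nat_lit 563) (nat_lit 527) (nat_lit 3599) (.d (nat_lit 595) (nat_lit 559) (nat_lit 559) (nat_lit 596) (nat_lit 560))) (.a (.f (nat_lit 595) (nat_lit 559) (nat_lit 559) (.d (nat_lit 596) (nat_lit 563) (nat_lit 560) (nat_lit 597) (nat_lit 3633))) (.a (.f (nat_lit 559) (nat_lit 595) (nat_lit 559) (.f (nat_lit 590) (nat_lit 591) (nat_lit 1582) (.f (nat_lit 558) (nat_lit 589) (nat_lit 1581) (.d (nat_lit 529) (nat_lit 530) (nat_lit 2574) (nat_lit 557) (nat_lit 2573))))) (.a (.f (nat_lit 563) (nat_lit 527) (nat_lit 3599) (.f (nat_lit 564) (nat_lit 529) (nat_lit 3600) (.d (nat_lit 596) (nat_lit 595) (nat_lit 560) (nat_lit 597) (nat_lit 561)))) (.f (nat_lit 563) (nat_lit 527) (nat_lit 3599)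 (.f (nat_lit 529) (nat_lit 564) (nat_lit 3600) (.f (nat_lit 497) (nat_lit 465) (nat_lit 4561) (.d (nat_lit 592) (nat_lit 591) (nat_lit 1583) (nat_lit 624) (nat_lit 6640))))))))))
noncomputable def s4733 : Cert := .r (nat_lit 64836180782635327101742773731878883933028500135655100996324835636715824771957301922231916427704030386313073450013582889165837387910271462164107996909801584275503921517658290257920) (.p (nat_lit 626) (.a s4109 (.a (.p (nat_lit 530) (.a (.f (nat_lit 657) (nat_lit 625) (nat_lit 5649) (.f (nat_lit 658) (nat_lit 689) (nat_lit 5681) (.d (nat_lit 659) (nat_lit 627) (nat_lit 4626) (nat_lit 691) (nat_lit 4658)))) (.a (.f (nat_lit 499) (nat_lit 531) (nat_lit 6642) (.f (nat_lit 498) (nat_lit 467) (nat_lit 6610) (.d (nat_lit 627) (nat_lit 595) (nat_lit 4594) (nat_lit 659) (nat_lit 4626)))) (.f (nat_lit 531) (nat_lit 499) (nat_lit 6642) (.d (nat_lit 559) (nat_lit 529) (nat_lit 1551) (nat_lit 561) (nat_lit 2575)))))) (.a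 (.p (nat_lit 530) (.a (.f (nat_lit 657) (nat_lit 625) (nat_lit 5649) (.f (nat_lit 658) (nat_lit 689) (nat_lit 5681) (.d (nat_lit 659) (nat_lit 627) (nat_lit 4626) (nat_lit 691) (nat_lit 4658)))) (.a (.f (nat_lit 529) (nat_lit 497) (nat_lit 7665) (.f (nat_lit 561) (nat_lit 658) (nat_lit 7697) (.d (nat_lit 559) (nat_lit 558) (nat_lit 2574) (nat_lit 595) (nat_lit 559)))) (.f (nat_lit 529) (nat_lit 497) (nat_lit 7665) (.f (nat_lit 627) (nat_lit 659) (nat_lit 4626) (.f (nat_lit 498) (nat_lit 595) (nat_lit 4594) (.d (nat_lit 499) (nat_lit 467) (nat_lit 6610) (nat_lit 527) (nat_lit 2543)))))))) (.a (.p (nat_lit 530) (.a (.f (nat_lit 657) (nat_lit 625) (nat_lit 5649) (.f (nat_lit 658) (nat_lit 689) (nat_lit 5681) (.d (nat_lit 659) (nat_lit 627) (nat_lit 4626) (nat_lit 691) (nat_lit 4658)))) (.f (nat_lit 531) (nat_lit 499) (nat_lit 6642) (.d (nat_lit 559) (nat_lit 529) (nat_lit 1551) (nat_lit 561) (nat_lit 2575))))) (.a (.p (nat_lit 658)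 (.a (.f (nat_lit 691) (nat_lit 659) (nat_lit 4658) (.f (nat_lit 690) (nat_lit 723) (nat_lit 4690) (.d (nat_lit 689) (nat_lit 657) (nat_lit 5681) (nat_lit 721) (nat_lit 5713)))) (.a (.f (nat_lit 561) (nat_lit 529) (nat_lit 7697) (.f (nat_lit 595) (nat_lit 559) (nat_lit 559) (.f (nat_lit 691) (nat_lit 659) (nat_lit 4658) (.f (nat_lit 690) (nat_lit 723) (nat_lit 4690) (.f (nat_lit 721) (nat_lit 689) (nat_lit 5713) (.d (nat_lit 722) (nat_lit 627) (nat_lit 6738) (nat_lit 753) (nat_lit 5745))))))) (.a (.f (nat_lit 561) (nat_lit 529) (nat_lit 7697) (.f (nat_lit 595) (nat_lit 559) (nat_lit 559) (.f (nat_lit 689) (nat_lit 657) (nat_lit 5681) (.f (nat_lit 690) (nat_lit 721) (nat_lit 5713) (.f (nat_lit 722) (nat_lit 627) (nat_lit 6738) (.d (nat_lit 723) (nat_lit 691) (nat_lit 4690) (nat_lit 755) (nat_lit 4722))))))) (.a (.f (nat_lit 561) (nat_lit 529) (nat_lit 7697) (.f (nat_lit 559) (nat_lit 595) (nat_lit 559) (.f (nat_lit 591) (nat_lit 590)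 (nat_lit 1582) (.f (nat_lit 623) (nat_lit 655) (nat_lit 6671) (.f (nat_lit 659) (nat_lit 691) (nat_lit 4658) (.f (nat_lit 624) (nat_lit 625) (nat_lit 623) (.d (nat_lit 656) (nat_lit 527) (nat_lit 4623) (nat_lit 657) (nat_lit 3695)))))))) (.f (nat_lit 561) (nat_lit 529) (nat_lit 7697) (.f (nat_lit 559) (nat_lit 595) (nat_lit 559) (.f (nat_lit 591) (nat_lit 590) (nat_lit 1582) (.f (nat_lit 655) (nat_lit 623) (nat_lit 6671) (.f (nat_lit 657) (nat_lit 689) (nat_lit 5681) (.f (nat_lit 656) (nat_lit 627) (nat_lit 2671) (.f (nat_lit 654) (nat_lit 625) (nat_lit 2670) (.d (nat_lit 686) (nat_lit 685) (nat_lit 1677) (nat_lit 687) (nat_lit 1678)))))))))))))) (.a (.p (nat_lit 530) (.a (.f (nat_lit 499) (nat_lit 531) (nat_lit 6642) (.f (nat_lit 498) (nat_lit 467) (nat_lit 6610) (.d (nat_lit 627) (nat_lit 595) (nat_lit 4594) (nat_lit 659) (nat_lit 4626)))) (.a (.f (nat_lit 529) (nat_lit 497) (nat_lit 7665) (.f (nat_lit 561) (nat_lit 658) (nat_lit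 7697) (.d (nat_lit 559) (nat_lit 558) (nat_lit 2574) (nat_lit 595) (nat_lit 559)))) (.f (nat_lit 531) (nat_lit 499) (nat_lit 6642) (.d (nat_lit 559) (nat_lit 529) (nat_lit 1551) (nat_lit 561) (nat_lit 2575)))))) (.a (.p (nat_lit 530) (.a (.f (nat_lit 499) (nat_lit 531) (nat_lit 6642) (.f (nat_lit 498) (nat_lit 467) (nat_lit 6610) (.d (nat_lit 627) (nat_lit 595) (nat_lit 4594) (nat_lit 659) (nat_lit 4626)))) (.a (.f (nat_lit 529) (nat_lit 497) (nat_lit 7665) (.f (nat_lit 627) (nat_lit 659) (nat_lit 4626) (.f (nat_lit 498) (nat_lit 595) (nat_lit 4594) (.d (nat_lit 499) (nat_lit 467) (nat_lit 6610) (nat_lit 527) (nat_lit 2543))))) (.a (.f (nat_lit 531) (nat_lit 499) (nat_lit 6642) (.d (nat_lit 559) (nat_lit 529) (nat_lit 1551) (nat_lit 561) (nat_lit 2575))) (.f (nat_lit 529) (nat_lit 497) (nat_lit 7665) (.f (nat_lit 559) (nat_lit 531) (nat_lit 1551) (.d (nat_lit 558) (nat_lit 527) (nat_lit 1550) (nat_lit 557) (nat_lit 2573))))))))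 (.a (.p (nat_lit 561) (.a (.f (nat_lit 529) (nat_lit 658) (nat_lit 7697) (.f (nat_lit 559) (nat_lit 595) (nat_lit 559) (.f (nat_lit 558) (nat_lit 557) (nat_lit 2573) (.d (nat_lit 590) (nat_lit 589) (nat_lit 1581) (nat_lit 591) (nat_lit 1582))))) (.a (.f (nat_lit 559) (nat_lit 595) (nat_lit 559) (.f (nat_lit 530) (nat_lit 531) (nat_lit 2575) (.f (nat_lit 591) (nat_lit 590) (nat_lit 1582) (.f (nat_lit 657) (nat_lit 625) (nat_lit 5649) (.f (nat_lit 658) (nat_lit 689) (nat_lit 5681) (.f (nat_lit 655) (nat_lit 623) (nat_lit 6671) (.f (nat_lit 691) (nat_lit 659) (nat_lit 4658) (.d (nat_lit 690) (nat_lit 656) (nat_lit 655) (nat_lit 723) (nat_lit 4690))))))))) (.a (.f (nat_lit 529) (nat_lit 658) (nat_lit 7697) (.d (nat_lit 497) (nat_lit 465) (nat_lit 4561) (nat_lit 530) (nat_lit 7665))) (.f (nat_lit 559) (nat_lit 595) (nat_lit 559) (.f (nat_lit 530) (nat_lit 531) (nat_lit 2575) (.d (nat_lit 529) (nat_lit 497) (nat_lit 7665) (nat_lit 558)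 (nat_lit 2574)))))))) (.p (nat_lit 529) (.a (.f (nat_lit 561) (nat_lit 658) (nat_lit 7697) (.f (nat_lit 559) (nat_lit 595) (nat_lit 559) (.d (nat_lit 530) (nat_lit 531) (nat_lit 2575) (nat_lit 558) (nat_lit 2574)))) (.a (.f (nat_lit 530) (nat_lit 497) (nat_lit 7665) (.d (nat_lit 531) (nat_lit 499) (nat_lit 6642) (nat_lit 559) (nat_lit 1551))) (.a (.f (nat_lit 497) (nat_lit 530) (nat_lit 7665) (.d (nat_lit 465) (nat_lit 433) (nat_lit 5552) (nat_lit 561) (nat_lit 4561))) (.f (nat_lit 561) (nat_lit 658) (nat_lit 7697) (.f (nat_lit 559) (nat_lit 595) (nat_lit 559) (.f (nat_lit 558) (nat_lit 557) (nat_lit 2573) (.d (nat_lit 590) (nat_lit 589) (nat_lit 1581) (nat_lit 591) (nat_lit 1582))))))))))))))))))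
noncomputable def s4742 : Cert := .r (nat_lit 64836180782635327101742773731878883933028500135655100996324835636715824771957301922231916427704030386313073450013582889165837387910271462164107996909801584275503921517658290257920) (.p (nat_lit 530) (.a (.p (nat_lit 529) (.a (.f (nat_lit 531) (nat_lit 559) (nat_lit 1551) (.d (nat_lit 499) (nat_lit 500) (nat_lit 2544) (nat_lit 626) (nat_lit 6642))) (.a (.f (nat_lit 626) (nat_lit 497) (nat_lit 7665) (.f (nat_lit 657) (nat_lit 625) (nat_lit 5649) (.f (nat_lit 658) (nat_lit 689) (nat_lit 5681) (.d (nat_lit 659) (nat_lit 627) (nat_lit 4626) (nat_lit 691) (nat_lit 4658))))) (.f (nat_lit 531) (nat_lit 559) (nat_lit 1551) (.f (nat_lit 563) (nat_lit 564) (nat_lit 528) (.d (nat_lit 499) (nat_lit 467) (nat_lit 5586) (nat_lit 500) (nat_lit 2544))))))) (.a (.p (nat_lit 626) (.a (.f (nat_lit 531) (nat_lit 499) (nat_lit 6642) (.f (nat_lit 561) (nat_lit 559) (nat_lit 2575) (.d (nat_lit 532) (nat_lit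 533) (nat_lit 1553) (nat_lit 563) (nat_lit 2576)))) (.a (.f (nat_lit 531) (nat_lit 499) (nat_lit 6642) (.f (nat_lit 658) (nat_lit 563) (nat_lit 6674) (.d (nat_lit 657) (nat_lit 625) (nat_lit 5649) (nat_lit 689) (nat_lit 5681)))) (.f (nat_lit 657) (nat_lit 625) (nat_lit 5649) (.f (nat_lit 658) (nat_lit 689) (nat_lit 5681) (.d (nat_lit 659) (nat_lit 627) (nat_lit 4626) (nat_lit 691) (nat_lit 4658))))))) (.a (.p (nat_lit 529) (.a (.f (nat_lit 626) (nat_lit 497) (nat_lit 7665) (.f (nat_lit 657) (nat_lit 625) (nat_lit 5649) (.f (nat_lit 658) (nat_lit 689) (nat_lit 5681) (.d (nat_lit 659) (nat_lit 627) (nat_lit 4626) (nat_lit 691) (nat_lit 4658))))) (.f (nat_lit 527) (nat_lit 563) (nat_lit 527) (.f (nat_lit 495) (nat_lit 494) (nat_lit 3566) (.f (nat_lit 559) (nat_lit 558) (nat_lit 1550) (.d (nat_lit 463) (nat_lit 431) (nat_lit 4527) (nat_lit 592) (nat_lit 4559))))))) (.a s3730 (.a (.p (nat_lit 529) (.a (.f (nat_lit 626) (nat_lit 497)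 (nat_lit 7665) (.f (nat_lit 657) (nat_lit 625) (nat_lit 5649) (.f (nat_lit 658) (nat_lit 689) (nat_lit 5681) (.d (nat_lit 659) (nat_lit 627) (nat_lit 4626) (nat_lit 691) (nat_lit 4658))))) (.f (nat_lit 563) (nat_lit 527) (nat_lit 527) (.d (nat_lit 564) (nat_lit 531) (nat_lit 528) (nat_lit 561) (nat_lit 3600))))) (.p (nat_lit 561) (.a (.f (nat_lit 531) (nat_lit 559) (nat_lit 2575) (.d (nat_lit 532) (nat_lit 533) (nat_lit 1553) (nat_lit 563) (nat_lit 2576))) (.a (.f (nat_lit 563) (nat_lit 527) (nat_lit 3599) (.f (nat_lit 529) (nat_lit 564) (nat_lit 3600) (.f (nat_lit 497) (nat_lit 465) (nat_lit 4561) (.d (nat_lit 592) (nat_lit 591) (nat_lit 1583) (nat_lit 624) (nat_lit 6640))))) (.f (nat_lit 559) (nat_lit 531) (nat_lit 2575) (.f (nat_lit 558) (nat_lit 529) (nat_lit 2574) (.d (nat_lit 590) (nat_lit 589) (nat_lit 1581) (nat_lit 591) (nat_lit 1582)))))))))))))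
noncomputable def s4768 : Cert := .r (nat_lit 64836180782635327105257550133865756107099233344784774323566786510389197141567267213334914537603630284999823986032247621314213099342709661479114454765656505907541824002709199519744) (.p (nat_lit 498) (.a (.f (nat_lit 497) (nat_lit 465) (nat_lit 7633) (.f (nat_lit 529) (nat_lit 626) (nat_lit 7665) (.d (nat_lit 499) (nat_lit 467) (nat_lit 6610) (nat_lit 500) (nat_lit 1520)))) (.a (.f (nat_lit 467) (nat_lit 499) (nat_lit 6610) (.f (nat_lit 466) (nat_lit 435) (nat_lit 6578) (.d (nat_lit 465) (nat_lit 433) (nat_lit 7601) (nat_lit 497) (nat_lit 7633)))) (.a s3474 (.f (nat_lit 497) (nat_lit 465) (nat_lit 7633) (.f (nat_lit 626) (nat_lit 529) (nat_lit 7665) (.d (nat_lit 625) (nat_lit 593) (nat_lit 5617) (nat_lit 657) (nat_lit 5649))))))))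
noncomputable def s4780 : Cert := .r (nat_lit 64836180782635327105257550133865756107099233344784774323566786510389197141567267213334914537603630284999823986032247621314213099342709661479114454765656505907541824002709199519744) (.p (nat_lit 626) (.a (.f (nat_lit 657) (nat_lit 625) (nat_lit 5649) (.f (nat_lit 658) (nat_lit 689) (nat_lit 5681) (.d (nat_lit 659) (nat_lit 627) (nat_lit 4626) (nat_lit 691) (nat_lit 4658)))) (.a (.f (nat_lit 529) (nat_lit 497) (nat_lit 7665) (.f (nat_lit 531) (nat_lit 499) (nat_lit 6642) (.d (nat_lit 561) (nat_lit 532) (nat_lit 1552) (nat_lit 658) (nat_lit 7697)))) (.f (nat_lit 529) (nat_lit 497) (nat_lit 7665) (.f (nat_lit 531) (nat_lit 499) (nat_lit 6642) (.f (nat_lit 532) (nat_lit 561) (nat_lit 1552) (.f (nat_lit 501) (nat_lit 500) (nat_lit 2545) (.f (nat_lit 533) (nat_lit 502) (nat_lit 2546) (.d (nat_lit 565) (nat_lit 564) (nat_lit 529) (nat_lit 566) (nat_lit 530))))))))))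
noncomputable def s4782 : Cert := .r (nat_lit 64836180782635327101742773731878883933028500135655100996324835636715824771957301922231916427704030386313073450013582889165837387910271462164107996909801584275503921517658290257920) (.p (nat_lit 530) (.a s3695 (.a (.p (nat_lit 498) (.a (.f (nat_lit 467) (nat_lit 499) (nat_lit 6610) (.f (nat_lit 466) (nat_lit 435) (nat_lit 6578) (.d (nat_lit 465) (nat_lit 433) (nat_lit 7601) (nat_lit 497) (nat_lit 7633)))) (.a (.f (nat_lit 625) (nat_lit 593) (nat_lit 5617) (.f (nat_lit 626) (nat_lit 657) (nat_lit 5649) (.d (nat_lit 499) (nat_lit 467) (nat_lit 6610) (nat_lit 531) (nat_lit 6642)))) (.f (nat_lit 625) (nat_lit 593) (nat_lit 5617) (.f (nat_lit 626) (nat_lit 657) (nat_lit 5649) (.d (nat_lit 627) (nat_lit 595) (nat_lit 4594) (nat_lit 659) (nat_lit 4626))))))) (.a (.p (nat_lit 498) (.a (.f (nat_lit 499) (nat_lit 467) (nat_lit 6610) (.f (nat_lit 529) (nat_lit 527) (nat_lit 2543) (.d (nat_lit 500)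 (nat_lit 501) (nat_lit 1521) (nat_lit 531) (nat_lit 2544)))) (.a (.f (nat_lit 625) (nat_lit 593) (nat_lit 5617) (.f (nat_lit 626) (nat_lit 657) (nat_lit 5649) (.d (nat_lit 499) (nat_lit 467) (nat_lit 6610) (nat_lit 531) (nat_lit 6642)))) (.f (nat_lit 625) (nat_lit 593) (nat_lit 5617) (.f (nat_lit 626) (nat_lit 657) (nat_lit 5649) (.d (nat_lit 627) (nat_lit 595) (nat_lit 4594) (nat_lit 659) (nat_lit 4626))))))) (.a (.p (nat_lit 498) (.a (.f (nat_lit 497) (nat_lit 465) (nat_lit 7633) (.f (nat_lit 529) (nat_lit 626) (nat_lit 7665) (.d (nat_lit 499) (nat_lit 467) (nat_lit 6610) (nat_lit 500) (nat_lit 1520)))) (.a (.f (nat_lit 467) (nat_lit 499) (nat_lit 6610) (.f (nat_lit 466) (nat_lit 435) (nat_lit 6578) (.d (nat_lit 465) (nat_lit 433) (nat_lit 7601) (nat_lit 497) (nat_lit 7633)))) (.f (nat_lit 625) (nat_lit 593) (nat_lit 5617) (.f (nat_lit 626) (nat_lit 657) (nat_lit 5649) (.d (nat_lit 627) (nat_lit 595) (nat_lit 4594) (nat_lit 659)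 (nat_lit 4626))))))) (.a s4780 (.a (.p (nat_lit 498) (.a (.f (nat_lit 593) (nat_lit 625) (nat_lit 5617) (.f (nat_lit 561) (nat_lit 466) (nat_lit 5585) (.d (nat_lit 595) (nat_lit 596) (nat_lit 3632) (nat_lit 627) (nat_lit 4594)))) (.a (.f (nat_lit 497) (nat_lit 465) (nat_lit 7633) (.f (nat_lit 626) (nat_lit 529) (nat_lit 7665) (.d (nat_lit 625) (nat_lit 593) (nat_lit 5617) (nat_lit 657) (nat_lit 5649)))) (.f (nat_lit 497) (nat_lit 465) (nat_lit 7633) (.f (nat_lit 626) (nat_lit 529) (nat_lit 7665) (.d (nat_lit 627) (nat_lit 595) (nat_lit 4594) (nat_lit 659) (nat_lit 4626))))))) (.a s3982 (.p (nat_lit 498) (.a (.f (nat_lit 467) (nat_lit 499) (nat_lit 6610) (.f (nat_lit 466) (nat_lit 435) (nat_lit 6578) (.d (nat_lit 465) (nat_lit 433) (nat_lit 7601) (nat_lit 497) (nat_lit 7633)))) (.a (.f (nat_lit 499) (nat_lit 467) (nat_lit 6610) (.f (nat_lit 529) (nat_lit 527) (nat_lit 2543) (.d (nat_lit 500) (nat_lit 501) (nat_lit 1521) (nat_lit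 531) (nat_lit 2544)))) (.f (nat_lit 593) (nat_lit 625) (nat_lit 5617) (.f (nat_lit 561) (nat_lit 466) (nat_lit 5585) (.d (nat_lit 595) (nat_lit 596) (nat_lit 3632) (nat_lit 627) (nat_lit 4594)))))))))))))))
noncomputable def s4787 : Cert := .r (nat_lit 64836180782635327101742773731878883933028500135655100996324835636715824771957301922231916427704030386313073450013582889165837387910271462164107996909801584275503921517658290257920) (.p (nat_lit 530) (.a s3730 (.a s3982 (.a (.p (nat_lit 498) (.a (.f (nat_lit 467) (nat_lit 499) (nat_lit 6610) (.f (nat_lit 466) (nat_lit 435) (nat_lit 6578) (.d (nat_lit 465) (nat_lit 433) (nat_lit 7601) (nat_lit 497) (nat_lit 7633)))) (.a (.f (nat_lit 499) (nat_lit 467) (nat_lit 6610) (.f (nat_lit 626) (nat_lit 531) (nat_lit 6642) (.d (nat_lit 627) (nat_lit 595) (nat_lit 4594) (nat_lit 659) (nat_lit 4626)))) (.f (nat_lit 595) (nat_lit 627) (nat_lit 4594) (.f (nat_lit 561) (nat_lit 559) (nat_lit 559) (.d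 (nat_lit 593) (nat_lit 466) (nat_lit 5585) (nat_lit 596) (nat_lit 3632))))))) (.a s4376 (.a (.p (nat_lit 498) (.a (.f (nat_lit 497) (nat_lit 465) (nat_lit 7633) (.f (nat_lit 529) (nat_lit 626) (nat_lit 7665) (.d (nat_lit 499) (nat_lit 467) (nat_lit 6610) (nat_lit 500) (nat_lit 1520)))) (.a (.f (nat_lit 467) (nat_lit 499) (nat_lit 6610) (.f (nat_lit 466) (nat_lit 435) (nat_lit 6578) (.d (nat_lit 465) (nat_lit 433) (nat_lit 7601) (nat_lit 497) (nat_lit 7633)))) (.f (nat_lit 595) (nat_lit 627) (nat_lit 4594) (.f (nat_lit 561) (nat_lit 559) (nat_lit 559) (.d (nat_lit 593) (nat_lit 466) (nat_lit 5585) (nat_lit 596) (nat_lit 3632))))))) (.a (.p (nat_lit 529) (.a (.f (nat_lit 531) (nat_lit 559) (nat_lit 1551) (.d (nat_lit 499) (nat_lit 500) (nat_lit 2544) (nat_lit 626) (nat_lit 6642))) (.a (.f (nat_lit 497) (nat_lit 626) (nat_lit 7665) (.d (nat_lit 465) (nat_lit 433) (nat_lit 4529) (nat_lit 561) (nat_lit 4561))) (.f (nat_lit 559) (nat_lit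 531) (nat_lit 1551) (.d (nat_lit 558) (nat_lit 527) (nat_lit 1550) (nat_lit 557) (nat_lit 2573)))))) (.a (.p (nat_lit 498) (.a (.f (nat_lit 497) (nat_lit 465) (nat_lit 7633) (.f (nat_lit 529) (nat_lit 626) (nat_lit 7665) (.f (nat_lit 559) (nat_lit 531) (nat_lit 1551) (.d (nat_lit 558) (nat_lit 527) (nat_lit 1550) (nat_lit 557) (nat_lit 2573))))) (.a (.f (nat_lit 497) (nat_lit 465) (nat_lit 7633) (.f (nat_lit 529) (nat_lit 626) (nat_lit 7665) (.f (nat_lit 559) (nat_lit 531) (nat_lit 1551) (.d (nat_lit 558) (nat_lit 557) (nat_lit 2573) (nat_lit 561) (nat_lit 2574))))) (.a (.f (nat_lit 595) (nat_lit 627) (nat_lit 4594) (.f (nat_lit 561) (nat_lit 559) (nat_lit 559) (.d (nat_lit 593) (nat_lit 466) (nat_lit 5585) (nat_lit 596) (nat_lit 3632)))) (.f (nat_lit 497) (nat_lit 465) (nat_lit 7633) (.f (nat_lit 626) (nat_lit 529) (nat_lit 7665) (.d (nat_lit 627) (nat_lit 595) (nat_lit 4594) (nat_lit 659) (nat_lit 4626)))))))) (.p (nat_lit 498)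 (.a (.f (nat_lit 467) (nat_lit 499) (nat_lit 6610) (.f (nat_lit 466) (nat_lit 435) (nat_lit 6578) (.d (nat_lit 465) (nat_lit 433) (nat_lit 7601) (nat_lit 497) (nat_lit 7633)))) (.a (.f (nat_lit 499) (nat_lit 467) (nat_lit 6610) (.f (nat_lit 529) (nat_lit 527) (nat_lit 2543) (.d (nat_lit 500) (nat_lit 501) (nat_lit 1521) (nat_lit 531) (nat_lit 2544)))) (.f (nat_lit 595) (nat_lit 627) (nat_lit 4594) (.f (nat_lit 561) (nat_lit 559) (nat_lit 559) (.d (nat_lit 593) (nat_lit 466) (nat_lit 5585) (nat_lit 596) (nat_lit 3632)))))))))))))))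
noncomputable def s4793 : Cert := .r (nat_lit 64836180782635327101742773731878883933028500135655100996324835636715824771957301922231916427704030386313073450013582889165837387910271462164107996909801584275503921517658290257920) (.p (nat_lit 530) (.a (.p (nat_lit 498) (.a (.f (nat_lit 595) (nat_lit 627) (nat_lit 4594) (.f (nat_lit 561) (nat_lit 559) (nat_lit 559) (.d (nat_lit 593) (nat_lit 596) (nat_lit 3632) (nat_lit 625) (nat_lit 5617)))) (.f (nat_lit 467) (nat_lit 499) (nat_lit 6610) (.f (nat_lit 466) (nat_lit 435) (nat_lit 6578) (.d (nat_lit 465) (nat_lit 433) (nat_lit 7601) (nat_lit 497) (nat_lit 7633)))))) (.a s3983 (.a (.p (nat_lit 498) (.a (.f (nat_lit 593) (nat_lit 625) (nat_lit 5617) (.f (nat_lit 561) (nat_lit 466) (nat_lit 5585) (.d (nat_lit 559) (nat_lit 531) (nat_lit 2575) (nat_lit 558) (nat_lit 558)))) (.a (.f (nat_lit 499) (nat_lit 467) (nat_lit 6610) (.f (nat_lit 529) (nat_lit 527) (nat_lit 2543) (.d (nat_lit 500)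 (nat_lit 501) (nat_lit 1521) (nat_lit 531) (nat_lit 2544)))) (.f (nat_lit 595) (nat_lit 627) (nat_lit 4594) (.f (nat_lit 561) (nat_lit 559) (nat_lit 559) (.d (nat_lit 593) (nat_lit 596) (nat_lit 3632) (nat_lit 625) (nat_lit 5617))))))) (.a (.p (nat_lit 559) (.a (.f (nat_lit 561) (nat_lit 595) (nat_lit 559) (.d (nat_lit 558) (nat_lit 529) (nat_lit 2574) (nat_lit 593) (nat_lit 558))) (.a (.f (nat_lit 529) (nat_lit 531) (nat_lit 1551) (.d (nat_lit 558) (nat_lit 527) (nat_lit 1550) (nat_lit 557) (nat_lit 2573))) (.d (nat_lit 561) (nat_lit 531) (nat_lit 2575) (nat_lit 595) (nat_lit 559))))) (.a (.p (nat_lit 498) (.a (.f (nat_lit 467) (nat_lit 499) (nat_lit 6610) (.f (nat_lit 466) (nat_lit 435) (nat_lit 6578) (.d (nat_lit 465) (nat_lit 433) (nat_lit 7601) (nat_lit 497) (nat_lit 7633)))) (.a (.f (nat_lit 499) (nat_lit 467) (nat_lit 6610) (.f (nat_lit 529) (nat_lit 527) (nat_lit 2543) (.d (nat_lit 500) (nat_lit 501) (nat_lit 1521) (nat_lit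 531) (nat_lit 2544)))) (.f (nat_lit 595) (nat_lit 627) (nat_lit 4594) (.f (nat_lit 559) (nat_lit 561) (nat_lit 559) (.f (nat_lit 529) (nat_lit 531) (nat_lit 1551) (.d (nat_lit 558) (nat_lit 527) (nat_lit 1550) (nat_lit 557) (nat_lit 2573)))))))) (.a (.p (nat_lit 498) (.a (.f (nat_lit 467) (nat_lit 499) (nat_lit 6610) (.f (nat_lit 466) (nat_lit 435) (nat_lit 6578) (.d (nat_lit 465) (nat_lit 433) (nat_lit 7601) (nat_lit 497) (nat_lit 7633)))) (.a (.f (nat_lit 499) (nat_lit 467) (nat_lit 6610) (.f (nat_lit 529) (nat_lit 527) (nat_lit 2543) (.d (nat_lit 500) (nat_lit 501) (nat_lit 1521) (nat_lit 531) (nat_lit 2544)))) (.f (nat_lit 593) (nat_lit 625) (nat_lit 5617) (.f (nat_lit 561) (nat_lit 466) (nat_lit 5585) (.d (nat_lit 595) (nat_lit 596) (nat_lit 3632) (nat_lit 627) (nat_lit 4594))))))) (.p (nat_lit 498) (.a (.f (nat_lit 593) (nat_lit 625) (nat_lit 5617) (.f (nat_lit 561) (nat_lit 466) (nat_lit 5585) (.d (nat_lit 559) (nat_lit 531)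 (nat_lit 2575) (nat_lit 558) (nat_lit 558)))) (.a (.f (nat_lit 467) (nat_lit 499) (nat_lit 6610) (.f (nat_lit 466) (nat_lit 435) (nat_lit 6578) (.d (nat_lit 465) (nat_lit 433) (nat_lit 7601) (nat_lit 497) (nat_lit 7633)))) (.f (nat_lit 499) (nat_lit 467) (nat_lit 6610) (.f (nat_lit 529) (nat_lit 527) (nat_lit 2543) (.d (nat_lit 500) (nat_lit 501) (nat_lit 1521) (nat_lit 531) (nat_lit 2544))))))))))))))
noncomputable def s4795 : Cert := .r (nat_lit 64836180782635327101742773731878883933028500135655100996324835636715824771957301922231916427704030386313073450013582889165837387910271462164107996909801584275503921517658290257920) (.p (nat_lit 530) (.a s3695 (.a (.p (nat_lit 498) (.a (.f (nat_lit 593) (nat_lit 625) (nat_lit 5617) (.f (nat_lit 561) (nat_lit 466) (nat_lit 5585) (.d (nat_lit 559) (nat_lit 531) (nat_lit 2575) (nat_lit 558) (nat_lit 558)))) (.a (.f (nat_lit 467) (nat_lit 499) (nat_lit 6610) (.f (nat_lit 466) (nat_lit 435)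 (nat_lit 6578) (.d (nat_lit 465) (nat_lit 433) (nat_lit 7601) (nat_lit 497) (nat_lit 7633)))) (.f (nat_lit 625) (nat_lit 593) (nat_lit 5617) (.f (nat_lit 626) (nat_lit 657) (nat_lit 5649) (.d (nat_lit 499) (nat_lit 467) (nat_lit 6610) (nat_lit 531) (nat_lit 6642))))))) (.a s3813 (.a s4768 (.a s3730 (.a (.p (nat_lit 498) (.a (.f (nat_lit 593) (nat_lit 625) (nat_lit 5617) (.f (nat_lit 561) (nat_lit 466) (nat_lit 5585) (.d (nat_lit 559) (nat_lit 531) (nat_lit 2575) (nat_lit 558) (nat_lit 558)))) (.a (.f (nat_lit 497) (nat_lit 465) (nat_lit 7633) (.f (nat_lit 626) (nat_lit 529) (nat_lit 7665) (.d (nat_lit 625) (nat_lit 593) (nat_lit 5617) (nat_lit 657) (nat_lit 5649)))) (.f (nat_lit 497) (nat_lit 465) (nat_lit 7633) (.f (nat_lit 529) (nat_lit 626) (nat_lit 7665) (.f (nat_lit 559) (nat_lit 531) (nat_lit 1551) (.d (nat_lit 558) (nat_lit 557) (nat_lit 2573) (nat_lit 561) (nat_lit 2574)))))))) (.p (nat_lit 498) (.a (.f (nat_lit 593) (nat_lit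 625) (nat_lit 5617) (.f (nat_lit 561) (nat_lit 466) (nat_lit 5585) (.d (nat_lit 559) (nat_lit 531) (nat_lit 2575) (nat_lit 558) (nat_lit 558)))) (.a (.f (nat_lit 467) (nat_lit 499) (nat_lit 6610) (.f (nat_lit 466) (nat_lit 435) (nat_lit 6578) (.d (nat_lit 465) (nat_lit 433) (nat_lit 7601) (nat_lit 497) (nat_lit 7633)))) (.f (nat_lit 499) (nat_lit 467) (nat_lit 6610) (.f (nat_lit 529) (nat_lit 527) (nat_lit 2543) (.d (nat_lit 500) (nat_lit 501) (nat_lit 1521) (nat_lit 531) (nat_lit 2544))))))))))))))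
noncomputable def s4796 : Cert := .r (nat_lit 64836180782635327101742773731878883933028500135655100996324835636715824771957301922231916427704030386313073450013582889165837387910271462164107996909801584275503921517658290257920) (.p (nat_lit 530) (.a s3695 (.a (.p (nat_lit 498) (.a (.f (nat_lit 593) (nat_lit 625) (nat_lit 5617) (.f (nat_lit 561) (nat_lit 466) (nat_lit 5585) (.d (nat_lit 559) (nat_lit 531) (nat_lit 2575) (nat_lit 558) (nat_lit 558)))) (.a (.f (nat_lit 467) (nat_lit 499) (nat_lit 6610) (.f (nat_lit 466) (nat_lit 435) (nat_lit 6578) (.d (nat_lit 465) (nat_lit 433) (nat_lit 7601) (nat_lit 497) (nat_lit 7633)))) (.f (nat_lit 625) (nat_lit 593) (nat_lit 5617) (.f (nat_lit 626) (nat_lit 657) (nat_lit 5649) (.d (nat_lit 499) (nat_lit 467) (nat_lit 6610) (nat_lit 531) (nat_lit 6642))))))) (.a (.p (nat_lit 498) (.a (.f (nat_lit 593) (nat_lit 625) (nat_lit 5617) (.f (nat_lit 561) (nat_lit 466) (nat_lit 5585) (.d (nat_lit 559)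 (nat_lit 531) (nat_lit 2575) (nat_lit 558) (nat_lit 558)))) (.a (.f (nat_lit 499) (nat_lit 467) (nat_lit 6610) (.f (nat_lit 529) (nat_lit 527) (nat_lit 2543) (.d (nat_lit 500) (nat_lit 501) (nat_lit 1521) (nat_lit 531) (nat_lit 2544)))) (.f (nat_lit 593) (nat_lit 625) (nat_lit 5617) (.f (nat_lit 561) (nat_lit 466) (nat_lit 5585) (.d (nat_lit 559) (nat_lit 558) (nat_lit 558) (nat_lit 595) (nat_lit 559))))))) (.a (.p (nat_lit 498) (.a (.f (nat_lit 497) (nat_lit 465) (nat_lit 7633) (.f (nat_lit 529) (nat_lit 626) (nat_lit 7665) (.d (nat_lit 499) (nat_lit 467) (nat_lit 6610) (nat_lit 500) (nat_lit 1520)))) (.a (.f (nat_lit 467) (nat_lit 499) (nat_lit 6610) (.f (nat_lit 466) (nat_lit 435) (nat_lit 6578) (.d (nat_lit 465) (nat_lit 433) (nat_lit 7601) (nat_lit 497) (nat_lit 7633)))) (.f (nat_lit 593) (nat_lit 625) (nat_lit 5617) (.f (nat_lit 561) (nat_lit 466) (nat_lit 5585) (.d (nat_lit 559) (nat_lit 558) (nat_lit 558) (nat_lit 595) (nat_lit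 559))))))) (.a (.p (nat_lit 529) (.a (.f (nat_lit 531) (nat_lit 559) (nat_lit 1551) (.d (nat_lit 499) (nat_lit 500) (nat_lit 2544) (nat_lit 626) (nat_lit 6642))) (.a (.f (nat_lit 497) (nat_lit 626) (nat_lit 7665) (.d (nat_lit 465) (nat_lit 433) (nat_lit 4529) (nat_lit 561) (nat_lit 4561))) (.f (nat_lit 559) (nat_lit 531) (nat_lit 1551) (.d (nat_lit 558) (nat_lit 527) (nat_lit 1550) (nat_lit 557) (nat_lit 2573)))))) (.p (nat_lit 498) (.a (.f (nat_lit 593) (nat_lit 625) (nat_lit 5617) (.f (nat_lit 561) (nat_lit 466) (nat_lit 5585) (.d (nat_lit 559) (nat_lit 531) (nat_lit 2575) (nat_lit 558) (nat_lit 558)))) (.a (.f (nat_lit 497) (nat_lit 465) (nat_lit 7633) (.f (nat_lit 626) (nat_lit 529) (nat_lit 7665) (.d (nat_lit 625) (nat_lit 593) (nat_lit 5617) (nat_lit 657) (nat_lit 5649)))) (.f (nat_lit 497) (nat_lit 465) (nat_lit 7633) (.f (nat_lit 529) (nat_lit 626) (nat_lit 7665) (.f (nat_lit 559) (nat_lit 531) (nat_lit 1551) (.d (nat_lit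 558) (nat_lit 557) (nat_lit 2573) (nat_lit 561) (nat_lit 2574))))))))))))))
noncomputable def s4799 : Cert := .r (nat_lit 64836180782635327101742773731878883933028500135655100996324835636715824771957301922231916427704030386313073450013582889165837387910271462164107996909801584275503921517658290257920) (.p (nat_lit 530) (.a s3736 (.a s3449 (.a s4383 (.a s3499 (.a (.p (nat_lit 529) (.a (.f (nat_lit 563) (nat_lit 527) (nat_lit 527) (.d (nat_lit 564) (nat_lit 531) (nat_lit 528) (nat_lit 561) (nat_lit 3600))) (.a (.f (nat_lit 497) (nat_lit 626) (nat_lit 7665) (.d (nat_lit 465) (nat_lit 433) (nat_lit 4529) (nat_lit 561) (nat_lit 4561))) (.f (nat_lit 563) (nat_lit 527) (nat_lit 527) (.d (nat_lit 564) (nat_lit 531) (nat_lit 528) (nat_lit 565) (nat_lit 3601)))))) (.a s3982 (.p (nat_lit 498) (.a (.f (nat_lit 467) (nat_lit 499) (nat_lit 6610) (.f (nat_lit 466) (nat_lit 435) (nat_lit 6578) (.d (nat_lit 465) (nat_lit 433) (nat_lit 7601) (nat_lit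 497) (nat_lit 7633)))) (.a (.f (nat_lit 499) (nat_lit 467) (nat_lit 6610) (.f (nat_lit 529) (nat_lit 527) (nat_lit 2543) (.d (nat_lit 500) (nat_lit 501) (nat_lit 1521) (nat_lit 531) (nat_lit 2544)))) (.f (nat_lit 595) (nat_lit 627) (nat_lit 4594) (.f (nat_lit 466) (nat_lit 563) (nat_lit 4562) (.d (nat_lit 465) (nat_lit 433) (nat_lit 7601) (nat_lit 497) (nat_lit 7633))))))))))))))
noncomputable def s4804 : Cert := .r (nat_lit 64836180782635327101742773731878883933028500135655100996324835636715824771957301922231916427704030386313073450013582889165837387910271462164107996909801584275503921517658290257920) (.p (nat_lit 592) (.a (.p (nat_lit 624) (.a (.f (nat_lit 655) (nat_lit 623) (nat_lit 5647) (.f (nat_lit 656) (nat_lit 687) (nat_lit 5679) (.d (nat_lit 657) (nat_lit 625) (nat_lit 4624) (nat_lit 689) (nat_lit 4656)))) (.a (.f (nat_lit 623) (nat_lit 655) (nat_lit 5647) (.f (nat_lit 593) (nat_lit 595) (nat_lit 1615) (.d (nat_lit 622)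 (nat_lit 591) (nat_lit 1614) (nat_lit 621) (nat_lit 2637)))) (.f (nat_lit 529) (nat_lit 497) (nat_lit 6640) (.f (nat_lit 561) (nat_lit 656) (nat_lit 6672) (.d (nat_lit 563) (nat_lit 564) (nat_lit 3600) (nat_lit 591) (nat_lit 1583))))))) (.a s4000 (.a s4535 (.a (.p (nat_lit 624) (.a (.f (nat_lit 655) (nat_lit 623) (nat_lit 5647) (.f (nat_lit 656) (nat_lit 687) (nat_lit 5679) (.d (nat_lit 657) (nat_lit 625) (nat_lit 4624) (nat_lit 689) (nat_lit 4656)))) (.f (nat_lit 529) (nat_lit 497) (nat_lit 6640) (.f (nat_lit 527) (nat_lit 495) (nat_lit 7663) (.d (nat_lit 563) (nat_lit 530) (nat_lit 527) (nat_lit 561) (nat_lit 3599)))))) (.a (.p (nat_lit 563) (.a (.d (nat_lit 561) (nat_lit 527) (nat_lit 3599) (nat_lit 591) (nat_lit 1583)) (.a (.d (nat_lit 591) (nat_lit 561) (nat_lit 1583) (nat_lit 593) (nat_lit 2607)) (.a (.f (nat_lit 593) (nat_lit 591) (nat_lit 2607) (.d (nat_lit 564) (nat_lit 565) (nat_lit 1585) (nat_lit 595) (nat_lit 2608)))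 (.f (nat_lit 561) (nat_lit 527) (nat_lit 3599) (.d (nat_lit 564) (nat_lit 529) (nat_lit 3600) (nat_lit 593) (nat_lit 1584))))))) (.p (nat_lit 624) (.a (.f (nat_lit 655) (nat_lit 623) (nat_lit 5647) (.f (nat_lit 656) (nat_lit 687) (nat_lit 5679) (.d (nat_lit 657) (nat_lit 625) (nat_lit 4624) (nat_lit 689) (nat_lit 4656)))) (.a (.f (nat_lit 623) (nat_lit 655) (nat_lit 5647) (.f (nat_lit 593) (nat_lit 595) (nat_lit 1615) (.d (nat_lit 622) (nat_lit 591) (nat_lit 1614) (nat_lit 621) (nat_lit 2637)))) (.f (nat_lit 529) (nat_lit 497) (nat_lit 6640) (.f (nat_lit 656) (nat_lit 561) (nat_lit 6672) (.d (nat_lit 657) (nat_lit 625) (nat_lit 4624) (nat_lit 689) (nat_lit 4656)))))))))))))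
noncomputable def s4806 : Cert := .r (nat_lit 64836180782635327101742773731878883933028500135655100996324835636715824771957301922231916427704030386313073450013582889165837387910271462164107996909801584275503921517658290257920) (.p (nat_lit 530) (.a s3695 (.a s3908 (.a (.p (nat_lit 498) (.a (.f (nat_lit 497) (nat_lit 465) (nat_lit 7633) (.f (nat_lit 529) (nat_lit 626) (nat_lit 7665) (.d (nat_lit 499) (nat_lit 467) (nat_lit 6610) (nat_lit 500) (nat_lit 1520)))) (.a (.f (nat_lit 467) (nat_lit 499) (nat_lit 6610) (.f (nat_lit 466) (nat_lit 435) (nat_lit 6578) (.d (nat_lit 465) (nat_lit 433) (nat_lit 7601) (nat_lit 497) (nat_lit 7633)))) (.f (nat_lit 593) (nat_lit 625) (nat_lit 5617) (.f (nat_lit 561) (nat_lit 466) (nat_lit 5585) (.f (nat_lit 563) (nat_lit 527) (nat_lit 3599) (.d (nat_lit 564) (nat_lit 529) (nat_lit 3600) (nat_lit 565) (nat_lit 1585)))))))) (.a (.p (nat_lit 529) (.a (.f (nat_lit 626) (nat_lit 497) (nat_lit 7665) (.f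 (nat_lit 657) (nat_lit 625) (nat_lit 5649) (.f (nat_lit 658) (nat_lit 689) (nat_lit 5681) (.d (nat_lit 659) (nat_lit 627) (nat_lit 4626) (nat_lit 691) (nat_lit 4658))))) (.f (nat_lit 563) (nat_lit 527) (nat_lit 527) (.d (nat_lit 564) (nat_lit 531) (nat_lit 528) (nat_lit 561) (nat_lit 3600))))) (.a s4424 (.p (nat_lit 498) (.a (.f (nat_lit 593) (nat_lit 625) (nat_lit 5617) (.f (nat_lit 561) (nat_lit 466) (nat_lit 5585) (.f (nat_lit 563) (nat_lit 527) (nat_lit 3599) (.d (nat_lit 564) (nat_lit 565) (nat_lit 1585) (nat_lit 592) (nat_lit 1584))))) (.a (.f (nat_lit 467) (nat_lit 499) (nat_lit 6610) (.f (nat_lit 466) (nat_lit 435) (nat_lit 6578) (.d (nat_lit 465) (nat_lit 433) (nat_lit 7601) (nat_lit 497) (nat_lit 7633)))) (.f (nat_lit 499) (nat_lit 467) (nat_lit 6610) (.f (nat_lit 529) (nat_lit 527) (nat_lit 2543) (.d (nat_lit 500) (nat_lit 501) (nat_lit 1521) (nat_lit 531) (nat_lit 2544)))))))))))))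
noncomputable def s4811 : Cert := .r (nat_lit 64836180782635327105257550133865756107099233344784774323566786510389197141567267213334914537603630284999823986032247621314213099342709661479114454765656505907541824002709199519744) (.p (nat_lit 626) (.a (.f (nat_lit 531) (nat_lit 499) (nat_lit 6642) (.f (nat_lit 658) (nat_lit 563) (nat_lit 6674) (.d (nat_lit 657) (nat_lit 625) (nat_lit 5649) (nat_lit 689) (nat_lit 5681)))) (.a (.f (nat_lit 657) (nat_lit 625) (nat_lit 5649) (.f (nat_lit 658) (nat_lit 689) (nat_lit 5681) (.d (nat_lit 659) (nat_lit 627) (nat_lit 4626) (nat_lit 691) (nat_lit 4658)))) (.a (.f (nat_lit 531) (nat_lit 499) (nat_lit 6642) (.f (nat_lit 658) (nat_lit 563) (nat_lit 6674) (.d (nat_lit 659) (nat_lit 627) (nat_lit 4626) (nat_lit 691) (nat_lit 4658)))) (.f (nat_lit 529) (nat_lit 497) (nat_lit 7665) (.f (nat_lit 531) (nat_lit 499) (nat_lit 6642) (.f (nat_lit 561) (nat_lit 532) (nat_lit 1552) (.f (nat_lit 563) (nat_lit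 527) (nat_lit 527) (.f (nat_lit 595) (nat_lit 596) (nat_lit 560) (.f (nat_lit 627) (nat_lit 659) (nat_lit 4626) (.f (nat_lit 592) (nat_lit 591) (nat_lit 1583) (.d (nat_lit 628) (nat_lit 593) (nat_lit 592) (nat_lit 660) (nat_lit 4627)))))))))))))
noncomputable def s4812 : Cert := .r (nat_lit 64836180782635327101742773731878883933028500135655100996324835636715824771957301922231916427704030386313073450013582889165837387910271462164107996909801584275503921517658290257920) (.p (nat_lit 530) (.a s3695 (.a (.p (nat_lit 498) (.a (.f (nat_lit 467) (nat_lit 499) (nat_lit 6610) (.f (nat_lit 466) (nat_lit 435) (nat_lit 6578) (.d (nat_lit 465) (nat_lit 433) (nat_lit 7601) (nat_lit 497) (nat_lit 7633)))) (.a (.f (nat_lit 625) (nat_lit 593) (nat_lit 5617) (.f (nat_lit 626) (nat_lit 657) (nat_lit 5649) (.d (nat_lit 499) (nat_lit 467) (nat_lit 6610) (nat_lit 531) (nat_lit 6642)))) (.f (nat_lit 595) (nat_lit 627) (nat_lit 4594) (.f (nat_lit 466)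 (nat_lit 563) (nat_lit 4562) (.d (nat_lit 465) (nat_lit 433) (nat_lit 7601) (nat_lit 497) (nat_lit 7633))))))) (.a s3908 (.a s3488 (.a s4811 (.a s3449 (.a (.p (nat_lit 498) (.a (.f (nat_lit 593) (nat_lit 625) (nat_lit 5617) (.f (nat_lit 561) (nat_lit 466) (nat_lit 5585) (.d (nat_lit 595) (nat_lit 596) (nat_lit 3632) (nat_lit 627) (nat_lit 4594)))) (.a (.f (nat_lit 497) (nat_lit 465) (nat_lit 7633) (.f (nat_lit 626) (nat_lit 529) (nat_lit 7665) (.d (nat_lit 625) (nat_lit 593) (nat_lit 5617) (nat_lit 657) (nat_lit 5649)))) (.f (nat_lit 497) (nat_lit 465) (nat_lit 7633) (.f (nat_lit 626) (nat_lit 529) (nat_lit 7665) (.d (nat_lit 627) (nat_lit 595) (nat_lit 4594) (nat_lit 659) (nat_lit 4626))))))) (.p (nat_lit 498) (.a (.f (nat_lit 467) (nat_lit 499) (nat_lit 6610) (.f (nat_lit 466) (nat_lit 435) (nat_lit 6578) (.d (nat_lit 465) (nat_lit 433) (nat_lit 7601) (nat_lit 497) (nat_lit 7633)))) (.a (.f (nat_lit 499) (nat_lit 467) (nat_lit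 6610) (.f (nat_lit 529) (nat_lit 527) (nat_lit 2543) (.d (nat_lit 500) (nat_lit 501) (nat_lit 1521) (nat_lit 531) (nat_lit 2544)))) (.f (nat_lit 593) (nat_lit 625) (nat_lit 5617) (.f (nat_lit 561) (nat_lit 466) (nat_lit 5585) (.d (nat_lit 595) (nat_lit 596) (nat_lit 3632) (nat_lit 627) (nat_lit 4594)))))))))))))))
noncomputable def s4820 : Cert := .r (nat_lit 64836180782635327101742773731878883933028500135655100996324835636715824771957301922231916427704030386313073450013582889165837387910271462164107996909801584275503921517658290257920) (.p (nat_lit 530) (.a (.p (nat_lit 498) (.a (.f (nat_lit 593) (nat_lit 625) (nat_lit 5617) (.f (nat_lit 561) (nat_lit 466) (nat_lit 5585) (.d (nat_lit 559) (nat_lit 531) (nat_lit 2575) (nat_lit 558) (nat_lit 558)))) (.a (.f (nat_lit 625) (nat_lit 593) (nat_lit 5617) (.f (nat_lit 626) (nat_lit 657) (nat_lit 5649) (.d (nat_lit 627) (nat_lit 595) (nat_lit 4594) (nat_lit 659) (nat_lit 4626)))) (.f (nat_lit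 595) (nat_lit 627) (nat_lit 4594) (.f (nat_lit 559) (nat_lit 561) (nat_lit 559) (.f (nat_lit 529) (nat_lit 531) (nat_lit 1551) (.d (nat_lit 558) (nat_lit 527) (nat_lit 1550) (nat_lit 557) (nat_lit 2573)))))))) (.a (.p (nat_lit 498) (.a (.f (nat_lit 593) (nat_lit 625) (nat_lit 5617) (.f (nat_lit 561) (nat_lit 466) (nat_lit 5585) (.d (nat_lit 559) (nat_lit 531) (nat_lit 2575) (nat_lit 558) (nat_lit 558)))) (.a (.f (nat_lit 497) (nat_lit 465) (nat_lit 7633) (.f (nat_lit 626) (nat_lit 529) (nat_lit 7665) (.d (nat_lit 625) (nat_lit 593) (nat_lit 5617) (nat_lit 657) (nat_lit 5649)))) (.f (nat_lit 497) (nat_lit 465) (nat_lit 7633) (.f (nat_lit 529) (nat_lit 626) (nat_lit 7665) (.f (nat_lit 559) (nat_lit 531) (nat_lit 1551) (.d (nat_lit 558) (nat_lit 557) (nat_lit 2573) (nat_lit 561) (nat_lit 2574)))))))) (.a s3981 (.a (.p (nat_lit 595) (.a (.f (nat_lit 561) (nat_lit 559) (nat_lit 559) (.d (nat_lit 596) (nat_lit 593) (nat_lit 3632) (nat_lit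 597) (nat_lit 3633))) (.f (nat_lit 627) (nat_lit 498) (nat_lit 4594) (.d (nat_lit 659) (nat_lit 626) (nat_lit 4626) (nat_lit 691) (nat_lit 7730))))) (.a (.p (nat_lit 559) (.a (.f (nat_lit 561) (nat_lit 595) (nat_lit 559) (.d (nat_lit 558) (nat_lit 529) (nat_lit 2574) (nat_lit 593) (nat_lit 558))) (.a (.f (nat_lit 529) (nat_lit 531) (nat_lit 1551) (.d (nat_lit 558) (nat_lit 527) (nat_lit 1550) (nat_lit 557) (nat_lit 2573))) (.d (nat_lit 561) (nat_lit 531) (nat_lit 2575) (nat_lit 595) (nat_lit 559))))) (.a (.p (nat_lit 529) (.a (.f (nat_lit 626) (nat_lit 497) (nat_lit 7665) (.f (nat_lit 657) (nat_lit 625) (nat_lit 5649) (.f (nat_lit 658) (nat_lit 689) (nat_lit 5681) (.d (nat_lit 659) (nat_lit 627) (nat_lit 4626) (nat_lit 691) (nat_lit 4658))))) (.f (nat_lit 559) (nat_lit 531) (nat_lit 1551) (.d (nat_lit 558) (nat_lit 527) (nat_lit 1550) (nat_lit 557) (nat_lit 2573))))) (.p (nat_lit 498) (.a (.f (nat_lit 593) (nat_lit 625) (nat_lit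 5617) (.f (nat_lit 561) (nat_lit 466) (nat_lit 5585) (.d (nat_lit 595) (nat_lit 596) (nat_lit 3632) (nat_lit 627) (nat_lit 4594)))) (.a (.f (nat_lit 497) (nat_lit 465) (nat_lit 7633) (.f (nat_lit 626) (nat_lit 529) (nat_lit 7665) (.d (nat_lit 625) (nat_lit 593) (nat_lit 5617) (nat_lit 657) (nat_lit 5649)))) (.f (nat_lit 497) (nat_lit 465) (nat_lit 7633) (.f (nat_lit 626) (nat_lit 529) (nat_lit 7665) (.d (nat_lit 627) (nat_lit 595) (nat_lit 4594) (nat_lit 659) (nat_lit 4626))))))))))))))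
noncomputable def s4838 : Cert := .r (nat_lit 64836180782635327105257550133865756107099233344784774323566786510389197141567267213334914537603630284999823986032247621314213099342709661479114454765656505907541824002709199519744) (.p (nat_lit 498) (.a (.f (nat_lit 467) (nat_lit 499) (nat_lit 6610) (.f (nat_lit 466) (nat_lit 435) (nat_lit 6578) (.d (nat_lit 465) (nat_lit 433) (nat_lit 7601) (nat_lit 497) (nat_lit 7633)))) (.a (.f (nat_lit 499) (nat_lit 467) (nat_lit 6610) (.f (nat_lit 531) (nat_lit 626) (nat_lit 6642) (.f (nat_lit 561) (nat_lit 559) (nat_lit 2575) (.d (nat_lit 532) (nat_lit 533) (nat_lit 1553) (nat_lit 563) (nat_lit 2576))))) (.f (nat_lit 465) (nat_lit 497) (nat_lit 7633) (.f (nat_lit 466) (nat_lit 433) (nat_lit 7601) (.f (nat_lit 561) (nat_lit 593) (nat_lit 5585) (.f (nat_lit 563) (nat_lit 527) (nat_lit 3599) (.d (nat_lit 531) (nat_lit 434) (nat_lit 4530) (nat_lit 532) (nat_lit 2576)))))))))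
noncomputable def s4839 : Cert := .r (nat_lit 64836180782635327101742773731878883933028500135655100996324835636715824771957301922231916427704030386313073450013582889165837387910271462164107996909801584275503921517658290257920) (.p (nat_lit 530) (.a s3730 (.a (.p (nat_lit 529) (.a (.f (nat_lit 531) (nat_lit 559) (nat_lit 1551) (.d (nat_lit 499) (nat_lit 500) (nat_lit 2544) (nat_lit 626) (nat_lit 6642))) (.a (.f (nat_lit 527) (nat_lit 563) (nat_lit 527) (.f (nat_lit 495) (nat_lit 494) (nat_lit 3566) (.f (nat_lit 559) (nat_lit 558) (nat_lit 1550) (.d (nat_lit 463) (nat_lit 431) (nat_lit 4527) (nat_lit 592) (nat_lit 4559))))) (.f (nat_lit 563) (nat_lit 527) (nat_lit 527) (.d (nat_lit 564) (nat_lit 531) (nat_lit 528) (nat_lit 565) (nat_lit 3601)))))) (.a s4838 (.a s4424 (.p (nat_lit 561) (.a (.f (nat_lit 531) (nat_lit 559) (nat_lit 2575) (.d (nat_lit 532) (nat_lit 533) (nat_lit 1553) (nat_lit 563) (nat_lit 2576))) (.a (.f (nat_lit 563)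 (nat_lit 527) (nat_lit 3599) (.f (nat_lit 564) (nat_lit 529) (nat_lit 3600) (.d (nat_lit 592) (nat_lit 591) (nat_lit 1583) (nat_lit 593) (nat_lit 1584)))) (.f (nat_lit 559) (nat_lit 531) (nat_lit 2575) (.d (nat_lit 558) (nat_lit 529) (nat_lit 2574) (nat_lit 593) (nat_lit 558)))))))))))
noncomputable def s4842 : Cert := .r (nat_lit 64836180782635327101742773731878883933028500135655100996324835636715824771957301922231916427704030386313073450013582889165837387910271462164107996909801584275503921517658290257920) (.p (nat_lit 530) (.a (.p (nat_lit 561) (.a (.f (nat_lit 531) (nat_lit 559) (nat_lit 2575) (.d (nat_lit 532) (nat_lit 533) (nat_lit 1553) (nat_lit 563) (nat_lit 2576))) (.a (.f (nat_lit 563) (nat_lit 527) (nat_lit 3599) (.f (nat_lit 564) (nat_lit 529) (nat_lit 3600) (.d (nat_lit 592) (nat_lit 591) (nat_lit 1583) (nat_lit 593) (nat_lit 1584)))) (.f (nat_lit 559) (nat_lit 531) (nat_lit 2575) (.d (nat_lit 558) (nat_lit 529) (nat_lit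 2574) (nat_lit 593) (nat_lit 558)))))) (.a s3836 (.a s4007 (.a (.p (nat_lit 561) (.a (.f (nat_lit 531) (nat_lit 559) (nat_lit 2575) (.d (nat_lit 532) (nat_lit 533) (nat_lit 1553) (nat_lit 563) (nat_lit 2576))) (.a (.f (nat_lit 563) (nat_lit 527) (nat_lit 3599) (.f (nat_lit 592) (nat_lit 591) (nat_lit 1583) (.f (nat_lit 593) (nat_lit 564) (nat_lit 1584) (.d (nat_lit 498) (nat_lit 466) (nat_lit 5585) (nat_lit 625) (nat_lit 5617))))) (.f (nat_lit 559) (nat_lit 531) (nat_lit 2575) (.f (nat_lit 593) (nat_lit 558) (nat_lit 558) (.d (nat_lit 498) (nat_lit 466) (nat_lit 5585) (nat_lit 625) (nat_lit 5617))))))) (.p (nat_lit 498) (.a (.f (nat_lit 593) (nat_lit 625) (nat_lit 5617) (.f (nat_lit 561) (nat_lit 466) (nat_lit 5585) (.f (nat_lit 563) (nat_lit 527) (nat_lit 3599) (.d (nat_lit 564) (nat_lit 565) (nat_lit 1585) (nat_lit 592) (nat_lit 1584))))) (.a (.f (nat_lit 467) (nat_lit 499) (nat_lit 6610) (.f (nat_lit 466) (nat_lit 435) (nat_lit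 6578) (.d (nat_lit 465) (nat_lit 433) (nat_lit 7601) (nat_lit 497) (nat_lit 7633)))) (.f (nat_lit 497) (nat_lit 465) (nat_lit 7633) (.f (nat_lit 499) (nat_lit 467) (nat_lit 6610) (.f (nat_lit 500) (nat_lit 529) (nat_lit 1520) (.f (nat_lit 533) (nat_lit 532) (nat_lit 497) (.f (nat_lit 501) (nat_lit 534) (nat_lit 498) (.d (nat_lit 469) (nat_lit 468) (nat_lit 2513) (nat_lit 470) (nat_lit 2514)))))))))))))))
noncomputable def s4913 : Cert := .r (nat_lit 3773962425700235452738272624505952193199339552226928146794549392648115485167898379561026699849346401546134558067857772757880134458676407096525164659442171664912122642432) (.p (nat_lit 594) (.a (.p (nat_lit 562) (.a (.p (nat_lit 561) (.a (.f (nat_lit 563) (nat_lit 527) (nat_lit 3599) (.d (nat_lit 595) (nat_lit 559) (nat_lit 559) (nat_lit 596) (nat_lit 560))) (.a (.f (nat_lit 559) (nat_lit 595) (nat_lit 559) (.f (nat_lit 530) (nat_lit 531) (nat_lit 2575) (.d (nat_lit 558) (nat_lit 529)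 (nat_lit 2574) (nat_lit 593) (nat_lit 558)))) (.f (nat_lit 563) (nat_lit 527) (nat_lit 3599) (.f (nat_lit 564) (nat_lit 529) (nat_lit 3600) (.d (nat_lit 532) (nat_lit 531) (nat_lit 2576) (nat_lit 533) (nat_lit 2577))))))) (.a s3461 (.a s3508 (.a s3517 (.a (.p (nat_lit 561) (.a (.f (nat_lit 563) (nat_lit 527) (nat_lit 3599) (.d (nat_lit 595) (nat_lit 559) (nat_lit 559) (nat_lit 596) (nat_lit 560))) (.a (.f (nat_lit 559) (nat_lit 595) (nat_lit 559) (.f (nat_lit 530) (nat_lit 531) (nat_lit 2575) (.f (nat_lit 529) (nat_lit 558) (nat_lit 2574) (.d (nat_lit 497) (nat_lit 465) (nat_lit 4561) (nat_lit 626) (nat_lit 7665))))) (.f (nat_lit 563) (nat_lit 527) (nat_lit 3599) (.f (nat_lit 564) (nat_lit 529) (nat_lit 3600) (.d (nat_lit 532) (nat_lit 531) (nat_lit 2576) (nat_lit 533) (nat_lit 2577))))))) (.a s3576 (.a s3586 s3689)))))))) (.a s3838 (.a (.p (nat_lit 562) (.a s3909 (.a s3707 (.a s3962 (.a s3968 (.a s3508 (.a s3975 (.a s3984 (.a s3985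 (.a s4002 (.a s4005 (.a s4028 (.a s4029 s4033))))))))))))) (.a (.p (nat_lit 562) (.a s4046 (.a s3461 (.a s3909 (.a s4047 (.a s4061 (.a s4062 (.a (.p (nat_lit 561) (.a (.f (nat_lit 563) (nat_lit 527) (nat_lit 3599) (.d (nat_lit 595) (nat_lit 559) (nat_lit 559) (nat_lit 596) (nat_lit 560))) (.a (.f (nat_lit 559) (nat_lit 595) (nat_lit 559) (.f (nat_lit 593) (nat_lit 558) (nat_lit 558) (.f (nat_lit 591) (nat_lit 590) (nat_lit 1582) (.f (nat_lit 592) (nat_lit 563) (nat_lit 1583) (.d (nat_lit 623) (nat_lit 622) (nat_lit 1614) (nat_lit 655) (nat_lit 6671)))))) (.a (.f (nat_lit 559) (nat_lit 595) (nat_lit 559) (.f (nat_lit 558) (nat_lit 593) (nat_lit 558) (.d (nat_lit 590) (nat_lit 589) (nat_lit 1581) (nat_lit 591) (nat_lit 1582)))) (.a (.f (nat_lit 563) (nat_lit 527) (nat_lit 3599) (.f (nat_lit 595) (nat_lit 596) (nat_lit 560) (.f (nat_lit 531) (nat_lit 532) (nat_lit 2576) (.d (nat_lit 499) (nat_lit 467) (nat_lit 5586) (nat_lit 626) (nat_lit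 5618))))) (.f (nat_lit 563) (nat_lit 527) (nat_lit 3599) (.f (nat_lit 592) (nat_lit 591) (nat_lit 1583) (.f (nat_lit 564) (nat_lit 593) (nat_lit 1584) (.f (nat_lit 533) (nat_lit 532) (nat_lit 2577) (.f (nat_lit 565) (nat_lit 534) (nat_lit 2578) (.d (nat_lit 597) (nat_lit 596) (nat_lit 561) (nat_lit 598) (nat_lit 562)))))))))))) (.a s4116 (.a s4299 (.a s4351 s3689))))))))))) (.a (.p (nat_lit 562) (.a (.p (nat_lit 561) (.a (.f (nat_lit 563) (nat_lit 527) (nat_lit 3599) (.d (nat_lit 595) (nat_lit 559) (nat_lit 559) (nat_lit 596) (nat_lit 560))) (.a (.f (nat_lit 559) (nat_lit 595) (nat_lit 559) (.f (nat_lit 530) (nat_lit 531) (nat_lit 2575) (.d (nat_lit 558) (nat_lit 529) (nat_lit 2574) (nat_lit 593) (nat_lit 558)))) (.f (nat_lit 563) (nat_lit 527) (nat_lit 3599) (.f (nat_lit 564) (nat_lit 529) (nat_lit 3600) (.d (nat_lit 532) (nat_lit 531) (nat_lit 2576) (nat_lit 533) (nat_lit 2577))))))) (.a s3724 (.a s3962 (.a s4061 (.a s4116 (.a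 s4379 (.a s4386 s4403)))))))) (.a (.p (nat_lit 562) (.a (.p (nat_lit 561) (.a (.f (nat_lit 563) (nat_lit 527) (nat_lit 3599) (.d (nat_lit 595) (nat_lit 559) (nat_lit 559) (nat_lit 596) (nat_lit 560))) (.a (.f (nat_lit 559) (nat_lit 595) (nat_lit 559) (.f (nat_lit 530) (nat_lit 531) (nat_lit 2575) (.d (nat_lit 558) (nat_lit 529) (nat_lit 2574) (nat_lit 593) (nat_lit 558)))) (.f (nat_lit 563) (nat_lit 527) (nat_lit 3599) (.f (nat_lit 564) (nat_lit 529) (nat_lit 3600) (.d (nat_lit 532) (nat_lit 531) (nat_lit 2576) (nat_lit 533) (nat_lit 2577))))))) (.a s3739 (.a s3968 (.a s4047 (.a s4412 (.a (.p (nat_lit 561) (.a (.f (nat_lit 563) (nat_lit 527) (nat_lit 3599) (.d (nat_lit 595) (nat_lit 559) (nat_lit 559) (nat_lit 596) (nat_lit 560))) (.a (.f (nat_lit 559) (nat_lit 595) (nat_lit 559) (.f (nat_lit 558) (nat_lit 593) (nat_lit 558) (.d (nat_lit 590) (nat_lit 589) (nat_lit 1581) (nat_lit 591) (nat_lit 1582)))) (.f (nat_lit 563) (nat_lit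 527) (nat_lit 3599) (.f (nat_lit 564) (nat_lit 529) (nat_lit 3600) (.d (nat_lit 532) (nat_lit 531) (nat_lit 2576) (nat_lit 533) (nat_lit 2577))))))) (.a s3816 (.a s4425 s4427))))))))) (.a (.p (nat_lit 592) (.a (.p (nat_lit 624) (.a (.f (nat_lit 623) (nat_lit 655) (nat_lit 5647) (.f (nat_lit 593) (nat_lit 595) (nat_lit 1615) (.d (nat_lit 622) (nat_lit 591) (nat_lit 1614) (nat_lit 621) (nat_lit 2637)))) (.f (nat_lit 529) (nat_lit 497) (nat_lit 6640) (.f (nat_lit 656) (nat_lit 561) (nat_lit 6672) (.d (nat_lit 527) (nat_lit 495) (nat_lit 7663) (nat_lit 559) (nat_lit 7695)))))) (.a (.p (nat_lit 624) (.a (.f (nat_lit 623) (nat_lit 655) (nat_lit 5647) (.f (nat_lit 593) (nat_lit 595) (nat_lit 1615) (.d (nat_lit 622) (nat_lit 591) (nat_lit 1614) (nat_lit 621) (nat_lit 2637)))) (.a (.f (nat_lit 529) (nat_lit 497) (nat_lit 6640) (.f (nat_lit 656) (nat_lit 561) (nat_lit 6672) (.d (nat_lit 655) (nat_lit 623) (nat_lit 5647) (nat_lit 687) (nat_lit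 5679)))) (.f (nat_lit 529) (nat_lit 497) (nat_lit 6640) (.f (nat_lit 656) (nat_lit 561) (nat_lit 6672) (.d (nat_lit 657) (nat_lit 625) (nat_lit 4624) (nat_lit 689) (nat_lit 4656))))))) (.a (.p (nat_lit 624) (.a (.f (nat_lit 623) (nat_lit 655) (nat_lit 5647) (.f (nat_lit 593) (nat_lit 595) (nat_lit 1615) (.d (nat_lit 622) (nat_lit 591) (nat_lit 1614) (nat_lit 621) (nat_lit 2637)))) (.a (.f (nat_lit 527) (nat_lit 495) (nat_lit 7663) (.f (nat_lit 656) (nat_lit 559) (nat_lit 7695) (.d (nat_lit 655) (nat_lit 623) (nat_lit 5647) (nat_lit 687) (nat_lit 5679)))) (.f (nat_lit 527) (nat_lit 495) (nat_lit 7663) (.f (nat_lit 559) (nat_lit 656) (nat_lit 7695) (.f (nat_lit 529) (nat_lit 497) (nat_lit 6640) (.d (nat_lit 530) (nat_lit 531) (nat_lit 1551) (nat_lit 558) (nat_lit 1550)))))))) (.a (.p (nat_lit 624) (.a (.f (nat_lit 623) (nat_lit 655) (nat_lit 5647) (.f (nat_lit 593) (nat_lit 595) (nat_lit 1615) (.d (nat_lit 622) (nat_lit 591) (nat_lit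 1614) (nat_lit 621) (nat_lit 2637)))) (.a (.f (nat_lit 527) (nat_lit 495) (nat_lit 7663) (.f (nat_lit 656) (nat_lit 559) (nat_lit 7695) (.d (nat_lit 655) (nat_lit 623) (nat_lit 5647) (nat_lit 687) (nat_lit 5679)))) (.f (nat_lit 527) (nat_lit 495) (nat_lit 7663) (.f (nat_lit 656) (nat_lit 559) (nat_lit 7695) (.d (nat_lit 657) (nat_lit 625) (nat_lit 4624) (nat_lit 689) (nat_lit 4656))))))) (.a s4459 (.a s4486 (.a (.p (nat_lit 624) (.a (.f (nat_lit 529) (nat_lit 497) (nat_lit 6640) (.f (nat_lit 656) (nat_lit 561) (nat_lit 6672) (.d (nat_lit 527) (nat_lit 495) (nat_lit 7663) (nat_lit 559) (nat_lit 7695)))) (.a (.f (nat_lit 529) (nat_lit 497) (nat_lit 6640) (.f (nat_lit 656) (nat_lit 561) (nat_lit 6672) (.d (nat_lit 657) (nat_lit 625) (nat_lit 4624) (nat_lit 689) (nat_lit 4656)))) (.a (.f (nat_lit 527) (nat_lit 495) (nat_lit 7663) (.f (nat_lit 559) (nat_lit 656) (nat_lit 7695) (.f (nat_lit 529) (nat_lit 497) (nat_lit 6640) (.d (nat_lit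 530) (nat_lit 531) (nat_lit 1551) (nat_lit 558) (nat_lit 1550))))) (.a (.f (nat_lit 527) (nat_lit 495) (nat_lit 7663) (.f (nat_lit 656) (nat_lit 559) (nat_lit 7695) (.d (nat_lit 657) (nat_lit 625) (nat_lit 4624) (nat_lit 689) (nat_lit 4656)))) (.p (nat_lit 559) (.a (.f (nat_lit 593) (nat_lit 595) (nat_lit 3631) (.d (nat_lit 558) (nat_lit 557) (nat_lit 557) (nat_lit 561) (nat_lit 558))) (.a (.f (nat_lit 593) (nat_lit 595) (nat_lit 3631) (.d (nat_lit 558) (nat_lit 557) (nat_lit 557) (nat_lit 591) (nat_lit 3630))) (.a (.f (nat_lit 529) (nat_lit 497) (nat_lit 6640) (.f (nat_lit 527) (nat_lit 495) (nat_lit 7663) (.d (nat_lit 530) (nat_lit 531) (nat_lit 1551) (nat_lit 558) (nat_lit 1550)))) (.f (nat_lit 593) (nat_lit 595) (nat_lit 3631) (.f (nat_lit 625) (nat_lit 657) (nat_lit 4624) (.f (nat_lit 529) (nat_lit 497) (nat_lit 6640) (.f (nat_lit 527) (nat_lit 495) (nat_lit 7663) (.f (nat_lit 530) (nat_lit 531) (nat_lit 1551) (.d (nat_lit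 498) (nat_lit 499) (nat_lit 2543) (nat_lit 561) (nat_lit 6641)))))))))))))))) (.a s4504 s4511))))))))) (.a (.p (nat_lit 592) (.a (.p (nat_lit 624) (.a (.f (nat_lit 623) (nat_lit 655) (nat_lit 5647) (.f (nat_lit 593) (nat_lit 595) (nat_lit 1615) (.d (nat_lit 622) (nat_lit 591) (nat_lit 1614) (nat_lit 621) (nat_lit 2637)))) (.f (nat_lit 529) (nat_lit 497) (nat_lit 6640) (.f (nat_lit 656) (nat_lit 561) (nat_lit 6672) (.d (nat_lit 527) (nat_lit 495) (nat_lit 7663) (nat_lit 559) (nat_lit 7695)))))) (.a (.p (nat_lit 624) (.a (.f (nat_lit 623) (nat_lit 655) (nat_lit 5647) (.f (nat_lit 593) (nat_lit 595) (nat_lit 1615) (.d (nat_lit 622) (nat_lit 591) (nat_lit 1614) (nat_lit 621) (nat_lit 2637)))) (.a (.f (nat_lit 529) (nat_lit 497) (nat_lit 6640) (.f (nat_lit 656) (nat_lit 561) (nat_lit 6672) (.d (nat_lit 655) (nat_lit 623) (nat_lit 5647) (nat_lit 687) (nat_lit 5679)))) (.f (nat_lit 529) (nat_lit 497) (nat_lit 6640) (.f (nat_lit 656) (nat_lit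 561) (nat_lit 6672) (.d (nat_lit 657) (nat_lit 625) (nat_lit 4624) (nat_lit 689) (nat_lit 4656))))))) (.a (.p (nat_lit 624) (.a (.f (nat_lit 623) (nat_lit 655) (nat_lit 5647) (.f (nat_lit 593) (nat_lit 595) (nat_lit 1615) (.d (nat_lit 622) (nat_lit 591) (nat_lit 1614) (nat_lit 621) (nat_lit 2637)))) (.a (.f (nat_lit 527) (nat_lit 495) (nat_lit 7663) (.f (nat_lit 656) (nat_lit 559) (nat_lit 7695) (.d (nat_lit 655) (nat_lit 623) (nat_lit 5647) (nat_lit 687) (nat_lit 5679)))) (.f (nat_lit 527) (nat_lit 495) (nat_lit 7663) (.f (nat_lit 656) (nat_lit 559) (nat_lit 7695) (.d (nat_lit 657) (nat_lit 625) (nat_lit 4624) (nat_lit 689) (nat_lit 4656))))))) (.a s4459 (.a s4486 (.a (.p (nat_lit 624) (.a (.f (nat_lit 529) (nat_lit 497) (nat_lit 6640) (.f (nat_lit 656) (nat_lit 561) (nat_lit 6672) (.d (nat_lit 527) (nat_lit 495) (nat_lit 7663) (nat_lit 559) (nat_lit 7695)))) (.a (.f (nat_lit 529) (nat_lit 497) (nat_lit 6640) (.f (nat_lit 656)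 (nat_lit 561) (nat_lit 6672) (.d (nat_lit 657) (nat_lit 625) (nat_lit 4624) (nat_lit 689) (nat_lit 4656)))) (.a (.f (nat_lit 527) (nat_lit 495) (nat_lit 7663) (.f (nat_lit 656) (nat_lit 559) (nat_lit 7695) (.d (nat_lit 657) (nat_lit 625) (nat_lit 4624) (nat_lit 689) (nat_lit 4656)))) (.p (nat_lit 559) (.a (.f (nat_lit 593) (nat_lit 595) (nat_lit 3631) (.d (nat_lit 558) (nat_lit 557) (nat_lit 557) (nat_lit 561) (nat_lit 558))) (.a (.f (nat_lit 593) (nat_lit 595) (nat_lit 3631) (.d (nat_lit 558) (nat_lit 557) (nat_lit 557) (nat_lit 591) (nat_lit 3630))) (.a (.f (nat_lit 527) (nat_lit 495) (nat_lit 7663) (.f (nat_lit 529) (nat_lit 497) (nat_lit 6640) (.d (nat_lit 558) (nat_lit 530) (nat_lit 1550) (nat_lit 557) (nat_lit 2573)))) (.f (nat_lit 527) (nat_lit 495) (nat_lit 7663) (.f (nat_lit 595) (nat_lit 593) (nat_lit 3631) (.f (nat_lit 562) (nat_lit 561) (nat_lit 559) (.f (nat_lit 529) (nat_lit 497) (nat_lit 6640) (.f (nat_lit 530) (nat_lit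 563) (nat_lit 527) (.d (nat_lit 498) (nat_lit 499) (nat_lit 2543) (nat_lit 627) (nat_lit 4594))))))))))))))) (.a s4504 s4511)))))))) (.a (.p (nat_lit 562) (.a (.p (nat_lit 561) (.a (.f (nat_lit 563) (nat_lit 527) (nat_lit 3599) (.d (nat_lit 595) (nat_lit 559) (nat_lit 559) (nat_lit 596) (nat_lit 560))) (.a (.f (nat_lit 559) (nat_lit 595) (nat_lit 559) (.f (nat_lit 530) (nat_lit 531) (nat_lit 2575) (.d (nat_lit 558) (nat_lit 529) (nat_lit 2574) (nat_lit 593) (nat_lit 558)))) (.f (nat_lit 563) (nat_lit 527) (nat_lit 3599) (.f (nat_lit 564) (nat_lit 529) (nat_lit 3600) (.d (nat_lit 532) (nat_lit 531) (nat_lit 2576) (nat_lit 533) (nat_lit 2577))))))) (.a s3797 (.a s4002 (.a s4062 (.a s3517 (.a (.p (nat_lit 561) (.a (.f (nat_lit 563) (nat_lit 527) (nat_lit 3599) (.d (nat_lit 595) (nat_lit 559) (nat_lit 559) (nat_lit 596) (nat_lit 560))) (.a (.f (nat_lit 559) (nat_lit 595) (nat_lit 559) (.f (nat_lit 530) (nat_lit 531) (nat_lit 2575) (.f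 (nat_lit 529) (nat_lit 558) (nat_lit 2574) (.d (nat_lit 497) (nat_lit 465) (nat_lit 4561) (nat_lit 626) (nat_lit 7665))))) (.f (nat_lit 563) (nat_lit 527) (nat_lit 3599) (.f (nat_lit 564) (nat_lit 529) (nat_lit 3600) (.d (nat_lit 532) (nat_lit 531) (nat_lit 2576) (nat_lit 533) (nat_lit 2577))))))) (.a s3576 (.a s4552 s4553))))))))) (.a (.p (nat_lit 562) (.a s3517 (.a s3810 (.a s3962 (.a (.p (nat_lit 561) (.a (.f (nat_lit 563) (nat_lit 527) (nat_lit 3599) (.d (nat_lit 595) (nat_lit 559) (nat_lit 559) (nat_lit 596) (nat_lit 560))) (.a (.f (nat_lit 559) (nat_lit 595) (nat_lit 559) (.f (nat_lit 558) (nat_lit 593) (nat_lit 558) (.d (nat_lit 590) (nat_lit 589) (nat_lit 1581) (nat_lit 591) (nat_lit 1582)))) (.f (nat_lit 563) (nat_lit 527) (nat_lit 3599) (.f (nat_lit 564) (nat_lit 529) (nat_lit 3600) (.d (nat_lit 532) (nat_lit 531) (nat_lit 2576) (nat_lit 533) (nat_lit 2577))))))) (.a s4563 (.a s4610 (.a s4615 (.a (.p (nat_lit 561) (.a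 (.f (nat_lit 563) (nat_lit 527) (nat_lit 3599) (.d (nat_lit 595) (nat_lit 559) (nat_lit 559) (nat_lit 596) (nat_lit 560))) (.a (.f (nat_lit 595) (nat_lit 559) (nat_lit 559) (.d (nat_lit 596) (nat_lit 563) (nat_lit 560) (nat_lit 597) (nat_lit 3633))) (.a (.f (nat_lit 595) (nat_lit 559) (nat_lit 559) (.d (nat_lit 596) (nat_lit 593) (nat_lit 3632) (nat_lit 597) (nat_lit 3633))) (.f (nat_lit 563) (nat_lit 527) (nat_lit 3599) (.f (nat_lit 564) (nat_lit 529) (nat_lit 3600) (.d (nat_lit 532) (nat_lit 531) (nat_lit 2576) (nat_lit 533) (nat_lit 2577)))))))) s4654))))))))) (.a (.p (nat_lit 562) (.a (.p (nat_lit 561) (.a (.f (nat_lit 563) (nat_lit 527) (nat_lit 3599) (.d (nat_lit 595) (nat_lit 559) (nat_lit 559) (nat_lit 596) (nat_lit 560))) (.a (.f (nat_lit 559) (nat_lit 595) (nat_lit 559) (.f (nat_lit 530) (nat_lit 531) (nat_lit 2575) (.f (nat_lit 529) (nat_lit 558) (nat_lit 2574) (.d (nat_lit 497) (nat_lit 465) (nat_lit 4561) (nat_lit 626)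 (nat_lit 7665))))) (.f (nat_lit 563) (nat_lit 527) (nat_lit 3599) (.f (nat_lit 564) (nat_lit 529) (nat_lit 3600) (.d (nat_lit 532) (nat_lit 531) (nat_lit 2576) (nat_lit 533) (nat_lit 2577))))))) (.a s3739 (.a s3975 (.a s4116 (.a s4664 (.a s4563 (.a s4733 (.a s4425 s4742))))))))) (.a (.p (nat_lit 562) (.a s4299 (.a s3816 (.a s3984 (.a s4379 (.a (.p (nat_lit 530) (.a (.p (nat_lit 498) (.a (.f (nat_lit 497) (nat_lit 465) (nat_lit 7633) (.f (nat_lit 529) (nat_lit 626) (nat_lit 7665) (.d (nat_lit 499) (nat_lit 467) (nat_lit 6610) (nat_lit 500) (nat_lit 1520)))) (.a (.f (nat_lit 467) (nat_lit 499) (nat_lit 6610) (.f (nat_lit 466) (nat_lit 435) (nat_lit 6578) (.d (nat_lit 465) (nat_lit 433) (nat_lit 7601) (nat_lit 497) (nat_lit 7633)))) (.f (nat_lit 625) (nat_lit 593) (nat_lit 5617) (.f (nat_lit 626) (nat_lit 657) (nat_lit 5649) (.d (nat_lit 627) (nat_lit 595) (nat_lit 4594) (nat_lit 659) (nat_lit 4626))))))) (.a (.p (nat_lit 498) (.a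 (.f (nat_lit 595) (nat_lit 627) (nat_lit 4594) (.f (nat_lit 561) (nat_lit 559) (nat_lit 559) (.d (nat_lit 593) (nat_lit 596) (nat_lit 3632) (nat_lit 625) (nat_lit 5617)))) (.f (nat_lit 467) (nat_lit 499) (nat_lit 6610) (.f (nat_lit 466) (nat_lit 435) (nat_lit 6578) (.d (nat_lit 465) (nat_lit 433) (nat_lit 7601) (nat_lit 497) (nat_lit 7633)))))) (.a s4369 (.a (.p (nat_lit 592) (.a s3862 (.a s4208 (.a (.p (nat_lit 626) (.a (.f (nat_lit 625) (nat_lit 657) (nat_lit 5649) (.f (nat_lit 627) (nat_lit 659) (nat_lit 4626) (.d (nat_lit 593) (nat_lit 591) (nat_lit 591) (nat_lit 628) (nat_lit 3664)))) (.a (.f (nat_lit 659) (nat_lit 627) (nat_lit 4626) (.f (nat_lit 658) (nat_lit 691) (nat_lit 4658) (.d (nat_lit 657) (nat_lit 625) (nat_lit 5649) (nat_lit 689) (nat_lit 5681)))) (.a (.f (nat_lit 627) (nat_lit 659) (nat_lit 4626) (.f (nat_lit 593) (nat_lit 591) (nat_lit 591) (.d (nat_lit 595) (nat_lit 559) (nat_lit 3631) (nat_lit 628) (nat_lit 592))))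 (.f (nat_lit 529) (nat_lit 497) (nat_lit 7665) (.f (nat_lit 561) (nat_lit 658) (nat_lit 7697) (.d (nat_lit 559) (nat_lit 558) (nat_lit 2574) (nat_lit 595) (nat_lit 559)))))))) (.a (.p (nat_lit 624) (.a (.f (nat_lit 527) (nat_lit 495) (nat_lit 7663) (.f (nat_lit 656) (nat_lit 559) (nat_lit 7695) (.d (nat_lit 655) (nat_lit 623) (nat_lit 5647) (nat_lit 687) (nat_lit 5679)))) (.a (.f (nat_lit 623) (nat_lit 655) (nat_lit 5647) (.f (nat_lit 593) (nat_lit 595) (nat_lit 1615) (.d (nat_lit 622) (nat_lit 591) (nat_lit 1614) (nat_lit 621) (nat_lit 2637)))) (.f (nat_lit 529) (nat_lit 497) (nat_lit 6640) (.f (nat_lit 561) (nat_lit 656) (nat_lit 6672) (.d (nat_lit 559) (nat_lit 558) (nat_lit 2574) (nat_lit 595) (nat_lit 559))))))) (.a s3895 (.p (nat_lit 624) (.a (.f (nat_lit 657) (nat_lit 625) (nat_lit 4624) (.f (nat_lit 656) (nat_lit 689) (nat_lit 4656) (.d (nat_lit 527) (nat_lit 495) (nat_lit 7663) (nat_lit 559) (nat_lit 7695)))) (.a (.f (nat_lit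 657) (nat_lit 625) (nat_lit 4624) (.f (nat_lit 656) (nat_lit 689) (nat_lit 4656) (.d (nat_lit 655) (nat_lit 623) (nat_lit 5647) (nat_lit 687) (nat_lit 5679)))) (.a (.f (nat_lit 527) (nat_lit 495) (nat_lit 7663) (.f (nat_lit 656) (nat_lit 559) (nat_lit 7695) (.d (nat_lit 655) (nat_lit 623) (nat_lit 5647) (nat_lit 687) (nat_lit 5679)))) (.f (nat_lit 625) (nat_lit 657) (nat_lit 4624) (.f (nat_lit 623) (nat_lit 655) (nat_lit 5647) (.f (nat_lit 622) (nat_lit 593) (nat_lit 2638) (.f (nat_lit 590) (nat_lit 589) (nat_lit 3661) (.f (nat_lit 591) (nat_lit 626) (nat_lit 3662) (.f (nat_lit 559) (nat_lit 561) (nat_lit 1582) (.d (nat_lit 527) (nat_lit 495) (nat_lit 5614) (nat_lit 654) (nat_lit 5646)))))))))))))))))) (.a (.p (nat_lit 498) (.a (.f (nat_lit 497) (nat_lit 465) (nat_lit 7633) (.f (nat_lit 529) (nat_lit 626) (nat_lit 7665) (.d (nat_lit 499) (nat_lit 467) (nat_lit 6610) (nat_lit 500) (nat_lit 1520)))) (.a (.f (nat_lit 467) (nat_lit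 499) (nat_lit 6610) (.f (nat_lit 466) (nat_lit 435) (nat_lit 6578) (.d (nat_lit 465) (nat_lit 433) (nat_lit 7601) (nat_lit 497) (nat_lit 7633)))) (.a (.f (nat_lit 499) (nat_lit 467) (nat_lit 6610) (.f (nat_lit 529) (nat_lit 527) (nat_lit 2543) (.f (nat_lit 627) (nat_lit 595) (nat_lit 4594) (.f (nat_lit 626) (nat_lit 659) (nat_lit 4626) (.f (nat_lit 561) (nat_lit 658) (nat_lit 7697) (.f (nat_lit 559) (nat_lit 558) (nat_lit 2574) (.f (nat_lit 625) (nat_lit 657) (nat_lit 5649) (.f (nat_lit 591) (nat_lit 590) (nat_lit 1582) (.f (nat_lit 624) (nat_lit 592) (nat_lit 3663) (.d (nat_lit 655) (nat_lit 623) (nat_lit 6671) (nat_lit 656) (nat_lit 1647))))))))))) (.f (nat_lit 497) (nat_lit 465) (nat_lit 7633) (.f (nat_lit 529) (nat_lit 626) (nat_lit 7665) (.f (nat_lit 595) (nat_lit 627) (nat_lit 4594) (.f (nat_lit 559) (nat_lit 561) (nat_lit 559) (.d (nat_lit 558) (nat_lit 527) (nat_lit 1550) (nat_lit 557) (nat_lit 2573)))))))))) (.a (.p (nat_lit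 498) (.a (.f (nat_lit 497) (nat_lit 465) (nat_lit 7633) (.f (nat_lit 529) (nat_lit 626) (nat_lit 7665) (.d (nat_lit 499) (nat_lit 467) (nat_lit 6610) (nat_lit 500) (nat_lit 1520)))) (.a (.f (nat_lit 467) (nat_lit 499) (nat_lit 6610) (.f (nat_lit 466) (nat_lit 435) (nat_lit 6578) (.d (nat_lit 465) (nat_lit 433) (nat_lit 7601) (nat_lit 497) (nat_lit 7633)))) (.f (nat_lit 595) (nat_lit 627) (nat_lit 4594) (.f (nat_lit 561) (nat_lit 559) (nat_lit 559) (.d (nat_lit 593) (nat_lit 466) (nat_lit 5585) (nat_lit 596) (nat_lit 3632))))))) (.a s4768 (.p (nat_lit 498) (.a (.f (nat_lit 497) (nat_lit 465) (nat_lit 7633) (.f (nat_lit 529) (nat_lit 626) (nat_lit 7665) (.d (nat_lit 499) (nat_lit 467) (nat_lit 6610) (nat_lit 500) (nat_lit 1520)))) (.a (.f (nat_lit 467) (nat_lit 499) (nat_lit 6610) (.f (nat_lit 466) (nat_lit 435) (nat_lit 6578) (.d (nat_lit 465) (nat_lit 433) (nat_lit 7601) (nat_lit 497) (nat_lit 7633)))) (.f (nat_lit 593) (nat_lit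 625) (nat_lit 5617) (.f (nat_lit 561) (nat_lit 466) (nat_lit 5585) (.d (nat_lit 559) (nat_lit 558) (nat_lit 558) (nat_lit 595) (nat_lit 559))))))))))))))) (.a s3576 (.a s4610 (.a s4733 (.a s4782 (.a s4787 (.a s4793 (.a s4795 s4796))))))))))))) (.a (.p (nat_lit 562) (.a s4351 (.a s3830 (.a s3985 (.a s4386 (.a s4425 (.a s3586 (.a s4552 (.a s4615 (.a s4782 (.a s4799 (.a s4804 (.a s4806 s4812))))))))))))) (.a (.p (nat_lit 562) (.a (.p (nat_lit 561) (.a (.f (nat_lit 563) (nat_lit 527) (nat_lit 3599) (.d (nat_lit 595) (nat_lit 559) (nat_lit 559) (nat_lit 596) (nat_lit 560))) (.a (.f (nat_lit 559) (nat_lit 595) (nat_lit 559) (.f (nat_lit 530) (nat_lit 531) (nat_lit 2575) (.d (nat_lit 558) (nat_lit 529) (nat_lit 2574) (nat_lit 593) (nat_lit 558)))) (.f (nat_lit 563) (nat_lit 527) (nat_lit 3599) (.f (nat_lit 564) (nat_lit 529) (nat_lit 3600) (.d (nat_lit 532) (nat_lit 531) (nat_lit 2576) (nat_lit 533) (nat_lit 2577))))))) (.a s3797 (.a s4002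 (.a s4061 (.a s3517 (.a (.p (nat_lit 561) (.a (.f (nat_lit 563) (nat_lit 527) (nat_lit 3599) (.d (nat_lit 595) (nat_lit 559) (nat_lit 559) (nat_lit 596) (nat_lit 560))) (.a (.f (nat_lit 559) (nat_lit 595) (nat_lit 559) (.f (nat_lit 530) (nat_lit 531) (nat_lit 2575) (.f (nat_lit 529) (nat_lit 558) (nat_lit 2574) (.d (nat_lit 497) (nat_lit 465) (nat_lit 4561) (nat_lit 626) (nat_lit 7665))))) (.f (nat_lit 563) (nat_lit 527) (nat_lit 3599) (.f (nat_lit 564) (nat_lit 529) (nat_lit 3600) (.d (nat_lit 532) (nat_lit 531) (nat_lit 2576) (nat_lit 533) (nat_lit 2577))))))) (.a s4820 (.a s4552 (.p (nat_lit 530) (.a (.p (nat_lit 529) (.a (.f (nat_lit 626) (nat_lit 497) (nat_lit 7665) (.f (nat_lit 657) (nat_lit 625) (nat_lit 5649) (.f (nat_lit 658) (nat_lit 689) (nat_lit 5681) (.d (nat_lit 659) (nat_lit 627) (nat_lit 4626) (nat_lit 691) (nat_lit 4658))))) (.f (nat_lit 527) (nat_lit 563) (nat_lit 527) (.f (nat_lit 495) (nat_lit 494) (nat_lit 3566)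 (.f (nat_lit 559) (nat_lit 558) (nat_lit 1550) (.d (nat_lit 463) (nat_lit 431) (nat_lit 4527) (nat_lit 592) (nat_lit 4559))))))) (.a (.p (nat_lit 498) (.a (.f (nat_lit 593) (nat_lit 625) (nat_lit 5617) (.f (nat_lit 561) (nat_lit 466) (nat_lit 5585) (.d (nat_lit 559) (nat_lit 531) (nat_lit 2575) (nat_lit 558) (nat_lit 558)))) (.a (.f (nat_lit 497) (nat_lit 465) (nat_lit 7633) (.f (nat_lit 626) (nat_lit 529) (nat_lit 7665) (.d (nat_lit 625) (nat_lit 593) (nat_lit 5617) (nat_lit 657) (nat_lit 5649)))) (.f (nat_lit 497) (nat_lit 465) (nat_lit 7633) (.f (nat_lit 529) (nat_lit 626) (nat_lit 7665) (.f (nat_lit 559) (nat_lit 531) (nat_lit 1551) (.d (nat_lit 558) (nat_lit 557) (nat_lit 2573) (nat_lit 561) (nat_lit 2574)))))))) (.a (.p (nat_lit 561) (.a (.f (nat_lit 531) (nat_lit 559) (nat_lit 2575) (.d (nat_lit 532) (nat_lit 533) (nat_lit 1553) (nat_lit 563) (nat_lit 2576))) (.a (.f (nat_lit 563) (nat_lit 527) (nat_lit 3599) (.f (nat_lit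 592) (nat_lit 591) (nat_lit 1583) (.f (nat_lit 593) (nat_lit 564) (nat_lit 1584) (.d (nat_lit 498) (nat_lit 466) (nat_lit 5585) (nat_lit 625) (nat_lit 5617))))) (.f (nat_lit 559) (nat_lit 531) (nat_lit 2575) (.f (nat_lit 593) (nat_lit 558) (nat_lit 558) (.d (nat_lit 498) (nat_lit 466) (nat_lit 5585) (nat_lit 625) (nat_lit 5617))))))) (.a (.p (nat_lit 529) (.a (.f (nat_lit 626) (nat_lit 497) (nat_lit 7665) (.f (nat_lit 657) (nat_lit 625) (nat_lit 5649) (.f (nat_lit 658) (nat_lit 689) (nat_lit 5681) (.d (nat_lit 659) (nat_lit 627) (nat_lit 4626) (nat_lit 691) (nat_lit 4658))))) (.f (nat_lit 563) (nat_lit 527) (nat_lit 527) (.d (nat_lit 564) (nat_lit 531) (nat_lit 528) (nat_lit 561) (nat_lit 3600))))) (.p (nat_lit 561) (.a (.f (nat_lit 531) (nat_lit 559) (nat_lit 2575) (.d (nat_lit 532) (nat_lit 533) (nat_lit 1553) (nat_lit 563) (nat_lit 2576))) (.a (.f (nat_lit 563) (nat_lit 527) (nat_lit 3599) (.f (nat_lit 564) (nat_lit 529) (nat_lit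 3600) (.d (nat_lit 592) (nat_lit 591) (nat_lit 1583) (nat_lit 593) (nat_lit 1584)))) (.f (nat_lit 559) (nat_lit 531) (nat_lit 2575) (.d (nat_lit 558) (nat_lit 529) (nat_lit 2574) (nat_lit 593) (nat_lit 558)))))))))))))))))))) (.a (.p (nat_lit 562) (.a (.p (nat_lit 561) (.a (.f (nat_lit 563) (nat_lit 527) (nat_lit 3599) (.d (nat_lit 595) (nat_lit 559) (nat_lit 559) (nat_lit 596) (nat_lit 560))) (.a (.f (nat_lit 559) (nat_lit 595) (nat_lit 559) (.f (nat_lit 530) (nat_lit 531) (nat_lit 2575) (.d (nat_lit 558) (nat_lit 529) (nat_lit 2574) (nat_lit 593) (nat_lit 558)))) (.f (nat_lit 563) (nat_lit 527) (nat_lit 3599) (.f (nat_lit 564) (nat_lit 529) (nat_lit 3600) (.d (nat_lit 532) (nat_lit 531) (nat_lit 2576) (nat_lit 533) (nat_lit 2577))))))) (.a s3834 (.a s4005 (.a s4062 (.a s4412 (.a s3517 (.a s4787 (.a s4799 s4839))))))))) (.a (.p (nat_lit 562) (.a (.p (nat_lit 561) (.a (.f (nat_lit 563) (nat_lit 527) (nat_lit 3599) (.d (nat_lit 595)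 (nat_lit 559) (nat_lit 559) (nat_lit 596) (nat_lit 560))) (.a (.f (nat_lit 559) (nat_lit 595) (nat_lit 559) (.f (nat_lit 530) (nat_lit 531) (nat_lit 2575) (.d (nat_lit 558) (nat_lit 529) (nat_lit 2574) (nat_lit 593) (nat_lit 558)))) (.f (nat_lit 563) (nat_lit 527) (nat_lit 3599) (.f (nat_lit 564) (nat_lit 529) (nat_lit 3600) (.d (nat_lit 532) (nat_lit 531) (nat_lit 2576) (nat_lit 533) (nat_lit 2577))))))) (.a s3797 (.a s4028 (.a s4061 (.a s3517 (.a s4664 (.a s4793 (.a s4804 s4842))))))))) (.a (.p (nat_lit 562) (.a (.p (nat_lit 561) (.a (.f (nat_lit 563) (nat_lit 527) (nat_lit 3599) (.d (nat_lit 595) (nat_lit 559) (nat_lit 559) (nat_lit 596) (nat_lit 560))) (.a (.f (nat_lit 559) (nat_lit 595) (nat_lit 559) (.f (nat_lit 530) (nat_lit 531) (nat_lit 2575) (.d (nat_lit 558) (nat_lit 529) (nat_lit 2574) (nat_lit 593) (nat_lit 558)))) (.f (nat_lit 563) (nat_lit 527) (nat_lit 3599) (.f (nat_lit 564) (nat_lit 529) (nat_lit 3600) (.d (nat_lit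 532) (nat_lit 531) (nat_lit 2576) (nat_lit 533) (nat_lit 2577))))))) (.a s3461 (.a s3975 (.a s3586 (.a (.p (nat_lit 561) (.a (.f (nat_lit 563) (nat_lit 527) (nat_lit 3599) (.d (nat_lit 595) (nat_lit 559) (nat_lit 559) (nat_lit 596) (nat_lit 560))) (.a (.f (nat_lit 595) (nat_lit 559) (nat_lit 559) (.d (nat_lit 596) (nat_lit 563) (nat_lit 560) (nat_lit 597) (nat_lit 3633))) (.a (.f (nat_lit 595) (nat_lit 559) (nat_lit 559) (.d (nat_lit 596) (nat_lit 593) (nat_lit 3632) (nat_lit 597) (nat_lit 3633))) (.f (nat_lit 563) (nat_lit 527) (nat_lit 3599) (.f (nat_lit 564) (nat_lit 529) (nat_lit 3600) (.d (nat_lit 532) (nat_lit 531) (nat_lit 2576) (nat_lit 533) (nat_lit 2577)))))))) (.a s3816 s4795))))))) (.a (.p (nat_lit 562) (.a s3689 (.a s3837 (.a s4029 (.a s4403 (.a s4427 (.a (.p (nat_lit 626) (.a s3617 (.a (.p (nat_lit 530) (.a (.f (nat_lit 657) (nat_lit 625) (nat_lit 5649) (.f (nat_lit 658) (nat_lit 689) (nat_lit 5681) (.d (nat_lit 659)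 (nat_lit 627) (nat_lit 4626) (nat_lit 691) (nat_lit 4658)))) (.f (nat_lit 529) (nat_lit 497) (nat_lit 7665) (.f (nat_lit 527) (nat_lit 563) (nat_lit 527) (.f (nat_lit 495) (nat_lit 494) (nat_lit 3566) (.f (nat_lit 559) (nat_lit 558) (nat_lit 1550) (.d (nat_lit 463) (nat_lit 431) (nat_lit 4527) (nat_lit 592) (nat_lit 4559)))))))) (.a (.p (nat_lit 530) (.a (.f (nat_lit 657) (nat_lit 625) (nat_lit 5649) (.f (nat_lit 658) (nat_lit 689) (nat_lit 5681) (.d (nat_lit 659) (nat_lit 627) (nat_lit 4626) (nat_lit 691) (nat_lit 4658)))) (.f (nat_lit 529) (nat_lit 497) (nat_lit 7665) (.f (nat_lit 563) (nat_lit 527) (nat_lit 527) (.d (nat_lit 564) (nat_lit 561) (nat_lit 3600) (nat_lit 565) (nat_lit 3601)))))) (.a (.p (nat_lit 561) (.a (.f (nat_lit 529) (nat_lit 658) (nat_lit 7697) (.d (nat_lit 497) (nat_lit 465) (nat_lit 4561) (nat_lit 593) (nat_lit 4593))) (.a (.f (nat_lit 563) (nat_lit 527) (nat_lit 3599) (.f (nat_lit 592) (nat_lit 591) (nat_lit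 1583) (.f (nat_lit 593) (nat_lit 564) (nat_lit 1584) (.f (nat_lit 625) (nat_lit 657) (nat_lit 7696) (.f (nat_lit 658) (nat_lit 690) (nat_lit 7729) (.f (nat_lit 659) (nat_lit 691) (nat_lit 4658) (.f (nat_lit 624) (nat_lit 623) (nat_lit 623) (.d (nat_lit 627) (nat_lit 628) (nat_lit 3664) (nat_lit 660) (nat_lit 624))))))))) (.a (.f (nat_lit 529) (nat_lit 658) (nat_lit 7697) (.d (nat_lit 563) (nat_lit 527) (nat_lit 3599) (nat_lit 564) (nat_lit 3600))) (.f (nat_lit 563) (nat_lit 527) (nat_lit 3599) (.f (nat_lit 564) (nat_lit 529) (nat_lit 3600) (.d (nat_lit 592) (nat_lit 591) (nat_lit 1583) (nat_lit 593) (nat_lit 1584)))))))) (.a (.p (nat_lit 530) (.a (.f (nat_lit 657) (nat_lit 625) (nat_lit 5649) (.f (nat_lit 658) (nat_lit 689) (nat_lit 5681) (.d (nat_lit 659) (nat_lit 627) (nat_lit 4626) (nat_lit 691) (nat_lit 4658)))) (.a (.f (nat_lit 529) (nat_lit 497) (nat_lit 7665) (.f (nat_lit 561) (nat_lit 658) (nat_lit 7697) (.f (nat_lit 559)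 (nat_lit 558) (nat_lit 2574) (.f (nat_lit 591) (nat_lit 590) (nat_lit 1582) (.f (nat_lit 627) (nat_lit 659) (nat_lit 4626) (.f (nat_lit 593) (nat_lit 592) (nat_lit 591) (.f (nat_lit 498) (nat_lit 466) (nat_lit 5585) (.d (nat_lit 499) (nat_lit 467) (nat_lit 6610) (nat_lit 527) (nat_lit 2543))))))))) (.a (.f (nat_lit 625) (nat_lit 657) (nat_lit 5649) (.f (nat_lit 627) (nat_lit 659) (nat_lit 4626) (.f (nat_lit 593) (nat_lit 498) (nat_lit 5617) (.d (nat_lit 592) (nat_lit 591) (nat_lit 591) (nat_lit 628) (nat_lit 3664))))) (.f (nat_lit 625) (nat_lit 657) (nat_lit 5649) (.f (nat_lit 498) (nat_lit 593) (nat_lit 5617) (.f (nat_lit 465) (nat_lit 497) (nat_lit 7633) (.f (nat_lit 466) (nat_lit 433) (nat_lit 7601) (.d (nat_lit 467) (nat_lit 435) (nat_lit 6578) (nat_lit 499) (nat_lit 6610)))))))))) (.a (.p (nat_lit 561) (.a (.f (nat_lit 529) (nat_lit 658) (nat_lit 7697) (.d (nat_lit 497) (nat_lit 465) (nat_lit 4561) (nat_lit 593) (nat_lit 4593)))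 (.a (.f (nat_lit 563) (nat_lit 527) (nat_lit 3599) (.f (nat_lit 591) (nat_lit 592) (nat_lit 1583) (.f (nat_lit 559) (nat_lit 590) (nat_lit 1582) (.f (nat_lit 593) (nat_lit 558) (nat_lit 558) (.f (nat_lit 564) (nat_lit 565) (nat_lit 1585) (.f (nat_lit 658) (nat_lit 690) (nat_lit 7729) (.f (nat_lit 659) (nat_lit 691) (nat_lit 4658) (.f (nat_lit 627) (nat_lit 530) (nat_lit 4626) (.f (nat_lit 628) (nat_lit 629) (nat_lit 3665) (.d (nat_lit 532) (nat_lit 533) (nat_lit 2577) (nat_lit 596) (nat_lit 5651))))))))))) (.a (.f (nat_lit 529) (nat_lit 658) (nat_lit 7697) (.d (nat_lit 563) (nat_lit 527) (nat_lit 3599) (nat_lit 564) (nat_lit 3600))) (.f (nat_lit 563) (nat_lit 527) (nat_lit 3599) (.f (nat_lit 564) (nat_lit 529) (nat_lit 3600) (.d (nat_lit 592) (nat_lit 591) (nat_lit 1583) (nat_lit 593) (nat_lit 1584)))))))) (.a (.p (nat_lit 530) (.a (.f (nat_lit 625) (nat_lit 657) (nat_lit 5649) (.f (nat_lit 627) (nat_lit 659) (nat_lit 4626) (.f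 (nat_lit 593) (nat_lit 498) (nat_lit 5617) (.d (nat_lit 592) (nat_lit 591) (nat_lit 591) (nat_lit 628) (nat_lit 3664))))) (.a (.f (nat_lit 625) (nat_lit 657) (nat_lit 5649) (.f (nat_lit 498) (nat_lit 593) (nat_lit 5617) (.f (nat_lit 465) (nat_lit 497) (nat_lit 7633) (.f (nat_lit 466) (nat_lit 433) (nat_lit 7601) (.d (nat_lit 467) (nat_lit 435) (nat_lit 6578) (nat_lit 499) (nat_lit 6610)))))) (.f (nat_lit 529) (nat_lit 497) (nat_lit 7665) (.f (nat_lit 563) (nat_lit 527) (nat_lit 527) (.d (nat_lit 564) (nat_lit 561) (nat_lit 3600) (nat_lit 565) (nat_lit 3601))))))) (.p (nat_lit 530) (.a (.f (nat_lit 625) (nat_lit 657) (nat_lit 5649) (.f (nat_lit 498) (nat_lit 593) (nat_lit 5617) (.f (nat_lit 465) (nat_lit 497) (nat_lit 7633) (.f (nat_lit 466) (nat_lit 433) (nat_lit 7601) (.d (nat_lit 467) (nat_lit 435) (nat_lit 6578) (nat_lit 499) (nat_lit 6610)))))) (.a (.f (nat_lit 625) (nat_lit 657) (nat_lit 5649) (.f (nat_lit 498) (nat_lit 593)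 (nat_lit 5617) (.f (nat_lit 499) (nat_lit 467) (nat_lit 6610) (.f (nat_lit 529) (nat_lit 527) (nat_lit 2543) (.f (nat_lit 561) (nat_lit 658) (nat_lit 7697) (.f (nat_lit 559) (nat_lit 558) (nat_lit 2574) (.f (nat_lit 591) (nat_lit 590) (nat_lit 1582) (.d (nat_lit 563) (nat_lit 564) (nat_lit 3600) (nat_lit 592) (nat_lit 1583))))))))) (.f (nat_lit 529) (nat_lit 497) (nat_lit 7665) (.f (nat_lit 563) (nat_lit 527) (nat_lit 527) (.d (nat_lit 564) (nat_lit 561) (nat_lit 3600) (nat_lit 565) (nat_lit 3601))))))))))))))) (.a s4553 (.a s4654 (.a s4742 (.a s4795 (.a s4806 (.a s4839 s4842))))))))))))) (.a (.p (nat_lit 562) (.a s4046 (.a s3816 (.a s3984 (.a (.p (nat_lit 530) (.a (.p (nat_lit 498) (.a (.f (nat_lit 497) (nat_lit 465) (nat_lit 7633) (.f (nat_lit 529) (nat_lit 626) (nat_lit 7665) (.d (nat_lit 499) (nat_lit 467) (nat_lit 6610) (nat_lit 500) (nat_lit 1520)))) (.f (nat_lit 595) (nat_lit 627) (nat_lit 4594) (.f (nat_lit 561) (nat_lit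 559) (nat_lit 559) (.d (nat_lit 563) (nat_lit 466) (nat_lit 4562) (nat_lit 596) (nat_lit 560)))))) (.a s3488 (.a (.p (nat_lit 498) (.a (.f (nat_lit 595) (nat_lit 627) (nat_lit 4594) (.f (nat_lit 561) (nat_lit 559) (nat_lit 559) (.d (nat_lit 466) (nat_lit 563) (nat_lit 4562) (nat_lit 593) (nat_lit 5585)))) (.a (.f (nat_lit 467) (nat_lit 499) (nat_lit 6610) (.f (nat_lit 466) (nat_lit 435) (nat_lit 6578) (.d (nat_lit 465) (nat_lit 433) (nat_lit 7601) (nat_lit 497) (nat_lit 7633)))) (.f (nat_lit 595) (nat_lit 627) (nat_lit 4594) (.f (nat_lit 561) (nat_lit 559) (nat_lit 559) (.d (nat_lit 593) (nat_lit 596) (nat_lit 3632) (nat_lit 625) (nat_lit 5617))))))) (.a (.p (nat_lit 498) (.a (.f (nat_lit 595) (nat_lit 627) (nat_lit 4594) (.f (nat_lit 561) (nat_lit 559) (nat_lit 559) (.d (nat_lit 563) (nat_lit 466) (nat_lit 4562) (nat_lit 596) (nat_lit 560)))) (.a (.f (nat_lit 467) (nat_lit 499) (nat_lit 6610) (.f (nat_lit 466) (nat_lit 435) (nat_lit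 6578) (.d (nat_lit 595) (nat_lit 563) (nat_lit 4562) (nat_lit 627) (nat_lit 4594)))) (.a (.f (nat_lit 499) (nat_lit 467) (nat_lit 6610) (.f (nat_lit 529) (nat_lit 527) (nat_lit 2543) (.f (nat_lit 627) (nat_lit 595) (nat_lit 4594) (.f (nat_lit 626) (nat_lit 659) (nat_lit 4626) (.f (nat_lit 561) (nat_lit 658) (nat_lit 7697) (.f (nat_lit 559) (nat_lit 558) (nat_lit 2574) (.f (nat_lit 625) (nat_lit 657) (nat_lit 5649) (.f (nat_lit 591) (nat_lit 590) (nat_lit 1582) (.f (nat_lit 624) (nat_lit 592) (nat_lit 3663) (.d (nat_lit 655) (nat_lit 623) (nat_lit 6671) (nat_lit 656) (nat_lit 1647))))))))))) (.f (nat_lit 467) (nat_lit 499) (nat_lit 6610) (.f (nat_lit 466) (nat_lit 435) (nat_lit 6578) (.f (nat_lit 433) (nat_lit 465) (nat_lit 7601) (.f (nat_lit 434) (nat_lit 401) (nat_lit 7569) (.f (nat_lit 529) (nat_lit 561) (nat_lit 5553) (.f (nat_lit 527) (nat_lit 563) (nat_lit 527) (.f (nat_lit 495) (nat_lit 494) (nat_lit 3566) (.d (nat_lit 431)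 (nat_lit 432) (nat_lit 431) (nat_lit 463) (nat_lit 4527))))))))))))) (.a (.p (nat_lit 529) (.a (.f (nat_lit 626) (nat_lit 497) (nat_lit 7665) (.f (nat_lit 657) (nat_lit 625) (nat_lit 5649) (.f (nat_lit 658) (nat_lit 689) (nat_lit 5681) (.d (nat_lit 659) (nat_lit 627) (nat_lit 4626) (nat_lit 691) (nat_lit 4658))))) (.f (nat_lit 527) (nat_lit 563) (nat_lit 527) (.f (nat_lit 495) (nat_lit 494) (nat_lit 3566) (.f (nat_lit 559) (nat_lit 558) (nat_lit 1550) (.d (nat_lit 463) (nat_lit 431) (nat_lit 4527) (nat_lit 592) (nat_lit 4559))))))) (.a (.p (nat_lit 498) (.a (.f (nat_lit 497) (nat_lit 465) (nat_lit 7633) (.f (nat_lit 529) (nat_lit 626) (nat_lit 7665) (.d (nat_lit 499) (nat_lit 467) (nat_lit 6610) (nat_lit 500) (nat_lit 1520)))) (.a (.f (nat_lit 467) (nat_lit 499) (nat_lit 6610) (.f (nat_lit 466) (nat_lit 435) (nat_lit 6578) (.d (nat_lit 465) (nat_lit 433) (nat_lit 7601) (nat_lit 497) (nat_lit 7633)))) (.f (nat_lit 625) (nat_lit 593)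 (nat_lit 5617) (.f (nat_lit 626) (nat_lit 657) (nat_lit 5649) (.d (nat_lit 627) (nat_lit 595) (nat_lit 4594) (nat_lit 659) (nat_lit 4626))))))) s3507))))))) (.a s4062 (.a (.p (nat_lit 561) (.a (.f (nat_lit 563) (nat_lit 527) (nat_lit 3599) (.d (nat_lit 595) (nat_lit 559) (nat_lit 559) (nat_lit 596) (nat_lit 560))) (.a (.f (nat_lit 559) (nat_lit 595) (nat_lit 559) (.f (nat_lit 593) (nat_lit 558) (nat_lit 558) (.f (nat_lit 591) (nat_lit 590) (nat_lit 1582) (.f (nat_lit 592) (nat_lit 563) (nat_lit 1583) (.d (nat_lit 623) (nat_lit 622) (nat_lit 1614) (nat_lit 655) (nat_lit 6671)))))) (.a (.f (nat_lit 559) (nat_lit 595) (nat_lit 559) (.f (nat_lit 558) (nat_lit 593) (nat_lit 558) (.d (nat_lit 590) (nat_lit 589) (nat_lit 1581) (nat_lit 591) (nat_lit 1582)))) (.a (.f (nat_lit 563) (nat_lit 527) (nat_lit 3599) (.f (nat_lit 595) (nat_lit 596) (nat_lit 560) (.f (nat_lit 531) (nat_lit 532) (nat_lit 2576) (.d (nat_lit 499) (nat_lit 467) (nat_lit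 5586) (nat_lit 626) (nat_lit 5618))))) (.f (nat_lit 563) (nat_lit 527) (nat_lit 3599) (.f (nat_lit 591) (nat_lit 592) (nat_lit 1583) (.f (nat_lit 559) (nat_lit 590) (nat_lit 1582) (.f (nat_lit 531) (nat_lit 532) (nat_lit 2576) (.f (nat_lit 626) (nat_lit 658) (nat_lit 6674) (.f (nat_lit 593) (nat_lit 558) (nat_lit 558) (.f (nat_lit 625) (nat_lit 657) (nat_lit 7696) (.f (nat_lit 529) (nat_lit 497) (nat_lit 4593) (.f (nat_lit 624) (nat_lit 656) (nat_lit 5648) (.d (nat_lit 623) (nat_lit 622) (nat_lit 2638) (nat_lit 655) (nat_lit 6671)))))))))))))))) (.a s4116 (.a s4812 (.a s4820 (.a s4793 s4795))))))))))) (.a (.p (nat_lit 562) (.a (.p (nat_lit 561) (.a (.f (nat_lit 563) (nat_lit 527) (nat_lit 3599) (.d (nat_lit 595) (nat_lit 559) (nat_lit 559) (nat_lit 596) (nat_lit 560))) (.a (.f (nat_lit 559) (nat_lit 595) (nat_lit 559) (.f (nat_lit 530) (nat_lit 531) (nat_lit 2575) (.d (nat_lit 558) (nat_lit 529) (nat_lit 2574) (nat_lit 593) (nat_lit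 558)))) (.f (nat_lit 563) (nat_lit 527) (nat_lit 3599) (.f (nat_lit 564) (nat_lit 529) (nat_lit 3600) (.d (nat_lit 532) (nat_lit 531) (nat_lit 2576) (nat_lit 533) (nat_lit 2577))))))) (.a s3797 (.a s4033 (.a s4046 (.a s3517 (.a (.p (nat_lit 561) (.a (.f (nat_lit 563) (nat_lit 527) (nat_lit 3599) (.d (nat_lit 595) (nat_lit 559) (nat_lit 559) (nat_lit 596) (nat_lit 560))) (.a (.f (nat_lit 559) (nat_lit 595) (nat_lit 559) (.f (nat_lit 530) (nat_lit 531) (nat_lit 2575) (.f (nat_lit 529) (nat_lit 558) (nat_lit 2574) (.d (nat_lit 497) (nat_lit 465) (nat_lit 4561) (nat_lit 626) (nat_lit 7665))))) (.f (nat_lit 563) (nat_lit 527) (nat_lit 3599) (.f (nat_lit 564) (nat_lit 529) (nat_lit 3600) (.d (nat_lit 532) (nat_lit 531) (nat_lit 2576) (nat_lit 533) (nat_lit 2577))))))) (.a s4796 (.a s4804 s4839))))))))) (.p (nat_lit 562) (.a s3689 (.a s3707 (.a s4403 (.a s4796 (.a s3508 (.a s3576 (.a (.p (nat_lit 561) (.a (.f (nat_lit 563) (nat_lit 527)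 (nat_lit 3599) (.f (nat_lit 564) (nat_lit 529) (nat_lit 3600) (.d (nat_lit 532) (nat_lit 531) (nat_lit 2576) (nat_lit 533) (nat_lit 2577)))) (.a (.f (nat_lit 559) (nat_lit 595) (nat_lit 559) (.f (nat_lit 593) (nat_lit 558) (nat_lit 558) (.f (nat_lit 591) (nat_lit 590) (nat_lit 1582) (.f (nat_lit 592) (nat_lit 563) (nat_lit 1583) (.d (nat_lit 623) (nat_lit 622) (nat_lit 1614) (nat_lit 655) (nat_lit 6671)))))) (.f (nat_lit 559) (nat_lit 595) (nat_lit 559) (.f (nat_lit 558) (nat_lit 593) (nat_lit 558) (.d (nat_lit 590) (nat_lit 589) (nat_lit 1581) (nat_lit 591) (nat_lit 1582))))))) (.a s3975 s4552))))))))))))))))))))))))))))))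
noncomputable def s4948 : Cert := .r (nat_lit 81045225958480856146645701540456263855217792666684435255267110367315112115556477719537176679309147682040711374423103096786513067199516370940841931200313517922355878762597855526912) (.p (nat_lit 593) (.a (.f (nat_lit 595) (nat_lit 559) (nat_lit 3631) (.f (nat_lit 624) (nat_lit 623) (nat_lit 1615) (.d (nat_lit 625) (nat_lit 596) (nat_lit 1616) (nat_lit 657) (nat_lit 4624)))) (.a (.f (nat_lit 559) (nat_lit 595) (nat_lit 3631) (.d (nat_lit 558) (nat_lit 557) (nat_lit 557) (nat_lit 591) (nat_lit 3630))) (.a (.p (nat_lit 624) (.a (.f (nat_lit 625) (nat_lit 657) (nat_lit 4624) (.f (nat_lit 595) (nat_lit 596) (nat_lit 1616) (.f (nat_lit 627) (nat_lit 628) (nat_lit 592) (.f (nat_lit 626) (nat_lit 591) (nat_lit 591) (.f (nat_lit 563) (nat_lit 564) (nat_lit 2608) (.d (nat_lit 531) (nat_lit 499) (nat_lit 5618) (nat_lit 658) (nat_lit 5650))))))) (.a (.f (nat_lit 625) (nat_lit 657) (nat_lit 4624)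 (.f (nat_lit 595) (nat_lit 596) (nat_lit 1616) (.f (nat_lit 627) (nat_lit 628) (nat_lit 592) (.f (nat_lit 626) (nat_lit 591) (nat_lit 591) (.f (nat_lit 659) (nat_lit 660) (nat_lit 624) (.d (nat_lit 562) (nat_lit 530) (nat_lit 4626) (nat_lit 691) (nat_lit 7730))))))) (.a (.d (nat_lit 623) (nat_lit 595) (nat_lit 1615) (nat_lit 655) (nat_lit 5647)) (.f (nat_lit 625) (nat_lit 657) (nat_lit 4624) (.d (nat_lit 623) (nat_lit 622) (nat_lit 2638) (nat_lit 655) (nat_lit 5647))))))) (.p (nat_lit 591) (.a (.f (nat_lit 626) (nat_lit 627) (nat_lit 591) (.f (nat_lit 590) (nat_lit 625) (nat_lit 590) (.d (nat_lit 622) (nat_lit 621) (nat_lit 1613) (nat_lit 623) (nat_lit 1614)))) (.a (.f (nat_lit 559) (nat_lit 558) (nat_lit 3630) (.d (nat_lit 623) (nat_lit 622) (nat_lit 1614) (nat_lit 655) (nat_lit 6671))) (.f (nat_lit 558) (nat_lit 559) (nat_lit 3630) (.f (nat_lit 590) (nat_lit 557) (nat_lit 3629) (.d (nat_lit 626) (nat_lit 625) (nat_lit 590) (nat_lit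 627) (nat_lit 591)))))))))))
noncomputable def s4962 : Cert := .r (nat_lit 81045225958480856146645701540456263855217792666684435255267110367315112115556477719537176679309147682040711374423103096786513067199516370940841931200313517922355878762597855526912) (.p (nat_lit 624) (.a (.f (nat_lit 623) (nat_lit 655) (nat_lit 5647) (.f (nat_lit 593) (nat_lit 595) (nat_lit 1615) (.d (nat_lit 622) (nat_lit 591) (nat_lit 1614) (nat_lit 621) (nat_lit 2637)))) (.a (.f (nat_lit 529) (nat_lit 497) (nat_lit 6640) (.f (nat_lit 656) (nat_lit 561) (nat_lit 6672) (.d (nat_lit 655) (nat_lit 623) (nat_lit 5647) (nat_lit 687) (nat_lit 5679)))) (.a (.f (nat_lit 529) (nat_lit 497) (nat_lit 6640) (.f (nat_lit 656) (nat_lit 561) (nat_lit 6672) (.f (nat_lit 687) (nat_lit 655) (nat_lit 5679) (.f (nat_lit 688) (nat_lit 719) (nat_lit 5711) (.d (nat_lit 689) (nat_lit 657) (nat_lit 4656) (nat_lit 721) (nat_lit 4688)))))) (.f (nat_lit 529) (nat_lit 497) (nat_lit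 6640) (.f (nat_lit 656) (nat_lit 561) (nat_lit 6672) (.f (nat_lit 689) (nat_lit 657) (nat_lit 4656) (.f (nat_lit 688) (nat_lit 721) (nat_lit 4688) (.f (nat_lit 591) (nat_lit 559) (nat_lit 7727) (.f (nat_lit 623) (nat_lit 720) (nat_lit 7759) (.d (nat_lit 593) (nat_lit 595) (nat_lit 1615) (nat_lit 622) (nat_lit 1614))))))))))))
noncomputable def s4985 : Cert := .r (nat_lit 81045225958480856146645701540456263855217792666684435255267110367315112115556477719537176679309147682040711374423103096786513067199516370940841931200313517922355878762597855526912) (.p (nat_lit 624) (.a (.f (nat_lit 529) (nat_lit 497) (nat_lit 6640) (.f (nat_lit 656) (nat_lit 561) (nat_lit 6672) (.d (nat_lit 655) (nat_lit 623) (nat_lit 5647) (nat_lit 687) (nat_lit 5679)))) (.a (.f (nat_lit 623) (nat_lit 655) (nat_lit 5647) (.f (nat_lit 625) (nat_lit 657) (nat_lit 4624) (.f (nat_lit 622) (nat_lit 593) (nat_lit 2638) (.f (nat_lit 589) (nat_lit 590) (nat_lit 3661)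 (.f (nat_lit 621) (nat_lit 588) (nat_lit 3660) (.d (nat_lit 653) (nat_lit 652) (nat_lit 1644) (nat_lit 654) (nat_lit 1645))))))) (.f (nat_lit 529) (nat_lit 497) (nat_lit 6640) (.f (nat_lit 656) (nat_lit 561) (nat_lit 6672) (.d (nat_lit 657) (nat_lit 625) (nat_lit 4624) (nat_lit 689) (nat_lit 4656)))))))
noncomputable def s4991 : Cert := .r (nat_lit 16209045194715341169889328670281870870648320287896358692834964590898661937229787932041754039510650896287619396121528265811588831646207381755109511917282835312024913084449269219328) (.p (nat_lit 496) (.a (.f (nat_lit 465) (nat_lit 497) (nat_lit 6608) (.f (nat_lit 464) (nat_lit 433) (nat_lit 6576) (.d (nat_lit 463) (nat_lit 431) (nat_lit 7599) (nat_lit 495) (nat_lit 7631)))) (.a (.f (nat_lit 591) (nat_lit 623) (nat_lit 5615) (.f (nat_lit 593) (nat_lit 625) (nat_lit 4592) (.f (nat_lit 559) (nat_lit 464) (nat_lit 5583) (.d (nat_lit 558) (nat_lit 557) (nat_lit 557) (nat_lit 594) (nat_lit 3630)))))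 (.f (nat_lit 497) (nat_lit 465) (nat_lit 6608) (.f (nat_lit 529) (nat_lit 624) (nat_lit 6640) (.f (nat_lit 495) (nat_lit 463) (nat_lit 7631) (.d (nat_lit 494) (nat_lit 493) (nat_lit 493) (nat_lit 530) (nat_lit 494))))))))
noncomputable def s5002 : Cert := .r (nat_lit 16209045194715341169889328670281870870648320287896358692834964590898661937229787932041754039510650896287619396121528265811588831646207381755109511917282835312024913084449269219328) (.p (nat_lit 496) (.a (.f (nat_lit 593) (nat_lit 625) (nat_lit 4592) (.f (nat_lit 591) (nat_lit 623) (nat_lit 5615) (.d (nat_lit 464) (nat_lit 559) (nat_lit 5583) (nat_lit 561) (nat_lit 4560)))) (.a (.f (nat_lit 591) (nat_lit 623) (nat_lit 5615) (.f (nat_lit 593) (nat_lit 625) (nat_lit 4592) (.f (nat_lit 559) (nat_lit 464) (nat_lit 5583) (.d (nat_lit 558) (nat_lit 557) (nat_lit 557) (nat_lit 594) (nat_lit 3630))))) (.a (.f (nat_lit 623) (nat_lit 591) (nat_lit 5615) (.f (nat_lit 624) (nat_lit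 655) (nat_lit 5647) (.d (nat_lit 625) (nat_lit 593) (nat_lit 4592) (nat_lit 657) (nat_lit 4624)))) (.a (.f (nat_lit 591) (nat_lit 623) (nat_lit 5615) (.f (nat_lit 464) (nat_lit 559) (nat_lit 5583) (.d (nat_lit 463) (nat_lit 431) (nat_lit 7599) (nat_lit 495) (nat_lit 7631)))) (.f (nat_lit 593) (nat_lit 625) (nat_lit 4592) (.f (nat_lit 464) (nat_lit 561) (nat_lit 4560) (.d (nat_lit 463) (nat_lit 431) (nat_lit 7599) (nat_lit 495) (nat_lit 7631)))))))))
noncomputable def s5006 : Cert := .r (nat_lit 16209045194715341169889328670281870870648320287896358692834964590898661937229787932041754039510650896287619396121528265811588831646207381755109511917282835312024913084449269219328) (.p (nat_lit 496) (.a (.f (nat_lit 465) (nat_lit 497) (nat_lit 6608) (.f (nat_lit 464) (nat_lit 433) (nat_lit 6576) (.d (nat_lit 463) (nat_lit 431) (nat_lit 7599) (nat_lit 495) (nat_lit 7631)))) (.a (.f (nat_lit 591) (nat_lit 623) (nat_lit 5615) (.f (nat_lit 464)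 (nat_lit 559) (nat_lit 5583) (.d (nat_lit 463) (nat_lit 431) (nat_lit 7599) (nat_lit 495) (nat_lit 7631)))) (.a (.f (nat_lit 497) (nat_lit 465) (nat_lit 6608) (.f (nat_lit 529) (nat_lit 624) (nat_lit 6640) (.f (nat_lit 495) (nat_lit 463) (nat_lit 7631) (.d (nat_lit 494) (nat_lit 493) (nat_lit 493) (nat_lit 530) (nat_lit 494))))) (.f (nat_lit 591) (nat_lit 623) (nat_lit 5615) (.f (nat_lit 464) (nat_lit 559) (nat_lit 5583) (.d (nat_lit 465) (nat_lit 433) (nat_lit 6576) (nat_lit 497) (nat_lit 6608))))))))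
noncomputable def s5079 : Cert := .r (nat_lit 16209045194715341169889328670281870870648320287896358692834964590898661937229787932041754039510650896287619396121528265811588831646207381755109511917282835312024913084449269219328) (.p (nat_lit 496) (.a (.f (nat_lit 465) (nat_lit 497) (nat_lit 6608) (.f (nat_lit 464) (nat_lit 433) (nat_lit 6576) (.d (nat_lit 463) (nat_lit 431) (nat_lit 7599) (nat_lit 495) (nat_lit 7631)))) (.a (.f (nat_lit 593) (nat_lit 625) (nat_lit 4592) (.f (nat_lit 464) (nat_lit 561) (nat_lit 4560) (.d (nat_lit 463) (nat_lit 431) (nat_lit 7599) (nat_lit 495) (nat_lit 7631)))) (.a (.f (nat_lit 497) (nat_lit 465) (nat_lit 6608) (.f (nat_lit 529) (nat_lit 624) (nat_lit 6640) (.f (nat_lit 495) (nat_lit 463) (nat_lit 7631) (.d (nat_lit 494) (nat_lit 493) (nat_lit 493) (nat_lit 530) (nat_lit 494))))) (.f (nat_lit 593) (nat_lit 625) (nat_lit 4592) (.f (nat_lit 464) (nat_lit 561) (nat_lit 4560) (.d (nat_lit 465) (nat_lit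 433) (nat_lit 6576) (nat_lit 497) (nat_lit 6608))))))))
noncomputable def s5099 : Cert := .r (nat_lit 16209045194715341169889328670281870870648320287896358692834964590898661937229787932041754039510650896287619396121528265811588831646207381755109511917282835312024913084449269219328) (.p (nat_lit 496) (.a (.f (nat_lit 591) (nat_lit 623) (nat_lit 5615) (.f (nat_lit 593) (nat_lit 625) (nat_lit 4592) (.f (nat_lit 559) (nat_lit 464) (nat_lit 5583) (.d (nat_lit 558) (nat_lit 557) (nat_lit 557) (nat_lit 594) (nat_lit 3630))))) (.a (.f (nat_lit 623) (nat_lit 591) (nat_lit 5615) (.f (nat_lit 624) (nat_lit 655) (nat_lit 5647) (.d (nat_lit 625) (nat_lit 593) (nat_lit 4592) (nat_lit 657) (nat_lit 4624)))) (.a (.f (nat_lit 591) (nat_lit 623) (nat_lit 5615) (.f (nat_lit 464) (nat_lit 559) (nat_lit 5583) (.d (nat_lit 463) (nat_lit 431) (nat_lit 7599) (nat_lit 495) (nat_lit 7631)))) (.f (nat_lit 495) (nat_lit 463) (nat_lit 7631) (.f (nat_lit 624)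 (nat_lit 527) (nat_lit 7663) (.d (nat_lit 625) (nat_lit 593) (nat_lit 4592) (nat_lit 657) (nat_lit 4624))))))))
noncomputable def s5129 : Cert := .r (nat_lit 16209045194715341169889328670281870870648320287896358692834964590898661937229787932041754039510650896287619396121528265811588831646207381755109511917282835312024913084449269219328) (.p (nat_lit 496) (.a (.f (nat_lit 591) (nat_lit 623) (nat_lit 5615) (.f (nat_lit 593) (nat_lit 625) (nat_lit 4592) (.f (nat_lit 559) (nat_lit 464) (nat_lit 5583) (.d (nat_lit 558) (nat_lit 557) (nat_lit 557) (nat_lit 594) (nat_lit 3630))))) (.a (.f (nat_lit 623) (nat_lit 591) (nat_lit 5615) (.f (nat_lit 624) (nat_lit 655) (nat_lit 5647) (.d (nat_lit 625) (nat_lit 593) (nat_lit 4592) (nat_lit 657) (nat_lit 4624)))) (.a (.f (nat_lit 591) (nat_lit 623) (nat_lit 5615) (.f (nat_lit 464) (nat_lit 559) (nat_lit 5583) (.d (nat_lit 465) (nat_lit 433) (nat_lit 6576) (nat_lit 497) (nat_lit 6608)))) (.f (nat_lit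 497) (nat_lit 465) (nat_lit 6608) (.f (nat_lit 624) (nat_lit 529) (nat_lit 6640) (.d (nat_lit 625) (nat_lit 593) (nat_lit 4592) (nat_lit 657) (nat_lit 4624))))))))
noncomputable def s5143 : Cert := .r (nat_lit 69617319010688342354157046579134496591626299997365848525493900775038259988980287097537295428949886970703313090708920777205035112756404474930091984412003649311264687642961573089375938412544) (.f (nat_lit 625) (nat_lit 657) (nat_lit 4624) (.p (nat_lit 626) (.a (.f (nat_lit 623) (nat_lit 655) (nat_lit 5647) (.d (nat_lit 591) (nat_lit 590) (nat_lit 3662) (nat_lit 627) (nat_lit 3663))) (.a (.f (nat_lit 627) (nat_lit 591) (nat_lit 3663) (.f (nat_lit 628) (nat_lit 593) (nat_lit 3664) (.d (nat_lit 596) (nat_lit 595) (nat_lit 2640) (nat_lit 597) (nat_lit 2641)))) (.f (nat_lit 623) (nat_lit 655) (nat_lit 5647) (.f (nat_lit 594) (nat_lit 595) (nat_lit 2639) (.f (nat_lit 593) (nat_lit 622) (nat_lit 2638) (.f (nat_lit 658) (nat_lit 659)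 (nat_lit 623) (.d (nat_lit 690) (nat_lit 561) (nat_lit 7729) (nat_lit 722) (nat_lit 7761))))))))))
noncomputable def s5144 : Cert := .r (nat_lit 16209045194715341169889328670281870870648320287896358692834964590898661937229787932041754039510650896287619396121528265811588831646207381755109511917282835312024913084449269219328) (.p (nat_lit 624) (.a (.f (nat_lit 527) (nat_lit 495) (nat_lit 7663) (.f (nat_lit 656) (nat_lit 559) (nat_lit 7695) (.d (nat_lit 655) (nat_lit 623) (nat_lit 5647) (nat_lit 687) (nat_lit 5679)))) (.a (.f (nat_lit 655) (nat_lit 623) (nat_lit 5647) (.f (nat_lit 656) (nat_lit 687) (nat_lit 5679) (.d (nat_lit 657) (nat_lit 625) (nat_lit 4624) (nat_lit 689) (nat_lit 4656)))) (.a (.f (nat_lit 527) (nat_lit 495) (nat_lit 7663) (.f (nat_lit 656) (nat_lit 559) (nat_lit 7695) (.d (nat_lit 657) (nat_lit 625) (nat_lit 4624) (nat_lit 689) (nat_lit 4656)))) s5143))))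
noncomputable def s5148 : Cert := .r (nat_lit 16209045194715341169889328670281870870648320287896358692834964590898661937229787932041754039510650896287619396121528265811588831646207381755109511917282835312024913084449269219328) (.p (nat_lit 496) (.a (.f (nat_lit 465) (nat_lit 497) (nat_lit 6608) (.f (nat_lit 464) (nat_lit 433) (nat_lit 6576) (.d (nat_lit 463) (nat_lit 431) (nat_lit 7599) (nat_lit 495) (nat_lit 7631)))) (.a (.f (nat_lit 591) (nat_lit 623) (nat_lit 5615) (.f (nat_lit 464) (nat_lit 559) (nat_lit 5583) (.d (nat_lit 463) (nat_lit 431) (nat_lit 7599) (nat_lit 495) (nat_lit 7631)))) (.a (.f (nat_lit 495) (nat_lit 463) (nat_lit 7631) (.f (nat_lit 624) (nat_lit 527) (nat_lit 7663) (.d (nat_lit 623) (nat_lit 591) (nat_lit 5615) (nat_lit 655) (nat_lit 5647)))) (.f (nat_lit 591) (nat_lit 623) (nat_lit 5615) (.f (nat_lit 464) (nat_lit 559) (nat_lit 5583) (.d (nat_lit 465) (nat_lit 433) (nat_lit 6576) (nat_lit 497) (nat_lit 6608))))))))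
noncomputable def s5165 : Cert := .r (nat_lit 16209045194715341169889328670486457783641829154772183048886689537912202065107479481384459750016659258562911555801732646581957841468137799513082016355358913846142750150282302193664) (.f (nat_lit 593) (nat_lit 625) (nat_lit 4592) (.p (nat_lit 594) (.a (.f (nat_lit 591) (nat_lit 623) (nat_lit 5615) (.d (nat_lit 559) (nat_lit 558) (nat_lit 3630) (nat_lit 595) (nat_lit 3631))) (.a (.f (nat_lit 591) (nat_lit 623) (nat_lit 5615) (.f (nat_lit 562) (nat_lit 563) (nat_lit 2607) (.f (nat_lit 590) (nat_lit 561) (nat_lit 2606) (.f (nat_lit 557) (nat_lit 558) (nat_lit 3629) (.f (nat_lit 589) (nat_lit 556) (nat_lit 3628) (.d (nat_lit 621) (nat_lit 620) (nat_lit 1612) (nat_lit 622) (nat_lit 1613))))))) (.a (.f (nat_lit 595) (nat_lit 559) (nat_lit 3631) (.f (nat_lit 563) (nat_lit 564) (nat_lit 2608) (.f (nat_lit 562) (nat_lit 591) (nat_lit 2607) (.d (nat_lit 561) (nat_lit 527) (nat_lit 3599) (nat_lit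 596) (nat_lit 560))))) (.f (nat_lit 595) (nat_lit 559) (nat_lit 3631) (.f (nat_lit 596) (nat_lit 561) (nat_lit 3632) (.d (nat_lit 564) (nat_lit 563) (nat_lit 2608) (nat_lit 565) (nat_lit 2609)))))))))
noncomputable def s5168 : Cert := .r (nat_lit 16209045194715341169889328670281870870648320287896358692834964590898661937229787932041754039510650896287619396121528265811588831646207381755109511917282835312024913084449269219328) (.p (nat_lit 496) (.a (.f (nat_lit 465) (nat_lit 497) (nat_lit 6608) (.f (nat_lit 464) (nat_lit 433) (nat_lit 6576) (.d (nat_lit 463) (nat_lit 431) (nat_lit 7599) (nat_lit 495) (nat_lit 7631)))) (.a (.f (nat_lit 593) (nat_lit 625) (nat_lit 4592) (.f (nat_lit 464) (nat_lit 561) (nat_lit 4560) (.d (nat_lit 463) (nat_lit 431) (nat_lit 7599) (nat_lit 495) (nat_lit 7631)))) (.a (.f (nat_lit 495) (nat_lit 463) (nat_lit 7631) (.f (nat_lit 624) (nat_lit 527) (nat_lit 7663) (.d (nat_lit 625) (nat_lit 593) (nat_lit 4592)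 (nat_lit 657) (nat_lit 4624)))) (.f (nat_lit 593) (nat_lit 625) (nat_lit 4592) (.f (nat_lit 464) (nat_lit 561) (nat_lit 4560) (.d (nat_lit 465) (nat_lit 433) (nat_lit 6576) (nat_lit 497) (nat_lit 6608))))))))
noncomputable def s5190 : Cert := .r (nat_lit 16209045194715341169889328670281870870648320287896358692834964590898661937229787932041754039510650896287619396121528265811588831646207381755109511917282835312024913084449269219328) (.p (nat_lit 496) (.a (.f (nat_lit 591) (nat_lit 623) (nat_lit 5615) (.f (nat_lit 464) (nat_lit 559) (nat_lit 5583) (.d (nat_lit 463) (nat_lit 431) (nat_lit 7599) (nat_lit 495) (nat_lit 7631)))) (.a (.f (nat_lit 495) (nat_lit 463) (nat_lit 7631) (.f (nat_lit 624) (nat_lit 527) (nat_lit 7663) (.d (nat_lit 623) (nat_lit 591) (nat_lit 5615) (nat_lit 655) (nat_lit 5647)))) (.a (.f (nat_lit 591) (nat_lit 623) (nat_lit 5615) (.f (nat_lit 464) (nat_lit 559) (nat_lit 5583) (.f (nat_lit 431) (nat_lit 463) (nat_lit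 7599) (.f (nat_lit 432) (nat_lit 399) (nat_lit 7567) (.d (nat_lit 433) (nat_lit 401) (nat_lit 6544) (nat_lit 465) (nat_lit 6576)))))) (.a (.f (nat_lit 463) (nat_lit 495) (nat_lit 7631) (.f (nat_lit 464) (nat_lit 431) (nat_lit 7599) (.f (nat_lit 433) (nat_lit 465) (nat_lit 6576) (.f (nat_lit 432) (nat_lit 401) (nat_lit 6544) (.d (nat_lit 559) (nat_lit 527) (nat_lit 5551) (nat_lit 591) (nat_lit 5583)))))) (.a (.f (nat_lit 495) (nat_lit 463) (nat_lit 7631) (.f (nat_lit 624) (nat_lit 527) (nat_lit 7663) (.f (nat_lit 655) (nat_lit 623) (nat_lit 5647) (.f (nat_lit 656) (nat_lit 687) (nat_lit 5679) (.d (nat_lit 657) (nat_lit 625) (nat_lit 4624) (nat_lit 689) (nat_lit 4656)))))) (.f (nat_lit 623) (nat_lit 591) (nat_lit 5615) (.f (nat_lit 624) (nat_lit 655) (nat_lit 5647) (.f (nat_lit 657) (nat_lit 625) (nat_lit 4624) (.f (nat_lit 656) (nat_lit 689) (nat_lit 4656) (.d (nat_lit 527) (nat_lit 495) (nat_lit 7663) (nat_lit 559) (nat_lit 7695))))))))))))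
noncomputable def s5229 : Cert := .r (nat_lit 16209045194715341169889328670281870870648320287896358692834964590898661937229787932041754039510650896287619396121528265811588831646207381755109511917282835312024913084449269219328) (.p (nat_lit 496) (.a (.f (nat_lit 593) (nat_lit 625) (nat_lit 4592) (.f (nat_lit 464) (nat_lit 561) (nat_lit 4560) (.d (nat_lit 463) (nat_lit 431) (nat_lit 7599) (nat_lit 495) (nat_lit 7631)))) (.a (.f (nat_lit 495) (nat_lit 463) (nat_lit 7631) (.f (nat_lit 624) (nat_lit 527) (nat_lit 7663) (.d (nat_lit 625) (nat_lit 593) (nat_lit 4592) (nat_lit 657) (nat_lit 4624)))) (.a (.f (nat_lit 495) (nat_lit 463) (nat_lit 7631) (.f (nat_lit 624) (nat_lit 527) (nat_lit 7663) (.f (nat_lit 655) (nat_lit 623) (nat_lit 5647) (.f (nat_lit 656) (nat_lit 687) (nat_lit 5679) (.d (nat_lit 657) (nat_lit 625) (nat_lit 4624) (nat_lit 689) (nat_lit 4656)))))) (.a (.f (nat_lit 593) (nat_lit 625) (nat_lit 4592) (.f (nat_lit 464) (nat_lit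 561) (nat_lit 4560) (.f (nat_lit 431) (nat_lit 463) (nat_lit 7599) (.f (nat_lit 432) (nat_lit 399) (nat_lit 7567) (.d (nat_lit 433) (nat_lit 401) (nat_lit 6544) (nat_lit 465) (nat_lit 6576)))))) (.a (.f (nat_lit 495) (nat_lit 463) (nat_lit 7631) (.f (nat_lit 624) (nat_lit 527) (nat_lit 7663) (.f (nat_lit 655) (nat_lit 623) (nat_lit 5647) (.f (nat_lit 656) (nat_lit 687) (nat_lit 5679) (.f (nat_lit 561) (nat_lit 529) (nat_lit 6672) (.d (nat_lit 593) (nat_lit 464) (nat_lit 4560) (nat_lit 688) (nat_lit 6704))))))) (.f (nat_lit 593) (nat_lit 625) (nat_lit 4592) (.f (nat_lit 464) (nat_lit 561) (nat_lit 4560) (.f (nat_lit 433) (nat_lit 465) (nat_lit 6576) (.f (nat_lit 432) (nat_lit 401) (nat_lit 6544) (.f (nat_lit 399) (nat_lit 431) (nat_lit 7567) (.f (nat_lit 400) (nat_lit 367) (nat_lit 7535) (.d (nat_lit 527) (nat_lit 495) (nat_lit 5519) (nat_lit 559) (nat_lit 5551))))))))))))))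
noncomputable def s5232 : Cert := .r (nat_lit 18869812128501177264509710774503796433499995185341540522026907474751343623210314739829166948347900646451490313420764903077122343325272053234930137433682206587892745109504) (.p (nat_lit 594) (.a (.f (nat_lit 497) (nat_lit 465) (nat_lit 7633) (.f (nat_lit 529) (nat_lit 626) (nat_lit 7665) (.d (nat_lit 499) (nat_lit 467) (nat_lit 6610) (nat_lit 500) (nat_lit 1520)))) (.a (.f (nat_lit 467) (nat_lit 499) (nat_lit 6610) (.f (nat_lit 466) (nat_lit 435) (nat_lit 6578) (.d (nat_lit 465) (nat_lit 433) (nat_lit 7601) (nat_lit 497) (nat_lit 7633)))) (.a (.f (nat_lit 625) (nat_lit 593) (nat_lit 5617) (.f (nat_lit 626) (nat_lit 657) (nat_lit 5649) (.d (nat_lit 499) (nat_lit 467) (nat_lit 6610) (nat_lit 531) (nat_lit 6642)))) (.f (nat_lit 497) (nat_lit 465) (nat_lit 7633) (.f (nat_lit 626) (nat_lit 529) (nat_lit 7665) (.d (nat_lit 625) (nat_lit 593) (nat_lit 5617) (nat_lit 657) (nat_lit 5649))))))))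
noncomputable def s5236 : Cert := .r (nat_lit 18869812128501177264509710774503796433499995185341540522026907474751343623210314739829166948347900646451490313420764903077122343325272053234930137433682206587892745109504) (.p (nat_lit 594) (.a (.f (nat_lit 497) (nat_lit 465) (nat_lit 7633) (.f (nat_lit 529) (nat_lit 626) (nat_lit 7665) (.d (nat_lit 499) (nat_lit 467) (nat_lit 6610) (nat_lit 500) (nat_lit 1520)))) (.a (.f (nat_lit 467) (nat_lit 499) (nat_lit 6610) (.f (nat_lit 466) (nat_lit 435) (nat_lit 6578) (.d (nat_lit 465) (nat_lit 433) (nat_lit 7601) (nat_lit 497) (nat_lit 7633)))) (.a (.f (nat_lit 467) (nat_lit 499) (nat_lit 6610) (.f (nat_lit 466) (nat_lit 435) (nat_lit 6578) (.d (nat_lit 595) (nat_lit 563) (nat_lit 4562) (nat_lit 627) (nat_lit 4594)))) (.f (nat_lit 497) (nat_lit 465) (nat_lit 7633) (.f (nat_lit 626) (nat_lit 529) (nat_lit 7665) (.d (nat_lit 625) (nat_lit 593) (nat_lit 5617) (nat_lit 657) (nat_lit 5649))))))))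
noncomputable def s5248 : Cert := .r (nat_lit 18869812128501177264509710774503796433499995185341540522026907474751343623210314739829166948347900646451490313420764903077122343325272053234930137433682206587892745109504) (.p (nat_lit 529) (.a (.f (nat_lit 499) (nat_lit 527) (nat_lit 2543) (.d (nat_lit 500) (nat_lit 497) (nat_lit 1520) (nat_lit 501) (nat_lit 1521))) (.a (.f (nat_lit 531) (nat_lit 559) (nat_lit 1551) (.f (nat_lit 500) (nat_lit 499) (nat_lit 2544) (.f (nat_lit 532) (nat_lit 501) (nat_lit 2545) (.f (nat_lit 533) (nat_lit 497) (nat_lit 3569) (.d (nat_lit 565) (nat_lit 564) (nat_lit 529) (nat_lit 566) (nat_lit 530)))))) (.a (.f (nat_lit 499) (nat_lit 527) (nat_lit 2543) (.d (nat_lit 500) (nat_lit 501) (nat_lit 1521) (nat_lit 531) (nat_lit 2544))) (.f (nat_lit 559) (nat_lit 531) (nat_lit 1551) (.d (nat_lit 558) (nat_lit 527) (nat_lit 1550) (nat_lit 557) (nat_lit 2573)))))))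
noncomputable def s5264 : Cert := .r (nat_lit 64836180782635327101742773732697231585002535603158398420531735424769985283468068119602739269728063835414242088734400412247313427197993133195998014662105898411975269780990422155264) (.p (nat_lit 530) (.a (.f (nat_lit 467) (nat_lit 499) (nat_lit 6610) (.f (nat_lit 466) (nat_lit 435) (nat_lit 6578) (.d (nat_lit 465) (nat_lit 433) (nat_lit 7601) (nat_lit 497) (nat_lit 7633)))) (.a (.f (nat_lit 467) (nat_lit 499) (nat_lit 6610) (.f (nat_lit 466) (nat_lit 435) (nat_lit 6578) (.d (nat_lit 595) (nat_lit 563) (nat_lit 4562) (nat_lit 627) (nat_lit 4594)))) (.a (.f (nat_lit 595) (nat_lit 627) (nat_lit 4594) (.f (nat_lit 466) (nat_lit 563) (nat_lit 4562) (.d (nat_lit 465) (nat_lit 433) (nat_lit 7601) (nat_lit 497) (nat_lit 7633)))) (.f (nat_lit 499) (nat_lit 467) (nat_lit 6610) (.f (nat_lit 626) (nat_lit 531) (nat_lit 6642) (.d (nat_lit 627) (nat_lit 595) (nat_lit 4594) (nat_lit 659) (nat_lit 4626))))))))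
noncomputable def s5265 : Cert := .r (nat_lit 64836180782635327101742773732697231585002535603158398420531735424769985283468068119602739269728063835414242088734400412247313427197993133195998014662105898411975269780990422155264) (.p (nat_lit 530) (.a (.f (nat_lit 595) (nat_lit 627) (nat_lit 4594) (.f (nat_lit 561) (nat_lit 559) (nat_lit 559) (.d (nat_lit 563) (nat_lit 466) (nat_lit 4562) (nat_lit 596) (nat_lit 560)))) (.a (.f (nat_lit 467) (nat_lit 499) (nat_lit 6610) (.f (nat_lit 466) (nat_lit 435) (nat_lit 6578) (.d (nat_lit 595) (nat_lit 563) (nat_lit 4562) (nat_lit 627) (nat_lit 4594)))) (.a (.f (nat_lit 499) (nat_lit 467) (nat_lit 6610) (.f (nat_lit 626) (nat_lit 531) (nat_lit 6642) (.d (nat_lit 627) (nat_lit 595) (nat_lit 4594) (nat_lit 659) (nat_lit 4626)))) (.f (nat_lit 499) (nat_lit 467) (nat_lit 6610) (.f (nat_lit 531) (nat_lit 626) (nat_lit 6642) (.f (nat_lit 561) (nat_lit 559) (nat_lit 2575) (.d (nat_lit 532) (nat_lit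 533) (nat_lit 1553) (nat_lit 563) (nat_lit 2576)))))))))
noncomputable def s5282 : Cert := .r (nat_lit 64836180782635327101742773732697231585002535603158398420531735424769985283468068119602739269728063835414242088734400412247313427197993133195998014662105898411975269780990422155264) (.p (nat_lit 561) (.a (.f (nat_lit 563) (nat_lit 527) (nat_lit 3599) (.d (nat_lit 595) (nat_lit 559) (nat_lit 559) (nat_lit 596) (nat_lit 560))) (.a (.f (nat_lit 595) (nat_lit 559) (nat_lit 559) (.d (nat_lit 596) (nat_lit 563) (nat_lit 560) (nat_lit 593) (nat_lit 3632))) (.a (.f (nat_lit 559) (nat_lit 595) (nat_lit 559) (.f (nat_lit 558) (nat_lit 593) (nat_lit 558) (.d (nat_lit 590) (nat_lit 589) (nat_lit 1581) (nat_lit 591) (nat_lit 1582)))) (.a (.f (nat_lit 563) (nat_lit 527) (nat_lit 3599) (.f (nat_lit 595) (nat_lit 596) (nat_lit 560) (.f (nat_lit 531) (nat_lit 532) (nat_lit 2576) (.d (nat_lit 499) (nat_lit 466) (nat_lit 7634) (nat_lit 467) (nat_lit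 5586))))) (.f (nat_lit 563) (nat_lit 527) (nat_lit 3599) (.f (nat_lit 532) (nat_lit 531) (nat_lit 2576) (.f (nat_lit 564) (nat_lit 533) (nat_lit 2577) (.f (nat_lit 565) (nat_lit 593) (nat_lit 1585) (.d (nat_lit 597) (nat_lit 596) (nat_lit 561) (nat_lit 598) (nat_lit 562)))))))))))
noncomputable def s5284 : Cert := .r (nat_lit 64836180782635327101742773732697231585002535603158398420531735424769985283468068119602739269728063835414242088734400412247313427197993133195998014662105898411975269780990422155264) (.p (nat_lit 530) (.a (.f (nat_lit 595) (nat_lit 627) (nat_lit 4594) (.f (nat_lit 561) (nat_lit 559) (nat_lit 559) (.d (nat_lit 466) (nat_lit 563) (nat_lit 4562) (nat_lit 593) (nat_lit 5585)))) (.a (.f (nat_lit 595) (nat_lit 627) (nat_lit 4594) (.f (nat_lit 466) (nat_lit 563) (nat_lit 4562) (.d (nat_lit 465) (nat_lit 433) (nat_lit 7601) (nat_lit 497) (nat_lit 7633)))) (.a (.f (nat_lit 593) (nat_lit 625) (nat_lit 5617) (.f (nat_lit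 561) (nat_lit 466) (nat_lit 5585) (.d (nat_lit 559) (nat_lit 531) (nat_lit 2575) (nat_lit 558) (nat_lit 558)))) (.f (nat_lit 595) (nat_lit 627) (nat_lit 4594) (.f (nat_lit 561) (nat_lit 559) (nat_lit 559) (.d (nat_lit 593) (nat_lit 596) (nat_lit 3632) (nat_lit 625) (nat_lit 5617))))))))
noncomputable def s5289 : Cert := .r (nat_lit 64836180782635327101742773732697231585002535603158398420531735424769985283468068119602739269728063835414242088734400412247313427197993133195998014662105898411975269780990422155264) (.p (nat_lit 530) (.a (.f (nat_lit 595) (nat_lit 627) (nat_lit 4594) (.f (nat_lit 561) (nat_lit 559) (nat_lit 559) (.d (nat_lit 466) (nat_lit 563) (nat_lit 4562) (nat_lit 593) (nat_lit 5585)))) (.a (.f (nat_lit 467) (nat_lit 499) (nat_lit 6610) (.f (nat_lit 466) (nat_lit 435) (nat_lit 6578) (.d (nat_lit 595) (nat_lit 563) (nat_lit 4562) (nat_lit 627) (nat_lit 4594)))) (.a (.f (nat_lit 595) (nat_lit 627) (nat_lit 4594) (.f (nat_lit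 561) (nat_lit 559) (nat_lit 559) (.d (nat_lit 593) (nat_lit 596) (nat_lit 3632) (nat_lit 625) (nat_lit 5617)))) (.f (nat_lit 593) (nat_lit 625) (nat_lit 5617) (.f (nat_lit 561) (nat_lit 466) (nat_lit 5585) (.f (nat_lit 563) (nat_lit 527) (nat_lit 3599) (.d (nat_lit 564) (nat_lit 529) (nat_lit 3600) (nat_lit 565) (nat_lit 1585)))))))))
noncomputable def s5294 : Cert := .r (nat_lit 64836180782635327101742773732697231585002535603158398420531735424769985283468068119602739269728063835414242088734400412247313427197993133195998014662105898411975269780990422155264) (.p (nat_lit 530) (.a (.f (nat_lit 593) (nat_lit 625) (nat_lit 5617) (.f (nat_lit 561) (nat_lit 466) (nat_lit 5585) (.d (nat_lit 559) (nat_lit 531) (nat_lit 2575) (nat_lit 558) (nat_lit 558)))) (.a (.f (nat_lit 625) (nat_lit 593) (nat_lit 5617) (.f (nat_lit 626) (nat_lit 657) (nat_lit 5649) (.d (nat_lit 499) (nat_lit 467) (nat_lit 6610) (nat_lit 531) (nat_lit 6642)))) (.a (.f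 (nat_lit 595) (nat_lit 627) (nat_lit 4594) (.f (nat_lit 561) (nat_lit 559) (nat_lit 559) (.d (nat_lit 593) (nat_lit 596) (nat_lit 3632) (nat_lit 625) (nat_lit 5617)))) (.f (nat_lit 499) (nat_lit 467) (nat_lit 6610) (.f (nat_lit 626) (nat_lit 531) (nat_lit 6642) (.d (nat_lit 627) (nat_lit 595) (nat_lit 4594) (nat_lit 659) (nat_lit 4626))))))))
noncomputable def s5296 : Cert := .r (nat_lit 18869812124986400862522838600433063224370321858099589648353535105141378332107316629929567049661150110432825581272389191644684144010265595379075215801644304102841835847680) (.p (nat_lit 594) (.a s5265 (.a (.p (nat_lit 530) (.a (.f (nat_lit 499) (nat_lit 467) (nat_lit 6610) (.f (nat_lit 529) (nat_lit 527) (nat_lit 2543) (.d (nat_lit 500) (nat_lit 501) (nat_lit 1521) (nat_lit 531) (nat_lit 2544)))) (.a (.f (nat_lit 625) (nat_lit 593) (nat_lit 5617) (.f (nat_lit 626) (nat_lit 657) (nat_lit 5649) (.d (nat_lit 499) (nat_lit 467) (nat_lit 6610) (nat_lit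 531) (nat_lit 6642)))) (.a (.f (nat_lit 467) (nat_lit 499) (nat_lit 6610) (.f (nat_lit 466) (nat_lit 435) (nat_lit 6578) (.d (nat_lit 595) (nat_lit 563) (nat_lit 4562) (nat_lit 627) (nat_lit 4594)))) (.f (nat_lit 625) (nat_lit 593) (nat_lit 5617) (.f (nat_lit 626) (nat_lit 657) (nat_lit 5649) (.d (nat_lit 627) (nat_lit 595) (nat_lit 4594) (nat_lit 659) (nat_lit 4626)))))))) (.a s5289 (.a (.p (nat_lit 561) (.a (.f (nat_lit 563) (nat_lit 527) (nat_lit 3599) (.d (nat_lit 595) (nat_lit 559) (nat_lit 559) (nat_lit 596) (nat_lit 560))) (.a (.f (nat_lit 595) (nat_lit 559) (nat_lit 559) (.d (nat_lit 596) (nat_lit 563) (nat_lit 560) (nat_lit 593) (nat_lit 3632))) (.a (.f (nat_lit 559) (nat_lit 595) (nat_lit 559) (.f (nat_lit 558) (nat_lit 593) (nat_lit 558) (.d (nat_lit 590) (nat_lit 589) (nat_lit 1581) (nat_lit 591) (nat_lit 1582)))) (.f (nat_lit 563) (nat_lit 527) (nat_lit 3599) (.f (nat_lit 564) (nat_lit 529) (nat_lit 3600) (.d (nat_lit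 532) (nat_lit 531) (nat_lit 2576) (nat_lit 533) (nat_lit 2577)))))))) (.a s5294 (.p (nat_lit 530) (.a (.f (nat_lit 593) (nat_lit 625) (nat_lit 5617) (.f (nat_lit 561) (nat_lit 466) (nat_lit 5585) (.d (nat_lit 559) (nat_lit 531) (nat_lit 2575) (nat_lit 558) (nat_lit 558)))) (.a (.f (nat_lit 499) (nat_lit 467) (nat_lit 6610) (.f (nat_lit 529) (nat_lit 527) (nat_lit 2543) (.d (nat_lit 500) (nat_lit 501) (nat_lit 1521) (nat_lit 531) (nat_lit 2544)))) (.f (nat_lit 593) (nat_lit 625) (nat_lit 5617) (.f (nat_lit 561) (nat_lit 466) (nat_lit 5585) (.f (nat_lit 563) (nat_lit 527) (nat_lit 3599) (.d (nat_lit 564) (nat_lit 529) (nat_lit 3600) (nat_lit 565) (nat_lit 1585))))))))))))))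
noncomputable def s5302 : Cert := .r (nat_lit 64836180782635327101742773732697231585002535603158398420531735424769985283468068119602739269728063835414242088734400412247313427197993133195998014662105898411975269780990422155264) (.p (nat_lit 561) (.a (.f (nat_lit 563) (nat_lit 527) (nat_lit 3599) (.d (nat_lit 595) (nat_lit 559) (nat_lit 559) (nat_lit 596) (nat_lit 560))) (.a (.f (nat_lit 595) (nat_lit 559) (nat_lit 559) (.d (nat_lit 596) (nat_lit 563) (nat_lit 560) (nat_lit 593) (nat_lit 3632))) (.a (.f (nat_lit 559) (nat_lit 595) (nat_lit 559) (.f (nat_lit 558) (nat_lit 593) (nat_lit 558) (.d (nat_lit 590) (nat_lit 589) (nat_lit 1581) (nat_lit 591) (nat_lit 1582)))) (.f (nat_lit 563) (nat_lit 527) (nat_lit 3599) (.f (nat_lit 529) (nat_lit 564) (nat_lit 3600) (.f (nat_lit 497) (nat_lit 465) (nat_lit 4561) (.d (nat_lit 593) (nat_lit 466) (nat_lit 6609) (nat_lit 626) (nat_lit 4593)))))))))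
noncomputable def s5306 : Cert := .r (nat_lit 18869812124986400862522838600433063224370321858099589648353535105141378332107316629929567049661150110432825581272389191644684144010265595379075215801644304102841835847680) (.p (nat_lit 594) (.a (.p (nat_lit 530) (.a (.f (nat_lit 595) (nat_lit 627) (nat_lit 4594) (.f (nat_lit 561) (nat_lit 559) (nat_lit 559) (.d (nat_lit 563) (nat_lit 466) (nat_lit 4562) (nat_lit 596) (nat_lit 560)))) (.a (.f (nat_lit 467) (nat_lit 499) (nat_lit 6610) (.f (nat_lit 466) (nat_lit 435) (nat_lit 6578) (.d (nat_lit 465) (nat_lit 433) (nat_lit 7601) (nat_lit 497) (nat_lit 7633)))) (.f (nat_lit 595) (nat_lit 627) (nat_lit 4594) (.f (nat_lit 561) (nat_lit 559) (nat_lit 559) (.d (nat_lit 596) (nat_lit 563) (nat_lit 560) (nat_lit 597) (nat_lit 3633))))))) (.a (.p (nat_lit 530) (.a (.f (nat_lit 497) (nat_lit 465) (nat_lit 7633) (.f (nat_lit 529) (nat_lit 626) (nat_lit 7665) (.d (nat_lit 499) (nat_lit 467) (nat_lit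 6610) (nat_lit 500) (nat_lit 1520)))) (.a (.f (nat_lit 467) (nat_lit 499) (nat_lit 6610) (.f (nat_lit 466) (nat_lit 435) (nat_lit 6578) (.d (nat_lit 465) (nat_lit 433) (nat_lit 7601) (nat_lit 497) (nat_lit 7633)))) (.a (.f (nat_lit 467) (nat_lit 499) (nat_lit 6610) (.f (nat_lit 466) (nat_lit 435) (nat_lit 6578) (.d (nat_lit 595) (nat_lit 563) (nat_lit 4562) (nat_lit 627) (nat_lit 4594)))) (.f (nat_lit 497) (nat_lit 465) (nat_lit 7633) (.f (nat_lit 626) (nat_lit 529) (nat_lit 7665) (.d (nat_lit 625) (nat_lit 593) (nat_lit 5617) (nat_lit 657) (nat_lit 5649)))))))) (.a s5289 (.a s5302 (.a (.p (nat_lit 530) (.a (.f (nat_lit 595) (nat_lit 627) (nat_lit 4594) (.f (nat_lit 561) (nat_lit 559) (nat_lit 559) (.d (nat_lit 593) (nat_lit 596) (nat_lit 3632) (nat_lit 625) (nat_lit 5617)))) (.f (nat_lit 467) (nat_lit 499) (nat_lit 6610) (.f (nat_lit 466) (nat_lit 435) (nat_lit 6578) (.d (nat_lit 465) (nat_lit 433) (nat_lit 7601) (nat_lit 497)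 (nat_lit 7633)))))) (.a (.p (nat_lit 530) (.a (.f (nat_lit 497) (nat_lit 465) (nat_lit 7633) (.f (nat_lit 529) (nat_lit 626) (nat_lit 7665) (.d (nat_lit 499) (nat_lit 467) (nat_lit 6610) (nat_lit 500) (nat_lit 1520)))) (.f (nat_lit 595) (nat_lit 627) (nat_lit 4594) (.f (nat_lit 561) (nat_lit 559) (nat_lit 559) (.d (nat_lit 593) (nat_lit 596) (nat_lit 3632) (nat_lit 625) (nat_lit 5617)))))) (.p (nat_lit 530) (.a (.f (nat_lit 497) (nat_lit 465) (nat_lit 7633) (.f (nat_lit 529) (nat_lit 626) (nat_lit 7665) (.d (nat_lit 499) (nat_lit 467) (nat_lit 6610) (nat_lit 500) (nat_lit 1520)))) (.a (.f (nat_lit 467) (nat_lit 499) (nat_lit 6610) (.f (nat_lit 466) (nat_lit 435) (nat_lit 6578) (.d (nat_lit 465) (nat_lit 433) (nat_lit 7601) (nat_lit 497) (nat_lit 7633)))) (.f (nat_lit 593) (nat_lit 625) (nat_lit 5617) (.f (nat_lit 561) (nat_lit 466) (nat_lit 5585) (.f (nat_lit 563) (nat_lit 527) (nat_lit 3599) (.d (nat_lit 564) (nat_lit 529) (nat_lit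 3600) (nat_lit 565) (nat_lit 1585)))))))))))))))
noncomputable def s5327 : Cert := .r (nat_lit 18869812124986400862522838600433063224370321858099589648353535105141378332107316629929567049661150110432825581272389191644684144010265595379075215801644304102841835847680) (.p (nat_lit 561) (.a (.p (nat_lit 563) (.a (.f (nat_lit 564) (nat_lit 529) (nat_lit 3600) (.d (nat_lit 532) (nat_lit 531) (nat_lit 2576) (nat_lit 533) (nat_lit 2577))) (.a (.f (nat_lit 595) (nat_lit 596) (nat_lit 560) (.f (nat_lit 531) (nat_lit 532) (nat_lit 2576) (.f (nat_lit 594) (nat_lit 559) (nat_lit 559) (.d (nat_lit 499) (nat_lit 466) (nat_lit 7634) (nat_lit 467) (nat_lit 5586))))) (.f (nat_lit 564) (nat_lit 529) (nat_lit 3600) (.d (nat_lit 596) (nat_lit 595) (nat_lit 560) (nat_lit 597) (nat_lit 561)))))) (.a (.f (nat_lit 563) (nat_lit 527) (nat_lit 3599) (.f (nat_lit 595) (nat_lit 596) (nat_lit 560) (.f (nat_lit 531) (nat_lit 532) (nat_lit 2576) (.f (nat_lit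 594) (nat_lit 559) (nat_lit 559) (.d (nat_lit 499) (nat_lit 466) (nat_lit 7634) (nat_lit 467) (nat_lit 5586)))))) (.a (.f (nat_lit 563) (nat_lit 527) (nat_lit 3599) (.f (nat_lit 564) (nat_lit 529) (nat_lit 3600) (.d (nat_lit 596) (nat_lit 595) (nat_lit 560) (nat_lit 597) (nat_lit 561)))) (.a (.p (nat_lit 559) (.a (.f (nat_lit 594) (nat_lit 595) (nat_lit 559) (.f (nat_lit 558) (nat_lit 593) (nat_lit 558) (.d (nat_lit 590) (nat_lit 589) (nat_lit 1581) (nat_lit 591) (nat_lit 1582)))) (.a (.f (nat_lit 591) (nat_lit 590) (nat_lit 1582) (.f (nat_lit 496) (nat_lit 464) (nat_lit 5583) (.d (nat_lit 623) (nat_lit 527) (nat_lit 6639) (nat_lit 655) (nat_lit 6671)))) (.f (nat_lit 594) (nat_lit 595) (nat_lit 559) (.f (nat_lit 593) (nat_lit 558) (nat_lit 558) (.f (nat_lit 625) (nat_lit 657) (nat_lit 7696) (.d (nat_lit 496) (nat_lit 464) (nat_lit 4560) (nat_lit 529) (nat_lit 7664)))))))) (.f (nat_lit 563) (nat_lit 527) (nat_lit 3599) (.f (nat_lit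 564) (nat_lit 529) (nat_lit 3600) (.d (nat_lit 532) (nat_lit 531) (nat_lit 2576) (nat_lit 533) (nat_lit 2577)))))))))
noncomputable def s5334 : Cert := .r (nat_lit 64836180782635327101742773732697231585002535603158398420531735424769985283468068119602739269728063835414242088734400412247313427197993133195998014662105898411975269780990422155264) (.p (nat_lit 561) (.a (.f (nat_lit 563) (nat_lit 527) (nat_lit 3599) (.d (nat_lit 595) (nat_lit 559) (nat_lit 559) (nat_lit 596) (nat_lit 560))) (.a (.f (nat_lit 595) (nat_lit 559) (nat_lit 559) (.d (nat_lit 596) (nat_lit 563) (nat_lit 560) (nat_lit 597) (nat_lit 3633))) (.a (.f (nat_lit 559) (nat_lit 595) (nat_lit 559) (.f (nat_lit 591) (nat_lit 590) (nat_lit 1582) (.f (nat_lit 496) (nat_lit 464) (nat_lit 5583) (.d (nat_lit 623) (nat_lit 527) (nat_lit 6639) (nat_lit 655) (nat_lit 6671))))) (.f (nat_lit 563) (nat_lit 527) (nat_lit 3599) (.f (nat_lit 564) (nat_lit 529) (nat_lit 3600) (.d (nat_lit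 532) (nat_lit 531) (nat_lit 2576) (nat_lit 533) (nat_lit 2577))))))))
noncomputable def s5335 : Cert := .r (nat_lit 64836180782635327101742773732697231585002535603158398420531735424769985283468068119602739269728063835414242088734400412247313427197993133195998014662105898411975269780990422155264) (.p (nat_lit 530) (.a (.f (nat_lit 497) (nat_lit 465) (nat_lit 7633) (.f (nat_lit 529) (nat_lit 626) (nat_lit 7665) (.d (nat_lit 499) (nat_lit 467) (nat_lit 6610) (nat_lit 500) (nat_lit 1520)))) (.a (.f (nat_lit 467) (nat_lit 499) (nat_lit 6610) (.f (nat_lit 466) (nat_lit 435) (nat_lit 6578) (.d (nat_lit 465) (nat_lit 433) (nat_lit 7601) (nat_lit 497) (nat_lit 7633)))) (.a (.f (nat_lit 499) (nat_lit 467) (nat_lit 6610) (.f (nat_lit 529) (nat_lit 527) (nat_lit 2543) (.d (nat_lit 500) (nat_lit 501) (nat_lit 1521) (nat_lit 531) (nat_lit 2544)))) (.f (nat_lit 497) (nat_lit 465) (nat_lit 7633) (.f (nat_lit 529) (nat_lit 626) (nat_lit 7665) (.f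 (nat_lit 559) (nat_lit 531) (nat_lit 1551) (.d (nat_lit 558) (nat_lit 527) (nat_lit 1550) (nat_lit 557) (nat_lit 2573)))))))))
noncomputable def s5336 : Cert := .r (nat_lit 18869812124986400862522838600433063224370321858099589648353535105141378332107316629929567049661150110432825581272389191644684144010265595379075215801644304102841835847680) (.p (nat_lit 594) (.a (.p (nat_lit 530) (.a (.f (nat_lit 595) (nat_lit 627) (nat_lit 4594) (.f (nat_lit 561) (nat_lit 559) (nat_lit 559) (.d (nat_lit 563) (nat_lit 466) (nat_lit 4562) (nat_lit 596) (nat_lit 560)))) (.a (.f (nat_lit 467) (nat_lit 499) (nat_lit 6610) (.f (nat_lit 466) (nat_lit 435) (nat_lit 6578) (.d (nat_lit 465) (nat_lit 433) (nat_lit 7601) (nat_lit 497) (nat_lit 7633)))) (.f (nat_lit 595) (nat_lit 627) (nat_lit 4594) (.f (nat_lit 561) (nat_lit 559) (nat_lit 559) (.d (nat_lit 596) (nat_lit 563) (nat_lit 560) (nat_lit 597) (nat_lit 3633))))))) (.a s5264 (.a s5265 (.a s5334 s5335)))))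
noncomputable def s5340 : Cert := .r (nat_lit 18869812128501177264509710774503796433499995185341540522026907474751343623210314739829166948347900646451490313420764903077122343325272053234930137433682206587892745109504) (.p (nat_lit 561) (.a (.f (nat_lit 466) (nat_lit 593) (nat_lit 5585) (.f (nat_lit 529) (nat_lit 434) (nat_lit 5553) (.d (nat_lit 563) (nat_lit 564) (nat_lit 3600) (nat_lit 595) (nat_lit 4562)))) (.a (.f (nat_lit 563) (nat_lit 527) (nat_lit 3599) (.d (nat_lit 466) (nat_lit 593) (nat_lit 5585) (nat_lit 595) (nat_lit 4562))) (.a (.f (nat_lit 563) (nat_lit 527) (nat_lit 3599) (.d (nat_lit 595) (nat_lit 466) (nat_lit 4562) (nat_lit 596) (nat_lit 560))) (.a (.f (nat_lit 466) (nat_lit 593) (nat_lit 5585) (.f (nat_lit 435) (nat_lit 467) (nat_lit 6578) (.f (nat_lit 434) (nat_lit 403) (nat_lit 6546) (.d (nat_lit 433) (nat_lit 401) (nat_lit 7569) (nat_lit 465) (nat_lit 7601))))) (.f (nat_lit 563) (nat_lit 527) (nat_lit 3599)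 (.f (nat_lit 564) (nat_lit 529) (nat_lit 3600) (.d (nat_lit 596) (nat_lit 595) (nat_lit 560) (nat_lit 597) (nat_lit 561)))))))))
noncomputable def s5341 : Cert := .r (nat_lit 18869812124986400862522838600433063224370321858099589648353535105141378332107316629929567049661150110432825581272389191644684144010265595379075215801644304102841835847680) (.p (nat_lit 530) (.a (.p (nat_lit 561) (.a (.f (nat_lit 531) (nat_lit 559) (nat_lit 2575) (.d (nat_lit 532) (nat_lit 529) (nat_lit 1552) (nat_lit 533) (nat_lit 1553))) (.a (.f (nat_lit 466) (nat_lit 593) (nat_lit 5585) (.f (nat_lit 563) (nat_lit 595) (nat_lit 4562) (.d (nat_lit 531) (nat_lit 434) (nat_lit 4530) (nat_lit 532) (nat_lit 2576)))) (.f (nat_lit 466) (nat_lit 593) (nat_lit 5585) (.f (nat_lit 529) (nat_lit 434) (nat_lit 5553) (.d (nat_lit 563) (nat_lit 564) (nat_lit 3600) (nat_lit 595) (nat_lit 4562))))))) (.a s5248 (.a (.p (nat_lit 561) (.a (.f (nat_lit 466) (nat_lit 593) (nat_lit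 5585) (.f (nat_lit 563) (nat_lit 595) (nat_lit 4562) (.d (nat_lit 531) (nat_lit 434) (nat_lit 4530) (nat_lit 532) (nat_lit 2576)))) (.a (.f (nat_lit 466) (nat_lit 593) (nat_lit 5585) (.f (nat_lit 435) (nat_lit 467) (nat_lit 6578) (.f (nat_lit 434) (nat_lit 403) (nat_lit 6546) (.d (nat_lit 433) (nat_lit 401) (nat_lit 7569) (nat_lit 465) (nat_lit 7601))))) (.f (nat_lit 531) (nat_lit 559) (nat_lit 2575) (.d (nat_lit 532) (nat_lit 533) (nat_lit 1553) (nat_lit 563) (nat_lit 2576)))))) s5340))))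
noncomputable def s5355 : Cert := .r (nat_lit 18869812128501177264509710774503796433499995185341540522026907474751343623210314739829166948347900646451490313420764903077122343325272053234930137433682206587892745109504) (.p (nat_lit 466) (.a (.f (nat_lit 433) (nat_lit 465) (nat_lit 7601) (.f (nat_lit 434) (nat_lit 401) (nat_lit 7569) (.d (nat_lit 435) (nat_lit 403) (nat_lit 6546) (nat_lit 467) (nat_lit 6578)))) (.a (.f (nat_lit 435) (nat_lit 467) (nat_lit 6578) (.f (nat_lit 434) (nat_lit 403) (nat_lit 6546) (.f (nat_lit 401) (nat_lit 433) (nat_lit 7569) (.f (nat_lit 402) (nat_lit 369) (nat_lit 7537) (.f (nat_lit 529) (nat_lit 497) (nat_lit 5521) (.d (nat_lit 527) (nat_lit 499) (nat_lit 2543) (nat_lit 563) (nat_lit 527))))))) (.a (.f (nat_lit 563) (nat_lit 595) (nat_lit 4562) (.f (nat_lit 529) (nat_lit 527) (nat_lit 527) (.d (nat_lit 531) (nat_lit 434) (nat_lit 4530) (nat_lit 564) (nat_lit 528)))) (.f (nat_lit 563) (nat_lit 595) (nat_lit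 4562) (.f (nat_lit 529) (nat_lit 527) (nat_lit 527) (.d (nat_lit 564) (nat_lit 531) (nat_lit 528) (nat_lit 565) (nat_lit 3601))))))))
noncomputable def s5358 : Cert := .r (nat_lit 18869812128501177264509710774503796433499995185341540522026907474751343623210314739829166948347900646451490313420764903077122343325272053234930137433682206587892745109504) (.p (nat_lit 561) (.a (.f (nat_lit 466) (nat_lit 593) (nat_lit 5585) (.f (nat_lit 529) (nat_lit 434) (nat_lit 5553) (.d (nat_lit 563) (nat_lit 564) (nat_lit 3600) (nat_lit 595) (nat_lit 4562)))) (.a (.f (nat_lit 563) (nat_lit 527) (nat_lit 3599) (.d (nat_lit 466) (nat_lit 593) (nat_lit 5585) (nat_lit 595) (nat_lit 4562))) (.a (.f (nat_lit 563) (nat_lit 527) (nat_lit 3599) (.d (nat_lit 595) (nat_lit 466) (nat_lit 4562) (nat_lit 596) (nat_lit 560))) (.a (.f (nat_lit 593) (nat_lit 466) (nat_lit 5585) (.d (nat_lit 625) (nat_lit 529) (nat_lit 6641) (nat_lit 657) (nat_lit 7696))) (.f (nat_lit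 563) (nat_lit 527) (nat_lit 3599) (.f (nat_lit 564) (nat_lit 529) (nat_lit 3600) (.d (nat_lit 596) (nat_lit 595) (nat_lit 560) (nat_lit 597) (nat_lit 561)))))))))
noncomputable def s5360 : Cert := .r (nat_lit 64836180782635327101742773732697231585002535603158398420531735424769985283468068119602739269728063835414242088734400412247313427197993133195998014662105898411975269780990422155264) (.p (nat_lit 530) (.a (.f (nat_lit 497) (nat_lit 465) (nat_lit 7633) (.f (nat_lit 529) (nat_lit 626) (nat_lit 7665) (.f (nat_lit 559) (nat_lit 531) (nat_lit 1551) (.d (nat_lit 558) (nat_lit 527) (nat_lit 1550) (nat_lit 557) (nat_lit 2573))))) (.a (.f (nat_lit 497) (nat_lit 465) (nat_lit 7633) (.f (nat_lit 626) (nat_lit 529) (nat_lit 7665) (.d (nat_lit 625) (nat_lit 593) (nat_lit 5617) (nat_lit 657) (nat_lit 5649)))) (.a (.f (nat_lit 595) (nat_lit 627) (nat_lit 4594) (.f (nat_lit 466) (nat_lit 563) (nat_lit 4562) (.d (nat_lit 465) (nat_lit 433) (nat_lit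 7601) (nat_lit 497) (nat_lit 7633)))) (.f (nat_lit 625) (nat_lit 593) (nat_lit 5617) (.f (nat_lit 626) (nat_lit 657) (nat_lit 5649) (.d (nat_lit 627) (nat_lit 595) (nat_lit 4594) (nat_lit 659) (nat_lit 4626))))))))
noncomputable def s5364 : Cert := .r (nat_lit 18869812124986400862522838600433063224370321858099589648353535105141378332107316629929567049661150110432825581272389191644684144010265595379075215801644304102841835847680) (.p (nat_lit 594) (.a (.p (nat_lit 561) (.a (.f (nat_lit 563) (nat_lit 527) (nat_lit 3599) (.d (nat_lit 595) (nat_lit 559) (nat_lit 559) (nat_lit 596) (nat_lit 560))) (.a (.f (nat_lit 595) (nat_lit 559) (nat_lit 559) (.d (nat_lit 596) (nat_lit 563) (nat_lit 560) (nat_lit 593) (nat_lit 3632))) (.a (.f (nat_lit 559) (nat_lit 595) (nat_lit 559) (.f (nat_lit 558) (nat_lit 593) (nat_lit 558) (.d (nat_lit 590) (nat_lit 589) (nat_lit 1581) (nat_lit 591) (nat_lit 1582)))) (.f (nat_lit 563) (nat_lit 527) (nat_lit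 3599) (.f (nat_lit 564) (nat_lit 529) (nat_lit 3600) (.d (nat_lit 532) (nat_lit 531) (nat_lit 2576) (nat_lit 533) (nat_lit 2577)))))))) (.a s5284 (.a s5360 (.a s5302 (.a s5334 (.a (.p (nat_lit 530) (.a (.f (nat_lit 593) (nat_lit 625) (nat_lit 5617) (.f (nat_lit 561) (nat_lit 466) (nat_lit 5585) (.d (nat_lit 559) (nat_lit 531) (nat_lit 2575) (nat_lit 558) (nat_lit 558)))) (.a (.f (nat_lit 625) (nat_lit 593) (nat_lit 5617) (.f (nat_lit 626) (nat_lit 657) (nat_lit 5649) (.d (nat_lit 627) (nat_lit 595) (nat_lit 4594) (nat_lit 659) (nat_lit 4626)))) (.f (nat_lit 595) (nat_lit 627) (nat_lit 4594) (.f (nat_lit 559) (nat_lit 561) (nat_lit 559) (.f (nat_lit 529) (nat_lit 531) (nat_lit 1551) (.d (nat_lit 558) (nat_lit 527) (nat_lit 1550) (nat_lit 557) (nat_lit 2573)))))))) (.a (.p (nat_lit 530) (.a (.f (nat_lit 593) (nat_lit 625) (nat_lit 5617) (.f (nat_lit 561) (nat_lit 466) (nat_lit 5585) (.d (nat_lit 595) (nat_lit 596) (nat_lit 3632) (nat_lit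 627) (nat_lit 4594)))) (.a (.f (nat_lit 497) (nat_lit 465) (nat_lit 7633) (.f (nat_lit 626) (nat_lit 529) (nat_lit 7665) (.d (nat_lit 625) (nat_lit 593) (nat_lit 5617) (nat_lit 657) (nat_lit 5649)))) (.f (nat_lit 497) (nat_lit 465) (nat_lit 7633) (.f (nat_lit 529) (nat_lit 626) (nat_lit 7665) (.f (nat_lit 563) (nat_lit 527) (nat_lit 527) (.d (nat_lit 564) (nat_lit 531) (nat_lit 528) (nat_lit 561) (nat_lit 3600)))))))) (.p (nat_lit 530) (.a (.f (nat_lit 593) (nat_lit 625) (nat_lit 5617) (.f (nat_lit 561) (nat_lit 466) (nat_lit 5585) (.d (nat_lit 559) (nat_lit 531) (nat_lit 2575) (nat_lit 558) (nat_lit 558)))) (.a (.f (nat_lit 497) (nat_lit 465) (nat_lit 7633) (.f (nat_lit 529) (nat_lit 626) (nat_lit 7665) (.f (nat_lit 559) (nat_lit 531) (nat_lit 1551) (.d (nat_lit 558) (nat_lit 527) (nat_lit 1550) (nat_lit 557) (nat_lit 2573))))) (.f (nat_lit 497) (nat_lit 465) (nat_lit 7633) (.f (nat_lit 626) (nat_lit 529) (nat_lit 7665) (.d (nat_lit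 625) (nat_lit 593) (nat_lit 5617) (nat_lit 657) (nat_lit 5649)))))))))))))))
noncomputable def s5367 : Cert := .r (nat_lit 64836180782635327101742773732697231585002535603158398420531735424769985283468068119602739269728063835414242088734400412247313427197993133195998014662105898411975269780990422155264) (.p (nat_lit 530) (.a (.f (nat_lit 497) (nat_lit 465) (nat_lit 7633) (.f (nat_lit 529) (nat_lit 626) (nat_lit 7665) (.d (nat_lit 499) (nat_lit 467) (nat_lit 6610) (nat_lit 500) (nat_lit 1520)))) (.a (.f (nat_lit 625) (nat_lit 593) (nat_lit 5617) (.f (nat_lit 626) (nat_lit 657) (nat_lit 5649) (.d (nat_lit 499) (nat_lit 467) (nat_lit 6610) (nat_lit 531) (nat_lit 6642)))) (.a (.f (nat_lit 497) (nat_lit 465) (nat_lit 7633) (.f (nat_lit 529) (nat_lit 626) (nat_lit 7665) (.f (nat_lit 559) (nat_lit 531) (nat_lit 1551) (.d (nat_lit 558) (nat_lit 527) (nat_lit 1550) (nat_lit 557) (nat_lit 2573))))) (.f (nat_lit 499) (nat_lit 467) (nat_lit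 6610) (.f (nat_lit 529) (nat_lit 527) (nat_lit 2543) (.d (nat_lit 500) (nat_lit 501) (nat_lit 1521) (nat_lit 531) (nat_lit 2544))))))))
noncomputable def s5368 : Cert := .r (nat_lit 18869812124986400862522838600433063224370321858099589648353535105141378332107316629929567049661150110432825581272389191644684144010265595379075215801644304102841835847680) (.p (nat_lit 594) (.a (.p (nat_lit 561) (.a (.f (nat_lit 563) (nat_lit 527) (nat_lit 3599) (.d (nat_lit 595) (nat_lit 559) (nat_lit 559) (nat_lit 596) (nat_lit 560))) (.a (.f (nat_lit 595) (nat_lit 559) (nat_lit 559) (.d (nat_lit 596) (nat_lit 563) (nat_lit 560) (nat_lit 593) (nat_lit 3632))) (.a (.f (nat_lit 559) (nat_lit 595) (nat_lit 559) (.f (nat_lit 558) (nat_lit 593) (nat_lit 558) (.d (nat_lit 590) (nat_lit 589) (nat_lit 1581) (nat_lit 591) (nat_lit 1582)))) (.f (nat_lit 563) (nat_lit 527) (nat_lit 3599) (.f (nat_lit 564) (nat_lit 529) (nat_lit 3600) (.d (nat_lit 532) (nat_lit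 531) (nat_lit 2576) (nat_lit 533) (nat_lit 2577)))))))) (.a (.p (nat_lit 530) (.a (.f (nat_lit 595) (nat_lit 627) (nat_lit 4594) (.f (nat_lit 561) (nat_lit 559) (nat_lit 559) (.d (nat_lit 593) (nat_lit 596) (nat_lit 3632) (nat_lit 625) (nat_lit 5617)))) (.a (.f (nat_lit 625) (nat_lit 593) (nat_lit 5617) (.f (nat_lit 626) (nat_lit 657) (nat_lit 5649) (.d (nat_lit 499) (nat_lit 467) (nat_lit 6610) (nat_lit 531) (nat_lit 6642)))) (.f (nat_lit 499) (nat_lit 467) (nat_lit 6610) (.f (nat_lit 531) (nat_lit 626) (nat_lit 6642) (.d (nat_lit 529) (nat_lit 500) (nat_lit 2544) (nat_lit 559) (nat_lit 1551))))))) (.a (.p (nat_lit 530) (.a (.f (nat_lit 499) (nat_lit 467) (nat_lit 6610) (.f (nat_lit 529) (nat_lit 527) (nat_lit 2543) (.d (nat_lit 500) (nat_lit 501) (nat_lit 1521) (nat_lit 531) (nat_lit 2544)))) (.a (.f (nat_lit 625) (nat_lit 593) (nat_lit 5617) (.f (nat_lit 626) (nat_lit 657) (nat_lit 5649) (.d (nat_lit 499) (nat_lit 467) (nat_lit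 6610) (nat_lit 531) (nat_lit 6642)))) (.f (nat_lit 625) (nat_lit 593) (nat_lit 5617) (.f (nat_lit 626) (nat_lit 657) (nat_lit 5649) (.d (nat_lit 627) (nat_lit 595) (nat_lit 4594) (nat_lit 659) (nat_lit 4626))))))) (.a (.p (nat_lit 530) (.a (.f (nat_lit 595) (nat_lit 627) (nat_lit 4594) (.f (nat_lit 561) (nat_lit 559) (nat_lit 559) (.d (nat_lit 593) (nat_lit 596) (nat_lit 3632) (nat_lit 625) (nat_lit 5617)))) (.a (.f (nat_lit 625) (nat_lit 593) (nat_lit 5617) (.f (nat_lit 626) (nat_lit 657) (nat_lit 5649) (.d (nat_lit 499) (nat_lit 467) (nat_lit 6610) (nat_lit 531) (nat_lit 6642)))) (.f (nat_lit 595) (nat_lit 627) (nat_lit 4594) (.f (nat_lit 561) (nat_lit 559) (nat_lit 559) (.d (nat_lit 596) (nat_lit 563) (nat_lit 560) (nat_lit 597) (nat_lit 3633))))))) (.a (.p (nat_lit 530) (.a (.f (nat_lit 497) (nat_lit 465) (nat_lit 7633) (.f (nat_lit 529) (nat_lit 626) (nat_lit 7665) (.d (nat_lit 499) (nat_lit 467) (nat_lit 6610) (nat_lit 500)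 (nat_lit 1520)))) (.f (nat_lit 595) (nat_lit 627) (nat_lit 4594) (.f (nat_lit 561) (nat_lit 559) (nat_lit 559) (.d (nat_lit 593) (nat_lit 596) (nat_lit 3632) (nat_lit 625) (nat_lit 5617)))))) (.a s5334 s5367)))))))
noncomputable def s5373 : Cert := .r (nat_lit 18869812128501177264509710774503796433499995185341540522026907474751343623210314739829166948347900646451490313420764903077122343325272053234930137433682206587892745109504) (.p (nat_lit 594) (.a (.f (nat_lit 497) (nat_lit 465) (nat_lit 7633) (.f (nat_lit 529) (nat_lit 626) (nat_lit 7665) (.d (nat_lit 499) (nat_lit 467) (nat_lit 6610) (nat_lit 500) (nat_lit 1520)))) (.a (.f (nat_lit 467) (nat_lit 499) (nat_lit 6610) (.f (nat_lit 466) (nat_lit 435) (nat_lit 6578) (.d (nat_lit 465) (nat_lit 433) (nat_lit 7601) (nat_lit 497) (nat_lit 7633)))) (.a (.f (nat_lit 593) (nat_lit 625) (nat_lit 5617) (.f (nat_lit 466) (nat_lit 561) (nat_lit 5585) (.d (nat_lit 467) (nat_lit 435) (nat_lit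 6578) (nat_lit 499) (nat_lit 6610)))) (.f (nat_lit 497) (nat_lit 465) (nat_lit 7633) (.f (nat_lit 626) (nat_lit 529) (nat_lit 7665) (.d (nat_lit 625) (nat_lit 593) (nat_lit 5617) (nat_lit 657) (nat_lit 5649))))))))
noncomputable def s5377 : Cert := .r (nat_lit 18869812128501177264509710774503796433499995185341540522026907474751343623210314739829166948347900646451490313420764903077122343325272053234930137433682206587892745109504) (.p (nat_lit 594) (.a (.f (nat_lit 497) (nat_lit 465) (nat_lit 7633) (.f (nat_lit 529) (nat_lit 626) (nat_lit 7665) (.d (nat_lit 499) (nat_lit 467) (nat_lit 6610) (nat_lit 500) (nat_lit 1520)))) (.a (.f (nat_lit 467) (nat_lit 499) (nat_lit 6610) (.f (nat_lit 466) (nat_lit 435) (nat_lit 6578) (.d (nat_lit 465) (nat_lit 433) (nat_lit 7601) (nat_lit 497) (nat_lit 7633)))) (.a (.f (nat_lit 499) (nat_lit 467) (nat_lit 6610) (.f (nat_lit 531) (nat_lit 626) (nat_lit 6642) (.d (nat_lit 529) (nat_lit 500) (nat_lit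 2544) (nat_lit 559) (nat_lit 1551)))) (.f (nat_lit 497) (nat_lit 465) (nat_lit 7633) (.f (nat_lit 529) (nat_lit 626) (nat_lit 7665) (.f (nat_lit 531) (nat_lit 559) (nat_lit 1551) (.f (nat_lit 563) (nat_lit 564) (nat_lit 528) (.d (nat_lit 466) (nat_lit 434) (nat_lit 4530) (nat_lit 595) (nat_lit 4562))))))))))
noncomputable def s5390 : Cert := .r (nat_lit 18869812128501177264714297687497305300375819541393265469040447602629035172553020450335175310623192806131694694191133912899052761083244557673006215967800043653725778083840) (.p (nat_lit 466) (.a (.f (nat_lit 465) (nat_lit 433) (nat_lit 7601) (.f (nat_lit 467) (nat_lit 435) (nat_lit 6578) (.d (nat_lit 495) (nat_lit 464) (nat_lit 1487) (nat_lit 497) (nat_lit 2511)))) (.a (.f (nat_lit 433) (nat_lit 465) (nat_lit 7601) (.f (nat_lit 434) (nat_lit 401) (nat_lit 7569) (.d (nat_lit 435) (nat_lit 403) (nat_lit 6546) (nat_lit 467) (nat_lit 6578)))) (.a (.f (nat_lit 467) (nat_lit 435) (nat_lit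 6578) (.f (nat_lit 497) (nat_lit 495) (nat_lit 2511) (.d (nat_lit 468) (nat_lit 469) (nat_lit 1489) (nat_lit 499) (nat_lit 2512)))) (.f (nat_lit 433) (nat_lit 465) (nat_lit 7601) (.f (nat_lit 434) (nat_lit 401) (nat_lit 7569) (.d (nat_lit 563) (nat_lit 531) (nat_lit 4530) (nat_lit 595) (nat_lit 4562))))))))
noncomputable def s5398 : Cert := .r (nat_lit 18869812128501177264714297687497305300375819541393265469040447602629035172553020450335175310623192806131694694191133912899052761083244557673006215967800043653725778083840) (.p (nat_lit 466) (.a (.f (nat_lit 433) (nat_lit 465) (nat_lit 7601) (.f (nat_lit 434) (nat_lit 401) (nat_lit 7569) (.d (nat_lit 435) (nat_lit 403) (nat_lit 6546) (nat_lit 467) (nat_lit 6578)))) (.a (.f (nat_lit 435) (nat_lit 467) (nat_lit 6578) (.f (nat_lit 434) (nat_lit 403) (nat_lit 6546) (.d (nat_lit 563) (nat_lit 531) (nat_lit 4530) (nat_lit 595) (nat_lit 4562)))) (.a (.f (nat_lit 465) (nat_lit 433) (nat_lit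 7601) (.f (nat_lit 467) (nat_lit 435) (nat_lit 6578) (.f (nat_lit 464) (nat_lit 495) (nat_lit 1487) (.d (nat_lit 431) (nat_lit 432) (nat_lit 3503) (nat_lit 463) (nat_lit 7599))))) (.f (nat_lit 433) (nat_lit 465) (nat_lit 7601) (.f (nat_lit 434) (nat_lit 401) (nat_lit 7569) (.d (nat_lit 563) (nat_lit 531) (nat_lit 4530) (nat_lit 595) (nat_lit 4562))))))))
noncomputable def s5405 : Cert := .r (nat_lit 18869812128501177264714297687497305300375819541393265469040447602629035172553020450335175310623192806131694694191133912899052761083244557673006215967800043653725778083840) (.p (nat_lit 466) (.a (.f (nat_lit 465) (nat_lit 433) (nat_lit 7601) (.f (nat_lit 467) (nat_lit 435) (nat_lit 6578) (.d (nat_lit 495) (nat_lit 464) (nat_lit 1487) (nat_lit 497) (nat_lit 2511)))) (.a (.f (nat_lit 433) (nat_lit 465) (nat_lit 7601) (.f (nat_lit 434) (nat_lit 401) (nat_lit 7569) (.d (nat_lit 435) (nat_lit 403) (nat_lit 6546) (nat_lit 467) (nat_lit 6578))))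 (.a (.f (nat_lit 467) (nat_lit 435) (nat_lit 6578) (.f (nat_lit 497) (nat_lit 495) (nat_lit 2511) (.d (nat_lit 468) (nat_lit 469) (nat_lit 1489) (nat_lit 499) (nat_lit 2512)))) (.f (nat_lit 433) (nat_lit 465) (nat_lit 7601) (.f (nat_lit 401) (nat_lit 434) (nat_lit 7569) (.f (nat_lit 464) (nat_lit 432) (nat_lit 6544) (.f (nat_lit 463) (nat_lit 431) (nat_lit 7599) (.f (nat_lit 497) (nat_lit 499) (nat_lit 3535) (.d (nat_lit 462) (nat_lit 461) (nat_lit 461) (nat_lit 495) (nat_lit 3534)))))))))))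
noncomputable def s5422 : Cert := .r (nat_lit 18869812128501177264714297687497305300375819541393265469040447602629035172553020450335175310623192806131694694191133912899052761083244557673006215967800043653725778083840) (.p (nat_lit 466) (.a (.f (nat_lit 433) (nat_lit 465) (nat_lit 7601) (.f (nat_lit 434) (nat_lit 401) (nat_lit 7569) (.d (nat_lit 435) (nat_lit 403) (nat_lit 6546) (nat_lit 467) (nat_lit 6578)))) (.a (.f (nat_lit 435) (nat_lit 467) (nat_lit 6578) (.f (nat_lit 434) (nat_lit 403) (nat_lit 6546) (.d (nat_lit 563) (nat_lit 531) (nat_lit 4530) (nat_lit 595) (nat_lit 4562)))) (.a (.f (nat_lit 465) (nat_lit 433) (nat_lit 7601) (.f (nat_lit 467) (nat_lit 435) (nat_lit 6578) (.f (nat_lit 468) (nat_lit 497) (nat_lit 1488) (.f (nat_lit 500) (nat_lit 501) (nat_lit 465) (.f (nat_lit 464) (nat_lit 499) (nat_lit 464) (.d (nat_lit 431) (nat_lit 432) (nat_lit 3503) (nat_lit 463) (nat_lit 7599))))))) (.f (nat_lit 433) (nat_lit 465) (nat_lit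 7601) (.f (nat_lit 434) (nat_lit 401) (nat_lit 7569) (.d (nat_lit 563) (nat_lit 531) (nat_lit 4530) (nat_lit 595) (nat_lit 4562))))))))
noncomputable def s5444 : Cert := .r (nat_lit 18869812128501177264714297687497305300375819541393265469040447602629035172553020450335175310623192806131694694191133912899052761083244557673006215967800043653725778083840) (.p (nat_lit 464) (.a (.f (nat_lit 463) (nat_lit 431) (nat_lit 7599) (.f (nat_lit 497) (nat_lit 499) (nat_lit 3535) (.d (nat_lit 462) (nat_lit 461) (nat_lit 461) (nat_lit 465) (nat_lit 462)))) (.a (.f (nat_lit 431) (nat_lit 463) (nat_lit 7599) (.f (nat_lit 432) (nat_lit 399) (nat_lit 7567) (.d (nat_lit 433) (nat_lit 401) (nat_lit 6544) (nat_lit 465) (nat_lit 6576)))) (.a (.f (nat_lit 463) (nat_lit 431) (nat_lit 7599) (.f (nat_lit 497) (nat_lit 499) (nat_lit 3535) (.d (nat_lit 462) (nat_lit 461) (nat_lit 461) (nat_lit 495) (nat_lit 3534)))) (.a (.f (nat_lit 433) (nat_lit 465) (nat_lit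 6576) (.f (nat_lit 432) (nat_lit 401) (nat_lit 6544) (.f (nat_lit 399) (nat_lit 431) (nat_lit 7567) (.f (nat_lit 400) (nat_lit 367) (nat_lit 7535) (.f (nat_lit 529) (nat_lit 497) (nat_lit 4496) (.d (nat_lit 531) (nat_lit 495) (nat_lit 3567) (nat_lit 559) (nat_lit 1551))))))) (.f (nat_lit 433) (nat_lit 465) (nat_lit 6576) (.f (nat_lit 432) (nat_lit 401) (nat_lit 6544) (.f (nat_lit 559) (nat_lit 591) (nat_lit 5583) (.f (nat_lit 529) (nat_lit 531) (nat_lit 1551) (.f (nat_lit 497) (nat_lit 400) (nat_lit 4496) (.d (nat_lit 499) (nat_lit 463) (nat_lit 3535) (nat_lit 500) (nat_lit 1520))))))))))))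
noncomputable def s5446 : Cert := .r (nat_lit 18869812128501177264509710774503796433499995185341540522026907474751343623210314739829166948347900646451490313420764903077122343325272053234930137433682206587892745109504) (.p (nat_lit 496) (.a s5390 (.a s5398 (.a s5405 (.a (.p (nat_lit 466) (.a (.f (nat_lit 433) (nat_lit 465) (nat_lit 7601) (.f (nat_lit 434) (nat_lit 401) (nat_lit 7569) (.d (nat_lit 435) (nat_lit 403) (nat_lit 6546) (nat_lit 467) (nat_lit 6578)))) (.a (.f (nat_lit 467) (nat_lit 435) (nat_lit 6578) (.f (nat_lit 497) (nat_lit 495) (nat_lit 2511) (.d (nat_lit 468) (nat_lit 469) (nat_lit 1489) (nat_lit 499) (nat_lit 2512)))) (.f (nat_lit 433) (nat_lit 465) (nat_lit 7601) (.f (nat_lit 434) (nat_lit 401) (nat_lit 7569) (.d (nat_lit 563) (nat_lit 531) (nat_lit 4530) (nat_lit 595) (nat_lit 4562))))))) (.a (.p (nat_lit 466) (.a (.f (nat_lit 467) (nat_lit 435) (nat_lit 6578) (.f (nat_lit 497) (nat_lit 495) (nat_lit 2511) (.d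 (nat_lit 468) (nat_lit 469) (nat_lit 1489) (nat_lit 499) (nat_lit 2512)))) (.a (.f (nat_lit 435) (nat_lit 467) (nat_lit 6578) (.f (nat_lit 434) (nat_lit 403) (nat_lit 6546) (.d (nat_lit 563) (nat_lit 531) (nat_lit 4530) (nat_lit 595) (nat_lit 4562)))) (.a (.f (nat_lit 563) (nat_lit 595) (nat_lit 4562) (.f (nat_lit 434) (nat_lit 531) (nat_lit 4530) (.f (nat_lit 401) (nat_lit 433) (nat_lit 7569) (.f (nat_lit 402) (nat_lit 369) (nat_lit 7537) (.d (nat_lit 403) (nat_lit 371) (nat_lit 6514) (nat_lit 435) (nat_lit 6546)))))) (.f (nat_lit 563) (nat_lit 595) (nat_lit 4562) (.f (nat_lit 531) (nat_lit 434) (nat_lit 4530) (.d (nat_lit 495) (nat_lit 497) (nat_lit 495) (nat_lit 529) (nat_lit 3567)))))))) (.a s5422 (.a s5444 (.p (nat_lit 466) (.a (.f (nat_lit 467) (nat_lit 435) (nat_lit 6578) (.f (nat_lit 497) (nat_lit 495) (nat_lit 2511) (.d (nat_lit 468) (nat_lit 469) (nat_lit 1489) (nat_lit 499) (nat_lit 2512)))) (.a (.f (nat_lit 435) (nat_lit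 467) (nat_lit 6578) (.f (nat_lit 434) (nat_lit 403) (nat_lit 6546) (.d (nat_lit 563) (nat_lit 531) (nat_lit 4530) (nat_lit 595) (nat_lit 4562)))) (.f (nat_lit 563) (nat_lit 595) (nat_lit 4562) (.f (nat_lit 531) (nat_lit 434) (nat_lit 4530) (.d (nat_lit 495) (nat_lit 497) (nat_lit 495) (nat_lit 529) (nat_lit 3567)))))))))))))))
noncomputable def s5447 : Cert := .r (nat_lit 18869812128501177264509710774503796433499995185341540522026907474751343623210314739829166948347900646451490313420764903077122343325272053234930137433682206587892745109504) (.p (nat_lit 594) (.a (.f (nat_lit 497) (nat_lit 465) (nat_lit 7633) (.f (nat_lit 529) (nat_lit 626) (nat_lit 7665) (.d (nat_lit 499) (nat_lit 467) (nat_lit 6610) (nat_lit 500) (nat_lit 1520)))) (.a (.f (nat_lit 625) (nat_lit 593) (nat_lit 5617) (.f (nat_lit 626) (nat_lit 657) (nat_lit 5649) (.d (nat_lit 499) (nat_lit 467) (nat_lit 6610) (nat_lit 531) (nat_lit 6642)))) (.a (.f (nat_lit 497) (nat_lit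 465) (nat_lit 7633) (.f (nat_lit 626) (nat_lit 529) (nat_lit 7665) (.d (nat_lit 625) (nat_lit 593) (nat_lit 5617) (nat_lit 657) (nat_lit 5649)))) (.f (nat_lit 497) (nat_lit 465) (nat_lit 7633) (.f (nat_lit 499) (nat_lit 467) (nat_lit 6610) (.f (nat_lit 500) (nat_lit 529) (nat_lit 1520) (.f (nat_lit 533) (nat_lit 532) (nat_lit 497) (.f (nat_lit 501) (nat_lit 534) (nat_lit 498) (.d (nat_lit 469) (nat_lit 468) (nat_lit 2513) (nat_lit 470) (nat_lit 2514)))))))))))
noncomputable def s5454 : Cert := .r (nat_lit 18869812128501177264509710774503796433499995185341540522026907474751343623210314739829166948347900646451490313420764903077122343325272053234930137433682206587892745109504) (.p (nat_lit 594) (.a (.f (nat_lit 595) (nat_lit 627) (nat_lit 4594) (.f (nat_lit 466) (nat_lit 563) (nat_lit 4562) (.d (nat_lit 465) (nat_lit 433) (nat_lit 7601) (nat_lit 497) (nat_lit 7633)))) (.a (.f (nat_lit 625) (nat_lit 593) (nat_lit 5617) (.f (nat_lit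 626) (nat_lit 657) (nat_lit 5649) (.d (nat_lit 627) (nat_lit 595) (nat_lit 4594) (nat_lit 659) (nat_lit 4626)))) (.f (nat_lit 465) (nat_lit 497) (nat_lit 7633) (.f (nat_lit 466) (nat_lit 433) (nat_lit 7601) (.f (nat_lit 625) (nat_lit 593) (nat_lit 5617) (.f (nat_lit 626) (nat_lit 657) (nat_lit 5649) (.f (nat_lit 531) (nat_lit 499) (nat_lit 6642) (.d (nat_lit 563) (nat_lit 434) (nat_lit 4530) (nat_lit 658) (nat_lit 6674))))))))))
noncomputable def s5455 : Cert := .r (nat_lit 3773962429215011855543492450550720869832310303675778808522082273768846973641719331484660047637265576285616813297709523478040004805572882704684400427951422413295163801600) (.p (nat_lit 562) (.a s5232 (.a (.p (nat_lit 594) (.a (.f (nat_lit 467) (nat_lit 499) (nat_lit 6610) (.f (nat_lit 466) (nat_lit 435) (nat_lit 6578) (.d (nat_lit 465) (nat_lit 433) (nat_lit 7601) (nat_lit 497) (nat_lit 7633)))) (.a (.f (nat_lit 625) (nat_lit 593) (nat_lit 5617) (.f (nat_lit 626)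 (nat_lit 657) (nat_lit 5649) (.d (nat_lit 499) (nat_lit 467) (nat_lit 6610) (nat_lit 531) (nat_lit 6642)))) (.f (nat_lit 595) (nat_lit 627) (nat_lit 4594) (.f (nat_lit 466) (nat_lit 563) (nat_lit 4562) (.d (nat_lit 465) (nat_lit 433) (nat_lit 7601) (nat_lit 497) (nat_lit 7633))))))) (.a (.p (nat_lit 594) (.a (.f (nat_lit 625) (nat_lit 593) (nat_lit 5617) (.f (nat_lit 626) (nat_lit 657) (nat_lit 5649) (.d (nat_lit 499) (nat_lit 467) (nat_lit 6610) (nat_lit 531) (nat_lit 6642)))) (.a (.f (nat_lit 467) (nat_lit 499) (nat_lit 6610) (.f (nat_lit 466) (nat_lit 435) (nat_lit 6578) (.d (nat_lit 595) (nat_lit 563) (nat_lit 4562) (nat_lit 627) (nat_lit 4594)))) (.f (nat_lit 625) (nat_lit 593) (nat_lit 5617) (.f (nat_lit 626) (nat_lit 657) (nat_lit 5649) (.d (nat_lit 627) (nat_lit 595) (nat_lit 4594) (nat_lit 659) (nat_lit 4626))))))) (.a s5236 (.a s5377 (.a s5446 (.a (.p (nat_lit 466) (.a (.f (nat_lit 433) (nat_lit 465) (nat_lit 7601) (.f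 (nat_lit 434) (nat_lit 401) (nat_lit 7569) (.d (nat_lit 435) (nat_lit 403) (nat_lit 6546) (nat_lit 467) (nat_lit 6578)))) (.a (.f (nat_lit 563) (nat_lit 595) (nat_lit 4562) (.f (nat_lit 434) (nat_lit 531) (nat_lit 4530) (.d (nat_lit 435) (nat_lit 403) (nat_lit 6546) (nat_lit 467) (nat_lit 6578)))) (.f (nat_lit 465) (nat_lit 433) (nat_lit 7601) (.f (nat_lit 594) (nat_lit 497) (nat_lit 7633) (.d (nat_lit 595) (nat_lit 563) (nat_lit 4562) (nat_lit 627) (nat_lit 4594))))))) (.a s5447 s5454)))))))))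
noncomputable def s5458 : Cert := .r (nat_lit 3773962429215011855543492450550720869832310303675778808522082273768846973641719331484660047637265576285616813297709523478040004805572882704684400427951422413295163801600) (.p (nat_lit 562) (.a (.p (nat_lit 594) (.a (.f (nat_lit 593) (nat_lit 625) (nat_lit 5617) (.f (nat_lit 561) (nat_lit 466) (nat_lit 5585) (.d (nat_lit 559) (nat_lit 531) (nat_lit 2575) (nat_lit 558) (nat_lit 558)))) (.a (.f (nat_lit 467) (nat_lit 499) (nat_lit 6610) (.f (nat_lit 466) (nat_lit 435) (nat_lit 6578) (.d (nat_lit 465) (nat_lit 433) (nat_lit 7601) (nat_lit 497) (nat_lit 7633)))) (.f (nat_lit 595) (nat_lit 627) (nat_lit 4594) (.f (nat_lit 561) (nat_lit 559) (nat_lit 559) (.d (nat_lit 593) (nat_lit 596) (nat_lit 3632) (nat_lit 625) (nat_lit 5617))))))) (.a (.p (nat_lit 594) (.a (.f (nat_lit 467) (nat_lit 499) (nat_lit 6610) (.f (nat_lit 466) (nat_lit 435) (nat_lit 6578) (.d (nat_lit 465) (nat_lit 433) (nat_lit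 7601) (nat_lit 497) (nat_lit 7633)))) (.a (.f (nat_lit 625) (nat_lit 593) (nat_lit 5617) (.f (nat_lit 626) (nat_lit 657) (nat_lit 5649) (.d (nat_lit 499) (nat_lit 467) (nat_lit 6610) (nat_lit 531) (nat_lit 6642)))) (.f (nat_lit 595) (nat_lit 627) (nat_lit 4594) (.f (nat_lit 466) (nat_lit 563) (nat_lit 4562) (.d (nat_lit 465) (nat_lit 433) (nat_lit 7601) (nat_lit 497) (nat_lit 7633))))))) (.a (.p (nat_lit 561) (.a (.f (nat_lit 466) (nat_lit 593) (nat_lit 5585) (.f (nat_lit 563) (nat_lit 595) (nat_lit 4562) (.d (nat_lit 531) (nat_lit 434) (nat_lit 4530) (nat_lit 532) (nat_lit 2576)))) (.a (.f (nat_lit 466) (nat_lit 593) (nat_lit 5585) (.f (nat_lit 435) (nat_lit 467) (nat_lit 6578) (.f (nat_lit 434) (nat_lit 403) (nat_lit 6546) (.d (nat_lit 433) (nat_lit 401) (nat_lit 7569) (nat_lit 465) (nat_lit 7601))))) (.f (nat_lit 531) (nat_lit 559) (nat_lit 2575) (.d (nat_lit 532) (nat_lit 533) (nat_lit 1553) (nat_lit 563) (nat_lit 2576))))))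 (.a (.p (nat_lit 594) (.a (.f (nat_lit 595) (nat_lit 627) (nat_lit 4594) (.f (nat_lit 561) (nat_lit 559) (nat_lit 559) (.d (nat_lit 563) (nat_lit 466) (nat_lit 4562) (nat_lit 596) (nat_lit 560)))) (.a (.f (nat_lit 467) (nat_lit 499) (nat_lit 6610) (.f (nat_lit 466) (nat_lit 435) (nat_lit 6578) (.d (nat_lit 465) (nat_lit 433) (nat_lit 7601) (nat_lit 497) (nat_lit 7633)))) (.f (nat_lit 595) (nat_lit 627) (nat_lit 4594) (.f (nat_lit 561) (nat_lit 559) (nat_lit 559) (.d (nat_lit 596) (nat_lit 563) (nat_lit 560) (nat_lit 597) (nat_lit 3633))))))) (.a (.p (nat_lit 594) (.a (.f (nat_lit 595) (nat_lit 627) (nat_lit 4594) (.f (nat_lit 561) (nat_lit 559) (nat_lit 559) (.d (nat_lit 593) (nat_lit 596) (nat_lit 3632) (nat_lit 625) (nat_lit 5617)))) (.a (.f (nat_lit 625) (nat_lit 593) (nat_lit 5617) (.f (nat_lit 626) (nat_lit 657) (nat_lit 5649) (.d (nat_lit 499) (nat_lit 467) (nat_lit 6610) (nat_lit 531) (nat_lit 6642)))) (.f (nat_lit 595) (nat_lit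 627) (nat_lit 4594) (.f (nat_lit 561) (nat_lit 559) (nat_lit 559) (.d (nat_lit 596) (nat_lit 563) (nat_lit 560) (nat_lit 597) (nat_lit 3633))))))) (.a (.p (nat_lit 594) (.a (.f (nat_lit 593) (nat_lit 625) (nat_lit 5617) (.f (nat_lit 561) (nat_lit 466) (nat_lit 5585) (.d (nat_lit 559) (nat_lit 531) (nat_lit 2575) (nat_lit 558) (nat_lit 558)))) (.a (.f (nat_lit 467) (nat_lit 499) (nat_lit 6610) (.f (nat_lit 466) (nat_lit 435) (nat_lit 6578) (.d (nat_lit 465) (nat_lit 433) (nat_lit 7601) (nat_lit 497) (nat_lit 7633)))) (.f (nat_lit 625) (nat_lit 593) (nat_lit 5617) (.f (nat_lit 626) (nat_lit 657) (nat_lit 5649) (.d (nat_lit 499) (nat_lit 467) (nat_lit 6610) (nat_lit 531) (nat_lit 6642))))))) s5454)))))))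
noncomputable def s5459 : Cert := .r (nat_lit 18869812128501177264509710774503796433499995185341540522026907474751343623210314739829166948347900646451490313420764903077122343325272053234930137433682206587892745109504) (.p (nat_lit 594) (.a (.f (nat_lit 595) (nat_lit 627) (nat_lit 4594) (.f (nat_lit 561) (nat_lit 559) (nat_lit 559) (.d (nat_lit 466) (nat_lit 563) (nat_lit 4562) (nat_lit 593) (nat_lit 5585)))) (.a (.f (nat_lit 467) (nat_lit 499) (nat_lit 6610) (.f (nat_lit 466) (nat_lit 435) (nat_lit 6578) (.d (nat_lit 595) (nat_lit 563) (nat_lit 4562) (nat_lit 627) (nat_lit 4594)))) (.a (.f (nat_lit 595) (nat_lit 627) (nat_lit 4594) (.f (nat_lit 561) (nat_lit 559) (nat_lit 559) (.d (nat_lit 593) (nat_lit 596) (nat_lit 3632) (nat_lit 625) (nat_lit 5617)))) (.f (nat_lit 593) (nat_lit 625) (nat_lit 5617) (.f (nat_lit 466) (nat_lit 561) (nat_lit 5585) (.d (nat_lit 467) (nat_lit 435) (nat_lit 6578) (nat_lit 499) (nat_lit 6610))))))))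
noncomputable def s5460 : Cert := .r (nat_lit 18869812128501177264509710774503796433499995185341540522026907474751343623210314739829166948347900646451490313420764903077122343325272053234930137433682206587892745109504) (.p (nat_lit 594) (.a (.f (nat_lit 595) (nat_lit 627) (nat_lit 4594) (.f (nat_lit 561) (nat_lit 559) (nat_lit 559) (.d (nat_lit 563) (nat_lit 466) (nat_lit 4562) (nat_lit 596) (nat_lit 560)))) (.a (.f (nat_lit 499) (nat_lit 467) (nat_lit 6610) (.f (nat_lit 531) (nat_lit 626) (nat_lit 6642) (.d (nat_lit 529) (nat_lit 500) (nat_lit 2544) (nat_lit 559) (nat_lit 1551)))) (.f (nat_lit 499) (nat_lit 467) (nat_lit 6610) (.f (nat_lit 531) (nat_lit 626) (nat_lit 6642) (.f (nat_lit 595) (nat_lit 627) (nat_lit 4594) (.f (nat_lit 563) (nat_lit 466) (nat_lit 4562) (.d (nat_lit 500) (nat_lit 468) (nat_lit 6611) (nat_lit 529) (nat_lit 2544)))))))))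
noncomputable def s5461 : Cert := .r (nat_lit 3773962429215011855543492450550720869832310303675778808522082273768846973641719331484660047637265576285616813297709523478040004805572882704684400427951422413295163801600) (.p (nat_lit 562) (.a (.p (nat_lit 561) (.a (.f (nat_lit 531) (nat_lit 559) (nat_lit 2575) (.d (nat_lit 532) (nat_lit 529) (nat_lit 1552) (nat_lit 533) (nat_lit 1553))) (.a (.f (nat_lit 466) (nat_lit 593) (nat_lit 5585) (.f (nat_lit 563) (nat_lit 595) (nat_lit 4562) (.d (nat_lit 531) (nat_lit 434) (nat_lit 4530) (nat_lit 532) (nat_lit 2576)))) (.f (nat_lit 466) (nat_lit 593) (nat_lit 5585) (.f (nat_lit 529) (nat_lit 434) (nat_lit 5553) (.d (nat_lit 563) (nat_lit 564) (nat_lit 3600) (nat_lit 595) (nat_lit 4562))))))) (.a (.p (nat_lit 594) (.a (.f (nat_lit 625) (nat_lit 593) (nat_lit 5617) (.f (nat_lit 626) (nat_lit 657) (nat_lit 5649) (.d (nat_lit 499) (nat_lit 467) (nat_lit 6610) (nat_lit 531) (nat_lit 6642)))) (.a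 (.f (nat_lit 467) (nat_lit 499) (nat_lit 6610) (.f (nat_lit 466) (nat_lit 435) (nat_lit 6578) (.d (nat_lit 595) (nat_lit 563) (nat_lit 4562) (nat_lit 627) (nat_lit 4594)))) (.f (nat_lit 625) (nat_lit 593) (nat_lit 5617) (.f (nat_lit 626) (nat_lit 657) (nat_lit 5649) (.d (nat_lit 627) (nat_lit 595) (nat_lit 4594) (nat_lit 659) (nat_lit 4626))))))) (.a s5459 (.a s5460 (.a (.p (nat_lit 561) (.a (.f (nat_lit 531) (nat_lit 559) (nat_lit 2575) (.d (nat_lit 532) (nat_lit 529) (nat_lit 1552) (nat_lit 533) (nat_lit 1553))) (.f (nat_lit 466) (nat_lit 593) (nat_lit 5585) (.f (nat_lit 435) (nat_lit 467) (nat_lit 6578) (.f (nat_lit 434) (nat_lit 403) (nat_lit 6546) (.d (nat_lit 433) (nat_lit 401) (nat_lit 7569) (nat_lit 465) (nat_lit 7601))))))) (.p (nat_lit 594) (.a (.f (nat_lit 595) (nat_lit 627) (nat_lit 4594) (.f (nat_lit 561) (nat_lit 559) (nat_lit 559) (.d (nat_lit 593) (nat_lit 596) (nat_lit 3632) (nat_lit 625) (nat_lit 5617)))) (.a (.f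 (nat_lit 625) (nat_lit 593) (nat_lit 5617) (.f (nat_lit 626) (nat_lit 657) (nat_lit 5649) (.d (nat_lit 499) (nat_lit 467) (nat_lit 6610) (nat_lit 531) (nat_lit 6642)))) (.f (nat_lit 595) (nat_lit 627) (nat_lit 4594) (.f (nat_lit 561) (nat_lit 559) (nat_lit 559) (.d (nat_lit 596) (nat_lit 563) (nat_lit 560) (nat_lit 597) (nat_lit 3633)))))))))))))
noncomputable def s5496 : Cert := .r (nat_lit 3773962429215011855748079363544229736708134659727503755535622401646538522984425041990668409912557735965821194068078533299970422563545387142760478962069259479128196775936) (.p (nat_lit 464) (.a (.f (nat_lit 433) (nat_lit 465) (nat_lit 6576) (.f (nat_lit 432) (nat_lit 401) (nat_lit 6544) (.d (nat_lit 431) (nat_lit 399) (nat_lit 7567) (nat_lit 463) (nat_lit 7599)))) (.a (.f (nat_lit 431) (nat_lit 463) (nat_lit 7599) (.f (nat_lit 432) (nat_lit 399) (nat_lit 7567) (.f (nat_lit 401) (nat_lit 433) (nat_lit 6544) (.f (nat_lit 400) (nat_lit 369) (nat_lit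 6512) (.f (nat_lit 529) (nat_lit 497) (nat_lit 4496) (.d (nat_lit 531) (nat_lit 495) (nat_lit 3567) (nat_lit 559) (nat_lit 1551))))))) (.a (.f (nat_lit 465) (nat_lit 433) (nat_lit 6576) (.f (nat_lit 463) (nat_lit 431) (nat_lit 7599) (.f (nat_lit 497) (nat_lit 462) (nat_lit 462) (.f (nat_lit 495) (nat_lit 531) (nat_lit 495) (.d (nat_lit 466) (nat_lit 467) (nat_lit 1487) (nat_lit 494) (nat_lit 2510)))))) (.a (.f (nat_lit 463) (nat_lit 431) (nat_lit 7599) (.f (nat_lit 559) (nat_lit 591) (nat_lit 5583) (.f (nat_lit 531) (nat_lit 529) (nat_lit 1551) (.f (nat_lit 497) (nat_lit 495) (nat_lit 495) (.d (nat_lit 462) (nat_lit 461) (nat_lit 461) (nat_lit 465) (nat_lit 462)))))) (.a (.f (nat_lit 433) (nat_lit 465) (nat_lit 6576) (.f (nat_lit 432) (nat_lit 401) (nat_lit 6544) (.f (nat_lit 399) (nat_lit 431) (nat_lit 7567) (.f (nat_lit 400) (nat_lit 367) (nat_lit 7535) (.f (nat_lit 529) (nat_lit 497) (nat_lit 4496) (.d (nat_lit 531) (nat_lit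 495) (nat_lit 3567) (nat_lit 559) (nat_lit 1551))))))) (.f (nat_lit 433) (nat_lit 465) (nat_lit 6576) (.f (nat_lit 432) (nat_lit 401) (nat_lit 6544) (.f (nat_lit 559) (nat_lit 591) (nat_lit 5583) (.f (nat_lit 529) (nat_lit 531) (nat_lit 1551) (.f (nat_lit 497) (nat_lit 400) (nat_lit 4496) (.f (nat_lit 495) (nat_lit 494) (nat_lit 494) (.f (nat_lit 463) (nat_lit 462) (nat_lit 3534) (.f (nat_lit 466) (nat_lit 467) (nat_lit 2511) (.d (nat_lit 434) (nat_lit 402) (nat_lit 5521) (nat_lit 435) (nat_lit 1455))))))))))))))))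
noncomputable def s5572 : Cert := .r (nat_lit 3773962429215011855748079363544229736708134659727503755535622401646538522984425041990668409912557735965821194068078533299970422563545387142760478962069259479128196775936) (.p (nat_lit 466) (.a (.p (nat_lit 464) (.a (.f (nat_lit 465) (nat_lit 433) (nat_lit 6576) (.d (nat_lit 463) (nat_lit 431) (nat_lit 7599) (nat_lit 499) (nat_lit 463))) (.a (.f (nat_lit 465) (nat_lit 433) (nat_lit 6576) (.f (nat_lit 463) (nat_lit 431) (nat_lit 7599) (.d (nat_lit 495) (nat_lit 467) (nat_lit 1487) (nat_lit 494) (nat_lit 1486)))) (.a (.f (nat_lit 463) (nat_lit 431) (nat_lit 7599) (.f (nat_lit 497) (nat_lit 499) (nat_lit 3535) (.d (nat_lit 462) (nat_lit 461) (nat_lit 461) (nat_lit 495) (nat_lit 3534)))) (.f (nat_lit 465) (nat_lit 433) (nat_lit 6576) (.f (nat_lit 467) (nat_lit 495) (nat_lit 1487) (.f (nat_lit 499) (nat_lit 500) (nat_lit 464) (.d (nat_lit 435) (nat_lit 403) (nat_lit 5522) (nat_lit 436) (nat_lit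 2480))))))))) (.a (.p (nat_lit 464) (.a (.f (nat_lit 465) (nat_lit 433) (nat_lit 6576) (.d (nat_lit 463) (nat_lit 431) (nat_lit 7599) (nat_lit 499) (nat_lit 463))) (.a (.f (nat_lit 465) (nat_lit 433) (nat_lit 6576) (.f (nat_lit 463) (nat_lit 431) (nat_lit 7599) (.d (nat_lit 495) (nat_lit 467) (nat_lit 1487) (nat_lit 494) (nat_lit 1486)))) (.a (.f (nat_lit 431) (nat_lit 463) (nat_lit 7599) (.f (nat_lit 432) (nat_lit 399) (nat_lit 7567) (.f (nat_lit 401) (nat_lit 433) (nat_lit 6544) (.f (nat_lit 400) (nat_lit 369) (nat_lit 6512) (.f (nat_lit 403) (nat_lit 402) (nat_lit 1423) (.f (nat_lit 435) (nat_lit 434) (nat_lit 6546) (.d (nat_lit 467) (nat_lit 371) (nat_lit 5490) (nat_lit 499) (nat_lit 5522)))))))) (.a (.f (nat_lit 463) (nat_lit 431) (nat_lit 7599) (.f (nat_lit 465) (nat_lit 499) (nat_lit 463) (.d (nat_lit 495) (nat_lit 467) (nat_lit 1487) (nat_lit 494) (nat_lit 1486)))) (.f (nat_lit 465) (nat_lit 433) (nat_lit 6576) (.f (nat_lit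 467) (nat_lit 495) (nat_lit 1487) (.f (nat_lit 499) (nat_lit 500) (nat_lit 464) (.d (nat_lit 435) (nat_lit 403) (nat_lit 5522) (nat_lit 436) (nat_lit 2480)))))))))) (.a (.p (nat_lit 531) (.a (.f (nat_lit 497) (nat_lit 495) (nat_lit 495) (.d (nat_lit 532) (nat_lit 499) (nat_lit 496) (nat_lit 533) (nat_lit 3569))) (.a (.f (nat_lit 434) (nat_lit 563) (nat_lit 4530) (.f (nat_lit 402) (nat_lit 499) (nat_lit 4498) (.d (nat_lit 401) (nat_lit 369) (nat_lit 7537) (nat_lit 433) (nat_lit 7569)))) (.f (nat_lit 434) (nat_lit 563) (nat_lit 4530) (.f (nat_lit 401) (nat_lit 433) (nat_lit 7569) (.f (nat_lit 402) (nat_lit 369) (nat_lit 7537) (.d (nat_lit 403) (nat_lit 371) (nat_lit 6514) (nat_lit 435) (nat_lit 6546)))))))) (.a (.p (nat_lit 434) (.a (.f (nat_lit 433) (nat_lit 401) (nat_lit 7569) (.f (nat_lit 464) (nat_lit 465) (nat_lit 6576) (.f (nat_lit 431) (nat_lit 463) (nat_lit 7599) (.d (nat_lit 432) (nat_lit 399) (nat_lit 7567) (nat_lit 467)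 (nat_lit 431))))) (.a (.f (nat_lit 401) (nat_lit 433) (nat_lit 7569) (.f (nat_lit 402) (nat_lit 369) (nat_lit 7537) (.d (nat_lit 403) (nat_lit 371) (nat_lit 6514) (nat_lit 435) (nat_lit 6546)))) (.a (.f (nat_lit 403) (nat_lit 435) (nat_lit 6546) (.f (nat_lit 402) (nat_lit 371) (nat_lit 6514) (.f (nat_lit 369) (nat_lit 401) (nat_lit 7537) (.f (nat_lit 370) (nat_lit 337) (nat_lit 7505) (.f (nat_lit 497) (nat_lit 465) (nat_lit 5489) (.d (nat_lit 495) (nat_lit 467) (nat_lit 2511) (nat_lit 531) (nat_lit 495))))))) (.f (nat_lit 403) (nat_lit 435) (nat_lit 6546) (.f (nat_lit 402) (nat_lit 371) (nat_lit 6514) (.f (nat_lit 531) (nat_lit 563) (nat_lit 4530) (.f (nat_lit 497) (nat_lit 495) (nat_lit 495) (.f (nat_lit 465) (nat_lit 370) (nat_lit 5489) (.f (nat_lit 464) (nat_lit 433) (nat_lit 6576) (.d (nat_lit 463) (nat_lit 431) (nat_lit 7599) (nat_lit 462) (nat_lit 462)))))))))))) (.a (.p (nat_lit 464) (.a (.f (nat_lit 465) (nat_lit 433) (nat_lit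 6576) (.d (nat_lit 463) (nat_lit 431) (nat_lit 7599) (nat_lit 499) (nat_lit 463))) (.a (.f (nat_lit 431) (nat_lit 463) (nat_lit 7599) (.f (nat_lit 432) (nat_lit 399) (nat_lit 7567) (.f (nat_lit 433) (nat_lit 401) (nat_lit 6544) (.f (nat_lit 434) (nat_lit 467) (nat_lit 431) (.d (nat_lit 403) (nat_lit 402) (nat_lit 2447) (nat_lit 435) (nat_lit 6546)))))) (.a (.f (nat_lit 463) (nat_lit 431) (nat_lit 7599) (.d (nat_lit 499) (nat_lit 465) (nat_lit 463) (nat_lit 497) (nat_lit 3535))) (.f (nat_lit 433) (nat_lit 465) (nat_lit 6576) (.d (nat_lit 401) (nat_lit 432) (nat_lit 6544) (nat_lit 434) (nat_lit 7569))))))) (.a (.p (nat_lit 531) (.a (.f (nat_lit 497) (nat_lit 495) (nat_lit 495) (.d (nat_lit 532) (nat_lit 499) (nat_lit 496) (nat_lit 533) (nat_lit 3569))) (.a (.f (nat_lit 434) (nat_lit 563) (nat_lit 4530) (.f (nat_lit 402) (nat_lit 499) (nat_lit 4498) (.d (nat_lit 403) (nat_lit 371) (nat_lit 6514) (nat_lit 435) (nat_lit 6546)))) (.f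 (nat_lit 497) (nat_lit 495) (nat_lit 495) (.f (nat_lit 434) (nat_lit 563) (nat_lit 4530) (.f (nat_lit 403) (nat_lit 435) (nat_lit 6546) (.f (nat_lit 402) (nat_lit 371) (nat_lit 6514) (.f (nat_lit 369) (nat_lit 401) (nat_lit 7537) (.d (nat_lit 370) (nat_lit 337) (nat_lit 7505) (nat_lit 465) (nat_lit 5489)))))))))) (.p (nat_lit 464) (.a (.f (nat_lit 465) (nat_lit 433) (nat_lit 6576) (.d (nat_lit 463) (nat_lit 431) (nat_lit 7599) (nat_lit 499) (nat_lit 463))) (.a (.f (nat_lit 465) (nat_lit 433) (nat_lit 6576) (.f (nat_lit 463) (nat_lit 431) (nat_lit 7599) (.d (nat_lit 495) (nat_lit 467) (nat_lit 1487) (nat_lit 494) (nat_lit 1486)))) (.a (.f (nat_lit 463) (nat_lit 431) (nat_lit 7599) (.f (nat_lit 497) (nat_lit 499) (nat_lit 3535) (.d (nat_lit 462) (nat_lit 461) (nat_lit 461) (nat_lit 495) (nat_lit 3534)))) (.f (nat_lit 433) (nat_lit 465) (nat_lit 6576) (.d (nat_lit 401) (nat_lit 432) (nat_lit 6544) (nat_lit 434) (nat_lit 7569))))))))))))))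
noncomputable def s5608 : Cert := .r (nat_lit 18869812128501177264509710774503796433499995185341540522026907474751343623210314739829166948347900646451490313420764903077122343325272053234930137433682206587892745109504) (.p (nat_lit 466) (.a (.f (nat_lit 561) (nat_lit 593) (nat_lit 5585) (.f (nat_lit 529) (nat_lit 434) (nat_lit 5553) (.d (nat_lit 563) (nat_lit 564) (nat_lit 3600) (nat_lit 595) (nat_lit 4562)))) (.a (.f (nat_lit 433) (nat_lit 465) (nat_lit 7601) (.f (nat_lit 434) (nat_lit 401) (nat_lit 7569) (.d (nat_lit 435) (nat_lit 403) (nat_lit 6546) (nat_lit 467) (nat_lit 6578)))) (.f (nat_lit 561) (nat_lit 593) (nat_lit 5585) (.f (nat_lit 563) (nat_lit 595) (nat_lit 4562) (.f (nat_lit 529) (nat_lit 564) (nat_lit 3600) (.f (nat_lit 465) (nat_lit 433) (nat_lit 7601) (.f (nat_lit 467) (nat_lit 435) (nat_lit 6578) (.f (nat_lit 559) (nat_lit 558) (nat_lit 2574) (.f (nat_lit 591) (nat_lit 590) (nat_lit 1582) (.f (nat_lit 464) (nat_lit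 496) (nat_lit 5583) (.d (nat_lit 432) (nat_lit 431) (nat_lit 3503) (nat_lit 497) (nat_lit 7600)))))))))))))
noncomputable def s5610 : Cert := .r (nat_lit 3773962429215011855543492450550720869832310303675778808522082273768846973641719331484660047637265576285616813297709523478040004805572882704684400427951422413295163801600) (.p (nat_lit 562) (.a (.p (nat_lit 594) (.a (.f (nat_lit 595) (nat_lit 627) (nat_lit 4594) (.f (nat_lit 561) (nat_lit 559) (nat_lit 559) (.d (nat_lit 466) (nat_lit 563) (nat_lit 4562) (nat_lit 593) (nat_lit 5585)))) (.f (nat_lit 497) (nat_lit 465) (nat_lit 7633) (.f (nat_lit 529) (nat_lit 626) (nat_lit 7665) (.d (nat_lit 499) (nat_lit 467) (nat_lit 6610) (nat_lit 500) (nat_lit 1520)))))) (.a s5236 (.a (.p (nat_lit 594) (.a (.f (nat_lit 595) (nat_lit 627) (nat_lit 4594) (.f (nat_lit 561) (nat_lit 559) (nat_lit 559) (.d (nat_lit 563) (nat_lit 466) (nat_lit 4562) (nat_lit 596) (nat_lit 560)))) (.a (.f (nat_lit 467)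 (nat_lit 499) (nat_lit 6610) (.f (nat_lit 466) (nat_lit 435) (nat_lit 6578) (.d (nat_lit 465) (nat_lit 433) (nat_lit 7601) (nat_lit 497) (nat_lit 7633)))) (.f (nat_lit 595) (nat_lit 627) (nat_lit 4594) (.f (nat_lit 561) (nat_lit 559) (nat_lit 559) (.d (nat_lit 596) (nat_lit 563) (nat_lit 560) (nat_lit 597) (nat_lit 3633))))))) (.a s5459 (.a (.p (nat_lit 594) (.a (.f (nat_lit 497) (nat_lit 465) (nat_lit 7633) (.f (nat_lit 529) (nat_lit 626) (nat_lit 7665) (.d (nat_lit 499) (nat_lit 467) (nat_lit 6610) (nat_lit 500) (nat_lit 1520)))) (.f (nat_lit 595) (nat_lit 627) (nat_lit 4594) (.f (nat_lit 561) (nat_lit 559) (nat_lit 559) (.d (nat_lit 593) (nat_lit 596) (nat_lit 3632) (nat_lit 625) (nat_lit 5617)))))) (.a s5608 (.a s5373 (.p (nat_lit 594) (.a (.f (nat_lit 595) (nat_lit 627) (nat_lit 4594) (.f (nat_lit 561) (nat_lit 559) (nat_lit 559) (.d (nat_lit 593) (nat_lit 596) (nat_lit 3632) (nat_lit 625) (nat_lit 5617)))) (.a (.f (nat_lit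 497) (nat_lit 465) (nat_lit 7633) (.f (nat_lit 626) (nat_lit 529) (nat_lit 7665) (.d (nat_lit 625) (nat_lit 593) (nat_lit 5617) (nat_lit 657) (nat_lit 5649)))) (.f (nat_lit 595) (nat_lit 627) (nat_lit 4594) (.f (nat_lit 561) (nat_lit 559) (nat_lit 559) (.d (nat_lit 596) (nat_lit 563) (nat_lit 560) (nat_lit 597) (nat_lit 3633)))))))))))))))
noncomputable def s5611 : Cert := .r (nat_lit 18869812128501177264509710774503796433499995185341540522026907474751343623210314739829166948347900646451490313420764903077122343325272053234930137433682206587892745109504) (.p (nat_lit 594) (.a (.f (nat_lit 497) (nat_lit 465) (nat_lit 7633) (.f (nat_lit 529) (nat_lit 626) (nat_lit 7665) (.d (nat_lit 499) (nat_lit 467) (nat_lit 6610) (nat_lit 500) (nat_lit 1520)))) (.a (.f (nat_lit 467) (nat_lit 499) (nat_lit 6610) (.f (nat_lit 466) (nat_lit 435) (nat_lit 6578) (.d (nat_lit 465) (nat_lit 433) (nat_lit 7601) (nat_lit 497) (nat_lit 7633)))) (.a (.f (nat_lit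 499) (nat_lit 467) (nat_lit 6610) (.f (nat_lit 531) (nat_lit 626) (nat_lit 6642) (.d (nat_lit 529) (nat_lit 500) (nat_lit 2544) (nat_lit 559) (nat_lit 1551)))) (.f (nat_lit 497) (nat_lit 465) (nat_lit 7633) (.f (nat_lit 529) (nat_lit 626) (nat_lit 7665) (.f (nat_lit 559) (nat_lit 531) (nat_lit 1551) (.d (nat_lit 558) (nat_lit 557) (nat_lit 2573) (nat_lit 561) (nat_lit 2574)))))))))
noncomputable def s5612 : Cert := .r (nat_lit 18869812128501177264509710774503796433499995185341540522026907474751343623210314739829166948347900646451490313420764903077122343325272053234930137433682206587892745109504) (.p (nat_lit 594) (.a (.f (nat_lit 497) (nat_lit 465) (nat_lit 7633) (.f (nat_lit 529) (nat_lit 626) (nat_lit 7665) (.d (nat_lit 499) (nat_lit 467) (nat_lit 6610) (nat_lit 500) (nat_lit 1520)))) (.a (.f (nat_lit 467) (nat_lit 499) (nat_lit 6610) (.f (nat_lit 466) (nat_lit 435) (nat_lit 6578) (.d (nat_lit 465) (nat_lit 433) (nat_lit 7601)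 (nat_lit 497) (nat_lit 7633)))) (.a (.f (nat_lit 499) (nat_lit 467) (nat_lit 6610) (.f (nat_lit 531) (nat_lit 626) (nat_lit 6642) (.f (nat_lit 595) (nat_lit 627) (nat_lit 4594) (.f (nat_lit 563) (nat_lit 466) (nat_lit 4562) (.d (nat_lit 500) (nat_lit 468) (nat_lit 6611) (nat_lit 529) (nat_lit 2544)))))) (.f (nat_lit 497) (nat_lit 465) (nat_lit 7633) (.f (nat_lit 529) (nat_lit 626) (nat_lit 7665) (.f (nat_lit 595) (nat_lit 627) (nat_lit 4594) (.f (nat_lit 563) (nat_lit 466) (nat_lit 4562) (.d (nat_lit 561) (nat_lit 564) (nat_lit 3600) (nat_lit 596) (nat_lit 560))))))))))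
noncomputable def s5613 : Cert := .r (nat_lit 18869812128501177264509710774503796433499995185341540522026907474751343623210314739829166948347900646451490313420764903077122343325272053234930137433682206587892745109504) (.p (nat_lit 594) (.a (.f (nat_lit 595) (nat_lit 627) (nat_lit 4594) (.f (nat_lit 561) (nat_lit 559) (nat_lit 559) (.d (nat_lit 563) (nat_lit 466) (nat_lit 4562) (nat_lit 596) (nat_lit 560)))) (.a (.f (nat_lit 497) (nat_lit 465) (nat_lit 7633) (.f (nat_lit 529) (nat_lit 626) (nat_lit 7665) (.f (nat_lit 531) (nat_lit 559) (nat_lit 1551) (.f (nat_lit 563) (nat_lit 564) (nat_lit 528) (.d (nat_lit 466) (nat_lit 434) (nat_lit 4530) (nat_lit 595) (nat_lit 4562)))))) (.a (.f (nat_lit 497) (nat_lit 465) (nat_lit 7633) (.f (nat_lit 529) (nat_lit 626) (nat_lit 7665) (.f (nat_lit 559) (nat_lit 531) (nat_lit 1551) (.d (nat_lit 558) (nat_lit 557) (nat_lit 2573) (nat_lit 561) (nat_lit 2574))))) (.f (nat_lit 497) (nat_lit 465) (nat_lit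 7633) (.f (nat_lit 529) (nat_lit 626) (nat_lit 7665) (.f (nat_lit 595) (nat_lit 627) (nat_lit 4594) (.f (nat_lit 563) (nat_lit 466) (nat_lit 4562) (.d (nat_lit 561) (nat_lit 564) (nat_lit 3600) (nat_lit 596) (nat_lit 560))))))))))
noncomputable def s5616 : Cert := .r (nat_lit 18869812128501177264509710774503796433499995185341540522026907474751343623210314739829166948347900646451490313420764903077122343325272053234930137433682206587892745109504) (.p (nat_lit 594) (.a (.f (nat_lit 593) (nat_lit 625) (nat_lit 5617) (.f (nat_lit 561) (nat_lit 466) (nat_lit 5585) (.d (nat_lit 559) (nat_lit 531) (nat_lit 2575) (nat_lit 558) (nat_lit 558)))) (.a (.f (nat_lit 625) (nat_lit 593) (nat_lit 5617) (.f (nat_lit 626) (nat_lit 657) (nat_lit 5649) (.d (nat_lit 499) (nat_lit 467) (nat_lit 6610) (nat_lit 531) (nat_lit 6642)))) (.a (.f (nat_lit 595) (nat_lit 627) (nat_lit 4594) (.f (nat_lit 561) (nat_lit 559) (nat_lit 559) (.d (nat_lit 593) (nat_lit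 596) (nat_lit 3632) (nat_lit 625) (nat_lit 5617)))) (.f (nat_lit 499) (nat_lit 467) (nat_lit 6610) (.f (nat_lit 531) (nat_lit 626) (nat_lit 6642) (.d (nat_lit 529) (nat_lit 500) (nat_lit 2544) (nat_lit 559) (nat_lit 1551))))))))
noncomputable def s5618 : Cert := .r (nat_lit 3773962429215011855543492450550720869832310303675778808522082273768846973641719331484660047637265576285616813297709523478040004805572882704684400427951422413295163801600) (.p (nat_lit 562) (.a (.p (nat_lit 594) (.a (.f (nat_lit 497) (nat_lit 465) (nat_lit 7633) (.f (nat_lit 529) (nat_lit 626) (nat_lit 7665) (.d (nat_lit 499) (nat_lit 467) (nat_lit 6610) (nat_lit 500) (nat_lit 1520)))) (.f (nat_lit 593) (nat_lit 625) (nat_lit 5617) (.f (nat_lit 561) (nat_lit 466) (nat_lit 5585) (.d (nat_lit 559) (nat_lit 531) (nat_lit 2575) (nat_lit 558) (nat_lit 558)))))) (.a s5232 (.a (.p (nat_lit 594) (.a (.f (nat_lit 593) (nat_lit 625) (nat_lit 5617) (.f (nat_lit 561) (nat_lit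 466) (nat_lit 5585) (.d (nat_lit 559) (nat_lit 531) (nat_lit 2575) (nat_lit 558) (nat_lit 558)))) (.a (.f (nat_lit 467) (nat_lit 499) (nat_lit 6610) (.f (nat_lit 466) (nat_lit 435) (nat_lit 6578) (.d (nat_lit 465) (nat_lit 433) (nat_lit 7601) (nat_lit 497) (nat_lit 7633)))) (.f (nat_lit 595) (nat_lit 627) (nat_lit 4594) (.f (nat_lit 561) (nat_lit 559) (nat_lit 559) (.d (nat_lit 593) (nat_lit 596) (nat_lit 3632) (nat_lit 625) (nat_lit 5617))))))) (.a (.p (nat_lit 561) (.a (.f (nat_lit 531) (nat_lit 559) (nat_lit 2575) (.d (nat_lit 532) (nat_lit 529) (nat_lit 1552) (nat_lit 533) (nat_lit 1553))) (.f (nat_lit 466) (nat_lit 593) (nat_lit 5585) (.f (nat_lit 435) (nat_lit 467) (nat_lit 6578) (.f (nat_lit 434) (nat_lit 403) (nat_lit 6546) (.d (nat_lit 433) (nat_lit 401) (nat_lit 7569) (nat_lit 465) (nat_lit 7601))))))) (.a (.p (nat_lit 594) (.a (.f (nat_lit 497) (nat_lit 465) (nat_lit 7633) (.f (nat_lit 529) (nat_lit 626) (nat_lit 7665)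 (.d (nat_lit 499) (nat_lit 467) (nat_lit 6610) (nat_lit 500) (nat_lit 1520)))) (.f (nat_lit 595) (nat_lit 627) (nat_lit 4594) (.f (nat_lit 561) (nat_lit 559) (nat_lit 559) (.d (nat_lit 593) (nat_lit 596) (nat_lit 3632) (nat_lit 625) (nat_lit 5617)))))) (.a s5611 (.a s5616 (.p (nat_lit 594) (.a (.f (nat_lit 593) (nat_lit 625) (nat_lit 5617) (.f (nat_lit 561) (nat_lit 466) (nat_lit 5585) (.d (nat_lit 559) (nat_lit 531) (nat_lit 2575) (nat_lit 558) (nat_lit 558)))) (.a (.f (nat_lit 497) (nat_lit 465) (nat_lit 7633) (.f (nat_lit 626) (nat_lit 529) (nat_lit 7665) (.d (nat_lit 625) (nat_lit 593) (nat_lit 5617) (nat_lit 657) (nat_lit 5649)))) (.f (nat_lit 497) (nat_lit 465) (nat_lit 7633) (.f (nat_lit 529) (nat_lit 626) (nat_lit 7665) (.f (nat_lit 559) (nat_lit 531) (nat_lit 1551) (.d (nat_lit 558) (nat_lit 557) (nat_lit 2573) (nat_lit 561) (nat_lit 2574))))))))))))))))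
noncomputable def s5627 : Cert := .r (nat_lit 18869812128501177264509710774503796433499995185341540522026907474751343623210314739829166948347900646451490313420764903077122343325272053234930137433682206587892745109504) (.p (nat_lit 466) (.a (.f (nat_lit 561) (nat_lit 593) (nat_lit 5585) (.f (nat_lit 529) (nat_lit 434) (nat_lit 5553) (.d (nat_lit 563) (nat_lit 564) (nat_lit 3600) (nat_lit 595) (nat_lit 4562)))) (.a (.f (nat_lit 433) (nat_lit 465) (nat_lit 7601) (.f (nat_lit 434) (nat_lit 401) (nat_lit 7569) (.d (nat_lit 435) (nat_lit 403) (nat_lit 6546) (nat_lit 467) (nat_lit 6578)))) (.f (nat_lit 561) (nat_lit 593) (nat_lit 5585) (.f (nat_lit 563) (nat_lit 595) (nat_lit 4562) (.f (nat_lit 529) (nat_lit 564) (nat_lit 3600) (.f (nat_lit 531) (nat_lit 532) (nat_lit 1552) (.f (nat_lit 499) (nat_lit 500) (nat_lit 2544) (.f (nat_lit 467) (nat_lit 435) (nat_lit 6578) (.f (nat_lit 496) (nat_lit 495) (nat_lit 3567) (.d (nat_lit 468) (nat_lit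 436) (nat_lit 6579) (nat_lit 497) (nat_lit 2512))))))))))))
noncomputable def s5628 : Cert := .r (nat_lit 3773962429215011855543492450550720869832310303675778808522082273768846973641719331484660047637265576285616813297709523478040004805572882704684400427951422413295163801600) (.p (nat_lit 562) (.a s5232 (.a (.p (nat_lit 594) (.a (.f (nat_lit 467) (nat_lit 499) (nat_lit 6610) (.f (nat_lit 466) (nat_lit 435) (nat_lit 6578) (.d (nat_lit 465) (nat_lit 433) (nat_lit 7601) (nat_lit 497) (nat_lit 7633)))) (.a (.f (nat_lit 625) (nat_lit 593) (nat_lit 5617) (.f (nat_lit 626) (nat_lit 657) (nat_lit 5649) (.d (nat_lit 499) (nat_lit 467) (nat_lit 6610) (nat_lit 531) (nat_lit 6642)))) (.f (nat_lit 595) (nat_lit 627) (nat_lit 4594) (.f (nat_lit 466) (nat_lit 563) (nat_lit 4562) (.d (nat_lit 465) (nat_lit 433) (nat_lit 7601) (nat_lit 497) (nat_lit 7633))))))) (.a (.p (nat_lit 594) (.a (.f (nat_lit 625) (nat_lit 593) (nat_lit 5617) (.f (nat_lit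 626) (nat_lit 657) (nat_lit 5649) (.d (nat_lit 499) (nat_lit 467) (nat_lit 6610) (nat_lit 531) (nat_lit 6642)))) (.a (.f (nat_lit 467) (nat_lit 499) (nat_lit 6610) (.f (nat_lit 466) (nat_lit 435) (nat_lit 6578) (.d (nat_lit 595) (nat_lit 563) (nat_lit 4562) (nat_lit 627) (nat_lit 4594)))) (.f (nat_lit 625) (nat_lit 593) (nat_lit 5617) (.f (nat_lit 626) (nat_lit 657) (nat_lit 5649) (.d (nat_lit 627) (nat_lit 595) (nat_lit 4594) (nat_lit 659) (nat_lit 4626))))))) (.a s5236 (.a s5612 (.a s5627 (.a (.p (nat_lit 466) (.a (.f (nat_lit 433) (nat_lit 465) (nat_lit 7601) (.f (nat_lit 434) (nat_lit 401) (nat_lit 7569) (.d (nat_lit 435) (nat_lit 403) (nat_lit 6546) (nat_lit 467) (nat_lit 6578)))) (.a (.f (nat_lit 563) (nat_lit 595) (nat_lit 4562) (.f (nat_lit 434) (nat_lit 531) (nat_lit 4530) (.d (nat_lit 435) (nat_lit 403) (nat_lit 6546) (nat_lit 467) (nat_lit 6578)))) (.f (nat_lit 465) (nat_lit 433) (nat_lit 7601) (.f (nat_lit 594) (nat_lit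 497) (nat_lit 7633) (.d (nat_lit 595) (nat_lit 563) (nat_lit 4562) (nat_lit 627) (nat_lit 4594))))))) (.a s5447 s5454)))))))))
noncomputable def s5629 : Cert := .r (nat_lit 3773962429215011855543492450550720869832310303675778808522082273768846973641719331484660047637265576285616813297709523478040004805572882704684400427951422413295163801600) (.p (nat_lit 562) (.a (.p (nat_lit 561) (.a (.f (nat_lit 531) (nat_lit 559) (nat_lit 2575) (.d (nat_lit 532) (nat_lit 529) (nat_lit 1552) (nat_lit 533) (nat_lit 1553))) (.a (.f (nat_lit 466) (nat_lit 593) (nat_lit 5585) (.f (nat_lit 563) (nat_lit 595) (nat_lit 4562) (.d (nat_lit 531) (nat_lit 434) (nat_lit 4530) (nat_lit 532) (nat_lit 2576)))) (.f (nat_lit 466) (nat_lit 593) (nat_lit 5585) (.f (nat_lit 529) (nat_lit 434) (nat_lit 5553) (.d (nat_lit 563) (nat_lit 564) (nat_lit 3600) (nat_lit 595) (nat_lit 4562))))))) (.a (.p (nat_lit 466) (.a (.f (nat_lit 433) (nat_lit 465) (nat_lit 7601) (.f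 (nat_lit 434) (nat_lit 401) (nat_lit 7569) (.d (nat_lit 435) (nat_lit 403) (nat_lit 6546) (nat_lit 467) (nat_lit 6578)))) (.a (.f (nat_lit 563) (nat_lit 595) (nat_lit 4562) (.f (nat_lit 434) (nat_lit 531) (nat_lit 4530) (.d (nat_lit 435) (nat_lit 403) (nat_lit 6546) (nat_lit 467) (nat_lit 6578)))) (.f (nat_lit 465) (nat_lit 433) (nat_lit 7601) (.f (nat_lit 594) (nat_lit 497) (nat_lit 7633) (.d (nat_lit 595) (nat_lit 563) (nat_lit 4562) (nat_lit 627) (nat_lit 4594))))))) (.a (.p (nat_lit 594) (.a (.f (nat_lit 595) (nat_lit 627) (nat_lit 4594) (.f (nat_lit 561) (nat_lit 559) (nat_lit 559) (.d (nat_lit 593) (nat_lit 596) (nat_lit 3632) (nat_lit 625) (nat_lit 5617)))) (.a (.f (nat_lit 497) (nat_lit 465) (nat_lit 7633) (.f (nat_lit 626) (nat_lit 529) (nat_lit 7665) (.d (nat_lit 625) (nat_lit 593) (nat_lit 5617) (nat_lit 657) (nat_lit 5649)))) (.f (nat_lit 595) (nat_lit 627) (nat_lit 4594) (.f (nat_lit 561) (nat_lit 559) (nat_lit 559)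 (.d (nat_lit 596) (nat_lit 563) (nat_lit 560) (nat_lit 597) (nat_lit 3633))))))) (.p (nat_lit 561) (.a (.f (nat_lit 531) (nat_lit 559) (nat_lit 2575) (.d (nat_lit 532) (nat_lit 529) (nat_lit 1552) (nat_lit 533) (nat_lit 1553))) (.f (nat_lit 466) (nat_lit 593) (nat_lit 5585) (.f (nat_lit 435) (nat_lit 467) (nat_lit 6578) (.f (nat_lit 434) (nat_lit 403) (nat_lit 6546) (.d (nat_lit 433) (nat_lit 401) (nat_lit 7569) (nat_lit 465) (nat_lit 7601)))))))))))
noncomputable def s5639 : Cert := .r (nat_lit 3773962429215011855748079363544229736708134659727503755535622401646538522984425041990668409912557735965821194068078533299970422563545387142760478962069259479128196775936) (.p (nat_lit 464) (.a (.f (nat_lit 433) (nat_lit 465) (nat_lit 6576) (.f (nat_lit 432) (nat_lit 401) (nat_lit 6544) (.d (nat_lit 431) (nat_lit 399) (nat_lit 7567) (nat_lit 463) (nat_lit 7599)))) (.a (.f (nat_lit 463) (nat_lit 431) (nat_lit 7599) (.f (nat_lit 497) (nat_lit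 499) (nat_lit 3535) (.d (nat_lit 462) (nat_lit 461) (nat_lit 461) (nat_lit 495) (nat_lit 3534)))) (.a (.f (nat_lit 433) (nat_lit 465) (nat_lit 6576) (.f (nat_lit 432) (nat_lit 401) (nat_lit 6544) (.f (nat_lit 399) (nat_lit 431) (nat_lit 7567) (.f (nat_lit 400) (nat_lit 367) (nat_lit 7535) (.f (nat_lit 529) (nat_lit 497) (nat_lit 4496) (.d (nat_lit 531) (nat_lit 495) (nat_lit 3567) (nat_lit 559) (nat_lit 1551))))))) (.f (nat_lit 465) (nat_lit 433) (nat_lit 6576) (.f (nat_lit 559) (nat_lit 591) (nat_lit 5583) (.f (nat_lit 531) (nat_lit 529) (nat_lit 1551) (.f (nat_lit 497) (nat_lit 495) (nat_lit 495) (.d (nat_lit 463) (nat_lit 462) (nat_lit 462) (nat_lit 499) (nat_lit 3535))))))))))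
noncomputable def s5645 : Cert := .r (nat_lit 3773962429215011855748079363544229736708134659727503755535622401646538522984425041990668409912557735965821194068078533299970422563545387142760478962069259479128196775936) (.p (nat_lit 464) (.a (.f (nat_lit 433) (nat_lit 465) (nat_lit 6576) (.f (nat_lit 432) (nat_lit 401) (nat_lit 6544) (.d (nat_lit 431) (nat_lit 399) (nat_lit 7567) (nat_lit 463) (nat_lit 7599)))) (.a (.f (nat_lit 463) (nat_lit 431) (nat_lit 7599) (.f (nat_lit 497) (nat_lit 499) (nat_lit 3535) (.d (nat_lit 462) (nat_lit 461) (nat_lit 461) (nat_lit 495) (nat_lit 3534)))) (.f (nat_lit 559) (nat_lit 591) (nat_lit 5583) (.f (nat_lit 561) (nat_lit 593) (nat_lit 4560) (.f (nat_lit 531) (nat_lit 562) (nat_lit 2575) (.f (nat_lit 497) (nat_lit 495) (nat_lit 495) (.d (nat_lit 532) (nat_lit 499) (nat_lit 496) (nat_lit 533) (nat_lit 3569)))))))))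
noncomputable def s5654 : Cert := .r (nat_lit 3773962429215011855543492450550720869832310303675778808522082273768846973641719331484660047637265576285616813297709523478040004805572882704684400427951422413295163801600) (.p (nat_lit 496) (.a (.p (nat_lit 464) (.a (.f (nat_lit 433) (nat_lit 465) (nat_lit 6576) (.f (nat_lit 432) (nat_lit 401) (nat_lit 6544) (.d (nat_lit 431) (nat_lit 399) (nat_lit 7567) (nat_lit 463) (nat_lit 7599)))) (.a (.f (nat_lit 463) (nat_lit 431) (nat_lit 7599) (.f (nat_lit 497) (nat_lit 499) (nat_lit 3535) (.d (nat_lit 462) (nat_lit 461) (nat_lit 461) (nat_lit 495) (nat_lit 3534)))) (.f (nat_lit 561) (nat_lit 593) (nat_lit 4560) (.f (nat_lit 529) (nat_lit 432) (nat_lit 4528) (.d (nat_lit 559) (nat_lit 558) (nat_lit 2574) (nat_lit 591) (nat_lit 5583))))))) (.a s5639 (.a s5645 (.a (.p (nat_lit 464) (.a (.f (nat_lit 433) (nat_lit 465) (nat_lit 6576) (.f (nat_lit 432) (nat_lit 401) (nat_lit 6544) (.d (nat_lit 431)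 (nat_lit 399) (nat_lit 7567) (nat_lit 463) (nat_lit 7599)))) (.a (.f (nat_lit 561) (nat_lit 593) (nat_lit 4560) (.f (nat_lit 529) (nat_lit 432) (nat_lit 4528) (.d (nat_lit 531) (nat_lit 495) (nat_lit 3567) (nat_lit 532) (nat_lit 1552)))) (.f (nat_lit 559) (nat_lit 591) (nat_lit 5583) (.f (nat_lit 529) (nat_lit 531) (nat_lit 1551) (.d (nat_lit 558) (nat_lit 557) (nat_lit 2573) (nat_lit 561) (nat_lit 2574))))))) (.a (.p (nat_lit 531) (.a (.d (nat_lit 529) (nat_lit 495) (nat_lit 3567) (nat_lit 559) (nat_lit 1551)) (.a (.f (nat_lit 497) (nat_lit 495) (nat_lit 495) (.d (nat_lit 532) (nat_lit 499) (nat_lit 496) (nat_lit 533) (nat_lit 3569))) (.f (nat_lit 529) (nat_lit 559) (nat_lit 1551) (.d (nat_lit 532) (nat_lit 497) (nat_lit 3568) (nat_lit 561) (nat_lit 1552)))))) (.a (.p (nat_lit 464) (.a (.f (nat_lit 433) (nat_lit 465) (nat_lit 6576) (.f (nat_lit 432) (nat_lit 401) (nat_lit 6544) (.d (nat_lit 431) (nat_lit 399) (nat_lit 7567) (nat_lit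 463) (nat_lit 7599)))) (.a (.f (nat_lit 463) (nat_lit 431) (nat_lit 7599) (.f (nat_lit 497) (nat_lit 499) (nat_lit 3535) (.d (nat_lit 462) (nat_lit 461) (nat_lit 461) (nat_lit 495) (nat_lit 3534)))) (.f (nat_lit 433) (nat_lit 465) (nat_lit 6576) (.f (nat_lit 432) (nat_lit 401) (nat_lit 6544) (.d (nat_lit 561) (nat_lit 529) (nat_lit 4528) (nat_lit 593) (nat_lit 4560))))))) (.p (nat_lit 464) (.a (.f (nat_lit 433) (nat_lit 465) (nat_lit 6576) (.f (nat_lit 432) (nat_lit 401) (nat_lit 6544) (.d (nat_lit 431) (nat_lit 399) (nat_lit 7567) (nat_lit 463) (nat_lit 7599)))) (.a (.f (nat_lit 561) (nat_lit 593) (nat_lit 4560) (.f (nat_lit 529) (nat_lit 432) (nat_lit 4528) (.d (nat_lit 559) (nat_lit 558) (nat_lit 2574) (nat_lit 591) (nat_lit 5583)))) (.f (nat_lit 465) (nat_lit 433) (nat_lit 6576) (.f (nat_lit 463) (nat_lit 431) (nat_lit 7599) (.d (nat_lit 497) (nat_lit 462) (nat_lit 462) (nat_lit 499) (nat_lit 3535))))))))))))))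
noncomputable def s5672 : Cert := .r (nat_lit 18869812128501177264509710774503796433499995185341540522026907474751343623210314739829166948347900646451490313420764903077122343325272053234930137433682206587892745109504) (.p (nat_lit 594) (.a (.f (nat_lit 467) (nat_lit 499) (nat_lit 6610) (.f (nat_lit 466) (nat_lit 435) (nat_lit 6578) (.d (nat_lit 465) (nat_lit 433) (nat_lit 7601) (nat_lit 497) (nat_lit 7633)))) (.a (.f (nat_lit 467) (nat_lit 499) (nat_lit 6610) (.f (nat_lit 466) (nat_lit 435) (nat_lit 6578) (.d (nat_lit 595) (nat_lit 563) (nat_lit 4562) (nat_lit 627) (nat_lit 4594)))) (.a (.f (nat_lit 595) (nat_lit 627) (nat_lit 4594) (.f (nat_lit 466) (nat_lit 563) (nat_lit 4562) (.d (nat_lit 465) (nat_lit 433) (nat_lit 7601) (nat_lit 497) (nat_lit 7633)))) (.f (nat_lit 499) (nat_lit 467) (nat_lit 6610) (.f (nat_lit 626) (nat_lit 531) (nat_lit 6642) (.d (nat_lit 627) (nat_lit 595) (nat_lit 4594) (nat_lit 659) (nat_lit 4626))))))))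
noncomputable def s5673 : Cert := .r (nat_lit 3773962429215011855543492450550720869832310303675778808522082273768846973641719331484660047637265576285616813297709523478040004805572882704684400427951422413295163801600) (.p (nat_lit 562) (.a s5232 (.a (.p (nat_lit 594) (.a (.f (nat_lit 467) (nat_lit 499) (nat_lit 6610) (.f (nat_lit 466) (nat_lit 435) (nat_lit 6578) (.d (nat_lit 465) (nat_lit 433) (nat_lit 7601) (nat_lit 497) (nat_lit 7633)))) (.a (.f (nat_lit 625) (nat_lit 593) (nat_lit 5617) (.f (nat_lit 626) (nat_lit 657) (nat_lit 5649) (.d (nat_lit 499) (nat_lit 467) (nat_lit 6610) (nat_lit 531) (nat_lit 6642)))) (.f (nat_lit 595) (nat_lit 627) (nat_lit 4594) (.f (nat_lit 466) (nat_lit 563) (nat_lit 4562) (.d (nat_lit 465) (nat_lit 433) (nat_lit 7601) (nat_lit 497) (nat_lit 7633))))))) (.a (.p (nat_lit 594) (.a (.f (nat_lit 499) (nat_lit 467) (nat_lit 6610) (.f (nat_lit 529) (nat_lit 527) (nat_lit 2543) (.d (nat_lit 500) (nat_lit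 501) (nat_lit 1521) (nat_lit 531) (nat_lit 2544)))) (.a (.f (nat_lit 625) (nat_lit 593) (nat_lit 5617) (.f (nat_lit 626) (nat_lit 657) (nat_lit 5649) (.d (nat_lit 499) (nat_lit 467) (nat_lit 6610) (nat_lit 531) (nat_lit 6642)))) (.f (nat_lit 625) (nat_lit 593) (nat_lit 5617) (.f (nat_lit 626) (nat_lit 657) (nat_lit 5649) (.d (nat_lit 627) (nat_lit 595) (nat_lit 4594) (nat_lit 659) (nat_lit 4626))))))) (.a s5236 (.a s5672 (.a s5355 (.a (.p (nat_lit 466) (.a (.f (nat_lit 433) (nat_lit 465) (nat_lit 7601) (.f (nat_lit 434) (nat_lit 401) (nat_lit 7569) (.d (nat_lit 435) (nat_lit 403) (nat_lit 6546) (nat_lit 467) (nat_lit 6578)))) (.a (.f (nat_lit 563) (nat_lit 595) (nat_lit 4562) (.f (nat_lit 434) (nat_lit 531) (nat_lit 4530) (.d (nat_lit 435) (nat_lit 403) (nat_lit 6546) (nat_lit 467) (nat_lit 6578)))) (.f (nat_lit 465) (nat_lit 433) (nat_lit 7601) (.f (nat_lit 594) (nat_lit 497) (nat_lit 7633) (.d (nat_lit 595) (nat_lit 563) (nat_lit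 4562) (nat_lit 627) (nat_lit 4594))))))) s5454))))))))
noncomputable def s5676 : Cert := .r (nat_lit 18869812128501177264509710774503796433499995185341540522026907474751343623210314739829166948347900646451490313420764903077122343325272053234930137433682206587892745109504) (.p (nat_lit 594) (.a (.f (nat_lit 467) (nat_lit 499) (nat_lit 6610) (.f (nat_lit 466) (nat_lit 435) (nat_lit 6578) (.d (nat_lit 465) (nat_lit 433) (nat_lit 7601) (nat_lit 497) (nat_lit 7633)))) (.a (.f (nat_lit 467) (nat_lit 499) (nat_lit 6610) (.f (nat_lit 466) (nat_lit 435) (nat_lit 6578) (.d (nat_lit 595) (nat_lit 563) (nat_lit 4562) (nat_lit 627) (nat_lit 4594)))) (.a (.f (nat_lit 595) (nat_lit 627) (nat_lit 4594) (.f (nat_lit 466) (nat_lit 563) (nat_lit 4562) (.d (nat_lit 465) (nat_lit 433) (nat_lit 7601) (nat_lit 497) (nat_lit 7633)))) (.f (nat_lit 625) (nat_lit 593) (nat_lit 5617) (.f (nat_lit 626) (nat_lit 657) (nat_lit 5649) (.d (nat_lit 627) (nat_lit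 595) (nat_lit 4594) (nat_lit 659) (nat_lit 4626))))))))
noncomputable def s5685 : Cert := .r (nat_lit 18869812128501177264714297687497305300375819541393265469040447602629035172553020450335175310623192806131694694191133912899052761083244557673006215967800043653725778083840) (.p (nat_lit 466) (.a (.f (nat_lit 465) (nat_lit 433) (nat_lit 7601) (.f (nat_lit 467) (nat_lit 435) (nat_lit 6578) (.d (nat_lit 495) (nat_lit 464) (nat_lit 1487) (nat_lit 497) (nat_lit 2511)))) (.a (.f (nat_lit 433) (nat_lit 465) (nat_lit 7601) (.f (nat_lit 434) (nat_lit 401) (nat_lit 7569) (.d (nat_lit 435) (nat_lit 403) (nat_lit 6546) (nat_lit 467) (nat_lit 6578)))) (.a (.f (nat_lit 467) (nat_lit 435) (nat_lit 6578) (.f (nat_lit 497) (nat_lit 495) (nat_lit 2511) (.d (nat_lit 468) (nat_lit 469) (nat_lit 1489) (nat_lit 499) (nat_lit 2512)))) (.a (.f (nat_lit 433) (nat_lit 465) (nat_lit 7601) (.f (nat_lit 434) (nat_lit 401) (nat_lit 7569) (.f (nat_lit 403) (nat_lit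 435) (nat_lit 6546) (.f (nat_lit 402) (nat_lit 371) (nat_lit 6514) (.f (nat_lit 431) (nat_lit 432) (nat_lit 2447) (.f (nat_lit 463) (nat_lit 464) (nat_lit 7599) (.d (nat_lit 495) (nat_lit 399) (nat_lit 4495) (nat_lit 527) (nat_lit 4527)))))))) (.f (nat_lit 433) (nat_lit 465) (nat_lit 7601) (.f (nat_lit 401) (nat_lit 434) (nat_lit 7569) (.f (nat_lit 464) (nat_lit 432) (nat_lit 6544) (.f (nat_lit 463) (nat_lit 431) (nat_lit 7599) (.f (nat_lit 497) (nat_lit 499) (nat_lit 3535) (.d (nat_lit 462) (nat_lit 461) (nat_lit 461) (nat_lit 495) (nat_lit 3534))))))))))))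
noncomputable def s5694 : Cert := .r (nat_lit 18869812128501177264714297687497305300375819541393265469040447602629035172553020450335175310623192806131694694191133912899052761083244557673006215967800043653725778083840) (.p (nat_lit 464) (.a (.f (nat_lit 463) (nat_lit 431) (nat_lit 7599) (.f (nat_lit 497) (nat_lit 499) (nat_lit 3535) (.d (nat_lit 462) (nat_lit 461) (nat_lit 461) (nat_lit 465) (nat_lit 462)))) (.a (.f (nat_lit 431) (nat_lit 463) (nat_lit 7599) (.f (nat_lit 432) (nat_lit 399) (nat_lit 7567) (.d (nat_lit 433) (nat_lit 401) (nat_lit 6544) (nat_lit 465) (nat_lit 6576)))) (.a (.f (nat_lit 463) (nat_lit 431) (nat_lit 7599) (.f (nat_lit 497) (nat_lit 499) (nat_lit 3535) (.d (nat_lit 462) (nat_lit 461) (nat_lit 461) (nat_lit 495) (nat_lit 3534)))) (.f (nat_lit 433) (nat_lit 465) (nat_lit 6576) (.f (nat_lit 432) (nat_lit 401) (nat_lit 6544) (.d (nat_lit 559) (nat_lit 527) (nat_lit 5551) (nat_lit 591) (nat_lit 5583))))))))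
noncomputable def s5701 : Cert := .r (nat_lit 18869812128501177264509710774503796433499995185341540522026907474751343623210314739829166948347900646451490313420764903077122343325272053234930137433682206587892745109504) (.p (nat_lit 594) (.a (.f (nat_lit 625) (nat_lit 593) (nat_lit 5617) (.f (nat_lit 626) (nat_lit 657) (nat_lit 5649) (.d (nat_lit 499) (nat_lit 467) (nat_lit 6610) (nat_lit 531) (nat_lit 6642)))) (.a (.f (nat_lit 625) (nat_lit 593) (nat_lit 5617) (.f (nat_lit 626) (nat_lit 657) (nat_lit 5649) (.d (nat_lit 627) (nat_lit 595) (nat_lit 4594) (nat_lit 659) (nat_lit 4626)))) (.a (.f (nat_lit 499) (nat_lit 467) (nat_lit 6610) (.f (nat_lit 626) (nat_lit 531) (nat_lit 6642) (.d (nat_lit 627) (nat_lit 595) (nat_lit 4594) (nat_lit 659) (nat_lit 4626)))) (.f (nat_lit 497) (nat_lit 465) (nat_lit 7633) (.f (nat_lit 499) (nat_lit 467) (nat_lit 6610) (.f (nat_lit 496) (nat_lit 527) (nat_lit 1519) (.d (nat_lit 531) (nat_lit 495) (nat_lit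 495) (nat_lit 532) (nat_lit 496)))))))))
noncomputable def s5719 : Cert := .r (nat_lit 18869812128501177264509710774503796433499995185341540522026907474751343623210314739829166948347900646451490313420764903077122343325272053234930137433682206587892745109504) (.p (nat_lit 466) (.a (.f (nat_lit 433) (nat_lit 465) (nat_lit 7601) (.f (nat_lit 434) (nat_lit 401) (nat_lit 7569) (.d (nat_lit 435) (nat_lit 403) (nat_lit 6546) (nat_lit 467) (nat_lit 6578)))) (.a (.f (nat_lit 435) (nat_lit 467) (nat_lit 6578) (.f (nat_lit 434) (nat_lit 403) (nat_lit 6546) (.f (nat_lit 401) (nat_lit 433) (nat_lit 7569) (.f (nat_lit 402) (nat_lit 369) (nat_lit 7537) (.d (nat_lit 531) (nat_lit 499) (nat_lit 4498) (nat_lit 563) (nat_lit 4530)))))) (.a (.f (nat_lit 435) (nat_lit 467) (nat_lit 6578) (.f (nat_lit 434) (nat_lit 403) (nat_lit 6546) (.f (nat_lit 531) (nat_lit 563) (nat_lit 4530) (.f (nat_lit 499) (nat_lit 402) (nat_lit 4498) (.f (nat_lit 594) (nat_lit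 626) (nat_lit 6642) (.f (nat_lit 497) (nat_lit 465) (nat_lit 7633) (.d (nat_lit 496) (nat_lit 495) (nat_lit 495) (nat_lit 527) (nat_lit 1519)))))))) (.a (.f (nat_lit 465) (nat_lit 433) (nat_lit 7601) (.f (nat_lit 594) (nat_lit 497) (nat_lit 7633) (.d (nat_lit 467) (nat_lit 435) (nat_lit 6578) (nat_lit 499) (nat_lit 6610)))) (.f (nat_lit 465) (nat_lit 433) (nat_lit 7601) (.f (nat_lit 594) (nat_lit 497) (nat_lit 7633) (.f (nat_lit 625) (nat_lit 593) (nat_lit 5617) (.f (nat_lit 626) (nat_lit 657) (nat_lit 5649) (.f (nat_lit 531) (nat_lit 499) (nat_lit 6642) (.d (nat_lit 563) (nat_lit 434) (nat_lit 4530) (nat_lit 658) (nat_lit 6674))))))))))))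
noncomputable def s5720 : Cert := .r (nat_lit 3773962429215011855543492450550720869832310303675778808522082273768846973641719331484660047637265576285616813297709523478040004805572882704684400427951422413295163801600) (.p (nat_lit 562) (.a (.p (nat_lit 594) (.a (.f (nat_lit 467) (nat_lit 499) (nat_lit 6610) (.f (nat_lit 466) (nat_lit 435) (nat_lit 6578) (.d (nat_lit 465) (nat_lit 433) (nat_lit 7601) (nat_lit 497) (nat_lit 7633)))) (.a (.f (nat_lit 625) (nat_lit 593) (nat_lit 5617) (.f (nat_lit 626) (nat_lit 657) (nat_lit 5649) (.d (nat_lit 499) (nat_lit 467) (nat_lit 6610) (nat_lit 531) (nat_lit 6642)))) (.f (nat_lit 595) (nat_lit 627) (nat_lit 4594) (.f (nat_lit 466) (nat_lit 563) (nat_lit 4562) (.d (nat_lit 465) (nat_lit 433) (nat_lit 7601) (nat_lit 497) (nat_lit 7633))))))) (.a (.p (nat_lit 594) (.a (.f (nat_lit 625) (nat_lit 593) (nat_lit 5617) (.f (nat_lit 626) (nat_lit 657) (nat_lit 5649) (.d (nat_lit 499) (nat_lit 467) (nat_lit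 6610) (nat_lit 531) (nat_lit 6642)))) (.a (.f (nat_lit 467) (nat_lit 499) (nat_lit 6610) (.f (nat_lit 466) (nat_lit 435) (nat_lit 6578) (.d (nat_lit 595) (nat_lit 563) (nat_lit 4562) (nat_lit 627) (nat_lit 4594)))) (.f (nat_lit 625) (nat_lit 593) (nat_lit 5617) (.f (nat_lit 626) (nat_lit 657) (nat_lit 5649) (.d (nat_lit 627) (nat_lit 595) (nat_lit 4594) (nat_lit 659) (nat_lit 4626))))))) (.a s5676 (.a s5672 (.a (.p (nat_lit 594) (.a (.f (nat_lit 467) (nat_lit 499) (nat_lit 6610) (.f (nat_lit 466) (nat_lit 435) (nat_lit 6578) (.d (nat_lit 465) (nat_lit 433) (nat_lit 7601) (nat_lit 497) (nat_lit 7633)))) (.a (.f (nat_lit 625) (nat_lit 593) (nat_lit 5617) (.f (nat_lit 626) (nat_lit 657) (nat_lit 5649) (.d (nat_lit 499) (nat_lit 467) (nat_lit 6610) (nat_lit 531) (nat_lit 6642)))) (.f (nat_lit 625) (nat_lit 593) (nat_lit 5617) (.f (nat_lit 626) (nat_lit 657) (nat_lit 5649) (.d (nat_lit 627) (nat_lit 595) (nat_lit 4594) (nat_lit 659)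 (nat_lit 4626))))))) (.a (.p (nat_lit 496) (.a s5390 (.a s5398 (.a s5685 (.a (.p (nat_lit 466) (.a (.f (nat_lit 433) (nat_lit 465) (nat_lit 7601) (.f (nat_lit 434) (nat_lit 401) (nat_lit 7569) (.d (nat_lit 435) (nat_lit 403) (nat_lit 6546) (nat_lit 467) (nat_lit 6578)))) (.a (.f (nat_lit 467) (nat_lit 435) (nat_lit 6578) (.f (nat_lit 497) (nat_lit 495) (nat_lit 2511) (.d (nat_lit 468) (nat_lit 469) (nat_lit 1489) (nat_lit 499) (nat_lit 2512)))) (.f (nat_lit 433) (nat_lit 465) (nat_lit 7601) (.f (nat_lit 434) (nat_lit 401) (nat_lit 7569) (.d (nat_lit 563) (nat_lit 531) (nat_lit 4530) (nat_lit 595) (nat_lit 4562))))))) (.a (.p (nat_lit 466) (.a (.f (nat_lit 467) (nat_lit 435) (nat_lit 6578) (.f (nat_lit 497) (nat_lit 495) (nat_lit 2511) (.d (nat_lit 468) (nat_lit 469) (nat_lit 1489) (nat_lit 499) (nat_lit 2512)))) (.a (.f (nat_lit 435) (nat_lit 467) (nat_lit 6578) (.f (nat_lit 434) (nat_lit 403) (nat_lit 6546) (.d (nat_lit 563) (nat_lit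 531) (nat_lit 4530) (nat_lit 595) (nat_lit 4562)))) (.a (.f (nat_lit 563) (nat_lit 595) (nat_lit 4562) (.f (nat_lit 434) (nat_lit 531) (nat_lit 4530) (.f (nat_lit 401) (nat_lit 433) (nat_lit 7569) (.f (nat_lit 402) (nat_lit 369) (nat_lit 7537) (.d (nat_lit 403) (nat_lit 371) (nat_lit 6514) (nat_lit 435) (nat_lit 6546)))))) (.f (nat_lit 563) (nat_lit 595) (nat_lit 4562) (.f (nat_lit 531) (nat_lit 434) (nat_lit 4530) (.f (nat_lit 497) (nat_lit 495) (nat_lit 495) (.d (nat_lit 499) (nat_lit 527) (nat_lit 1519) (nat_lit 532) (nat_lit 496))))))))) (.a s5422 (.a s5694 (.p (nat_lit 466) (.a (.f (nat_lit 467) (nat_lit 435) (nat_lit 6578) (.f (nat_lit 497) (nat_lit 495) (nat_lit 2511) (.d (nat_lit 468) (nat_lit 469) (nat_lit 1489) (nat_lit 499) (nat_lit 2512)))) (.a (.f (nat_lit 435) (nat_lit 467) (nat_lit 6578) (.f (nat_lit 434) (nat_lit 403) (nat_lit 6546) (.d (nat_lit 563) (nat_lit 531) (nat_lit 4530) (nat_lit 595) (nat_lit 4562)))) (.f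 (nat_lit 563) (nat_lit 595) (nat_lit 4562) (.f (nat_lit 531) (nat_lit 434) (nat_lit 4530) (.f (nat_lit 497) (nat_lit 495) (nat_lit 495) (.d (nat_lit 499) (nat_lit 527) (nat_lit 1519) (nat_lit 532) (nat_lit 496)))))))))))))))) (.a (.p (nat_lit 466) (.a (.f (nat_lit 433) (nat_lit 465) (nat_lit 7601) (.f (nat_lit 434) (nat_lit 401) (nat_lit 7569) (.d (nat_lit 435) (nat_lit 403) (nat_lit 6546) (nat_lit 467) (nat_lit 6578)))) (.a (.f (nat_lit 563) (nat_lit 595) (nat_lit 4562) (.f (nat_lit 434) (nat_lit 531) (nat_lit 4530) (.d (nat_lit 435) (nat_lit 403) (nat_lit 6546) (nat_lit 467) (nat_lit 6578)))) (.f (nat_lit 465) (nat_lit 433) (nat_lit 7601) (.f (nat_lit 594) (nat_lit 497) (nat_lit 7633) (.d (nat_lit 595) (nat_lit 563) (nat_lit 4562) (nat_lit 627) (nat_lit 4594))))))) (.a s5701 (.a s5719 s5454))))))))))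
noncomputable def s5731 : Cert := .r (nat_lit 3773962429215011855543492450550720869832310303675778808522082273768846973641719331484660047637265576285616813297709523478040004805572882704684400427951422413295163801600) (.p (nat_lit 529) (.a (.f (nat_lit 531) (nat_lit 559) (nat_lit 1551) (.f (nat_lit 499) (nat_lit 500) (nat_lit 2544) (.f (nat_lit 563) (nat_lit 564) (nat_lit 528) (.d (nat_lit 466) (nat_lit 434) (nat_lit 4530) (nat_lit 595) (nat_lit 7634))))) (.a (.f (nat_lit 527) (nat_lit 499) (nat_lit 2543) (.f (nat_lit 559) (nat_lit 558) (nat_lit 1550) (.f (nat_lit 495) (nat_lit 494) (nat_lit 3566) (.f (nat_lit 463) (nat_lit 431) (nat_lit 4527) (.f (nat_lit 464) (nat_lit 432) (nat_lit 6575) (.f (nat_lit 591) (nat_lit 496) (nat_lit 5583) (.f (nat_lit 623) (nat_lit 655) (nat_lit 6671) (.d (nat_lit 622) (nat_lit 590) (nat_lit 5614) (nat_lit 654) (nat_lit 5646))))))))) (.a (.f (nat_lit 499) (nat_lit 527) (nat_lit 2543) (.d (nat_lit 500)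 (nat_lit 501) (nat_lit 1521) (nat_lit 531) (nat_lit 2544))) (.f (nat_lit 531) (nat_lit 559) (nat_lit 1551) (.f (nat_lit 563) (nat_lit 564) (nat_lit 528) (.f (nat_lit 562) (nat_lit 527) (nat_lit 527) (.d (nat_lit 466) (nat_lit 434) (nat_lit 4530) (nat_lit 595) (nat_lit 4562)))))))))
noncomputable def s5750 : Cert := .r (nat_lit 18869812128501177264714297687497305300375819541393265469040447602629035172553020450335175310623192806131694694191133912899052761083244557673006215967800043653725778083840) (.p (nat_lit 594) (.a (.f (nat_lit 595) (nat_lit 627) (nat_lit 4594) (.f (nat_lit 466) (nat_lit 563) (nat_lit 4562) (.d (nat_lit 467) (nat_lit 435) (nat_lit 6578) (nat_lit 499) (nat_lit 6610)))) (.a (.f (nat_lit 625) (nat_lit 593) (nat_lit 5617) (.f (nat_lit 626) (nat_lit 657) (nat_lit 5649) (.d (nat_lit 627) (nat_lit 595) (nat_lit 4594) (nat_lit 659) (nat_lit 4626)))) (.f (nat_lit 467) (nat_lit 499) (nat_lit 6610) (.f (nat_lit 466) (nat_lit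 435) (nat_lit 6578) (.f (nat_lit 465) (nat_lit 433) (nat_lit 7601) (.f (nat_lit 464) (nat_lit 495) (nat_lit 1487) (.d (nat_lit 431) (nat_lit 432) (nat_lit 3503) (nat_lit 463) (nat_lit 7599)))))))))
noncomputable def s5763 : Cert := .r (nat_lit 18869812128501177264714297687497305300375819541393265469040447602629035172553020450335175310623192806131694694191133912899052761083244557673006215967800043653725778083840) (.p (nat_lit 594) (.a (.f (nat_lit 595) (nat_lit 627) (nat_lit 4594) (.f (nat_lit 466) (nat_lit 563) (nat_lit 4562) (.d (nat_lit 467) (nat_lit 435) (nat_lit 6578) (nat_lit 499) (nat_lit 6610)))) (.a (.f (nat_lit 625) (nat_lit 593) (nat_lit 5617) (.f (nat_lit 626) (nat_lit 657) (nat_lit 5649) (.d (nat_lit 627) (nat_lit 595) (nat_lit 4594) (nat_lit 659) (nat_lit 4626)))) (.f (nat_lit 467) (nat_lit 499) (nat_lit 6610) (.f (nat_lit 466) (nat_lit 435) (nat_lit 6578) (.f (nat_lit 497) (nat_lit 495) (nat_lit 2511) (.f (nat_lit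 626) (nat_lit 529) (nat_lit 7665) (.d (nat_lit 625) (nat_lit 593) (nat_lit 5617) (nat_lit 657) (nat_lit 5649)))))))))
noncomputable def s5773 : Cert := .r (nat_lit 18869812128501177264714297687497305300375819541393265469040447602629035172553020450335175310623192806131694694191133912899052761083244557673006215967800043653725778083840) (.p (nat_lit 594) (.a (.f (nat_lit 625) (nat_lit 593) (nat_lit 5617) (.f (nat_lit 626) (nat_lit 657) (nat_lit 5649) (.d (nat_lit 627) (nat_lit 595) (nat_lit 4594) (nat_lit 659) (nat_lit 4626)))) (.a (.f (nat_lit 497) (nat_lit 465) (nat_lit 7633) (.f (nat_lit 499) (nat_lit 467) (nat_lit 6610) (.d (nat_lit 529) (nat_lit 500) (nat_lit 1520) (nat_lit 626) (nat_lit 7665)))) (.f (nat_lit 497) (nat_lit 465) (nat_lit 7633) (.f (nat_lit 499) (nat_lit 467) (nat_lit 6610) (.f (nat_lit 500) (nat_lit 529) (nat_lit 1520) (.f (nat_lit 469) (nat_lit 468) (nat_lit 2513) (.f (nat_lit 501) (nat_lit 470) (nat_lit 2514)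 (.d (nat_lit 533) (nat_lit 532) (nat_lit 497) (nat_lit 534) (nat_lit 498))))))))))
noncomputable def s5835 : Cert := .r (nat_lit 18869812128501177264714297687497305300375819541393265469040447602629035172553020450335175310623192806131694694191133912899052761083244557673006215967800043653725778083840) (.p (nat_lit 594) (.a (.f (nat_lit 595) (nat_lit 627) (nat_lit 4594) (.f (nat_lit 466) (nat_lit 563) (nat_lit 4562) (.d (nat_lit 467) (nat_lit 435) (nat_lit 6578) (nat_lit 499) (nat_lit 6610)))) (.a (.f (nat_lit 625) (nat_lit 593) (nat_lit 5617) (.f (nat_lit 626) (nat_lit 657) (nat_lit 5649) (.d (nat_lit 627) (nat_lit 595) (nat_lit 4594) (nat_lit 659) (nat_lit 4626)))) (.f (nat_lit 467) (nat_lit 499) (nat_lit 6610) (.f (nat_lit 466) (nat_lit 435) (nat_lit 6578) (.f (nat_lit 465) (nat_lit 433) (nat_lit 7601) (.f (nat_lit 464) (nat_lit 495) (nat_lit 1487) (.f (nat_lit 432) (nat_lit 431) (nat_lit 3503) (.d (nat_lit 559) (nat_lit 527) (nat_lit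 5551) (nat_lit 591) (nat_lit 5583))))))))))
noncomputable def s5836 : Cert := .r (nat_lit 18869812128501177264714297687497305300375819541393265469040447602629035172553020450335175310623192806131694694191133912899052761083244557673006215967800043653725778083840) (.p (nat_lit 594) (.a (.f (nat_lit 595) (nat_lit 627) (nat_lit 4594) (.f (nat_lit 466) (nat_lit 563) (nat_lit 4562) (.d (nat_lit 467) (nat_lit 435) (nat_lit 6578) (nat_lit 499) (nat_lit 6610)))) (.a (.f (nat_lit 497) (nat_lit 465) (nat_lit 7633) (.f (nat_lit 467) (nat_lit 499) (nat_lit 6610) (.d (nat_lit 466) (nat_lit 435) (nat_lit 6578) (nat_lit 495) (nat_lit 2511)))) (.a (.f (nat_lit 465) (nat_lit 497) (nat_lit 7633) (.d (nat_lit 433) (nat_lit 464) (nat_lit 6576) (nat_lit 466) (nat_lit 7601))) (.f (nat_lit 497) (nat_lit 465) (nat_lit 7633) (.f (nat_lit 499) (nat_lit 467) (nat_lit 6610) (.d (nat_lit 529) (nat_lit 500) (nat_lit 1520) (nat_lit 626) (nat_lit 7665))))))))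
noncomputable def s5849 : Cert := .r (nat_lit 18869812128501177264714297687497305300375819541393265469040447602629035172553020450335175310623192806131694694191133912899052761083244557673006215967800043653725778083840) (.p (nat_lit 466) (.a (.f (nat_lit 465) (nat_lit 433) (nat_lit 7601) (.f (nat_lit 467) (nat_lit 435) (nat_lit 6578) (.d (nat_lit 495) (nat_lit 464) (nat_lit 1487) (nat_lit 497) (nat_lit 2511)))) (.a (.f (nat_lit 433) (nat_lit 465) (nat_lit 7601) (.f (nat_lit 434) (nat_lit 401) (nat_lit 7569) (.d (nat_lit 435) (nat_lit 403) (nat_lit 6546) (nat_lit 467) (nat_lit 6578)))) (.a (.f (nat_lit 467) (nat_lit 435) (nat_lit 6578) (.f (nat_lit 497) (nat_lit 495) (nat_lit 2511) (.d (nat_lit 468) (nat_lit 469) (nat_lit 1489) (nat_lit 499) (nat_lit 2512)))) (.a (.f (nat_lit 433) (nat_lit 465) (nat_lit 7601) (.f (nat_lit 434) (nat_lit 401) (nat_lit 7569) (.f (nat_lit 403) (nat_lit 435) (nat_lit 6546) (.f (nat_lit 402) (nat_lit 371)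 (nat_lit 6514) (.f (nat_lit 529) (nat_lit 497) (nat_lit 5521) (.d (nat_lit 527) (nat_lit 499) (nat_lit 2543) (nat_lit 563) (nat_lit 527))))))) (.f (nat_lit 433) (nat_lit 465) (nat_lit 7601) (.f (nat_lit 434) (nat_lit 401) (nat_lit 7569) (.f (nat_lit 563) (nat_lit 595) (nat_lit 4562) (.f (nat_lit 529) (nat_lit 527) (nat_lit 527) (.f (nat_lit 497) (nat_lit 402) (nat_lit 5521) (.d (nat_lit 495) (nat_lit 467) (nat_lit 2511) (nat_lit 494) (nat_lit 494))))))))))))
noncomputable def s5850 : Cert := .r (nat_lit 18869812128501177264714297687497305300375819541393265469040447602629035172553020450335175310623192806131694694191133912899052761083244557673006215967800043653725778083840) (.p (nat_lit 594) (.a (.f (nat_lit 497) (nat_lit 465) (nat_lit 7633) (.f (nat_lit 467) (nat_lit 499) (nat_lit 6610) (.d (nat_lit 466) (nat_lit 435) (nat_lit 6578) (nat_lit 495) (nat_lit 2511)))) (.a (.f (nat_lit 467) (nat_lit 499) (nat_lit 6610) (.f (nat_lit 466)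 (nat_lit 435) (nat_lit 6578) (.f (nat_lit 465) (nat_lit 433) (nat_lit 7601) (.f (nat_lit 464) (nat_lit 495) (nat_lit 1487) (.f (nat_lit 432) (nat_lit 431) (nat_lit 3503) (.d (nat_lit 559) (nat_lit 527) (nat_lit 5551) (nat_lit 591) (nat_lit 5583))))))) (.a (.f (nat_lit 465) (nat_lit 497) (nat_lit 7633) (.d (nat_lit 433) (nat_lit 464) (nat_lit 6576) (nat_lit 466) (nat_lit 7601))) (.a (.f (nat_lit 467) (nat_lit 499) (nat_lit 6610) (.f (nat_lit 466) (nat_lit 435) (nat_lit 6578) (.f (nat_lit 497) (nat_lit 495) (nat_lit 2511) (.f (nat_lit 626) (nat_lit 529) (nat_lit 7665) (.d (nat_lit 625) (nat_lit 593) (nat_lit 5617) (nat_lit 657) (nat_lit 5649)))))) (.f (nat_lit 497) (nat_lit 465) (nat_lit 7633) (.f (nat_lit 499) (nat_lit 467) (nat_lit 6610) (.d (nat_lit 529) (nat_lit 500) (nat_lit 1520) (nat_lit 626) (nat_lit 7665)))))))))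
noncomputable def s5859 : Cert := .r (nat_lit 18869812128501177264714297687497305300375819541393265469040447602629035172553020450335175310623192806131694694191133912899052761083244557673006215967800043653725778083840) (.p (nat_lit 594) (.a (.f (nat_lit 595) (nat_lit 627) (nat_lit 4594) (.f (nat_lit 466) (nat_lit 563) (nat_lit 4562) (.d (nat_lit 467) (nat_lit 435) (nat_lit 6578) (nat_lit 499) (nat_lit 6610)))) (.a (.f (nat_lit 625) (nat_lit 593) (nat_lit 5617) (.f (nat_lit 626) (nat_lit 657) (nat_lit 5649) (.d (nat_lit 627) (nat_lit 595) (nat_lit 4594) (nat_lit 659) (nat_lit 4626)))) (.f (nat_lit 467) (nat_lit 499) (nat_lit 6610) (.f (nat_lit 466) (nat_lit 435) (nat_lit 6578) (.f (nat_lit 465) (nat_lit 433) (nat_lit 7601) (.f (nat_lit 464) (nat_lit 495) (nat_lit 1487) (.f (nat_lit 559) (nat_lit 591) (nat_lit 5583) (.f (nat_lit 527) (nat_lit 432) (nat_lit 5551) (.d (nat_lit 529) (nat_lit 558) (nat_lit 1550) (nat_lit 563) (nat_lit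 527)))))))))))
noncomputable def s5860 : Cert := .r (nat_lit 18869812128501177264714297687497305300375819541393265469040447602629035172553020450335175310623192806131694694191133912899052761083244557673006215967800043653725778083840) (.p (nat_lit 594) (.a (.f (nat_lit 497) (nat_lit 465) (nat_lit 7633) (.f (nat_lit 467) (nat_lit 499) (nat_lit 6610) (.d (nat_lit 466) (nat_lit 435) (nat_lit 6578) (nat_lit 495) (nat_lit 2511)))) (.a (.f (nat_lit 467) (nat_lit 499) (nat_lit 6610) (.f (nat_lit 466) (nat_lit 435) (nat_lit 6578) (.f (nat_lit 465) (nat_lit 433) (nat_lit 7601) (.f (nat_lit 464) (nat_lit 495) (nat_lit 1487) (.f (nat_lit 559) (nat_lit 591) (nat_lit 5583) (.f (nat_lit 527) (nat_lit 432) (nat_lit 5551) (.d (nat_lit 529) (nat_lit 558) (nat_lit 1550) (nat_lit 563) (nat_lit 527)))))))) (.a (.f (nat_lit 465) (nat_lit 497) (nat_lit 7633) (.d (nat_lit 433) (nat_lit 464) (nat_lit 6576) (nat_lit 466) (nat_lit 7601))) (.a (.f (nat_lit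 467) (nat_lit 499) (nat_lit 6610) (.f (nat_lit 466) (nat_lit 435) (nat_lit 6578) (.f (nat_lit 497) (nat_lit 495) (nat_lit 2511) (.f (nat_lit 626) (nat_lit 529) (nat_lit 7665) (.d (nat_lit 625) (nat_lit 593) (nat_lit 5617) (nat_lit 657) (nat_lit 5649)))))) (.f (nat_lit 497) (nat_lit 465) (nat_lit 7633) (.f (nat_lit 499) (nat_lit 467) (nat_lit 6610) (.d (nat_lit 529) (nat_lit 500) (nat_lit 1520) (nat_lit 626) (nat_lit 7665)))))))))
noncomputable def s5975 : Cert := .r (nat_lit 18869812128501177264509710774503796433499995185341540522026907474751343623210314739829166948347900646451490313420764903077122343325272053234930137433682206587892745109504) (.p (nat_lit 594) (.a (.f (nat_lit 595) (nat_lit 627) (nat_lit 4594) (.f (nat_lit 561) (nat_lit 559) (nat_lit 559) (.d (nat_lit 563) (nat_lit 466) (nat_lit 4562) (nat_lit 596) (nat_lit 560)))) (.a (.f (nat_lit 467) (nat_lit 499) (nat_lit 6610) (.f (nat_lit 466) (nat_lit 435) (nat_lit 6578)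 (.d (nat_lit 595) (nat_lit 563) (nat_lit 4562) (nat_lit 627) (nat_lit 4594)))) (.a (.f (nat_lit 499) (nat_lit 467) (nat_lit 6610) (.f (nat_lit 626) (nat_lit 531) (nat_lit 6642) (.d (nat_lit 627) (nat_lit 595) (nat_lit 4594) (nat_lit 659) (nat_lit 4626)))) (.f (nat_lit 499) (nat_lit 467) (nat_lit 6610) (.f (nat_lit 531) (nat_lit 626) (nat_lit 6642) (.f (nat_lit 561) (nat_lit 559) (nat_lit 2575) (.d (nat_lit 532) (nat_lit 533) (nat_lit 1553) (nat_lit 563) (nat_lit 2576)))))))))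
noncomputable def s5976 : Cert := .r (nat_lit 18869812128501177264509710774503796433499995185341540522026907474751343623210314739829166948347900646451490313420764903077122343325272053234930137433682206587892745109504) (.p (nat_lit 594) (.a (.f (nat_lit 593) (nat_lit 625) (nat_lit 5617) (.f (nat_lit 561) (nat_lit 466) (nat_lit 5585) (.d (nat_lit 559) (nat_lit 531) (nat_lit 2575) (nat_lit 558) (nat_lit 558)))) (.a (.f (nat_lit 625) (nat_lit 593) (nat_lit 5617) (.f (nat_lit 626) (nat_lit 657) (nat_lit 5649) (.d (nat_lit 499) (nat_lit 467) (nat_lit 6610) (nat_lit 531) (nat_lit 6642)))) (.a (.f (nat_lit 595) (nat_lit 627) (nat_lit 4594) (.f (nat_lit 561) (nat_lit 559) (nat_lit 559) (.d (nat_lit 593) (nat_lit 596) (nat_lit 3632) (nat_lit 625) (nat_lit 5617)))) (.f (nat_lit 499) (nat_lit 467) (nat_lit 6610) (.f (nat_lit 626) (nat_lit 531) (nat_lit 6642) (.d (nat_lit 627) (nat_lit 595) (nat_lit 4594) (nat_lit 659) (nat_lit 4626))))))))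
noncomputable def s5982 : Cert := .r (nat_lit 18869812128501177264509710774503796433499995185341540522026907474751343623210314739829166948347900646451490313420764903077122343325272053234930137433682206587892745109504) (.p (nat_lit 561) (.a (.f (nat_lit 466) (nat_lit 593) (nat_lit 5585) (.f (nat_lit 563) (nat_lit 595) (nat_lit 4562) (.d (nat_lit 531) (nat_lit 434) (nat_lit 4530) (nat_lit 532) (nat_lit 2576)))) (.a (.f (nat_lit 563) (nat_lit 527) (nat_lit 3599) (.d (nat_lit 466) (nat_lit 593) (nat_lit 5585) (nat_lit 595) (nat_lit 4562))) (.a (.f (nat_lit 563) (nat_lit 527) (nat_lit 3599) (.d (nat_lit 595) (nat_lit 466) (nat_lit 4562) (nat_lit 596) (nat_lit 560))) (.f (nat_lit 559) (nat_lit 531) (nat_lit 2575) (.f (nat_lit 591) (nat_lit 590) (nat_lit 1582) (.f (nat_lit 496) (nat_lit 464) (nat_lit 5583) (.d (nat_lit 623) (nat_lit 527) (nat_lit 6639) (nat_lit 655) (nat_lit 6671)))))))))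
noncomputable def s5983 : Cert := .r (nat_lit 3773962429215011855543492450550720869832310303675778808522082273768846973641719331484660047637265576285616813297709523478040004805572882704684400427951422413295163801600) (.p (nat_lit 562) (.a (.p (nat_lit 561) (.a (.f (nat_lit 466) (nat_lit 593) (nat_lit 5585) (.f (nat_lit 563) (nat_lit 595) (nat_lit 4562) (.d (nat_lit 531) (nat_lit 434) (nat_lit 4530) (nat_lit 532) (nat_lit 2576)))) (.a (.f (nat_lit 466) (nat_lit 593) (nat_lit 5585) (.f (nat_lit 435) (nat_lit 467) (nat_lit 6578) (.f (nat_lit 434) (nat_lit 403) (nat_lit 6546) (.d (nat_lit 433) (nat_lit 401) (nat_lit 7569) (nat_lit 465) (nat_lit 7601))))) (.f (nat_lit 531) (nat_lit 559) (nat_lit 2575) (.d (nat_lit 532) (nat_lit 533) (nat_lit 1553) (nat_lit 563) (nat_lit 2576)))))) (.a (.p (nat_lit 594) (.a (.f (nat_lit 625) (nat_lit 593) (nat_lit 5617) (.f (nat_lit 626) (nat_lit 657) (nat_lit 5649) (.d (nat_lit 499) (nat_lit 467) (nat_lit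 6610) (nat_lit 531) (nat_lit 6642)))) (.a (.f (nat_lit 467) (nat_lit 499) (nat_lit 6610) (.f (nat_lit 466) (nat_lit 435) (nat_lit 6578) (.d (nat_lit 595) (nat_lit 563) (nat_lit 4562) (nat_lit 627) (nat_lit 4594)))) (.f (nat_lit 625) (nat_lit 593) (nat_lit 5617) (.f (nat_lit 626) (nat_lit 657) (nat_lit 5649) (.d (nat_lit 627) (nat_lit 595) (nat_lit 4594) (nat_lit 659) (nat_lit 4626))))))) (.a s5459 (.a s5975 (.a s5976 (.a (.p (nat_lit 594) (.a (.f (nat_lit 595) (nat_lit 627) (nat_lit 4594) (.f (nat_lit 561) (nat_lit 559) (nat_lit 559) (.d (nat_lit 593) (nat_lit 596) (nat_lit 3632) (nat_lit 625) (nat_lit 5617)))) (.a (.f (nat_lit 625) (nat_lit 593) (nat_lit 5617) (.f (nat_lit 626) (nat_lit 657) (nat_lit 5649) (.d (nat_lit 499) (nat_lit 467) (nat_lit 6610) (nat_lit 531) (nat_lit 6642)))) (.f (nat_lit 595) (nat_lit 627) (nat_lit 4594) (.f (nat_lit 561) (nat_lit 559) (nat_lit 559) (.d (nat_lit 596) (nat_lit 563) (nat_lit 560) (nat_lit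 597) (nat_lit 3633))))))) (.a (.p (nat_lit 561) (.a (.f (nat_lit 466) (nat_lit 593) (nat_lit 5585) (.f (nat_lit 435) (nat_lit 467) (nat_lit 6578) (.f (nat_lit 434) (nat_lit 403) (nat_lit 6546) (.d (nat_lit 433) (nat_lit 401) (nat_lit 7569) (nat_lit 465) (nat_lit 7601))))) (.f (nat_lit 559) (nat_lit 531) (nat_lit 2575) (.f (nat_lit 591) (nat_lit 590) (nat_lit 1582) (.f (nat_lit 496) (nat_lit 464) (nat_lit 5583) (.d (nat_lit 623) (nat_lit 527) (nat_lit 6639) (nat_lit 655) (nat_lit 6671))))))) s5982))))))))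
noncomputable def s5984 : Cert := .r (nat_lit 3773962429215011855748079363544229736708134659727503755535622401646538522984425041990668409912557735965821194068078533299970422563545387142760478962069259479128196775936) (.p (nat_lit 464) (.a (.f (nat_lit 433) (nat_lit 465) (nat_lit 6576) (.f (nat_lit 432) (nat_lit 401) (nat_lit 6544) (.d (nat_lit 431) (nat_lit 399) (nat_lit 7567) (nat_lit 463) (nat_lit 7599)))) (.a (.f (nat_lit 559) (nat_lit 591) (nat_lit 5583) (.f (nat_lit 432) (nat_lit 527) (nat_lit 5551) (.d (nat_lit 431) (nat_lit 399) (nat_lit 7567) (nat_lit 463) (nat_lit 7599)))) (.a (.f (nat_lit 465) (nat_lit 433) (nat_lit 6576) (.f (nat_lit 463) (nat_lit 431) (nat_lit 7599) (.f (nat_lit 466) (nat_lit 499) (nat_lit 463) (.d (nat_lit 495) (nat_lit 467) (nat_lit 1487) (nat_lit 494) (nat_lit 1486))))) (.f (nat_lit 433) (nat_lit 465) (nat_lit 6576) (.f (nat_lit 432) (nat_lit 401) (nat_lit 6544) (.d (nat_lit 559) (nat_lit 527) (nat_lit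 5551) (nat_lit 591) (nat_lit 5583))))))))
noncomputable def s6009 : Cert := .r (nat_lit 3773962429215011855748079363544229736708134659727503755535622401646538522984425041990668409912557735965821194068078533299970422563545387142760478962069259479128196775936) (.p (nat_lit 464) (.a (.f (nat_lit 433) (nat_lit 465) (nat_lit 6576) (.f (nat_lit 432) (nat_lit 401) (nat_lit 6544) (.d (nat_lit 431) (nat_lit 399) (nat_lit 7567) (nat_lit 463) (nat_lit 7599)))) (.a (.f (nat_lit 559) (nat_lit 591) (nat_lit 5583) (.f (nat_lit 432) (nat_lit 527) (nat_lit 5551) (.d (nat_lit 431) (nat_lit 399) (nat_lit 7567) (nat_lit 463) (nat_lit 7599)))) (.a (.f (nat_lit 465) (nat_lit 433) (nat_lit 6576) (.f (nat_lit 463) (nat_lit 431) (nat_lit 7599) (.f (nat_lit 497) (nat_lit 462) (nat_lit 462) (.f (nat_lit 495) (nat_lit 531) (nat_lit 495) (.d (nat_lit 466) (nat_lit 467) (nat_lit 1487) (nat_lit 494) (nat_lit 2510)))))) (.f (nat_lit 433) (nat_lit 465) (nat_lit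 6576) (.f (nat_lit 432) (nat_lit 401) (nat_lit 6544) (.d (nat_lit 559) (nat_lit 527) (nat_lit 5551) (nat_lit 591) (nat_lit 5583))))))))
noncomputable def s6026 : Cert := .r (nat_lit 3773962429215011855748079363544229736708134659727503755535622401646538522984425041990668409912557735965821194068078533299970422563545387142760478962069259479128196775936) (.p (nat_lit 464) (.a (.f (nat_lit 463) (nat_lit 431) (nat_lit 7599) (.f (nat_lit 497) (nat_lit 499) (nat_lit 3535) (.d (nat_lit 462) (nat_lit 461) (nat_lit 461) (nat_lit 495) (nat_lit 3534)))) (.a (.f (nat_lit 559) (nat_lit 591) (nat_lit 5583) (.f (nat_lit 432) (nat_lit 527) (nat_lit 5551) (.d (nat_lit 431) (nat_lit 399) (nat_lit 7567) (nat_lit 463) (nat_lit 7599)))) (.a (.f (nat_lit 559) (nat_lit 591) (nat_lit 5583) (.f (nat_lit 432) (nat_lit 527) (nat_lit 5551) (.f (nat_lit 401) (nat_lit 433) (nat_lit 6544) (.f (nat_lit 400) (nat_lit 369) (nat_lit 6512) (.d (nat_lit 399) (nat_lit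 367) (nat_lit 7535) (nat_lit 431) (nat_lit 7567)))))) (.f (nat_lit 559) (nat_lit 591) (nat_lit 5583) (.f (nat_lit 432) (nat_lit 527) (nat_lit 5551) (.f (nat_lit 401) (nat_lit 433) (nat_lit 6544) (.f (nat_lit 400) (nat_lit 369) (nat_lit 6512) (.f (nat_lit 367) (nat_lit 399) (nat_lit 7535) (.f (nat_lit 368) (nat_lit 335) (nat_lit 7503) (.f (nat_lit 495) (nat_lit 463) (nat_lit 5487) (.f (nat_lit 497) (nat_lit 531) (nat_lit 495) (.f (nat_lit 467) (nat_lit 466) (nat_lit 2511) (.f (nat_lit 499) (nat_lit 468) (nat_lit 2512) (.d (nat_lit 403) (nat_lit 402) (nat_lit 3439) (nat_lit 435) (nat_lit 5522))))))))))))))))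
noncomputable def s6027 : Cert := .r (nat_lit 3773962429215011855748079363544229736708134659727503755535622401646538522984425041990668409912557735965821194068078533299970422563545387142760478962069259479128196775936) (.p (nat_lit 464) (.a (.f (nat_lit 433) (nat_lit 465) (nat_lit 6576) (.f (nat_lit 432) (nat_lit 401) (nat_lit 6544) (.d (nat_lit 431) (nat_lit 399) (nat_lit 7567) (nat_lit 463) (nat_lit 7599)))) (.a (.f (nat_lit 559) (nat_lit 591) (nat_lit 5583) (.f (nat_lit 432) (nat_lit 527) (nat_lit 5551) (.d (nat_lit 431) (nat_lit 399) (nat_lit 7567) (nat_lit 463) (nat_lit 7599)))) (.a (.f (nat_lit 465) (nat_lit 433) (nat_lit 6576) (.f (nat_lit 463) (nat_lit 431) (nat_lit 7599) (.d (nat_lit 497) (nat_lit 462) (nat_lit 462) (nat_lit 499) (nat_lit 3535)))) (.f (nat_lit 433) (nat_lit 465) (nat_lit 6576) (.f (nat_lit 432) (nat_lit 401) (nat_lit 6544) (.d (nat_lit 559) (nat_lit 527) (nat_lit 5551) (nat_lit 591) (nat_lit 5583))))))))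
noncomputable def s6041 : Cert := .r (nat_lit 3773962429215011855748079363544229736708134659727503755535622401646538522984425041990668409912557735965821194068078533299970422563545387142760478962069259479128196775936) (.p (nat_lit 497) (.a (.f (nat_lit 499) (nat_lit 527) (nat_lit 1519) (.d (nat_lit 531) (nat_lit 495) (nat_lit 495) (nat_lit 532) (nat_lit 496))) (.a (.f (nat_lit 531) (nat_lit 495) (nat_lit 495) (.d (nat_lit 532) (nat_lit 499) (nat_lit 496) (nat_lit 533) (nat_lit 3569))) (.a (.f (nat_lit 499) (nat_lit 527) (nat_lit 1519) (.f (nat_lit 468) (nat_lit 467) (nat_lit 2512) (.f (nat_lit 500) (nat_lit 469) (nat_lit 2513) (.f (nat_lit 465) (nat_lit 464) (nat_lit 3536) (.f (nat_lit 501) (nat_lit 466) (nat_lit 3537) (.d (nat_lit 533) (nat_lit 532) (nat_lit 497) (nat_lit 534) (nat_lit 498))))))) (.f (nat_lit 495) (nat_lit 531) (nat_lit 495) (.f (nat_lit 466) (nat_lit 467) (nat_lit 2511) (.f (nat_lit 465) (nat_lit 494) (nat_lit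 2510) (.d (nat_lit 433) (nat_lit 401) (nat_lit 4497) (nat_lit 464) (nat_lit 6576)))))))))
noncomputable def s6052 : Cert := .r (nat_lit 18869812128501177264509710774503796433499995185341540522026907474751343623210314739829166948347900646451490313420764903077122343325272053234930137433682206587892745109504) (.p (nat_lit 594) (.a (.f (nat_lit 595) (nat_lit 627) (nat_lit 4594) (.f (nat_lit 561) (nat_lit 559) (nat_lit 559) (.d (nat_lit 593) (nat_lit 596) (nat_lit 3632) (nat_lit 625) (nat_lit 5617)))) (.a (.f (nat_lit 625) (nat_lit 593) (nat_lit 5617) (.f (nat_lit 626) (nat_lit 657) (nat_lit 5649) (.d (nat_lit 627) (nat_lit 595) (nat_lit 4594) (nat_lit 659) (nat_lit 4626)))) (.a (.f (nat_lit 595) (nat_lit 627) (nat_lit 4594) (.f (nat_lit 561) (nat_lit 559) (nat_lit 559) (.d (nat_lit 596) (nat_lit 563) (nat_lit 560) (nat_lit 597) (nat_lit 3633)))) (.f (nat_lit 593) (nat_lit 625) (nat_lit 5617) (.f (nat_lit 497) (nat_lit 465) (nat_lit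 7633) (.f (nat_lit 499) (nat_lit 467) (nat_lit 6610) (.f (nat_lit 496) (nat_lit 527) (nat_lit 1519) (.d (nat_lit 464) (nat_lit 463) (nat_lit 3535) (nat_lit 561) (nat_lit 4560))))))))))
noncomputable def s6059 : Cert := .r (nat_lit 18869812128501177264509710774503796433499995185341540522026907474751343623210314739829166948347900646451490313420764903077122343325272053234930137433682206587892745109504) (.p (nat_lit 594) (.a (.f (nat_lit 467) (nat_lit 499) (nat_lit 6610) (.f (nat_lit 466) (nat_lit 435) (nat_lit 6578) (.d (nat_lit 465) (nat_lit 433) (nat_lit 7601) (nat_lit 497) (nat_lit 7633)))) (.a (.f (nat_lit 593) (nat_lit 625) (nat_lit 5617) (.f (nat_lit 466) (nat_lit 561) (nat_lit 5585) (.d (nat_lit 467) (nat_lit 435) (nat_lit 6578) (nat_lit 499) (nat_lit 6610)))) (.a (.f (nat_lit 593) (nat_lit 625) (nat_lit 5617) (.f (nat_lit 561) (nat_lit 466) (nat_lit 5585) (.f (nat_lit 559) (nat_lit 558) (nat_lit 558) (.f (nat_lit 591) (nat_lit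 590) (nat_lit 1582) (.f (nat_lit 496) (nat_lit 464) (nat_lit 4560) (.d (nat_lit 527) (nat_lit 563) (nat_lit 3599) (nat_lit 623) (nat_lit 6639))))))) (.f (nat_lit 593) (nat_lit 625) (nat_lit 5617) (.f (nat_lit 497) (nat_lit 465) (nat_lit 7633) (.f (nat_lit 499) (nat_lit 467) (nat_lit 6610) (.f (nat_lit 496) (nat_lit 527) (nat_lit 1519) (.d (nat_lit 464) (nat_lit 463) (nat_lit 3535) (nat_lit 561) (nat_lit 4560))))))))))
noncomputable def s6060 : Cert := .r (nat_lit 18869812128501177264509710774503796433499995185341540522026907474751343623210314739829166948347900646451490313420764903077122343325272053234930137433682206587892745109504) (.p (nat_lit 594) (.a (.f (nat_lit 595) (nat_lit 627) (nat_lit 4594) (.f (nat_lit 561) (nat_lit 559) (nat_lit 559) (.d (nat_lit 466) (nat_lit 563) (nat_lit 4562) (nat_lit 593) (nat_lit 5585)))) (.a (.f (nat_lit 595) (nat_lit 627) (nat_lit 4594) (.f (nat_lit 466) (nat_lit 563) (nat_lit 4562) (.d (nat_lit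 465) (nat_lit 433) (nat_lit 7601) (nat_lit 497) (nat_lit 7633)))) (.a (.f (nat_lit 595) (nat_lit 627) (nat_lit 4594) (.f (nat_lit 561) (nat_lit 559) (nat_lit 559) (.d (nat_lit 593) (nat_lit 596) (nat_lit 3632) (nat_lit 625) (nat_lit 5617)))) (.f (nat_lit 593) (nat_lit 625) (nat_lit 5617) (.f (nat_lit 561) (nat_lit 466) (nat_lit 5585) (.f (nat_lit 559) (nat_lit 558) (nat_lit 558) (.f (nat_lit 591) (nat_lit 590) (nat_lit 1582) (.f (nat_lit 496) (nat_lit 464) (nat_lit 4560) (.d (nat_lit 527) (nat_lit 563) (nat_lit 3599) (nat_lit 623) (nat_lit 6639)))))))))))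
noncomputable def s6061 : Cert := .r (nat_lit 3773962429215011855543492450550720869832310303675778808522082273768846973641719331484660047637265576285616813297709523478040004805572882704684400427951422413295163801600) (.p (nat_lit 562) (.a (.p (nat_lit 594) (.a (.f (nat_lit 595) (nat_lit 627) (nat_lit 4594) (.f (nat_lit 561) (nat_lit 559) (nat_lit 559) (.d (nat_lit 563) (nat_lit 466) (nat_lit 4562) (nat_lit 596) (nat_lit 560)))) (.a (.f (nat_lit 467) (nat_lit 499) (nat_lit 6610) (.f (nat_lit 466) (nat_lit 435) (nat_lit 6578) (.d (nat_lit 465) (nat_lit 433) (nat_lit 7601) (nat_lit 497) (nat_lit 7633)))) (.f (nat_lit 595) (nat_lit 627) (nat_lit 4594) (.f (nat_lit 561) (nat_lit 559) (nat_lit 559) (.d (nat_lit 596) (nat_lit 563) (nat_lit 560) (nat_lit 597) (nat_lit 3633))))))) (.a s5676 (.a s5459 (.a (.p (nat_lit 594) (.a (.f (nat_lit 595) (nat_lit 627) (nat_lit 4594) (.f (nat_lit 561) (nat_lit 559) (nat_lit 559) (.d (nat_lit 593) (nat_lit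 596) (nat_lit 3632) (nat_lit 625) (nat_lit 5617)))) (.f (nat_lit 467) (nat_lit 499) (nat_lit 6610) (.f (nat_lit 466) (nat_lit 435) (nat_lit 6578) (.d (nat_lit 465) (nat_lit 433) (nat_lit 7601) (nat_lit 497) (nat_lit 7633)))))) (.a (.p (nat_lit 466) (.a (.f (nat_lit 433) (nat_lit 465) (nat_lit 7601) (.f (nat_lit 434) (nat_lit 401) (nat_lit 7569) (.d (nat_lit 435) (nat_lit 403) (nat_lit 6546) (nat_lit 467) (nat_lit 6578)))) (.f (nat_lit 561) (nat_lit 593) (nat_lit 5585) (.d (nat_lit 563) (nat_lit 527) (nat_lit 3599) (nat_lit 595) (nat_lit 4562))))) (.a s6052 (.a s6059 s6060))))))))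
noncomputable def s6073 : Cert := .r (nat_lit 64836180782635327105257550134684103759073268812288071747773686298443357653078033410705737379627663734100992624753065144395689138630431332511004472517960820044013172266041331417088) (.f (nat_lit 465) (nat_lit 497) (nat_lit 7633) (.f (nat_lit 466) (nat_lit 433) (nat_lit 7601) (.f (nat_lit 435) (nat_lit 467) (nat_lit 6578) (.f (nat_lit 434) (nat_lit 403) (nat_lit 6546) (.f (nat_lit 595) (nat_lit 627) (nat_lit 4594) (.f (nat_lit 559) (nat_lit 561) (nat_lit 559) (.f (nat_lit 464) (nat_lit 463) (nat_lit 2479) (.f (nat_lit 496) (nat_lit 591) (nat_lit 5583) (.f (nat_lit 432) (nat_lit 527) (nat_lit 5551) (.f (nat_lit 399) (nat_lit 431) (nat_lit 7567) (.f (nat_lit 400) (nat_lit 367) (nat_lit 7535) (.d (nat_lit 401) (nat_lit 369) (nat_lit 6512) (nat_lit 402) (nat_lit 399)))))))))))))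
noncomputable def s6084 : Cert := .r (nat_lit 18869812128501177264509710774503796433499995185341540522026907474751343623210314739829166948347900646451490313420764903077122343325272053234930137433682206587892745109504) (.p (nat_lit 594) (.a (.f (nat_lit 467) (nat_lit 499) (nat_lit 6610) (.f (nat_lit 466) (nat_lit 435) (nat_lit 6578) (.d (nat_lit 465) (nat_lit 433) (nat_lit 7601) (nat_lit 497) (nat_lit 7633)))) (.a (.f (nat_lit 499) (nat_lit 467) (nat_lit 6610) (.f (nat_lit 626) (nat_lit 531) (nat_lit 6642) (.d (nat_lit 627) (nat_lit 595) (nat_lit 4594) (nat_lit 659) (nat_lit 4626)))) (.a s6073 (.f (nat_lit 497) (nat_lit 465) (nat_lit 7633) (.f (nat_lit 627) (nat_lit 595) (nat_lit 4594) (.f (nat_lit 626) (nat_lit 659) (nat_lit 4626) (.f (nat_lit 531) (nat_lit 499) (nat_lit 6642) (.f (nat_lit 657) (nat_lit 625) (nat_lit 5649) (.f (nat_lit 658) (nat_lit 689) (nat_lit 5681) (.f (nat_lit 655) (nat_lit 656) (nat_lit 2671) (.f (nat_lit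 559) (nat_lit 561) (nat_lit 2575) (.f (nat_lit 496) (nat_lit 495) (nat_lit 495) (.d (nat_lit 591) (nat_lit 464) (nat_lit 5583) (nat_lit 623) (nat_lit 6671)))))))))))))))
noncomputable def s6085 : Cert := .r (nat_lit 18869812128501177264509710774503796433499995185341540522026907474751343623210314739829166948347900646451490313420764903077122343325272053234930137433682206587892745109504) (.p (nat_lit 594) (.a (.f (nat_lit 593) (nat_lit 625) (nat_lit 5617) (.f (nat_lit 561) (nat_lit 466) (nat_lit 5585) (.d (nat_lit 559) (nat_lit 531) (nat_lit 2575) (nat_lit 558) (nat_lit 558)))) (.a (.f (nat_lit 625) (nat_lit 593) (nat_lit 5617) (.f (nat_lit 626) (nat_lit 657) (nat_lit 5649) (.d (nat_lit 627) (nat_lit 595) (nat_lit 4594) (nat_lit 659) (nat_lit 4626)))) (.a (.f (nat_lit 497) (nat_lit 465) (nat_lit 7633) (.f (nat_lit 627) (nat_lit 595) (nat_lit 4594) (.f (nat_lit 626) (nat_lit 659) (nat_lit 4626) (.f (nat_lit 531) (nat_lit 499) (nat_lit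 6642) (.f (nat_lit 657) (nat_lit 625) (nat_lit 5649) (.f (nat_lit 658) (nat_lit 689) (nat_lit 5681) (.f (nat_lit 655) (nat_lit 656) (nat_lit 2671) (.f (nat_lit 559) (nat_lit 561) (nat_lit 2575) (.f (nat_lit 496) (nat_lit 495) (nat_lit 495) (.d (nat_lit 591) (nat_lit 464) (nat_lit 5583) (nat_lit 623) (nat_lit 6671))))))))))) (.f (nat_lit 595) (nat_lit 627) (nat_lit 4594) (.f (nat_lit 561) (nat_lit 559) (nat_lit 559) (.d (nat_lit 593) (nat_lit 466) (nat_lit 5585) (nat_lit 596) (nat_lit 3632))))))))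
noncomputable def s6087 : Cert := .r (nat_lit 3773962429215011855543492450550720869832310303675778808522082273768846973641719331484660047637265576285616813297709523478040004805572882704684400427951422413295163801600) (.p (nat_lit 562) (.a (.p (nat_lit 594) (.a (.f (nat_lit 467) (nat_lit 499) (nat_lit 6610) (.f (nat_lit 466) (nat_lit 435) (nat_lit 6578) (.d (nat_lit 465) (nat_lit 433) (nat_lit 7601) (nat_lit 497) (nat_lit 7633)))) (.a (.f (nat_lit 625) (nat_lit 593) (nat_lit 5617) (.f (nat_lit 626) (nat_lit 657) (nat_lit 5649) (.d (nat_lit 499) (nat_lit 467) (nat_lit 6610) (nat_lit 531) (nat_lit 6642)))) (.f (nat_lit 595) (nat_lit 627) (nat_lit 4594) (.f (nat_lit 466) (nat_lit 563) (nat_lit 4562) (.d (nat_lit 465) (nat_lit 433) (nat_lit 7601) (nat_lit 497) (nat_lit 7633))))))) (.a (.p (nat_lit 594) (.a (.f (nat_lit 625) (nat_lit 593) (nat_lit 5617) (.f (nat_lit 626) (nat_lit 657) (nat_lit 5649) (.d (nat_lit 499) (nat_lit 467) (nat_lit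 6610) (nat_lit 531) (nat_lit 6642)))) (.a (.f (nat_lit 467) (nat_lit 499) (nat_lit 6610) (.f (nat_lit 466) (nat_lit 435) (nat_lit 6578) (.d (nat_lit 595) (nat_lit 563) (nat_lit 4562) (nat_lit 627) (nat_lit 4594)))) (.f (nat_lit 625) (nat_lit 593) (nat_lit 5617) (.f (nat_lit 626) (nat_lit 657) (nat_lit 5649) (.d (nat_lit 627) (nat_lit 595) (nat_lit 4594) (nat_lit 659) (nat_lit 4626))))))) (.a s5676 (.a s5672 (.a (.p (nat_lit 466) (.a (.f (nat_lit 433) (nat_lit 465) (nat_lit 7601) (.f (nat_lit 434) (nat_lit 401) (nat_lit 7569) (.d (nat_lit 435) (nat_lit 403) (nat_lit 6546) (nat_lit 467) (nat_lit 6578)))) (.f (nat_lit 561) (nat_lit 593) (nat_lit 5585) (.d (nat_lit 563) (nat_lit 527) (nat_lit 3599) (nat_lit 595) (nat_lit 4562))))) (.a (.p (nat_lit 594) (.a (.f (nat_lit 467) (nat_lit 499) (nat_lit 6610) (.f (nat_lit 466) (nat_lit 435) (nat_lit 6578) (.d (nat_lit 465) (nat_lit 433) (nat_lit 7601) (nat_lit 497) (nat_lit 7633)))) (.a (.f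 (nat_lit 625) (nat_lit 593) (nat_lit 5617) (.f (nat_lit 626) (nat_lit 657) (nat_lit 5649) (.d (nat_lit 499) (nat_lit 467) (nat_lit 6610) (nat_lit 531) (nat_lit 6642)))) (.f (nat_lit 625) (nat_lit 593) (nat_lit 5617) (.f (nat_lit 626) (nat_lit 657) (nat_lit 5649) (.d (nat_lit 627) (nat_lit 595) (nat_lit 4594) (nat_lit 659) (nat_lit 4626))))))) (.a s5701 (.a s5719 s5454)))))))))
noncomputable def s6094 : Cert := .r (nat_lit 18869812128501177264509710774503796433499995185341540522026907474751343623210314739829166948347900646451490313420764903077122343325272053234930137433682206587892745109504) (.p (nat_lit 561) (.a (.f (nat_lit 531) (nat_lit 559) (nat_lit 2575) (.d (nat_lit 532) (nat_lit 533) (nat_lit 1553) (nat_lit 563) (nat_lit 2576))) (.a (.f (nat_lit 563) (nat_lit 527) (nat_lit 3599) (.f (nat_lit 595) (nat_lit 596) (nat_lit 560) (.d (nat_lit 594) (nat_lit 559) (nat_lit 559) (nat_lit 627) (nat_lit 4594)))) (.a (.f (nat_lit 559)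 (nat_lit 531) (nat_lit 2575) (.f (nat_lit 591) (nat_lit 590) (nat_lit 1582) (.f (nat_lit 496) (nat_lit 464) (nat_lit 5583) (.d (nat_lit 623) (nat_lit 527) (nat_lit 6639) (nat_lit 655) (nat_lit 6671))))) (.f (nat_lit 563) (nat_lit 527) (nat_lit 3599) (.f (nat_lit 595) (nat_lit 596) (nat_lit 560) (.d (nat_lit 531) (nat_lit 532) (nat_lit 2576) (nat_lit 627) (nat_lit 7666))))))))
noncomputable def s6096 : Cert := .r (nat_lit 18869812128501177264509710774503796433499995185341540522026907474751343623210314739829166948347900646451490313420764903077122343325272053234930137433682206587892745109504) (.p (nat_lit 594) (.a (.f (nat_lit 593) (nat_lit 625) (nat_lit 5617) (.f (nat_lit 561) (nat_lit 466) (nat_lit 5585) (.d (nat_lit 559) (nat_lit 531) (nat_lit 2575) (nat_lit 558) (nat_lit 558)))) (.a (.f (nat_lit 625) (nat_lit 593) (nat_lit 5617) (.f (nat_lit 626) (nat_lit 657) (nat_lit 5649) (.d (nat_lit 499) (nat_lit 467) (nat_lit 6610) (nat_lit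 531) (nat_lit 6642)))) (.a (.f (nat_lit 593) (nat_lit 625) (nat_lit 5617) (.f (nat_lit 466) (nat_lit 561) (nat_lit 5585) (.d (nat_lit 467) (nat_lit 435) (nat_lit 6578) (nat_lit 499) (nat_lit 6610)))) (.f (nat_lit 499) (nat_lit 467) (nat_lit 6610) (.f (nat_lit 531) (nat_lit 626) (nat_lit 6642) (.f (nat_lit 561) (nat_lit 559) (nat_lit 2575) (.d (nat_lit 532) (nat_lit 533) (nat_lit 1553) (nat_lit 563) (nat_lit 2576)))))))))
noncomputable def s6136 : Cert := .r (nat_lit 18869812128501177264509710774503796433499995185341540522026907474751343623210314739829166948347900646451490313420764903077122343325272053234930137433682206587892745109504) (.p (nat_lit 594) (.a (.f (nat_lit 625) (nat_lit 593) (nat_lit 5617) (.f (nat_lit 626) (nat_lit 657) (nat_lit 5649) (.d (nat_lit 499) (nat_lit 467) (nat_lit 6610) (nat_lit 531) (nat_lit 6642)))) (.a (.f (nat_lit 593) (nat_lit 625) (nat_lit 5617) (.f (nat_lit 497) (nat_lit 465) (nat_lit 7633) (.f (nat_lit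 499) (nat_lit 467) (nat_lit 6610) (.f (nat_lit 496) (nat_lit 527) (nat_lit 1519) (.d (nat_lit 464) (nat_lit 463) (nat_lit 3535) (nat_lit 561) (nat_lit 4560)))))) (.a (.f (nat_lit 499) (nat_lit 467) (nat_lit 6610) (.f (nat_lit 531) (nat_lit 626) (nat_lit 6642) (.f (nat_lit 561) (nat_lit 559) (nat_lit 2575) (.d (nat_lit 532) (nat_lit 533) (nat_lit 1553) (nat_lit 563) (nat_lit 2576))))) (.f (nat_lit 625) (nat_lit 593) (nat_lit 5617) (.f (nat_lit 626) (nat_lit 657) (nat_lit 5649) (.f (nat_lit 659) (nat_lit 627) (nat_lit 4626) (.f (nat_lit 658) (nat_lit 691) (nat_lit 4658) (.f (nat_lit 531) (nat_lit 563) (nat_lit 6674) (.f (nat_lit 497) (nat_lit 465) (nat_lit 7633) (.f (nat_lit 496) (nat_lit 495) (nat_lit 495) (.f (nat_lit 559) (nat_lit 561) (nat_lit 2575) (.f (nat_lit 464) (nat_lit 591) (nat_lit 5583) (.f (nat_lit 432) (nat_lit 527) (nat_lit 5551) (.d (nat_lit 431) (nat_lit 399) (nat_lit 7567) (nat_lit 463) (nat_lit 7599))))))))))))))))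
noncomputable def s6169 : Cert := .r (nat_lit 18869812128501177264509710774503796433499995185341540522026907474751343623210314739829166948347900646451490313420764903077122343325272053234930137433682206587892745109504) (.p (nat_lit 466) (.a (.f (nat_lit 433) (nat_lit 465) (nat_lit 7601) (.f (nat_lit 434) (nat_lit 401) (nat_lit 7569) (.d (nat_lit 435) (nat_lit 403) (nat_lit 6546) (nat_lit 467) (nat_lit 6578)))) (.a (.f (nat_lit 435) (nat_lit 467) (nat_lit 6578) (.f (nat_lit 434) (nat_lit 403) (nat_lit 6546) (.f (nat_lit 401) (nat_lit 433) (nat_lit 7569) (.f (nat_lit 402) (nat_lit 369) (nat_lit 7537) (.d (nat_lit 531) (nat_lit 499) (nat_lit 4498) (nat_lit 563) (nat_lit 4530)))))) (.a (.f (nat_lit 435) (nat_lit 467) (nat_lit 6578) (.f (nat_lit 434) (nat_lit 403) (nat_lit 6546) (.f (nat_lit 531) (nat_lit 563) (nat_lit 4530) (.f (nat_lit 499) (nat_lit 402) (nat_lit 4498) (.f (nat_lit 594) (nat_lit 626) (nat_lit 6642) (.f (nat_lit 497)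 (nat_lit 465) (nat_lit 7633) (.d (nat_lit 496) (nat_lit 495) (nat_lit 495) (nat_lit 527) (nat_lit 1519)))))))) (.a (.f (nat_lit 465) (nat_lit 433) (nat_lit 7601) (.f (nat_lit 594) (nat_lit 497) (nat_lit 7633) (.d (nat_lit 467) (nat_lit 435) (nat_lit 6578) (nat_lit 499) (nat_lit 6610)))) (.a (.f (nat_lit 433) (nat_lit 465) (nat_lit 7601) (.f (nat_lit 434) (nat_lit 401) (nat_lit 7569) (.f (nat_lit 531) (nat_lit 563) (nat_lit 4530) (.f (nat_lit 402) (nat_lit 499) (nat_lit 4498) (.d (nat_lit 403) (nat_lit 371) (nat_lit 6514) (nat_lit 435) (nat_lit 6546)))))) (.f (nat_lit 465) (nat_lit 433) (nat_lit 7601) (.f (nat_lit 594) (nat_lit 497) (nat_lit 7633) (.f (nat_lit 499) (nat_lit 467) (nat_lit 6610) (.f (nat_lit 531) (nat_lit 626) (nat_lit 6642) (.d (nat_lit 434) (nat_lit 402) (nat_lit 4498) (nat_lit 563) (nat_lit 4530))))))))))))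
noncomputable def s6185 : Cert := .r (nat_lit 3773962429215011855543492450550720869832310303675778808522082273768846973641719331484660047637265576285616813297709523478040004805572882704684400427951422413295163801600) (.p (nat_lit 529) (.a (.f (nat_lit 531) (nat_lit 559) (nat_lit 1551) (.f (nat_lit 499) (nat_lit 500) (nat_lit 2544) (.f (nat_lit 563) (nat_lit 564) (nat_lit 528) (.d (nat_lit 466) (nat_lit 434) (nat_lit 4530) (nat_lit 595) (nat_lit 7634))))) (.a (.f (nat_lit 527) (nat_lit 499) (nat_lit 2543) (.f (nat_lit 559) (nat_lit 558) (nat_lit 1550) (.f (nat_lit 495) (nat_lit 494) (nat_lit 3566) (.f (nat_lit 463) (nat_lit 431) (nat_lit 4527) (.f (nat_lit 464) (nat_lit 432) (nat_lit 6575) (.f (nat_lit 591) (nat_lit 496) (nat_lit 5583) (.f (nat_lit 623) (nat_lit 655) (nat_lit 6671) (.d (nat_lit 622) (nat_lit 590) (nat_lit 5614) (nat_lit 654) (nat_lit 5646))))))))) (.a (.f (nat_lit 499) (nat_lit 527) (nat_lit 2543) (.d (nat_lit 500)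 (nat_lit 501) (nat_lit 1521) (nat_lit 531) (nat_lit 2544))) (.f (nat_lit 531) (nat_lit 559) (nat_lit 1551) (.f (nat_lit 532) (nat_lit 561) (nat_lit 1552) (.d (nat_lit 564) (nat_lit 563) (nat_lit 528) (nat_lit 565) (nat_lit 529))))))))
noncomputable def s6212 : Cert := .r (nat_lit 3773962429215011855543492450741257280374057876391940748817075334422447934497735637079091014411275081828815398510130550276348840935933413168637441376159917022626724184064) (.p (nat_lit 433) (.a (.f (nat_lit 465) (nat_lit 562) (nat_lit 7601) (.f (nat_lit 464) (nat_lit 496) (nat_lit 6576) (.f (nat_lit 499) (nat_lit 463) (nat_lit 463) (.d (nat_lit 500) (nat_lit 467) (nat_lit 464) (nat_lit 501) (nat_lit 3537))))) (.a (.f (nat_lit 562) (nat_lit 465) (nat_lit 7601) (.f (nat_lit 467) (nat_lit 435) (nat_lit 6578) (.f (nat_lit 594) (nat_lit 499) (nat_lit 6610) (.d (nat_lit 595) (nat_lit 563) (nat_lit 4562) (nat_lit 627) (nat_lit 4594))))) (.a (.f (nat_lit 401) (nat_lit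 434) (nat_lit 7569) (.f (nat_lit 465) (nat_lit 369) (nat_lit 4465) (.f (nat_lit 464) (nat_lit 496) (nat_lit 6576) (.f (nat_lit 463) (nat_lit 499) (nat_lit 463) (.f (nat_lit 430) (nat_lit 431) (nat_lit 3502) (.f (nat_lit 462) (nat_lit 429) (nat_lit 3501) (.d (nat_lit 494) (nat_lit 493) (nat_lit 1485) (nat_lit 495) (nat_lit 1486)))))))) (.a (.f (nat_lit 434) (nat_lit 401) (nat_lit 7569) (.f (nat_lit 435) (nat_lit 403) (nat_lit 6546) (.d (nat_lit 562) (nat_lit 465) (nat_lit 7601) (nat_lit 467) (nat_lit 6578)))) (.f (nat_lit 434) (nat_lit 401) (nat_lit 7569) (.f (nat_lit 435) (nat_lit 403) (nat_lit 6546) (.f (nat_lit 467) (nat_lit 562) (nat_lit 6578) (.d (nat_lit 432) (nat_lit 431) (nat_lit 431) (nat_lit 468) (nat_lit 432))))))))))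
noncomputable def s6225 : Cert := .r (nat_lit 3773962429215011855543492450741257280374057876391940748817075334422447934497735637079091014411275081828815398510130550276348840935933413168637441376159917022626724184064) (.p (nat_lit 529) (.a (.f (nat_lit 434) (nat_lit 561) (nat_lit 5553) (.f (nat_lit 403) (nat_lit 435) (nat_lit 6546) (.f (nat_lit 402) (nat_lit 371) (nat_lit 6514) (.d (nat_lit 401) (nat_lit 369) (nat_lit 7537) (nat_lit 433) (nat_lit 7569))))) (.f (nat_lit 527) (nat_lit 499) (nat_lit 2543) (.f (nat_lit 559) (nat_lit 558) (nat_lit 1550) (.f (nat_lit 495) (nat_lit 494) (nat_lit 3566) (.f (nat_lit 463) (nat_lit 431) (nat_lit 4527) (.f (nat_lit 464) (nat_lit 432) (nat_lit 6575) (.f (nat_lit 591) (nat_lit 496) (nat_lit 5583) (.f (nat_lit 623) (nat_lit 655) (nat_lit 6671) (.d (nat_lit 622) (nat_lit 590) (nat_lit 5614) (nat_lit 654) (nat_lit 5646)))))))))))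
noncomputable def s6265 : Cert := .r (nat_lit 3773962429215011855543492450550720869832310303675778808522082273768846973641719331484660047637265576285616813297709523478040004805572882704684400427951422413295163801600) (.p (nat_lit 562) (.a (.p (nat_lit 594) (.a (.f (nat_lit 499) (nat_lit 467) (nat_lit 6610) (.f (nat_lit 529) (nat_lit 527) (nat_lit 2543) (.d (nat_lit 500) (nat_lit 501) (nat_lit 1521) (nat_lit 531) (nat_lit 2544)))) (.a (.f (nat_lit 625) (nat_lit 593) (nat_lit 5617) (.f (nat_lit 626) (nat_lit 657) (nat_lit 5649) (.d (nat_lit 499) (nat_lit 467) (nat_lit 6610) (nat_lit 531) (nat_lit 6642)))) (.f (nat_lit 625) (nat_lit 593) (nat_lit 5617) (.f (nat_lit 626) (nat_lit 657) (nat_lit 5649) (.d (nat_lit 627) (nat_lit 595) (nat_lit 4594) (nat_lit 659) (nat_lit 4626))))))) (.a (.p (nat_lit 594) (.a (.f (nat_lit 625) (nat_lit 593) (nat_lit 5617) (.f (nat_lit 626) (nat_lit 657) (nat_lit 5649) (.d (nat_lit 499) (nat_lit 467) (nat_lit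 6610) (nat_lit 531) (nat_lit 6642)))) (.a (.f (nat_lit 467) (nat_lit 499) (nat_lit 6610) (.f (nat_lit 466) (nat_lit 435) (nat_lit 6578) (.d (nat_lit 595) (nat_lit 563) (nat_lit 4562) (nat_lit 627) (nat_lit 4594)))) (.f (nat_lit 625) (nat_lit 593) (nat_lit 5617) (.f (nat_lit 626) (nat_lit 657) (nat_lit 5649) (.d (nat_lit 627) (nat_lit 595) (nat_lit 4594) (nat_lit 659) (nat_lit 4626))))))) (.a s5340 (.a (.p (nat_lit 466) (.a (.f (nat_lit 433) (nat_lit 465) (nat_lit 7601) (.f (nat_lit 434) (nat_lit 401) (nat_lit 7569) (.d (nat_lit 435) (nat_lit 403) (nat_lit 6546) (nat_lit 467) (nat_lit 6578)))) (.a (.f (nat_lit 563) (nat_lit 595) (nat_lit 4562) (.f (nat_lit 529) (nat_lit 527) (nat_lit 527) (.d (nat_lit 531) (nat_lit 434) (nat_lit 4530) (nat_lit 564) (nat_lit 528)))) (.f (nat_lit 563) (nat_lit 595) (nat_lit 4562) (.f (nat_lit 529) (nat_lit 527) (nat_lit 527) (.d (nat_lit 564) (nat_lit 531) (nat_lit 528) (nat_lit 565) (nat_lit 3601)))))))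 (.a (.p (nat_lit 594) (.a (.f (nat_lit 499) (nat_lit 467) (nat_lit 6610) (.f (nat_lit 529) (nat_lit 527) (nat_lit 2543) (.d (nat_lit 500) (nat_lit 501) (nat_lit 1521) (nat_lit 531) (nat_lit 2544)))) (.a (.f (nat_lit 625) (nat_lit 593) (nat_lit 5617) (.f (nat_lit 626) (nat_lit 657) (nat_lit 5649) (.d (nat_lit 499) (nat_lit 467) (nat_lit 6610) (nat_lit 531) (nat_lit 6642)))) (.f (nat_lit 593) (nat_lit 625) (nat_lit 5617) (.f (nat_lit 561) (nat_lit 466) (nat_lit 5585) (.f (nat_lit 563) (nat_lit 527) (nat_lit 3599) (.d (nat_lit 564) (nat_lit 529) (nat_lit 3600) (nat_lit 565) (nat_lit 1585)))))))) s5358))))))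
noncomputable def s6267 : Cert := .r (nat_lit 3773962429215011855543492450550720869832310303675778808522082273768846973641719331484660047637265576285616813297709523478040004805572882704684400427951422413295163801600) (.p (nat_lit 562) (.a (.p (nat_lit 561) (.a (.f (nat_lit 531) (nat_lit 559) (nat_lit 2575) (.d (nat_lit 532) (nat_lit 529) (nat_lit 1552) (nat_lit 533) (nat_lit 1553))) (.a (.f (nat_lit 466) (nat_lit 593) (nat_lit 5585) (.f (nat_lit 563) (nat_lit 595) (nat_lit 4562) (.d (nat_lit 531) (nat_lit 434) (nat_lit 4530) (nat_lit 532) (nat_lit 2576)))) (.f (nat_lit 466) (nat_lit 593) (nat_lit 5585) (.f (nat_lit 529) (nat_lit 434) (nat_lit 5553) (.d (nat_lit 563) (nat_lit 564) (nat_lit 3600) (nat_lit 595) (nat_lit 4562))))))) (.a (.p (nat_lit 466) (.a (.f (nat_lit 433) (nat_lit 465) (nat_lit 7601) (.f (nat_lit 434) (nat_lit 401) (nat_lit 7569) (.d (nat_lit 435) (nat_lit 403) (nat_lit 6546) (nat_lit 467) (nat_lit 6578)))) (.a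 (.f (nat_lit 563) (nat_lit 595) (nat_lit 4562) (.f (nat_lit 529) (nat_lit 527) (nat_lit 527) (.d (nat_lit 531) (nat_lit 434) (nat_lit 4530) (nat_lit 564) (nat_lit 528)))) (.f (nat_lit 563) (nat_lit 595) (nat_lit 4562) (.f (nat_lit 529) (nat_lit 527) (nat_lit 527) (.d (nat_lit 564) (nat_lit 531) (nat_lit 528) (nat_lit 565) (nat_lit 3601))))))) (.a (.p (nat_lit 561) (.a (.f (nat_lit 466) (nat_lit 593) (nat_lit 5585) (.f (nat_lit 563) (nat_lit 595) (nat_lit 4562) (.d (nat_lit 531) (nat_lit 434) (nat_lit 4530) (nat_lit 532) (nat_lit 2576)))) (.a (.f (nat_lit 466) (nat_lit 593) (nat_lit 5585) (.f (nat_lit 435) (nat_lit 467) (nat_lit 6578) (.f (nat_lit 434) (nat_lit 403) (nat_lit 6546) (.d (nat_lit 433) (nat_lit 401) (nat_lit 7569) (nat_lit 465) (nat_lit 7601))))) (.f (nat_lit 531) (nat_lit 559) (nat_lit 2575) (.d (nat_lit 532) (nat_lit 533) (nat_lit 1553) (nat_lit 563) (nat_lit 2576)))))) (.a s5340 (.a (.p (nat_lit 561) (.a (.f (nat_lit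 531) (nat_lit 559) (nat_lit 2575) (.d (nat_lit 532) (nat_lit 529) (nat_lit 1552) (nat_lit 533) (nat_lit 1553))) (.f (nat_lit 466) (nat_lit 593) (nat_lit 5585) (.f (nat_lit 435) (nat_lit 467) (nat_lit 6578) (.f (nat_lit 434) (nat_lit 403) (nat_lit 6546) (.d (nat_lit 433) (nat_lit 401) (nat_lit 7569) (nat_lit 465) (nat_lit 7601))))))) (.p (nat_lit 561) (.a (.f (nat_lit 531) (nat_lit 559) (nat_lit 2575) (.d (nat_lit 532) (nat_lit 529) (nat_lit 1552) (nat_lit 533) (nat_lit 1553))) (.a (.f (nat_lit 531) (nat_lit 559) (nat_lit 2575) (.d (nat_lit 532) (nat_lit 533) (nat_lit 1553) (nat_lit 563) (nat_lit 2576))) (.f (nat_lit 563) (nat_lit 527) (nat_lit 3599) (.f (nat_lit 564) (nat_lit 529) (nat_lit 3600) (.d (nat_lit 596) (nat_lit 595) (nat_lit 560) (nat_lit 597) (nat_lit 561)))))))))))))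
noncomputable def s6282 : Cert := .r (nat_lit 3773962425700235453761207189473496527578461332485552881862250032036573231881426932091068511225807199947156461919702821867532223248538929286905557330031356994077287514112) (.p (nat_lit 464) (.a (.f (nat_lit 463) (nat_lit 431) (nat_lit 7599) (.f (nat_lit 497) (nat_lit 499) (nat_lit 3535) (.d (nat_lit 462) (nat_lit 461) (nat_lit 461) (nat_lit 465) (nat_lit 462)))) (.a (.f (nat_lit 431) (nat_lit 463) (nat_lit 7599) (.f (nat_lit 432) (nat_lit 399) (nat_lit 7567) (.d (nat_lit 433) (nat_lit 401) (nat_lit 6544) (nat_lit 465) (nat_lit 6576)))) (.a (.f (nat_lit 463) (nat_lit 431) (nat_lit 7599) (.f (nat_lit 497) (nat_lit 499) (nat_lit 3535) (.d (nat_lit 462) (nat_lit 461) (nat_lit 461) (nat_lit 495) (nat_lit 3534)))) (.f (nat_lit 433) (nat_lit 465) (nat_lit 6576) (.f (nat_lit 432) (nat_lit 401) (nat_lit 6544) (.d (nat_lit 561) (nat_lit 529) (nat_lit 4528) (nat_lit 593) (nat_lit 4560))))))))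
noncomputable def s6286 : Cert := .r (nat_lit 3773962425700235453761207189473496527578461332485552881862250032036573231881426932091068511225807199947156461919702821867532223248538929286905557330031356994077287514112) (.p (nat_lit 464) (.a (.f (nat_lit 463) (nat_lit 431) (nat_lit 7599) (.f (nat_lit 497) (nat_lit 499) (nat_lit 3535) (.d (nat_lit 462) (nat_lit 461) (nat_lit 461) (nat_lit 465) (nat_lit 462)))) (.a (.f (nat_lit 431) (nat_lit 463) (nat_lit 7599) (.f (nat_lit 432) (nat_lit 399) (nat_lit 7567) (.d (nat_lit 433) (nat_lit 401) (nat_lit 6544) (nat_lit 465) (nat_lit 6576)))) (.a (.f (nat_lit 463) (nat_lit 431) (nat_lit 7599) (.f (nat_lit 497) (nat_lit 499) (nat_lit 3535) (.d (nat_lit 462) (nat_lit 461) (nat_lit 461) (nat_lit 495) (nat_lit 3534)))) (.f (nat_lit 559) (nat_lit 591) (nat_lit 5583) (.f (nat_lit 432) (nat_lit 527) (nat_lit 5551) (.d (nat_lit 433) (nat_lit 401) (nat_lit 6544) (nat_lit 465) (nat_lit 6576))))))))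
noncomputable def s6294 : Cert := .r (nat_lit 3773962425700235453761207189473496527578461332485552881862250032036573231881426932091068511225807199947156461919702821867532223248538929286905557330031356994077287514112) (.p (nat_lit 464) (.a (.f (nat_lit 431) (nat_lit 463) (nat_lit 7599) (.f (nat_lit 432) (nat_lit 399) (nat_lit 7567) (.d (nat_lit 433) (nat_lit 401) (nat_lit 6544) (nat_lit 465) (nat_lit 6576)))) (.a (.f (nat_lit 431) (nat_lit 463) (nat_lit 7599) (.f (nat_lit 432) (nat_lit 399) (nat_lit 7567) (.d (nat_lit 561) (nat_lit 529) (nat_lit 4528) (nat_lit 593) (nat_lit 4560)))) (.a (.f (nat_lit 463) (nat_lit 431) (nat_lit 7599) (.f (nat_lit 465) (nat_lit 433) (nat_lit 6576) (.f (nat_lit 466) (nat_lit 499) (nat_lit 463) (.d (nat_lit 495) (nat_lit 467) (nat_lit 1487) (nat_lit 494) (nat_lit 1486))))) (.f (nat_lit 433) (nat_lit 465) (nat_lit 6576) (.f (nat_lit 432) (nat_lit 401) (nat_lit 6544) (.d (nat_lit 561) (nat_lit 529) (nat_lit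 4528) (nat_lit 593) (nat_lit 4560))))))))
noncomputable def s6342 : Cert := .r (nat_lit 3773962425700235453761207189473496527578461332485552881862250032036573231881426932091068511225807199947156461919702821867532223248538929286905557330031356994077287514112) (.p (nat_lit 464) (.a (.f (nat_lit 431) (nat_lit 463) (nat_lit 7599) (.f (nat_lit 432) (nat_lit 399) (nat_lit 7567) (.d (nat_lit 433) (nat_lit 401) (nat_lit 6544) (nat_lit 465) (nat_lit 6576)))) (.a (.f (nat_lit 431) (nat_lit 463) (nat_lit 7599) (.f (nat_lit 432) (nat_lit 399) (nat_lit 7567) (.d (nat_lit 561) (nat_lit 529) (nat_lit 4528) (nat_lit 593) (nat_lit 4560)))) (.a (.f (nat_lit 463) (nat_lit 431) (nat_lit 7599) (.f (nat_lit 465) (nat_lit 433) (nat_lit 6576) (.f (nat_lit 462) (nat_lit 497) (nat_lit 462) (.f (nat_lit 493) (nat_lit 494) (nat_lit 1485) (.f (nat_lit 461) (nat_lit 492) (nat_lit 1484) (.d (nat_lit 429) (nat_lit 428) (nat_lit 3500) (nat_lit 430) (nat_lit 3501)))))))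 (.f (nat_lit 433) (nat_lit 465) (nat_lit 6576) (.f (nat_lit 432) (nat_lit 401) (nat_lit 6544) (.d (nat_lit 561) (nat_lit 529) (nat_lit 4528) (nat_lit 593) (nat_lit 4560))))))))
noncomputable def s6362 : Cert := .r (nat_lit 3773962425700235453761207189473496527578461332485552881862250032036573231881426932091068511225807199947156461919702821867532223248538929286905557330031356994077287514112) (.p (nat_lit 530) (.a (.p (nat_lit 531) (.a (.d (nat_lit 529) (nat_lit 495) (nat_lit 3567) (nat_lit 559) (nat_lit 1551)) (.a (.f (nat_lit 497) (nat_lit 495) (nat_lit 495) (.d (nat_lit 532) (nat_lit 499) (nat_lit 496) (nat_lit 533) (nat_lit 3569))) (.f (nat_lit 529) (nat_lit 559) (nat_lit 1551) (.d (nat_lit 532) (nat_lit 497) (nat_lit 3568) (nat_lit 561) (nat_lit 1552)))))) (.a s6041 (.a (.p (nat_lit 529) (.a (.d (nat_lit 531) (nat_lit 495) (nat_lit 3567) (nat_lit 559) (nat_lit 1551)) (.a (.f (nat_lit 527) (nat_lit 499) (nat_lit 2543) (.f (nat_lit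 559) (nat_lit 558) (nat_lit 1550) (.d (nat_lit 464) (nat_lit 432) (nat_lit 5551) (nat_lit 591) (nat_lit 5583)))) (.f (nat_lit 531) (nat_lit 495) (nat_lit 3567) (.d (nat_lit 499) (nat_lit 500) (nat_lit 2544) (nat_lit 527) (nat_lit 2543)))))) (.p (nat_lit 464) (.a (.f (nat_lit 433) (nat_lit 465) (nat_lit 6576) (.f (nat_lit 432) (nat_lit 401) (nat_lit 6544) (.d (nat_lit 559) (nat_lit 527) (nat_lit 5551) (nat_lit 591) (nat_lit 5583)))) (.a (.f (nat_lit 561) (nat_lit 593) (nat_lit 4560) (.f (nat_lit 529) (nat_lit 432) (nat_lit 4528) (.d (nat_lit 559) (nat_lit 558) (nat_lit 2574) (nat_lit 591) (nat_lit 5583)))) (.a (.f (nat_lit 433) (nat_lit 465) (nat_lit 6576) (.f (nat_lit 432) (nat_lit 401) (nat_lit 6544) (.d (nat_lit 561) (nat_lit 529) (nat_lit 4528) (nat_lit 593) (nat_lit 4560)))) (.f (nat_lit 559) (nat_lit 591) (nat_lit 5583) (.f (nat_lit 561) (nat_lit 593) (nat_lit 4560) (.f (nat_lit 558) (nat_lit 529) (nat_lit 2574) (.f (nat_lit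 589) (nat_lit 590) (nat_lit 1581) (.f (nat_lit 557) (nat_lit 588) (nat_lit 1580) (.f (nat_lit 524) (nat_lit 525) (nat_lit 3596) (.d (nat_lit 556) (nat_lit 523) (nat_lit 3595) (nat_lit 527) (nat_lit 2572))))))))))))))))
noncomputable def s6363 : Cert := .r (nat_lit 3773962425700235453556620276479987660702636976433827934848709904158881682538721221585060148950515040266952081149333812045601805490566424848829478795913519928244254539776) (.p (nat_lit 496) (.a s6282 (.a s6286 (.a s6294 (.a (.p (nat_lit 497) (.a (.f (nat_lit 499) (nat_lit 527) (nat_lit 1519) (.f (nat_lit 529) (nat_lit 500) (nat_lit 1520) (.f (nat_lit 531) (nat_lit 532) (nat_lit 496) (.d (nat_lit 530) (nat_lit 495) (nat_lit 495) (nat_lit 559) (nat_lit 1551))))) (.a (.p (nat_lit 531) (.a (.f (nat_lit 530) (nat_lit 495) (nat_lit 495) (.d (nat_lit 529) (nat_lit 532) (nat_lit 3568) (nat_lit 559) (nat_lit 1551))) (.a (.f (nat_lit 495) (nat_lit 530) (nat_lit 495) (.f (nat_lit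 499) (nat_lit 532) (nat_lit 496) (.d (nat_lit 467) (nat_lit 466) (nat_lit 2511) (nat_lit 468) (nat_lit 2512)))) (.a (.f (nat_lit 499) (nat_lit 532) (nat_lit 496) (.f (nat_lit 467) (nat_lit 468) (nat_lit 2512) (.f (nat_lit 466) (nat_lit 495) (nat_lit 2511) (.d (nat_lit 434) (nat_lit 402) (nat_lit 4498) (nat_lit 563) (nat_lit 7602))))) (.a (.f (nat_lit 499) (nat_lit 532) (nat_lit 496) (.f (nat_lit 529) (nat_lit 500) (nat_lit 1520) (.f (nat_lit 530) (nat_lit 559) (nat_lit 1551) (.f (nat_lit 563) (nat_lit 564) (nat_lit 528) (.d (nat_lit 466) (nat_lit 434) (nat_lit 4530) (nat_lit 595) (nat_lit 7634)))))) (.f (nat_lit 495) (nat_lit 530) (nat_lit 495) (.f (nat_lit 466) (nat_lit 467) (nat_lit 2511) (.f (nat_lit 465) (nat_lit 494) (nat_lit 2510) (.d (nat_lit 433) (nat_lit 401) (nat_lit 5520) (nat_lit 529) (nat_lit 5552)))))))))) (.a (.f (nat_lit 499) (nat_lit 527) (nat_lit 1519) (.f (nat_lit 467) (nat_lit 468) (nat_lit 2512) (.f (nat_lit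 531) (nat_lit 532) (nat_lit 496) (.d (nat_lit 495) (nat_lit 466) (nat_lit 2511) (nat_lit 530) (nat_lit 495))))) (.a (.f (nat_lit 499) (nat_lit 527) (nat_lit 1519) (.f (nat_lit 500) (nat_lit 529) (nat_lit 1520) (.d (nat_lit 468) (nat_lit 467) (nat_lit 2512) (nat_lit 469) (nat_lit 2513)))) (.p (nat_lit 495) (.a (.f (nat_lit 530) (nat_lit 531) (nat_lit 495) (.f (nat_lit 529) (nat_lit 494) (nat_lit 494) (.f (nat_lit 466) (nat_lit 467) (nat_lit 2511) (.d (nat_lit 434) (nat_lit 402) (nat_lit 5521) (nat_lit 561) (nat_lit 5553))))) (.a (.f (nat_lit 530) (nat_lit 531) (nat_lit 495) (.f (nat_lit 494) (nat_lit 529) (nat_lit 494) (.d (nat_lit 462) (nat_lit 461) (nat_lit 3533) (nat_lit 463) (nat_lit 3534)))) (.f (nat_lit 463) (nat_lit 462) (nat_lit 3534) (.d (nat_lit 431) (nat_lit 399) (nat_lit 4495) (nat_lit 527) (nat_lit 4527))))))))))) (.a s6342 (.a (.p (nat_lit 464) (.a (.f (nat_lit 463) (nat_lit 431) (nat_lit 7599) (.f (nat_lit 497) (nat_lit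 499) (nat_lit 3535) (.d (nat_lit 462) (nat_lit 461) (nat_lit 461) (nat_lit 495) (nat_lit 3534)))) (.a (.f (nat_lit 431) (nat_lit 463) (nat_lit 7599) (.f (nat_lit 432) (nat_lit 399) (nat_lit 7567) (.d (nat_lit 561) (nat_lit 529) (nat_lit 4528) (nat_lit 593) (nat_lit 4560)))) (.f (nat_lit 559) (nat_lit 591) (nat_lit 5583) (.f (nat_lit 432) (nat_lit 527) (nat_lit 5551) (.d (nat_lit 561) (nat_lit 529) (nat_lit 4528) (nat_lit 593) (nat_lit 4560))))))) s6362)))))))
noncomputable def s6378 : Cert := .r (nat_lit 18869812124986400862727425513426572091246146214151314595367075233019069881450022340435575411936442270113029962042758201466614561768238099817151294335762141168674868822016) (.p (nat_lit 464) (.a (.f (nat_lit 463) (nat_lit 431) (nat_lit 7599) (.f (nat_lit 465) (nat_lit 433) (nat_lit 6576) (.f (nat_lit 466) (nat_lit 499) (nat_lit 463) (.d (nat_lit 495) (nat_lit 467) (nat_lit 1487) (nat_lit 494) (nat_lit 1486))))) (.a (.f (nat_lit 431)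 (nat_lit 463) (nat_lit 7599) (.f (nat_lit 432) (nat_lit 399) (nat_lit 7567) (.d (nat_lit 433) (nat_lit 401) (nat_lit 6544) (nat_lit 465) (nat_lit 6576)))) (.a (.f (nat_lit 463) (nat_lit 431) (nat_lit 7599) (.f (nat_lit 497) (nat_lit 499) (nat_lit 3535) (.d (nat_lit 462) (nat_lit 461) (nat_lit 461) (nat_lit 495) (nat_lit 3534)))) (.f (nat_lit 559) (nat_lit 591) (nat_lit 5583) (.f (nat_lit 432) (nat_lit 527) (nat_lit 5551) (.d (nat_lit 433) (nat_lit 401) (nat_lit 6544) (nat_lit 465) (nat_lit 6576))))))))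
noncomputable def s6383 : Cert := .r (nat_lit 18869812124986400862727425513426572091246146214151314595367075233019069881450022340435575411936442270113029962042758201466614561768238099817151294335762141168674868822016) (.p (nat_lit 464) (.a (.f (nat_lit 463) (nat_lit 431) (nat_lit 7599) (.f (nat_lit 465) (nat_lit 433) (nat_lit 6576) (.f (nat_lit 466) (nat_lit 499) (nat_lit 463) (.d (nat_lit 495) (nat_lit 467) (nat_lit 1487) (nat_lit 494) (nat_lit 1486))))) (.a (.f (nat_lit 431) (nat_lit 463) (nat_lit 7599) (.f (nat_lit 432) (nat_lit 399) (nat_lit 7567) (.d (nat_lit 433) (nat_lit 401) (nat_lit 6544) (nat_lit 465) (nat_lit 6576)))) (.a (.f (nat_lit 559) (nat_lit 591) (nat_lit 5583) (.f (nat_lit 432) (nat_lit 527) (nat_lit 5551) (.d (nat_lit 431) (nat_lit 399) (nat_lit 7567) (nat_lit 463) (nat_lit 7599)))) (.f (nat_lit 559) (nat_lit 591) (nat_lit 5583) (.f (nat_lit 432) (nat_lit 527) (nat_lit 5551) (.d (nat_lit 433) (nat_lit 401) (nat_lit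 6544) (nat_lit 465) (nat_lit 6576))))))))
noncomputable def s6418 : Cert := .r (nat_lit 18869812124986400862727425513426572091246146214151314595367075233019069881450022340435575411936442270113029962042758201466614561768238099817151294335762141168674868822016) (.p (nat_lit 464) (.a (.f (nat_lit 431) (nat_lit 463) (nat_lit 7599) (.f (nat_lit 432) (nat_lit 399) (nat_lit 7567) (.d (nat_lit 433) (nat_lit 401) (nat_lit 6544) (nat_lit 465) (nat_lit 6576)))) (.a (.f (nat_lit 559) (nat_lit 591) (nat_lit 5583) (.f (nat_lit 432) (nat_lit 527) (nat_lit 5551) (.d (nat_lit 431) (nat_lit 399) (nat_lit 7567) (nat_lit 463) (nat_lit 7599)))) (.a (.f (nat_lit 465) (nat_lit 433) (nat_lit 6576) (.f (nat_lit 463) (nat_lit 431) (nat_lit 7599) (.f (nat_lit 462) (nat_lit 497) (nat_lit 462) (.f (nat_lit 493) (nat_lit 494) (nat_lit 1485) (.f (nat_lit 461) (nat_lit 492) (nat_lit 1484) (.d (nat_lit 429) (nat_lit 428) (nat_lit 3500) (nat_lit 430) (nat_lit 3501)))))))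 (.f (nat_lit 559) (nat_lit 591) (nat_lit 5583) (.f (nat_lit 432) (nat_lit 527) (nat_lit 5551) (.d (nat_lit 433) (nat_lit 401) (nat_lit 6544) (nat_lit 465) (nat_lit 6576))))))))
noncomputable def s6452 : Cert := .r (nat_lit 18869812124986400862522838600433063224370321858099589648353535105141378332107316629929567049661150110432825581272389191644684144010265595379075215801644304102841835847680) (.p (nat_lit 561) (.a (.p (nat_lit 563) (.a (.f (nat_lit 595) (nat_lit 596) (nat_lit 560) (.f (nat_lit 530) (nat_lit 466) (nat_lit 4562) (.d (nat_lit 594) (nat_lit 559) (nat_lit 559) (nat_lit 627) (nat_lit 4594)))) (.a (.f (nat_lit 564) (nat_lit 529) (nat_lit 3600) (.d (nat_lit 596) (nat_lit 595) (nat_lit 560) (nat_lit 597) (nat_lit 561))) (.a (.f (nat_lit 564) (nat_lit 529) (nat_lit 3600) (.f (nat_lit 533) (nat_lit 532) (nat_lit 2577) (.f (nat_lit 565) (nat_lit 534) (nat_lit 2578) (.d (nat_lit 597) (nat_lit 596) (nat_lit 561) (nat_lit 598)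 (nat_lit 562))))) (.f (nat_lit 564) (nat_lit 529) (nat_lit 3600) (.f (nat_lit 533) (nat_lit 532) (nat_lit 2577) (.f (nat_lit 565) (nat_lit 534) (nat_lit 2578) (.f (nat_lit 594) (nat_lit 593) (nat_lit 1585) (.d (nat_lit 595) (nat_lit 559) (nat_lit 559) (nat_lit 566) (nat_lit 1586)))))))))) (.a (.f (nat_lit 563) (nat_lit 527) (nat_lit 3599) (.f (nat_lit 595) (nat_lit 596) (nat_lit 560) (.f (nat_lit 530) (nat_lit 466) (nat_lit 4562) (.d (nat_lit 594) (nat_lit 559) (nat_lit 559) (nat_lit 627) (nat_lit 4594))))) (.a (.f (nat_lit 563) (nat_lit 527) (nat_lit 3599) (.f (nat_lit 564) (nat_lit 529) (nat_lit 3600) (.d (nat_lit 596) (nat_lit 595) (nat_lit 560) (nat_lit 597) (nat_lit 561)))) (.a (.p (nat_lit 559) (.a (.f (nat_lit 594) (nat_lit 595) (nat_lit 559) (.f (nat_lit 558) (nat_lit 593) (nat_lit 558) (.d (nat_lit 590) (nat_lit 589) (nat_lit 1581) (nat_lit 591) (nat_lit 1582)))) (.a (.f (nat_lit 591) (nat_lit 590) (nat_lit 1582) (.f (nat_lit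 496) (nat_lit 464) (nat_lit 5583) (.d (nat_lit 623) (nat_lit 527) (nat_lit 6639) (nat_lit 655) (nat_lit 6671)))) (.f (nat_lit 594) (nat_lit 595) (nat_lit 559) (.f (nat_lit 593) (nat_lit 558) (nat_lit 558) (.f (nat_lit 625) (nat_lit 657) (nat_lit 7696) (.d (nat_lit 496) (nat_lit 464) (nat_lit 4560) (nat_lit 529) (nat_lit 7664)))))))) (.f (nat_lit 563) (nat_lit 527) (nat_lit 3599) (.f (nat_lit 564) (nat_lit 529) (nat_lit 3600) (.f (nat_lit 533) (nat_lit 532) (nat_lit 2577) (.f (nat_lit 565) (nat_lit 534) (nat_lit 2578) (.d (nat_lit 597) (nat_lit 596) (nat_lit 561) (nat_lit 598) (nat_lit 562)))))))))))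
noncomputable def s6496 : Cert := .r (nat_lit 64836180782635327101742773732697231585002535603158398420531735424769985283468068119602739269728063835414242088734400412247313427197993133195998014662105898411975269780990422155264) (.p (nat_lit 561) (.a (.f (nat_lit 563) (nat_lit 527) (nat_lit 3599) (.d (nat_lit 595) (nat_lit 559) (nat_lit 559) (nat_lit 596) (nat_lit 560))) (.a (.f (nat_lit 595) (nat_lit 559) (nat_lit 559) (.d (nat_lit 596) (nat_lit 563) (nat_lit 560) (nat_lit 597) (nat_lit 3633))) (.a (.f (nat_lit 559) (nat_lit 595) (nat_lit 559) (.f (nat_lit 591) (nat_lit 590) (nat_lit 1582) (.f (nat_lit 496) (nat_lit 464) (nat_lit 5583) (.d (nat_lit 623) (nat_lit 527) (nat_lit 6639) (nat_lit 655) (nat_lit 6671))))) (.a (.f (nat_lit 563) (nat_lit 527) (nat_lit 3599) (.f (nat_lit 564) (nat_lit 529) (nat_lit 3600) (.d (nat_lit 596) (nat_lit 595) (nat_lit 560) (nat_lit 597) (nat_lit 561)))) (.f (nat_lit 563) (nat_lit 527) (nat_lit 3599)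 (.f (nat_lit 564) (nat_lit 529) (nat_lit 3600) (.f (nat_lit 533) (nat_lit 532) (nat_lit 2577) (.f (nat_lit 565) (nat_lit 534) (nat_lit 2578) (.d (nat_lit 597) (nat_lit 596) (nat_lit 561) (nat_lit 598) (nat_lit 562)))))))))))
noncomputable def s6499 : Cert := .r (nat_lit 18869812124986400862522838600433063224370321858099589648353535105141378332107316629929567049661150110432825581272389191644684144010265595379075215801644304102841835847680) (.p (nat_lit 594) (.a (.p (nat_lit 530) (.a (.f (nat_lit 595) (nat_lit 627) (nat_lit 4594) (.f (nat_lit 561) (nat_lit 559) (nat_lit 559) (.d (nat_lit 563) (nat_lit 466) (nat_lit 4562) (nat_lit 596) (nat_lit 560)))) (.a (.f (nat_lit 467) (nat_lit 499) (nat_lit 6610) (.f (nat_lit 466) (nat_lit 435) (nat_lit 6578) (.d (nat_lit 465) (nat_lit 433) (nat_lit 7601) (nat_lit 497) (nat_lit 7633)))) (.f (nat_lit 595) (nat_lit 627) (nat_lit 4594) (.f (nat_lit 561) (nat_lit 559) (nat_lit 559) (.d (nat_lit 596)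 (nat_lit 563) (nat_lit 560) (nat_lit 597) (nat_lit 3633))))))) (.a (.p (nat_lit 530) (.a (.f (nat_lit 497) (nat_lit 465) (nat_lit 7633) (.f (nat_lit 529) (nat_lit 626) (nat_lit 7665) (.d (nat_lit 499) (nat_lit 467) (nat_lit 6610) (nat_lit 500) (nat_lit 1520)))) (.a (.f (nat_lit 467) (nat_lit 499) (nat_lit 6610) (.f (nat_lit 466) (nat_lit 435) (nat_lit 6578) (.d (nat_lit 465) (nat_lit 433) (nat_lit 7601) (nat_lit 497) (nat_lit 7633)))) (.a (.f (nat_lit 467) (nat_lit 499) (nat_lit 6610) (.f (nat_lit 466) (nat_lit 435) (nat_lit 6578) (.d (nat_lit 595) (nat_lit 563) (nat_lit 4562) (nat_lit 627) (nat_lit 4594)))) (.f (nat_lit 595) (nat_lit 627) (nat_lit 4594) (.f (nat_lit 466) (nat_lit 563) (nat_lit 4562) (.d (nat_lit 465) (nat_lit 433) (nat_lit 7601) (nat_lit 497) (nat_lit 7633)))))))) (.a (.p (nat_lit 530) (.a (.f (nat_lit 595) (nat_lit 627) (nat_lit 4594) (.f (nat_lit 561) (nat_lit 559) (nat_lit 559) (.d (nat_lit 563) (nat_lit 466)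 (nat_lit 4562) (nat_lit 596) (nat_lit 560)))) (.a (.f (nat_lit 467) (nat_lit 499) (nat_lit 6610) (.f (nat_lit 466) (nat_lit 435) (nat_lit 6578) (.d (nat_lit 595) (nat_lit 563) (nat_lit 4562) (nat_lit 627) (nat_lit 4594)))) (.a (.f (nat_lit 499) (nat_lit 467) (nat_lit 6610) (.f (nat_lit 529) (nat_lit 527) (nat_lit 2543) (.f (nat_lit 627) (nat_lit 595) (nat_lit 4594) (.f (nat_lit 626) (nat_lit 659) (nat_lit 4626) (.f (nat_lit 561) (nat_lit 658) (nat_lit 7697) (.f (nat_lit 559) (nat_lit 558) (nat_lit 2574) (.f (nat_lit 466) (nat_lit 434) (nat_lit 5553) (.f (nat_lit 465) (nat_lit 433) (nat_lit 7601) (.f (nat_lit 464) (nat_lit 463) (nat_lit 463) (.d (nat_lit 496) (nat_lit 432) (nat_lit 4528) (nat_lit 591) (nat_lit 5583))))))))))) (.a (.f (nat_lit 595) (nat_lit 627) (nat_lit 4594) (.f (nat_lit 561) (nat_lit 559) (nat_lit 559) (.d (nat_lit 596) (nat_lit 563) (nat_lit 560) (nat_lit 597) (nat_lit 3633)))) (.f (nat_lit 467) (nat_lit 499)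 (nat_lit 6610) (.f (nat_lit 466) (nat_lit 435) (nat_lit 6578) (.f (nat_lit 433) (nat_lit 465) (nat_lit 7601) (.f (nat_lit 434) (nat_lit 401) (nat_lit 7569) (.f (nat_lit 529) (nat_lit 561) (nat_lit 5553) (.f (nat_lit 527) (nat_lit 563) (nat_lit 527) (.f (nat_lit 495) (nat_lit 494) (nat_lit 3566) (.d (nat_lit 431) (nat_lit 432) (nat_lit 431) (nat_lit 463) (nat_lit 4527)))))))))))))) (.a s6496 (.a (.p (nat_lit 530) (.a (.f (nat_lit 497) (nat_lit 465) (nat_lit 7633) (.f (nat_lit 529) (nat_lit 626) (nat_lit 7665) (.d (nat_lit 499) (nat_lit 467) (nat_lit 6610) (nat_lit 500) (nat_lit 1520)))) (.a (.f (nat_lit 467) (nat_lit 499) (nat_lit 6610) (.f (nat_lit 466) (nat_lit 435) (nat_lit 6578) (.d (nat_lit 465) (nat_lit 433) (nat_lit 7601) (nat_lit 497) (nat_lit 7633)))) (.a (.f (nat_lit 499) (nat_lit 467) (nat_lit 6610) (.f (nat_lit 529) (nat_lit 527) (nat_lit 2543) (.f (nat_lit 627) (nat_lit 595) (nat_lit 4594) (.f (nat_lit 626) (nat_lit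 659) (nat_lit 4626) (.f (nat_lit 561) (nat_lit 658) (nat_lit 7697) (.f (nat_lit 559) (nat_lit 558) (nat_lit 2574) (.f (nat_lit 466) (nat_lit 434) (nat_lit 5553) (.f (nat_lit 465) (nat_lit 433) (nat_lit 7601) (.f (nat_lit 464) (nat_lit 463) (nat_lit 463) (.d (nat_lit 496) (nat_lit 432) (nat_lit 4528) (nat_lit 591) (nat_lit 5583))))))))))) (.a (.f (nat_lit 497) (nat_lit 465) (nat_lit 7633) (.f (nat_lit 529) (nat_lit 626) (nat_lit 7665) (.f (nat_lit 595) (nat_lit 627) (nat_lit 4594) (.f (nat_lit 559) (nat_lit 561) (nat_lit 559) (.d (nat_lit 558) (nat_lit 527) (nat_lit 1550) (nat_lit 557) (nat_lit 2573)))))) (.f (nat_lit 499) (nat_lit 467) (nat_lit 6610) (.f (nat_lit 529) (nat_lit 527) (nat_lit 2543) (.d (nat_lit 497) (nat_lit 500) (nat_lit 1520) (nat_lit 626) (nat_lit 7665))))))))) (.p (nat_lit 530) (.a (.f (nat_lit 497) (nat_lit 465) (nat_lit 7633) (.f (nat_lit 529) (nat_lit 626) (nat_lit 7665) (.d (nat_lit 499) (nat_lit 467) (nat_lit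 6610) (nat_lit 500) (nat_lit 1520)))) (.a (.f (nat_lit 467) (nat_lit 499) (nat_lit 6610) (.f (nat_lit 466) (nat_lit 435) (nat_lit 6578) (.d (nat_lit 465) (nat_lit 433) (nat_lit 7601) (nat_lit 497) (nat_lit 7633)))) (.a (.f (nat_lit 467) (nat_lit 499) (nat_lit 6610) (.f (nat_lit 466) (nat_lit 435) (nat_lit 6578) (.f (nat_lit 433) (nat_lit 465) (nat_lit 7601) (.f (nat_lit 434) (nat_lit 401) (nat_lit 7569) (.f (nat_lit 529) (nat_lit 561) (nat_lit 5553) (.f (nat_lit 527) (nat_lit 563) (nat_lit 527) (.f (nat_lit 495) (nat_lit 494) (nat_lit 3566) (.d (nat_lit 431) (nat_lit 432) (nat_lit 431) (nat_lit 463) (nat_lit 4527))))))))) (.a (.f (nat_lit 497) (nat_lit 465) (nat_lit 7633) (.f (nat_lit 529) (nat_lit 626) (nat_lit 7665) (.f (nat_lit 563) (nat_lit 527) (nat_lit 527) (.d (nat_lit 564) (nat_lit 561) (nat_lit 3600) (nat_lit 565) (nat_lit 3601))))) (.f (nat_lit 499) (nat_lit 467) (nat_lit 6610) (.f (nat_lit 529) (nat_lit 527) (nat_lit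 2543) (.d (nat_lit 497) (nat_lit 500) (nat_lit 1520) (nat_lit 626) (nat_lit 7665)))))))))))))))
noncomputable def s6553 : Cert := .r (nat_lit 18869812128501177264509710774503796433499995185341540522026907474751343623210314739829166948347900646451490313420764903077122343325272053234930137433682206587892745109504) (.p (nat_lit 594) (.a (.f (nat_lit 497) (nat_lit 465) (nat_lit 7633) (.f (nat_lit 529) (nat_lit 626) (nat_lit 7665) (.d (nat_lit 499) (nat_lit 467) (nat_lit 6610) (nat_lit 500) (nat_lit 1520)))) (.a (.f (nat_lit 467) (nat_lit 499) (nat_lit 6610) (.f (nat_lit 466) (nat_lit 435) (nat_lit 6578) (.d (nat_lit 465) (nat_lit 433) (nat_lit 7601) (nat_lit 497) (nat_lit 7633)))) (.a (.f (nat_lit 499) (nat_lit 467) (nat_lit 6610) (.f (nat_lit 529) (nat_lit 527) (nat_lit 2543) (.f (nat_lit 627) (nat_lit 595) (nat_lit 4594) (.f (nat_lit 626) (nat_lit 659) (nat_lit 4626) (.f (nat_lit 561) (nat_lit 658) (nat_lit 7697) (.f (nat_lit 559)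 (nat_lit 558) (nat_lit 2574) (.f (nat_lit 466) (nat_lit 434) (nat_lit 5553) (.f (nat_lit 465) (nat_lit 433) (nat_lit 7601) (.f (nat_lit 464) (nat_lit 463) (nat_lit 463) (.d (nat_lit 496) (nat_lit 432) (nat_lit 4528) (nat_lit 591) (nat_lit 5583))))))))))) (.a (.f (nat_lit 497) (nat_lit 465) (nat_lit 7633) (.f (nat_lit 529) (nat_lit 626) (nat_lit 7665) (.f (nat_lit 595) (nat_lit 627) (nat_lit 4594) (.f (nat_lit 559) (nat_lit 561) (nat_lit 559) (.d (nat_lit 558) (nat_lit 527) (nat_lit 1550) (nat_lit 557) (nat_lit 2573)))))) (.f (nat_lit 499) (nat_lit 467) (nat_lit 6610) (.f (nat_lit 529) (nat_lit 527) (nat_lit 2543) (.d (nat_lit 497) (nat_lit 500) (nat_lit 1520) (nat_lit 626) (nat_lit 7665)))))))))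
noncomputable def s6579 : Cert := .r (nat_lit 18869812128501177264509710774503796433499995185341540522026907474751343623210314739829166948347900646451490313420764903077122343325272053234930137433682206587892745109504) (.p (nat_lit 594) (.a (.f (nat_lit 595) (nat_lit 627) (nat_lit 4594) (.f (nat_lit 561) (nat_lit 559) (nat_lit 559) (.d (nat_lit 593) (nat_lit 596) (nat_lit 3632) (nat_lit 625) (nat_lit 5617)))) (.a (.f (nat_lit 497) (nat_lit 465) (nat_lit 7633) (.f (nat_lit 626) (nat_lit 529) (nat_lit 7665) (.d (nat_lit 625) (nat_lit 593) (nat_lit 5617) (nat_lit 657) (nat_lit 5649)))) (.f (nat_lit 497) (nat_lit 465) (nat_lit 7633) (.f (nat_lit 529) (nat_lit 626) (nat_lit 7665) (.f (nat_lit 595) (nat_lit 627) (nat_lit 4594) (.f (nat_lit 559) (nat_lit 561) (nat_lit 559) (.d (nat_lit 558) (nat_lit 527) (nat_lit 1550) (nat_lit 557) (nat_lit 2573)))))))))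
noncomputable def s6582 : Cert := .r (nat_lit 18869812128501177264509710774503796433499995185341540522026907474751343623210314739829166948347900646451490313420764903077122343325272053234930137433682206587892745109504) (.p (nat_lit 594) (.a (.f (nat_lit 497) (nat_lit 465) (nat_lit 7633) (.f (nat_lit 529) (nat_lit 626) (nat_lit 7665) (.d (nat_lit 499) (nat_lit 467) (nat_lit 6610) (nat_lit 500) (nat_lit 1520)))) (.a (.f (nat_lit 467) (nat_lit 499) (nat_lit 6610) (.f (nat_lit 466) (nat_lit 435) (nat_lit 6578) (.d (nat_lit 465) (nat_lit 433) (nat_lit 7601) (nat_lit 497) (nat_lit 7633)))) (.a (.f (nat_lit 467) (nat_lit 499) (nat_lit 6610) (.f (nat_lit 466) (nat_lit 435) (nat_lit 6578) (.d (nat_lit 595) (nat_lit 563) (nat_lit 4562) (nat_lit 627) (nat_lit 4594)))) (.f (nat_lit 595) (nat_lit 627) (nat_lit 4594) (.f (nat_lit 466) (nat_lit 563) (nat_lit 4562) (.d (nat_lit 465) (nat_lit 433) (nat_lit 7601) (nat_lit 497) (nat_lit 7633))))))))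
noncomputable def s6583 : Cert := .r (nat_lit 18869812128501177264509710774503796433499995185341540522026907474751343623210314739829166948347900646451490313420764903077122343325272053234930137433682206587892745109504) (.p (nat_lit 594) (.a (.f (nat_lit 497) (nat_lit 465) (nat_lit 7633) (.f (nat_lit 529) (nat_lit 626) (nat_lit 7665) (.d (nat_lit 499) (nat_lit 467) (nat_lit 6610) (nat_lit 500) (nat_lit 1520)))) (.a (.f (nat_lit 625) (nat_lit 593) (nat_lit 5617) (.f (nat_lit 626) (nat_lit 657) (nat_lit 5649) (.d (nat_lit 627) (nat_lit 595) (nat_lit 4594) (nat_lit 659) (nat_lit 4626)))) (.f (nat_lit 497) (nat_lit 465) (nat_lit 7633) (.f (nat_lit 499) (nat_lit 467) (nat_lit 6610) (.f (nat_lit 500) (nat_lit 529) (nat_lit 1520) (.f (nat_lit 533) (nat_lit 532) (nat_lit 497) (.f (nat_lit 501) (nat_lit 534) (nat_lit 498) (.d (nat_lit 469) (nat_lit 468) (nat_lit 2513) (nat_lit 470) (nat_lit 2514))))))))))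
noncomputable def s6584 : Cert := .r (nat_lit 18869812124986400862522838600433063224370321858099589648353535105141378332107316629929567049661150110432825581272389191644684144010265595379075215801644304102841835847680) (.p (nat_lit 530) (.a s5236 (.a s5676 (.a s5340 (.a s6582 (.a (.p (nat_lit 594) (.a (.f (nat_lit 497) (nat_lit 465) (nat_lit 7633) (.f (nat_lit 529) (nat_lit 626) (nat_lit 7665) (.d (nat_lit 499) (nat_lit 467) (nat_lit 6610) (nat_lit 500) (nat_lit 1520)))) (.a (.f (nat_lit 467) (nat_lit 499) (nat_lit 6610) (.f (nat_lit 466) (nat_lit 435) (nat_lit 6578) (.d (nat_lit 465) (nat_lit 433) (nat_lit 7601) (nat_lit 497) (nat_lit 7633)))) (.f (nat_lit 625) (nat_lit 593) (nat_lit 5617) (.f (nat_lit 626) (nat_lit 657) (nat_lit 5649) (.d (nat_lit 627) (nat_lit 595) (nat_lit 4594) (nat_lit 659) (nat_lit 4626))))))) (.a s5358 (.a s6583 s5373))))))))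
noncomputable def s6586 : Cert := .r (nat_lit 64836180782635327101742773732697231585002535603158398420531735424769985283468068119602739269728063835414242088734400412247313427197993133195998014662105898411975269780990422155264) (.p (nat_lit 530) (.a (.f (nat_lit 595) (nat_lit 627) (nat_lit 4594) (.f (nat_lit 561) (nat_lit 559) (nat_lit 559) (.d (nat_lit 593) (nat_lit 596) (nat_lit 3632) (nat_lit 625) (nat_lit 5617)))) (.a (.f (nat_lit 625) (nat_lit 593) (nat_lit 5617) (.f (nat_lit 626) (nat_lit 657) (nat_lit 5649) (.d (nat_lit 627) (nat_lit 595) (nat_lit 4594) (nat_lit 659) (nat_lit 4626)))) (.a (.f (nat_lit 595) (nat_lit 627) (nat_lit 4594) (.f (nat_lit 561) (nat_lit 559) (nat_lit 559) (.d (nat_lit 596) (nat_lit 563) (nat_lit 560) (nat_lit 597) (nat_lit 3633)))) (.f (nat_lit 593) (nat_lit 625) (nat_lit 5617) (.f (nat_lit 497) (nat_lit 465) (nat_lit 7633) (.f (nat_lit 499) (nat_lit 467) (nat_lit 6610) (.f (nat_lit 496) (nat_lit 527)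 (nat_lit 1519) (.d (nat_lit 464) (nat_lit 463) (nat_lit 3535) (nat_lit 561) (nat_lit 4560))))))))))
noncomputable def s6595 : Cert := .r (nat_lit 18869812124986400862522838600433063224370321858099589648353535105141378332107316629929567049661150110432825581272389191644684144010265595379075215801644304102841835847680) (.p (nat_lit 594) (.a (.p (nat_lit 530) (.a (.f (nat_lit 497) (nat_lit 465) (nat_lit 7633) (.f (nat_lit 529) (nat_lit 626) (nat_lit 7665) (.d (nat_lit 499) (nat_lit 467) (nat_lit 6610) (nat_lit 500) (nat_lit 1520)))) (.f (nat_lit 595) (nat_lit 627) (nat_lit 4594) (.f (nat_lit 561) (nat_lit 559) (nat_lit 559) (.d (nat_lit 593) (nat_lit 596) (nat_lit 3632) (nat_lit 625) (nat_lit 5617)))))) (.a (.p (nat_lit 530) (.a (.f (nat_lit 497) (nat_lit 465) (nat_lit 7633) (.f (nat_lit 529) (nat_lit 626) (nat_lit 7665) (.d (nat_lit 499) (nat_lit 467) (nat_lit 6610) (nat_lit 500) (nat_lit 1520)))) (.a (.f (nat_lit 625) (nat_lit 593)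 (nat_lit 5617) (.f (nat_lit 626) (nat_lit 657) (nat_lit 5649) (.d (nat_lit 627) (nat_lit 595) (nat_lit 4594) (nat_lit 659) (nat_lit 4626)))) (.f (nat_lit 497) (nat_lit 465) (nat_lit 7633) (.f (nat_lit 499) (nat_lit 467) (nat_lit 6610) (.f (nat_lit 500) (nat_lit 529) (nat_lit 1520) (.f (nat_lit 533) (nat_lit 532) (nat_lit 497) (.f (nat_lit 501) (nat_lit 534) (nat_lit 498) (.d (nat_lit 469) (nat_lit 468) (nat_lit 2513) (nat_lit 470) (nat_lit 2514)))))))))) (.a s6586 (.a s6496 (.p (nat_lit 530) (.a (.f (nat_lit 497) (nat_lit 465) (nat_lit 7633) (.f (nat_lit 529) (nat_lit 626) (nat_lit 7665) (.d (nat_lit 499) (nat_lit 467) (nat_lit 6610) (nat_lit 500) (nat_lit 1520)))) (.a (.f (nat_lit 593) (nat_lit 625) (nat_lit 5617) (.f (nat_lit 497) (nat_lit 465) (nat_lit 7633) (.f (nat_lit 499) (nat_lit 467) (nat_lit 6610) (.f (nat_lit 496) (nat_lit 527) (nat_lit 1519) (.d (nat_lit 464) (nat_lit 463) (nat_lit 3535) (nat_lit 561) (nat_lit 4560))))))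 (.a (.f (nat_lit 593) (nat_lit 625) (nat_lit 5617) (.f (nat_lit 499) (nat_lit 467) (nat_lit 6610) (.f (nat_lit 527) (nat_lit 529) (nat_lit 2543) (.f (nat_lit 561) (nat_lit 563) (nat_lit 3599) (.f (nat_lit 559) (nat_lit 558) (nat_lit 558) (.f (nat_lit 591) (nat_lit 590) (nat_lit 1582) (.d (nat_lit 496) (nat_lit 464) (nat_lit 5583) (nat_lit 623) (nat_lit 6639)))))))) (.f (nat_lit 497) (nat_lit 465) (nat_lit 7633) (.f (nat_lit 626) (nat_lit 529) (nat_lit 7665) (.d (nat_lit 625) (nat_lit 593) (nat_lit 5617) (nat_lit 657) (nat_lit 5649)))))))))))))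
noncomputable def s6609 : Cert := .r (nat_lit 18869812128501177264509710774503796433499995185341540522026907474751343623210314739829166948347900646451490313420764903077122343325272053234930137433682206587892745109504) (.p (nat_lit 594) (.a (.f (nat_lit 497) (nat_lit 465) (nat_lit 7633) (.f (nat_lit 626) (nat_lit 529) (nat_lit 7665) (.d (nat_lit 625) (nat_lit 593) (nat_lit 5617) (nat_lit 657) (nat_lit 5649)))) (.a (.f (nat_lit 593) (nat_lit 625) (nat_lit 5617) (.f (nat_lit 561) (nat_lit 466) (nat_lit 5585) (.f (nat_lit 559) (nat_lit 558) (nat_lit 558) (.f (nat_lit 591) (nat_lit 590) (nat_lit 1582) (.f (nat_lit 496) (nat_lit 464) (nat_lit 4560) (.d (nat_lit 527) (nat_lit 563) (nat_lit 3599) (nat_lit 623) (nat_lit 6639))))))) (.f (nat_lit 497) (nat_lit 465) (nat_lit 7633) (.f (nat_lit 529) (nat_lit 626) (nat_lit 7665) (.f (nat_lit 563) (nat_lit 527) (nat_lit 527) (.d (nat_lit 564) (nat_lit 561) (nat_lit 3600) (nat_lit 565) (nat_lit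 3601))))))))
noncomputable def s6611 : Cert := .r (nat_lit 18869812128501177264509710774503796433499995185341540522026907474751343623210314739829166948347900646451490313420764903077122343325272053234930137433682206587892745109504) (.p (nat_lit 594) (.a (.f (nat_lit 497) (nat_lit 465) (nat_lit 7633) (.f (nat_lit 529) (nat_lit 626) (nat_lit 7665) (.d (nat_lit 499) (nat_lit 467) (nat_lit 6610) (nat_lit 500) (nat_lit 1520)))) (.a (.f (nat_lit 593) (nat_lit 625) (nat_lit 5617) (.f (nat_lit 497) (nat_lit 465) (nat_lit 7633) (.f (nat_lit 499) (nat_lit 467) (nat_lit 6610) (.f (nat_lit 496) (nat_lit 527) (nat_lit 1519) (.d (nat_lit 464) (nat_lit 463) (nat_lit 3535) (nat_lit 561) (nat_lit 4560)))))) (.a (.f (nat_lit 593) (nat_lit 625) (nat_lit 5617) (.f (nat_lit 499) (nat_lit 467) (nat_lit 6610) (.f (nat_lit 527) (nat_lit 529) (nat_lit 2543) (.f (nat_lit 561) (nat_lit 563) (nat_lit 3599) (.f (nat_lit 559) (nat_lit 558) (nat_lit 558) (.f (nat_lit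 591) (nat_lit 590) (nat_lit 1582) (.d (nat_lit 496) (nat_lit 464) (nat_lit 5583) (nat_lit 623) (nat_lit 6639)))))))) (.f (nat_lit 497) (nat_lit 465) (nat_lit 7633) (.f (nat_lit 626) (nat_lit 529) (nat_lit 7665) (.d (nat_lit 625) (nat_lit 593) (nat_lit 5617) (nat_lit 657) (nat_lit 5649))))))))
noncomputable def s6688 : Cert := .r (nat_lit 26417736974629483567210534675403109873079988654984195452119487833510318206234320044607828862291759805195966712104285891266155731028087685082274162838627533255973659475968) (.p (nat_lit 529) (.a (.f (nat_lit 563) (nat_lit 564) (nat_lit 3600) (.f (nat_lit 595) (nat_lit 596) (nat_lit 560) (.f (nat_lit 594) (nat_lit 559) (nat_lit 559) (.f (nat_lit 531) (nat_lit 532) (nat_lit 2576) (.d (nat_lit 499) (nat_lit 466) (nat_lit 7634) (nat_lit 467) (nat_lit 5586)))))) (.a (.f (nat_lit 464) (nat_lit 432) (nat_lit 4528) (.f (nat_lit 465) (nat_lit 433) (nat_lit 6576) (.f (nat_lit 497) (nat_lit 594) (nat_lit 4561)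 (.f (nat_lit 466) (nat_lit 434) (nat_lit 6577) (.d (nat_lit 467) (nat_lit 468) (nat_lit 1488) (nat_lit 495) (nat_lit 2511)))))) (.a (.f (nat_lit 464) (nat_lit 432) (nat_lit 4528) (.f (nat_lit 465) (nat_lit 433) (nat_lit 6576) (.f (nat_lit 563) (nat_lit 564) (nat_lit 3600) (.f (nat_lit 531) (nat_lit 532) (nat_lit 2576) (.f (nat_lit 595) (nat_lit 596) (nat_lit 560) (.f (nat_lit 466) (nat_lit 499) (nat_lit 7634) (.f (nat_lit 497) (nat_lit 434) (nat_lit 6577) (.d (nat_lit 467) (nat_lit 468) (nat_lit 1488) (nat_lit 495) (nat_lit 2511))))))))) (.f (nat_lit 464) (nat_lit 432) (nat_lit 4528) (.f (nat_lit 559) (nat_lit 591) (nat_lit 5583) (.f (nat_lit 465) (nat_lit 433) (nat_lit 6576) (.d (nat_lit 594) (nat_lit 497) (nat_lit 4561) (nat_lit 595) (nat_lit 559)))))))))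
noncomputable def s6706 : Cert := .r (nat_lit 26417736974629483567210534675403109873079988654984195452119487833510318206234320044607828862291759805195966712104285891266155731028087685082274162838627533255973659475968) (.p (nat_lit 464) (.a (.f (nat_lit 432) (nat_lit 529) (nat_lit 4528) (.d (nat_lit 433) (nat_lit 401) (nat_lit 6544) (nat_lit 465) (nat_lit 6576))) (.a (.f (nat_lit 559) (nat_lit 591) (nat_lit 5583) (.f (nat_lit 432) (nat_lit 527) (nat_lit 5551) (.d (nat_lit 433) (nat_lit 401) (nat_lit 6544) (nat_lit 465) (nat_lit 6576)))) (.a (.f (nat_lit 559) (nat_lit 591) (nat_lit 5583) (.d (nat_lit 432) (nat_lit 527) (nat_lit 5551) (nat_lit 529) (nat_lit 4528))) (.f (nat_lit 559) (nat_lit 591) (nat_lit 5583) (.f (nat_lit 465) (nat_lit 433) (nat_lit 6576) (.f (nat_lit 594) (nat_lit 595) (nat_lit 559) (.f (nat_lit 497) (nat_lit 529) (nat_lit 4561) (.d (nat_lit 499) (nat_lit 500) (nat_lit 3536) (nat_lit 527) (nat_lit 1519))))))))))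
noncomputable def s6720 : Cert := .r (nat_lit 64836180782635327101742773732697231585002535603158398420531735424769985283468068119602739269728063835414242088734400412247313427197993133195998014662105898411975269780990422155264) (.p (nat_lit 561) (.a (.f (nat_lit 563) (nat_lit 527) (nat_lit 3599) (.d (nat_lit 595) (nat_lit 559) (nat_lit 559) (nat_lit 596) (nat_lit 560))) (.a (.f (nat_lit 595) (nat_lit 559) (nat_lit 559) (.d (nat_lit 596) (nat_lit 563) (nat_lit 560) (nat_lit 597) (nat_lit 3633))) (.a (.f (nat_lit 559) (nat_lit 595) (nat_lit 559) (.f (nat_lit 590) (nat_lit 591) (nat_lit 1582) (.f (nat_lit 558) (nat_lit 589) (nat_lit 1581) (.f (nat_lit 557) (nat_lit 529) (nat_lit 2573) (.f (nat_lit 556) (nat_lit 527) (nat_lit 2572) (.d (nat_lit 524) (nat_lit 523) (nat_lit 3595) (nat_lit 525) (nat_lit 3596))))))) (.f (nat_lit 563) (nat_lit 527) (nat_lit 3599) (.f (nat_lit 564) (nat_lit 529) (nat_lit 3600) (.d (nat_lit 532) (nat_lit 531)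 (nat_lit 2576) (nat_lit 533) (nat_lit 2577))))))))
noncomputable def s6726 : Cert := .r (nat_lit 18869812128501177264509710774503796433499995185341540522026907474751343623210314739829166948347900646451490313420764903077122343325272053234930137433682206587892745109504) (.p (nat_lit 594) (.a (.f (nat_lit 499) (nat_lit 467) (nat_lit 6610) (.f (nat_lit 529) (nat_lit 527) (nat_lit 2543) (.d (nat_lit 500) (nat_lit 501) (nat_lit 1521) (nat_lit 531) (nat_lit 2544)))) (.a (.f (nat_lit 499) (nat_lit 467) (nat_lit 6610) (.f (nat_lit 531) (nat_lit 626) (nat_lit 6642) (.d (nat_lit 529) (nat_lit 500) (nat_lit 2544) (nat_lit 559) (nat_lit 1551)))) (.a (.f (nat_lit 499) (nat_lit 467) (nat_lit 6610) (.f (nat_lit 626) (nat_lit 531) (nat_lit 6642) (.d (nat_lit 627) (nat_lit 595) (nat_lit 4594) (nat_lit 659) (nat_lit 4626)))) (.a (.f (nat_lit 499) (nat_lit 467) (nat_lit 6610) (.f (nat_lit 529) (nat_lit 527) (nat_lit 2543) (.f (nat_lit 627) (nat_lit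 595) (nat_lit 4594) (.f (nat_lit 626) (nat_lit 659) (nat_lit 4626) (.f (nat_lit 561) (nat_lit 658) (nat_lit 7697) (.f (nat_lit 559) (nat_lit 558) (nat_lit 2574) (.f (nat_lit 466) (nat_lit 434) (nat_lit 5553) (.f (nat_lit 465) (nat_lit 433) (nat_lit 7601) (.f (nat_lit 464) (nat_lit 463) (nat_lit 463) (.d (nat_lit 496) (nat_lit 432) (nat_lit 4528) (nat_lit 591) (nat_lit 5583))))))))))) (.f (nat_lit 595) (nat_lit 627) (nat_lit 4594) (.f (nat_lit 559) (nat_lit 561) (nat_lit 559) (.f (nat_lit 529) (nat_lit 531) (nat_lit 1551) (.d (nat_lit 558) (nat_lit 527) (nat_lit 1550) (nat_lit 557) (nat_lit 2573))))))))))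
noncomputable def s6732 : Cert := .r (nat_lit 18869812128501177264509710774503796433499995185341540522026907474751343623210314739829166948347900646451490313420764903077122343325272053234930137433682206587892745109504) (.p (nat_lit 561) (.a (.f (nat_lit 531) (nat_lit 559) (nat_lit 2575) (.d (nat_lit 532) (nat_lit 529) (nat_lit 1552) (nat_lit 533) (nat_lit 1553))) (.a (.f (nat_lit 531) (nat_lit 559) (nat_lit 2575) (.d (nat_lit 532) (nat_lit 533) (nat_lit 1553) (nat_lit 563) (nat_lit 2576))) (.a (.f (nat_lit 527) (nat_lit 563) (nat_lit 3599) (.f (nat_lit 529) (nat_lit 499) (nat_lit 2543) (.f (nat_lit 559) (nat_lit 558) (nat_lit 1550) (.f (nat_lit 591) (nat_lit 590) (nat_lit 1582) (.d (nat_lit 496) (nat_lit 464) (nat_lit 5583) (nat_lit 623) (nat_lit 6639)))))) (.f (nat_lit 563) (nat_lit 527) (nat_lit 3599) (.f (nat_lit 531) (nat_lit 532) (nat_lit 2576) (.f (nat_lit 529) (nat_lit 564) (nat_lit 528) (.f (nat_lit 499) (nat_lit 500) (nat_lit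 2544) (.d (nat_lit 467) (nat_lit 435) (nat_lit 5554) (nat_lit 594) (nat_lit 6610))))))))))
noncomputable def s6744 : Cert := .r (nat_lit 18869812124986400862727425513426572091246146214151314595367075233019069881450022340435575411936442270113029962042758201466614561768238099817151294335762141168674868822016) (.p (nat_lit 464) (.a (.f (nat_lit 463) (nat_lit 431) (nat_lit 7599) (.f (nat_lit 465) (nat_lit 433) (nat_lit 6576) (.f (nat_lit 466) (nat_lit 499) (nat_lit 463) (.d (nat_lit 495) (nat_lit 467) (nat_lit 1487) (nat_lit 494) (nat_lit 1486))))) (.a (.f (nat_lit 431) (nat_lit 463) (nat_lit 7599) (.f (nat_lit 432) (nat_lit 399) (nat_lit 7567) (.d (nat_lit 433) (nat_lit 401) (nat_lit 6544) (nat_lit 465) (nat_lit 6576)))) (.a (.f (nat_lit 463) (nat_lit 431) (nat_lit 7599) (.f (nat_lit 497) (nat_lit 499) (nat_lit 3535) (.d (nat_lit 462) (nat_lit 461) (nat_lit 461) (nat_lit 495) (nat_lit 3534)))) (.a (.f (nat_lit 433) (nat_lit 465) (nat_lit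 6576) (.f (nat_lit 432) (nat_lit 401) (nat_lit 6544) (.f (nat_lit 399) (nat_lit 431) (nat_lit 7567) (.f (nat_lit 400) (nat_lit 367) (nat_lit 7535) (.d (nat_lit 529) (nat_lit 497) (nat_lit 4496) (nat_lit 561) (nat_lit 4528)))))) (.f (nat_lit 433) (nat_lit 465) (nat_lit 6576) (.f (nat_lit 432) (nat_lit 401) (nat_lit 6544) (.f (nat_lit 529) (nat_lit 561) (nat_lit 4528) (.f (nat_lit 497) (nat_lit 400) (nat_lit 4496) (.d (nat_lit 499) (nat_lit 463) (nat_lit 3535) (nat_lit 500) (nat_lit 1520)))))))))))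
noncomputable def s6802 : Cert := .r (nat_lit 18869812124986400862522838600433063224370321858099589648353535105141378332107316629929567049661150110432825581272389191644684144010265595379075215801644304102841835847680) (.p (nat_lit 561) (.a (.f (nat_lit 563) (nat_lit 527) (nat_lit 3599) (.f (nat_lit 595) (nat_lit 596) (nat_lit 560) (.f (nat_lit 530) (nat_lit 466) (nat_lit 4562) (.d (nat_lit 531) (nat_lit 532) (nat_lit 2576) (nat_lit 559) (nat_lit 2575))))) (.a (.p (nat_lit 563) (.a (.f (nat_lit 564) (nat_lit 529) (nat_lit 3600) (.d (nat_lit 532) (nat_lit 531) (nat_lit 2576) (nat_lit 533) (nat_lit 2577))) (.a (.f (nat_lit 595) (nat_lit 596) (nat_lit 560) (.f (nat_lit 530) (nat_lit 466) (nat_lit 4562) (.d (nat_lit 531) (nat_lit 532) (nat_lit 2576) (nat_lit 627) (nat_lit 7666)))) (.f (nat_lit 564) (nat_lit 529) (nat_lit 3600) (.d (nat_lit 596) (nat_lit 595) (nat_lit 560) (nat_lit 597) (nat_lit 561)))))) (.a (.f (nat_lit 563) (nat_lit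 527) (nat_lit 3599) (.f (nat_lit 564) (nat_lit 529) (nat_lit 3600) (.d (nat_lit 596) (nat_lit 595) (nat_lit 560) (nat_lit 597) (nat_lit 561)))) (.p (nat_lit 559) (.a (.f (nat_lit 590) (nat_lit 591) (nat_lit 1582) (.f (nat_lit 558) (nat_lit 589) (nat_lit 1581) (.d (nat_lit 529) (nat_lit 530) (nat_lit 2574) (nat_lit 557) (nat_lit 2573)))) (.a (.f (nat_lit 591) (nat_lit 590) (nat_lit 1582) (.f (nat_lit 496) (nat_lit 464) (nat_lit 5583) (.d (nat_lit 623) (nat_lit 527) (nat_lit 6639) (nat_lit 655) (nat_lit 6671)))) (.f (nat_lit 530) (nat_lit 531) (nat_lit 2575) (.f (nat_lit 529) (nat_lit 558) (nat_lit 2574) (.f (nat_lit 499) (nat_lit 527) (nat_lit 2543) (.d (nat_lit 500) (nat_lit 497) (nat_lit 1520) (nat_lit 501) (nat_lit 1521))))))))))))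
noncomputable def s6803 : Cert := .r (nat_lit 18869812128501177264509710774503796433499995185341540522026907474751343623210314739829166948347900646451490313420764903077122343325272053234930137433682206587892745109504) (.p (nat_lit 594) (.a (.f (nat_lit 497) (nat_lit 465) (nat_lit 7633) (.f (nat_lit 529) (nat_lit 626) (nat_lit 7665) (.f (nat_lit 559) (nat_lit 531) (nat_lit 1551) (.d (nat_lit 558) (nat_lit 527) (nat_lit 1550) (nat_lit 557) (nat_lit 2573))))) (.a (.f (nat_lit 497) (nat_lit 465) (nat_lit 7633) (.f (nat_lit 529) (nat_lit 626) (nat_lit 7665) (.f (nat_lit 559) (nat_lit 531) (nat_lit 1551) (.d (nat_lit 558) (nat_lit 557) (nat_lit 2573) (nat_lit 561) (nat_lit 2574))))) (.a s6073 (.a (.f (nat_lit 595) (nat_lit 627) (nat_lit 4594) (.f (nat_lit 559) (nat_lit 561) (nat_lit 559) (.f (nat_lit 529) (nat_lit 531) (nat_lit 1551) (.d (nat_lit 558) (nat_lit 527) (nat_lit 1550) (nat_lit 557) (nat_lit 2573))))) (.f (nat_lit 497) (nat_lit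 465) (nat_lit 7633) (.f (nat_lit 626) (nat_lit 529) (nat_lit 7665) (.d (nat_lit 627) (nat_lit 595) (nat_lit 4594) (nat_lit 659) (nat_lit 4626)))))))))
noncomputable def s6805 : Cert := .r (nat_lit 18869812128501177264509710774503796433499995185341540522026907474751343623210314739829166948347900646451490313420764903077122343325272053234930137433682206587892745109504) (.p (nat_lit 594) (.a (.f (nat_lit 499) (nat_lit 467) (nat_lit 6610) (.f (nat_lit 529) (nat_lit 527) (nat_lit 2543) (.d (nat_lit 500) (nat_lit 501) (nat_lit 1521) (nat_lit 531) (nat_lit 2544)))) (.a (.f (nat_lit 499) (nat_lit 467) (nat_lit 6610) (.f (nat_lit 531) (nat_lit 626) (nat_lit 6642) (.f (nat_lit 595) (nat_lit 627) (nat_lit 4594) (.f (nat_lit 563) (nat_lit 466) (nat_lit 4562) (.d (nat_lit 500) (nat_lit 468) (nat_lit 6611) (nat_lit 529) (nat_lit 2544)))))) (.a (.f (nat_lit 467) (nat_lit 499) (nat_lit 6610) (.f (nat_lit 466) (nat_lit 435) (nat_lit 6578) (.d (nat_lit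 595) (nat_lit 563) (nat_lit 4562) (nat_lit 627) (nat_lit 4594)))) (.f (nat_lit 595) (nat_lit 627) (nat_lit 4594) (.f (nat_lit 563) (nat_lit 466) (nat_lit 4562) (.d (nat_lit 527) (nat_lit 529) (nat_lit 527) (nat_lit 561) (nat_lit 3599))))))))
noncomputable def s6806 : Cert := .r (nat_lit 18869812128501177264509710774503796433499995185341540522026907474751343623210314739829166948347900646451490313420764903077122343325272053234930137433682206587892745109504) (.p (nat_lit 594) (.a (.f (nat_lit 497) (nat_lit 465) (nat_lit 7633) (.f (nat_lit 529) (nat_lit 626) (nat_lit 7665) (.d (nat_lit 499) (nat_lit 467) (nat_lit 6610) (nat_lit 500) (nat_lit 1520)))) (.a (.f (nat_lit 499) (nat_lit 467) (nat_lit 6610) (.f (nat_lit 626) (nat_lit 531) (nat_lit 6642) (.d (nat_lit 627) (nat_lit 595) (nat_lit 4594) (nat_lit 659) (nat_lit 4626)))) (.a (.f (nat_lit 497) (nat_lit 465) (nat_lit 7633) (.f (nat_lit 529) (nat_lit 626) (nat_lit 7665) (.f (nat_lit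 563) (nat_lit 527) (nat_lit 527) (.d (nat_lit 564) (nat_lit 531) (nat_lit 528) (nat_lit 561) (nat_lit 3600))))) (.f (nat_lit 499) (nat_lit 467) (nat_lit 6610) (.f (nat_lit 529) (nat_lit 527) (nat_lit 2543) (.d (nat_lit 500) (nat_lit 501) (nat_lit 1521) (nat_lit 531) (nat_lit 2544))))))))
noncomputable def s6807 : Cert := .r (nat_lit 18869812128501177264509710774503796433499995185341540522026907474751343623210314739829166948347900646451490313420764903077122343325272053234930137433682206587892745109504) (.p (nat_lit 594) (.a (.f (nat_lit 497) (nat_lit 465) (nat_lit 7633) (.f (nat_lit 529) (nat_lit 626) (nat_lit 7665) (.f (nat_lit 563) (nat_lit 527) (nat_lit 527) (.d (nat_lit 564) (nat_lit 531) (nat_lit 528) (nat_lit 561) (nat_lit 3600))))) (.a (.f (nat_lit 497) (nat_lit 465) (nat_lit 7633) (.f (nat_lit 529) (nat_lit 626) (nat_lit 7665) (.f (nat_lit 595) (nat_lit 627) (nat_lit 4594) (.f (nat_lit 563) (nat_lit 466) (nat_lit 4562) (.d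 (nat_lit 561) (nat_lit 564) (nat_lit 3600) (nat_lit 596) (nat_lit 560)))))) (.a (.f (nat_lit 595) (nat_lit 627) (nat_lit 4594) (.f (nat_lit 466) (nat_lit 563) (nat_lit 4562) (.d (nat_lit 465) (nat_lit 433) (nat_lit 7601) (nat_lit 497) (nat_lit 7633)))) (.a (.f (nat_lit 595) (nat_lit 627) (nat_lit 4594) (.f (nat_lit 563) (nat_lit 466) (nat_lit 4562) (.d (nat_lit 527) (nat_lit 529) (nat_lit 527) (nat_lit 561) (nat_lit 3599)))) (.f (nat_lit 497) (nat_lit 465) (nat_lit 7633) (.f (nat_lit 626) (nat_lit 529) (nat_lit 7665) (.d (nat_lit 627) (nat_lit 595) (nat_lit 4594) (nat_lit 659) (nat_lit 4626)))))))))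
noncomputable def s6808 : Cert := .r (nat_lit 18869812124986400862522838600433063224370321858099589648353535105141378332107316629929567049661150110432825581272389191644684144010265595379075215801644304102841835847680) (.p (nat_lit 530) (.a s3188 (.a s5612 (.a s5672 (.a (.p (nat_lit 466) (.a (.f (nat_lit 433) (nat_lit 465) (nat_lit 7601) (.f (nat_lit 434) (nat_lit 401) (nat_lit 7569) (.d (nat_lit 435) (nat_lit 403) (nat_lit 6546) (nat_lit 467) (nat_lit 6578)))) (.a (.f (nat_lit 563) (nat_lit 595) (nat_lit 4562) (.f (nat_lit 529) (nat_lit 527) (nat_lit 527) (.d (nat_lit 531) (nat_lit 434) (nat_lit 4530) (nat_lit 564) (nat_lit 528)))) (.f (nat_lit 563) (nat_lit 595) (nat_lit 4562) (.f (nat_lit 529) (nat_lit 527) (nat_lit 527) (.d (nat_lit 564) (nat_lit 531) (nat_lit 528) (nat_lit 565) (nat_lit 3601))))))) (.a s6582 (.a (.p (nat_lit 499) (.a (.f (nat_lit 529) (nat_lit 527) (nat_lit 2543) (.d (nat_lit 500) (nat_lit 497) (nat_lit 1520)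 (nat_lit 501) (nat_lit 1521))) (.a (.f (nat_lit 594) (nat_lit 467) (nat_lit 6610) (.f (nat_lit 497) (nat_lit 465) (nat_lit 7633) (.d (nat_lit 529) (nat_lit 500) (nat_lit 1520) (nat_lit 626) (nat_lit 7665)))) (.f (nat_lit 467) (nat_lit 594) (nat_lit 6610) (.d (nat_lit 435) (nat_lit 403) (nat_lit 5522) (nat_lit 466) (nat_lit 6578)))))) (.a s6805 (.a s6806 s6807)))))))))
noncomputable def s6809 : Cert := .r (nat_lit 18869812128501177264509710774503796433499995185341540522026907474751343623210314739829166948347900646451490313420764903077122343325272053234930137433682206587892745109504) (.p (nat_lit 594) (.a (.f (nat_lit 595) (nat_lit 627) (nat_lit 4594) (.f (nat_lit 561) (nat_lit 559) (nat_lit 559) (.d (nat_lit 563) (nat_lit 466) (nat_lit 4562) (nat_lit 596) (nat_lit 560)))) (.a (.f (nat_lit 595) (nat_lit 627) (nat_lit 4594) (.f (nat_lit 466) (nat_lit 563) (nat_lit 4562) (.d (nat_lit 465) (nat_lit 433) (nat_lit 7601) (nat_lit 497) (nat_lit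 7633)))) (.a (.f (nat_lit 497) (nat_lit 465) (nat_lit 7633) (.f (nat_lit 529) (nat_lit 626) (nat_lit 7665) (.f (nat_lit 595) (nat_lit 627) (nat_lit 4594) (.f (nat_lit 559) (nat_lit 561) (nat_lit 559) (.d (nat_lit 558) (nat_lit 527) (nat_lit 1550) (nat_lit 557) (nat_lit 2573)))))) (.f (nat_lit 497) (nat_lit 465) (nat_lit 7633) (.f (nat_lit 529) (nat_lit 626) (nat_lit 7665) (.f (nat_lit 563) (nat_lit 527) (nat_lit 527) (.d (nat_lit 564) (nat_lit 561) (nat_lit 3600) (nat_lit 565) (nat_lit 3601)))))))))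
noncomputable def s6818 : Cert := .r (nat_lit 18869812128501177264509710774503796433499995185341540522026907474751343623210314739829166948347900646451490313420764903077122343325272053234930137433682206587892745109504) (.p (nat_lit 561) (.a (.f (nat_lit 531) (nat_lit 559) (nat_lit 2575) (.d (nat_lit 532) (nat_lit 529) (nat_lit 1552) (nat_lit 533) (nat_lit 1553))) (.a (.f (nat_lit 531) (nat_lit 559) (nat_lit 2575) (.d (nat_lit 532) (nat_lit 533) (nat_lit 1553) (nat_lit 563) (nat_lit 2576))) (.f (nat_lit 563) (nat_lit 527) (nat_lit 3599) (.f (nat_lit 529) (nat_lit 564) (nat_lit 3600) (.f (nat_lit 466) (nat_lit 434) (nat_lit 5553) (.f (nat_lit 465) (nat_lit 433) (nat_lit 7601) (.f (nat_lit 497) (nat_lit 594) (nat_lit 7633) (.f (nat_lit 467) (nat_lit 435) (nat_lit 6578) (.d (nat_lit 468) (nat_lit 469) (nat_lit 1489) (nat_lit 496) (nat_lit 1488)))))))))))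
noncomputable def s6819 : Cert := .r (nat_lit 18869812124986400862522838600433063224370321858099589648353535105141378332107316629929567049661150110432825581272389191644684144010265595379075215801644304102841835847680) (.p (nat_lit 530) (.a s5613 (.a (.p (nat_lit 466) (.a (.f (nat_lit 433) (nat_lit 465) (nat_lit 7601) (.f (nat_lit 434) (nat_lit 401) (nat_lit 7569) (.d (nat_lit 435) (nat_lit 403) (nat_lit 6546) (nat_lit 467) (nat_lit 6578)))) (.a (.f (nat_lit 563) (nat_lit 595) (nat_lit 4562) (.f (nat_lit 434) (nat_lit 531) (nat_lit 4530) (.d (nat_lit 435) (nat_lit 403) (nat_lit 6546) (nat_lit 467) (nat_lit 6578)))) (.f (nat_lit 465) (nat_lit 433) (nat_lit 7601) (.f (nat_lit 594) (nat_lit 497) (nat_lit 7633) (.d (nat_lit 595) (nat_lit 563) (nat_lit 4562) (nat_lit 627) (nat_lit 4594))))))) (.a (.p (nat_lit 466) (.a (.f (nat_lit 433) (nat_lit 465) (nat_lit 7601) (.f (nat_lit 434) (nat_lit 401) (nat_lit 7569) (.d (nat_lit 435) (nat_lit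 403) (nat_lit 6546) (nat_lit 467) (nat_lit 6578)))) (.a (.f (nat_lit 563) (nat_lit 595) (nat_lit 4562) (.f (nat_lit 529) (nat_lit 527) (nat_lit 527) (.d (nat_lit 531) (nat_lit 434) (nat_lit 4530) (nat_lit 564) (nat_lit 528)))) (.f (nat_lit 563) (nat_lit 595) (nat_lit 4562) (.f (nat_lit 529) (nat_lit 527) (nat_lit 527) (.d (nat_lit 564) (nat_lit 531) (nat_lit 528) (nat_lit 565) (nat_lit 3601))))))) (.a s6809 (.a s6803 (.a (.p (nat_lit 561) (.a (.f (nat_lit 531) (nat_lit 559) (nat_lit 2575) (.d (nat_lit 532) (nat_lit 529) (nat_lit 1552) (nat_lit 533) (nat_lit 1553))) (.f (nat_lit 563) (nat_lit 527) (nat_lit 3599) (.d (nat_lit 595) (nat_lit 466) (nat_lit 4562) (nat_lit 596) (nat_lit 560))))) (.a (.p (nat_lit 561) (.a (.f (nat_lit 531) (nat_lit 559) (nat_lit 2575) (.d (nat_lit 532) (nat_lit 529) (nat_lit 1552) (nat_lit 533) (nat_lit 1553))) (.a (.f (nat_lit 531) (nat_lit 559) (nat_lit 2575) (.d (nat_lit 532) (nat_lit 533) (nat_lit 1553)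 (nat_lit 563) (nat_lit 2576))) (.f (nat_lit 563) (nat_lit 527) (nat_lit 3599) (.f (nat_lit 564) (nat_lit 529) (nat_lit 3600) (.d (nat_lit 596) (nat_lit 595) (nat_lit 560) (nat_lit 597) (nat_lit 561))))))) s6818))))))))
noncomputable def s6825 : Cert := .r (nat_lit 18869812124986400862522838600433063224370321858099589648353535105141378332107316629929567049661150110432825581272389191644684144010265595379075215801644304102841835847680) (.p (nat_lit 594) (.a s5334 (.a (.p (nat_lit 530) (.a (.f (nat_lit 497) (nat_lit 465) (nat_lit 7633) (.f (nat_lit 529) (nat_lit 626) (nat_lit 7665) (.d (nat_lit 499) (nat_lit 467) (nat_lit 6610) (nat_lit 500) (nat_lit 1520)))) (.f (nat_lit 595) (nat_lit 627) (nat_lit 4594) (.f (nat_lit 561) (nat_lit 559) (nat_lit 559) (.d (nat_lit 596) (nat_lit 563) (nat_lit 560) (nat_lit 597) (nat_lit 3633)))))) (.a (.p (nat_lit 530) (.a (.f (nat_lit 497) (nat_lit 465) (nat_lit 7633) (.f (nat_lit 529) (nat_lit 626)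 (nat_lit 7665) (.d (nat_lit 499) (nat_lit 467) (nat_lit 6610) (nat_lit 500) (nat_lit 1520)))) (.a (.f (nat_lit 499) (nat_lit 467) (nat_lit 6610) (.f (nat_lit 626) (nat_lit 531) (nat_lit 6642) (.d (nat_lit 627) (nat_lit 595) (nat_lit 4594) (nat_lit 659) (nat_lit 4626)))) (.a (.f (nat_lit 497) (nat_lit 465) (nat_lit 7633) (.f (nat_lit 529) (nat_lit 626) (nat_lit 7665) (.f (nat_lit 559) (nat_lit 531) (nat_lit 1551) (.d (nat_lit 558) (nat_lit 527) (nat_lit 1550) (nat_lit 557) (nat_lit 2573))))) (.f (nat_lit 499) (nat_lit 467) (nat_lit 6610) (.f (nat_lit 529) (nat_lit 527) (nat_lit 2543) (.d (nat_lit 500) (nat_lit 501) (nat_lit 1521) (nat_lit 531) (nat_lit 2544)))))))) (.a (.p (nat_lit 530) (.a (.f (nat_lit 595) (nat_lit 627) (nat_lit 4594) (.f (nat_lit 561) (nat_lit 559) (nat_lit 559) (.d (nat_lit 596) (nat_lit 563) (nat_lit 560) (nat_lit 597) (nat_lit 3633)))) (.a (.f (nat_lit 499) (nat_lit 467) (nat_lit 6610) (.f (nat_lit 626) (nat_lit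 531) (nat_lit 6642) (.d (nat_lit 627) (nat_lit 595) (nat_lit 4594) (nat_lit 659) (nat_lit 4626)))) (.f (nat_lit 499) (nat_lit 467) (nat_lit 6610) (.f (nat_lit 531) (nat_lit 626) (nat_lit 6642) (.f (nat_lit 561) (nat_lit 559) (nat_lit 2575) (.d (nat_lit 532) (nat_lit 533) (nat_lit 1553) (nat_lit 563) (nat_lit 2576)))))))) (.a (.p (nat_lit 530) (.a (.f (nat_lit 497) (nat_lit 465) (nat_lit 7633) (.f (nat_lit 529) (nat_lit 626) (nat_lit 7665) (.d (nat_lit 499) (nat_lit 467) (nat_lit 6610) (nat_lit 500) (nat_lit 1520)))) (.a (.f (nat_lit 499) (nat_lit 467) (nat_lit 6610) (.f (nat_lit 626) (nat_lit 531) (nat_lit 6642) (.d (nat_lit 627) (nat_lit 595) (nat_lit 4594) (nat_lit 659) (nat_lit 4626)))) (.a (.f (nat_lit 497) (nat_lit 465) (nat_lit 7633) (.f (nat_lit 529) (nat_lit 626) (nat_lit 7665) (.f (nat_lit 563) (nat_lit 527) (nat_lit 527) (.d (nat_lit 564) (nat_lit 531) (nat_lit 528) (nat_lit 561) (nat_lit 3600))))) (.f (nat_lit 499) (nat_lit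 467) (nat_lit 6610) (.f (nat_lit 529) (nat_lit 527) (nat_lit 2543) (.d (nat_lit 500) (nat_lit 501) (nat_lit 1521) (nat_lit 531) (nat_lit 2544)))))))) (.p (nat_lit 530) (.a (.f (nat_lit 497) (nat_lit 465) (nat_lit 7633) (.f (nat_lit 529) (nat_lit 626) (nat_lit 7665) (.d (nat_lit 499) (nat_lit 467) (nat_lit 6610) (nat_lit 500) (nat_lit 1520)))) (.a (.f (nat_lit 499) (nat_lit 467) (nat_lit 6610) (.f (nat_lit 531) (nat_lit 626) (nat_lit 6642) (.f (nat_lit 561) (nat_lit 559) (nat_lit 2575) (.d (nat_lit 532) (nat_lit 533) (nat_lit 1553) (nat_lit 563) (nat_lit 2576))))) (.a (.f (nat_lit 497) (nat_lit 465) (nat_lit 7633) (.f (nat_lit 529) (nat_lit 626) (nat_lit 7665) (.f (nat_lit 559) (nat_lit 531) (nat_lit 1551) (.d (nat_lit 558) (nat_lit 527) (nat_lit 1550) (nat_lit 557) (nat_lit 2573))))) (.f (nat_lit 499) (nat_lit 467) (nat_lit 6610) (.f (nat_lit 529) (nat_lit 527) (nat_lit 2543) (.d (nat_lit 500) (nat_lit 501) (nat_lit 1521) (nat_lit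 531) (nat_lit 2544))))))))))))))
noncomputable def s6856 : Cert := .r (nat_lit 3773962429215011855543492450550720869832310303675778808522082273768846973641719331484660047637265576285616813297709523478040004805572882704684400427951422413295163801600) (.p (nat_lit 562) (.a s3188 (.a s5612 (.a s5672 (.a (.p (nat_lit 466) (.a (.f (nat_lit 433) (nat_lit 465) (nat_lit 7601) (.f (nat_lit 434) (nat_lit 401) (nat_lit 7569) (.d (nat_lit 435) (nat_lit 403) (nat_lit 6546) (nat_lit 467) (nat_lit 6578)))) (.a (.f (nat_lit 563) (nat_lit 595) (nat_lit 4562) (.f (nat_lit 529) (nat_lit 527) (nat_lit 527) (.d (nat_lit 531) (nat_lit 434) (nat_lit 4530) (nat_lit 564) (nat_lit 528)))) (.f (nat_lit 563) (nat_lit 595) (nat_lit 4562) (.f (nat_lit 529) (nat_lit 527) (nat_lit 527) (.d (nat_lit 564) (nat_lit 531) (nat_lit 528) (nat_lit 565) (nat_lit 3601))))))) (.a s6582 (.a (.p (nat_lit 499) (.a (.f (nat_lit 529) (nat_lit 527) (nat_lit 2543) (.d (nat_lit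 500) (nat_lit 497) (nat_lit 1520) (nat_lit 501) (nat_lit 1521))) (.a (.f (nat_lit 594) (nat_lit 467) (nat_lit 6610) (.f (nat_lit 497) (nat_lit 465) (nat_lit 7633) (.d (nat_lit 529) (nat_lit 500) (nat_lit 1520) (nat_lit 626) (nat_lit 7665)))) (.f (nat_lit 467) (nat_lit 594) (nat_lit 6610) (.d (nat_lit 435) (nat_lit 403) (nat_lit 5522) (nat_lit 466) (nat_lit 6578)))))) (.a s6805 (.a s6806 s6807)))))))))
noncomputable def s6863 : Cert := .r (nat_lit 18869812128501177264509710774503796433499995185341540522026907474751343623210314739829166948347900646451490313420764903077122343325272053234930137433682206587892745109504) (.p (nat_lit 594) (.a (.f (nat_lit 497) (nat_lit 465) (nat_lit 7633) (.f (nat_lit 529) (nat_lit 626) (nat_lit 7665) (.f (nat_lit 563) (nat_lit 527) (nat_lit 527) (.d (nat_lit 564) (nat_lit 531) (nat_lit 528) (nat_lit 561) (nat_lit 3600))))) (.a (.f (nat_lit 497) (nat_lit 465) (nat_lit 7633) (.f (nat_lit 626) (nat_lit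 529) (nat_lit 7665) (.d (nat_lit 625) (nat_lit 593) (nat_lit 5617) (nat_lit 657) (nat_lit 5649)))) (.a (.f (nat_lit 625) (nat_lit 593) (nat_lit 5617) (.f (nat_lit 626) (nat_lit 657) (nat_lit 5649) (.d (nat_lit 627) (nat_lit 595) (nat_lit 4594) (nat_lit 659) (nat_lit 4626)))) (.f (nat_lit 593) (nat_lit 625) (nat_lit 5617) (.f (nat_lit 595) (nat_lit 627) (nat_lit 4594) (.f (nat_lit 561) (nat_lit 596) (nat_lit 3632) (.f (nat_lit 563) (nat_lit 527) (nat_lit 3599) (.d (nat_lit 564) (nat_lit 529) (nat_lit 3600) (nat_lit 565) (nat_lit 1585))))))))))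
noncomputable def s6864 : Cert := .r (nat_lit 18869812128501177264509710774503796433499995185341540522026907474751343623210314739829166948347900646451490313420764903077122343325272053234930137433682206587892745109504) (.p (nat_lit 594) (.a (.f (nat_lit 497) (nat_lit 465) (nat_lit 7633) (.f (nat_lit 529) (nat_lit 626) (nat_lit 7665) (.f (nat_lit 563) (nat_lit 527) (nat_lit 527) (.d (nat_lit 564) (nat_lit 531) (nat_lit 528) (nat_lit 561) (nat_lit 3600))))) (.a (.f (nat_lit 497) (nat_lit 465) (nat_lit 7633) (.f (nat_lit 626) (nat_lit 529) (nat_lit 7665) (.d (nat_lit 625) (nat_lit 593) (nat_lit 5617) (nat_lit 657) (nat_lit 5649)))) (.a (.f (nat_lit 465) (nat_lit 497) (nat_lit 7633) (.f (nat_lit 466) (nat_lit 433) (nat_lit 7601) (.f (nat_lit 561) (nat_lit 593) (nat_lit 5585) (.f (nat_lit 563) (nat_lit 527) (nat_lit 3599) (.d (nat_lit 531) (nat_lit 434) (nat_lit 4530) (nat_lit 532) (nat_lit 2576)))))) (.f (nat_lit 593) (nat_lit 625) (nat_lit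 5617) (.f (nat_lit 561) (nat_lit 466) (nat_lit 5585) (.f (nat_lit 563) (nat_lit 527) (nat_lit 3599) (.d (nat_lit 564) (nat_lit 529) (nat_lit 3600) (nat_lit 565) (nat_lit 1585)))))))))
noncomputable def s6922 : Cert := .r (nat_lit 18869812128501177264509710774503796433499995185341540522026907474751343623210314739829166948347900646451490313420764903077122343325272053234930137433682206587892745109504) (.p (nat_lit 594) (.a (.f (nat_lit 625) (nat_lit 593) (nat_lit 5617) (.f (nat_lit 626) (nat_lit 657) (nat_lit 5649) (.d (nat_lit 627) (nat_lit 595) (nat_lit 4594) (nat_lit 659) (nat_lit 4626)))) (.a (.f (nat_lit 595) (nat_lit 627) (nat_lit 4594) (.f (nat_lit 563) (nat_lit 466) (nat_lit 4562) (.f (nat_lit 529) (nat_lit 527) (nat_lit 527) (.d (nat_lit 531) (nat_lit 559) (nat_lit 1551) (nat_lit 564) (nat_lit 528))))) (.f (nat_lit 625) (nat_lit 593) (nat_lit 5617) (.f (nat_lit 626) (nat_lit 657) (nat_lit 5649) (.f (nat_lit 529) (nat_lit 497)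 (nat_lit 7665) (.f (nat_lit 563) (nat_lit 527) (nat_lit 527) (.d (nat_lit 531) (nat_lit 559) (nat_lit 1551) (nat_lit 564) (nat_lit 528)))))))))
noncomputable def s6937 : Cert := .r (nat_lit 18869812128501177264509710774503796433499995185341540522026907474751343623210314739829166948347900646451490313420764903077122343325272053234930137433682206587892745109504) (.p (nat_lit 529) (.a (.f (nat_lit 559) (nat_lit 531) (nat_lit 1551) (.d (nat_lit 558) (nat_lit 527) (nat_lit 1550) (nat_lit 557) (nat_lit 2573))) (.a (.f (nat_lit 531) (nat_lit 559) (nat_lit 1551) (.f (nat_lit 496) (nat_lit 495) (nat_lit 3567) (.f (nat_lit 497) (nat_lit 532) (nat_lit 3568) (.d (nat_lit 465) (nat_lit 433) (nat_lit 4529) (nat_lit 594) (nat_lit 7633))))) (.a (.f (nat_lit 527) (nat_lit 563) (nat_lit 527) (.f (nat_lit 559) (nat_lit 558) (nat_lit 1550) (.f (nat_lit 495) (nat_lit 494) (nat_lit 3566) (.f (nat_lit 463) (nat_lit 431) (nat_lit 4527) (.f (nat_lit 464)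 (nat_lit 432) (nat_lit 6575) (.f (nat_lit 591) (nat_lit 496) (nat_lit 5583) (.f (nat_lit 623) (nat_lit 655) (nat_lit 6671) (.d (nat_lit 622) (nat_lit 590) (nat_lit 5614) (nat_lit 654) (nat_lit 5646))))))))) (.f (nat_lit 563) (nat_lit 527) (nat_lit 527) (.d (nat_lit 564) (nat_lit 531) (nat_lit 528) (nat_lit 565) (nat_lit 3601)))))))
noncomputable def s6969 : Cert := .r (nat_lit 18869812124986400862522838600433063224370321858099589648353535105141378332107316629929567049661150110432825581272389191644684144010265595379075215801644304102841835847680) (.p (nat_lit 530) (.a (.p (nat_lit 466) (.a (.f (nat_lit 433) (nat_lit 465) (nat_lit 7601) (.f (nat_lit 434) (nat_lit 401) (nat_lit 7569) (.d (nat_lit 435) (nat_lit 403) (nat_lit 6546) (nat_lit 467) (nat_lit 6578)))) (.a (.f (nat_lit 563) (nat_lit 595) (nat_lit 4562) (.f (nat_lit 434) (nat_lit 531) (nat_lit 4530) (.d (nat_lit 435) (nat_lit 403) (nat_lit 6546) (nat_lit 467) (nat_lit 6578))))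 (.f (nat_lit 465) (nat_lit 433) (nat_lit 7601) (.f (nat_lit 594) (nat_lit 497) (nat_lit 7633) (.d (nat_lit 595) (nat_lit 563) (nat_lit 4562) (nat_lit 627) (nat_lit 4594))))))) (.a (.p (nat_lit 466) (.a (.f (nat_lit 433) (nat_lit 465) (nat_lit 7601) (.f (nat_lit 434) (nat_lit 401) (nat_lit 7569) (.d (nat_lit 435) (nat_lit 403) (nat_lit 6546) (nat_lit 467) (nat_lit 6578)))) (.a (.f (nat_lit 563) (nat_lit 595) (nat_lit 4562) (.f (nat_lit 529) (nat_lit 527) (nat_lit 527) (.d (nat_lit 531) (nat_lit 434) (nat_lit 4530) (nat_lit 564) (nat_lit 528)))) (.f (nat_lit 563) (nat_lit 595) (nat_lit 4562) (.f (nat_lit 529) (nat_lit 527) (nat_lit 527) (.d (nat_lit 564) (nat_lit 531) (nat_lit 528) (nat_lit 565) (nat_lit 3601))))))) (.a s5340 (.a (.p (nat_lit 594) (.a (.f (nat_lit 593) (nat_lit 625) (nat_lit 5617) (.f (nat_lit 561) (nat_lit 466) (nat_lit 5585) (.d (nat_lit 595) (nat_lit 596) (nat_lit 3632) (nat_lit 627) (nat_lit 4594)))) (.a (.f (nat_lit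 497) (nat_lit 465) (nat_lit 7633) (.f (nat_lit 626) (nat_lit 529) (nat_lit 7665) (.d (nat_lit 625) (nat_lit 593) (nat_lit 5617) (nat_lit 657) (nat_lit 5649)))) (.f (nat_lit 497) (nat_lit 465) (nat_lit 7633) (.f (nat_lit 626) (nat_lit 529) (nat_lit 7665) (.d (nat_lit 627) (nat_lit 595) (nat_lit 4594) (nat_lit 659) (nat_lit 4626))))))) (.a s5358 (.a s6863 s6864)))))))
noncomputable def s6970 : Cert := .r (nat_lit 18869812124986400862522838600433063224370321858099589648353535105141378332107316629929567049661150110432825581272389191644684144010265595379075215801644304102841835847680) (.p (nat_lit 530) (.a (.p (nat_lit 594) (.a (.f (nat_lit 595) (nat_lit 627) (nat_lit 4594) (.f (nat_lit 561) (nat_lit 559) (nat_lit 559) (.d (nat_lit 593) (nat_lit 596) (nat_lit 3632) (nat_lit 625) (nat_lit 5617)))) (.a (.f (nat_lit 497) (nat_lit 465) (nat_lit 7633) (.f (nat_lit 626) (nat_lit 529) (nat_lit 7665) (.d (nat_lit 625) (nat_lit 593) (nat_lit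 5617) (nat_lit 657) (nat_lit 5649)))) (.f (nat_lit 595) (nat_lit 627) (nat_lit 4594) (.f (nat_lit 561) (nat_lit 559) (nat_lit 559) (.d (nat_lit 596) (nat_lit 563) (nat_lit 560) (nat_lit 597) (nat_lit 3633))))))) (.a s6937 (.a s6094 (.a (.p (nat_lit 561) (.a (.f (nat_lit 531) (nat_lit 559) (nat_lit 2575) (.d (nat_lit 532) (nat_lit 529) (nat_lit 1552) (nat_lit 533) (nat_lit 1553))) (.a (.f (nat_lit 531) (nat_lit 559) (nat_lit 2575) (.d (nat_lit 532) (nat_lit 533) (nat_lit 1553) (nat_lit 563) (nat_lit 2576))) (.f (nat_lit 563) (nat_lit 527) (nat_lit 3599) (.f (nat_lit 564) (nat_lit 529) (nat_lit 3600) (.d (nat_lit 596) (nat_lit 595) (nat_lit 560) (nat_lit 597) (nat_lit 561))))))) (.a s6579 s6863))))))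
noncomputable def s6974 : Cert := .r (nat_lit 18869812124986400862522838600433063224370321858099589648353535105141378332107316629929567049661150110432825581272389191644684144010265595379075215801644304102841835847680) (.p (nat_lit 594) (.a (.p (nat_lit 530) (.a (.f (nat_lit 593) (nat_lit 625) (nat_lit 5617) (.f (nat_lit 561) (nat_lit 466) (nat_lit 5585) (.d (nat_lit 559) (nat_lit 531) (nat_lit 2575) (nat_lit 558) (nat_lit 558)))) (.a (.f (nat_lit 625) (nat_lit 593) (nat_lit 5617) (.f (nat_lit 626) (nat_lit 657) (nat_lit 5649) (.d (nat_lit 627) (nat_lit 595) (nat_lit 4594) (nat_lit 659) (nat_lit 4626)))) (.f (nat_lit 595) (nat_lit 627) (nat_lit 4594) (.f (nat_lit 559) (nat_lit 561) (nat_lit 559) (.f (nat_lit 529) (nat_lit 531) (nat_lit 1551) (.d (nat_lit 558) (nat_lit 527) (nat_lit 1550) (nat_lit 557) (nat_lit 2573)))))))) (.a s5284 (.a s5360 (.a s5302 (.a (.p (nat_lit 530) (.a (.f (nat_lit 595) (nat_lit 627) (nat_lit 4594) (.f (nat_lit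 561) (nat_lit 559) (nat_lit 559) (.d (nat_lit 563) (nat_lit 466) (nat_lit 4562) (nat_lit 596) (nat_lit 560)))) (.a (.f (nat_lit 497) (nat_lit 465) (nat_lit 7633) (.f (nat_lit 529) (nat_lit 626) (nat_lit 7665) (.f (nat_lit 531) (nat_lit 559) (nat_lit 1551) (.f (nat_lit 563) (nat_lit 564) (nat_lit 528) (.d (nat_lit 466) (nat_lit 434) (nat_lit 4530) (nat_lit 595) (nat_lit 4562)))))) (.a (.f (nat_lit 497) (nat_lit 465) (nat_lit 7633) (.f (nat_lit 529) (nat_lit 626) (nat_lit 7665) (.f (nat_lit 559) (nat_lit 531) (nat_lit 1551) (.d (nat_lit 558) (nat_lit 557) (nat_lit 2573) (nat_lit 561) (nat_lit 2574))))) (.f (nat_lit 497) (nat_lit 465) (nat_lit 7633) (.f (nat_lit 529) (nat_lit 626) (nat_lit 7665) (.f (nat_lit 595) (nat_lit 627) (nat_lit 4594) (.f (nat_lit 563) (nat_lit 466) (nat_lit 4562) (.d (nat_lit 561) (nat_lit 564) (nat_lit 3600) (nat_lit 596) (nat_lit 560)))))))))) (.a (.p (nat_lit 530) (.a (.f (nat_lit 593) (nat_lit 625) (nat_lit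 5617) (.f (nat_lit 561) (nat_lit 466) (nat_lit 5585) (.d (nat_lit 595) (nat_lit 596) (nat_lit 3632) (nat_lit 627) (nat_lit 4594)))) (.a (.f (nat_lit 497) (nat_lit 465) (nat_lit 7633) (.f (nat_lit 626) (nat_lit 529) (nat_lit 7665) (.d (nat_lit 625) (nat_lit 593) (nat_lit 5617) (nat_lit 657) (nat_lit 5649)))) (.f (nat_lit 497) (nat_lit 465) (nat_lit 7633) (.f (nat_lit 529) (nat_lit 626) (nat_lit 7665) (.f (nat_lit 563) (nat_lit 527) (nat_lit 527) (.d (nat_lit 564) (nat_lit 531) (nat_lit 528) (nat_lit 561) (nat_lit 3600)))))))) (.a (.p (nat_lit 530) (.a (.f (nat_lit 595) (nat_lit 627) (nat_lit 4594) (.f (nat_lit 561) (nat_lit 559) (nat_lit 559) (.d (nat_lit 593) (nat_lit 596) (nat_lit 3632) (nat_lit 625) (nat_lit 5617)))) (.a (.f (nat_lit 497) (nat_lit 465) (nat_lit 7633) (.f (nat_lit 626) (nat_lit 529) (nat_lit 7665) (.d (nat_lit 625) (nat_lit 593) (nat_lit 5617) (nat_lit 657) (nat_lit 5649)))) (.f (nat_lit 595) (nat_lit 627) (nat_lit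 4594) (.f (nat_lit 561) (nat_lit 559) (nat_lit 559) (.d (nat_lit 596) (nat_lit 563) (nat_lit 560) (nat_lit 597) (nat_lit 3633))))))) (.p (nat_lit 530) (.a (.f (nat_lit 593) (nat_lit 625) (nat_lit 5617) (.f (nat_lit 561) (nat_lit 466) (nat_lit 5585) (.d (nat_lit 559) (nat_lit 531) (nat_lit 2575) (nat_lit 558) (nat_lit 558)))) (.a (.f (nat_lit 497) (nat_lit 465) (nat_lit 7633) (.f (nat_lit 529) (nat_lit 626) (nat_lit 7665) (.f (nat_lit 559) (nat_lit 531) (nat_lit 1551) (.d (nat_lit 558) (nat_lit 527) (nat_lit 1550) (nat_lit 557) (nat_lit 2573))))) (.f (nat_lit 497) (nat_lit 465) (nat_lit 7633) (.f (nat_lit 626) (nat_lit 529) (nat_lit 7665) (.d (nat_lit 625) (nat_lit 593) (nat_lit 5617) (nat_lit 657) (nat_lit 5649)))))))))))))))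
noncomputable def s6986 : Cert := .r (nat_lit 18869812124986400862522838600433063224370321858099589648353535105141378332107316629929567049661150110432825581272389191644684144010265595379075215801644304102841835847680) (.p (nat_lit 530) (.a (.p (nat_lit 594) (.a (.f (nat_lit 499) (nat_lit 467) (nat_lit 6610) (.f (nat_lit 529) (nat_lit 527) (nat_lit 2543) (.d (nat_lit 500) (nat_lit 501) (nat_lit 1521) (nat_lit 531) (nat_lit 2544)))) (.a (.f (nat_lit 625) (nat_lit 593) (nat_lit 5617) (.f (nat_lit 626) (nat_lit 657) (nat_lit 5649) (.d (nat_lit 499) (nat_lit 467) (nat_lit 6610) (nat_lit 531) (nat_lit 6642)))) (.f (nat_lit 625) (nat_lit 593) (nat_lit 5617) (.f (nat_lit 626) (nat_lit 657) (nat_lit 5649) (.d (nat_lit 627) (nat_lit 595) (nat_lit 4594) (nat_lit 659) (nat_lit 4626))))))) (.a (.p (nat_lit 594) (.a (.f (nat_lit 625) (nat_lit 593) (nat_lit 5617) (.f (nat_lit 626) (nat_lit 657) (nat_lit 5649) (.d (nat_lit 499) (nat_lit 467) (nat_lit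 6610) (nat_lit 531) (nat_lit 6642)))) (.a (.f (nat_lit 467) (nat_lit 499) (nat_lit 6610) (.f (nat_lit 466) (nat_lit 435) (nat_lit 6578) (.d (nat_lit 595) (nat_lit 563) (nat_lit 4562) (nat_lit 627) (nat_lit 4594)))) (.f (nat_lit 625) (nat_lit 593) (nat_lit 5617) (.f (nat_lit 626) (nat_lit 657) (nat_lit 5649) (.d (nat_lit 627) (nat_lit 595) (nat_lit 4594) (nat_lit 659) (nat_lit 4626))))))) (.a s5358 (.a s6805 (.p (nat_lit 594) (.a (.f (nat_lit 499) (nat_lit 467) (nat_lit 6610) (.f (nat_lit 529) (nat_lit 527) (nat_lit 2543) (.d (nat_lit 500) (nat_lit 501) (nat_lit 1521) (nat_lit 531) (nat_lit 2544)))) (.a (.f (nat_lit 625) (nat_lit 593) (nat_lit 5617) (.f (nat_lit 626) (nat_lit 657) (nat_lit 5649) (.d (nat_lit 499) (nat_lit 467) (nat_lit 6610) (nat_lit 531) (nat_lit 6642)))) (.f (nat_lit 593) (nat_lit 625) (nat_lit 5617) (.f (nat_lit 561) (nat_lit 466) (nat_lit 5585) (.f (nat_lit 563) (nat_lit 527) (nat_lit 3599) (.d (nat_lit 564)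 (nat_lit 529) (nat_lit 3600) (nat_lit 565) (nat_lit 1585)))))))))))))
noncomputable def s7005 : Cert := .r (nat_lit 18869812128501177264714297687497305300375819541393265469040447602629035172553020450335175310623192806131694694191133912899052761083244557673006215967800043653725778083840) (.p (nat_lit 464) (.a (.f (nat_lit 463) (nat_lit 431) (nat_lit 7599) (.f (nat_lit 497) (nat_lit 499) (nat_lit 3535) (.d (nat_lit 462) (nat_lit 461) (nat_lit 461) (nat_lit 465) (nat_lit 462)))) (.a (.f (nat_lit 431) (nat_lit 463) (nat_lit 7599) (.f (nat_lit 432) (nat_lit 399) (nat_lit 7567) (.d (nat_lit 433) (nat_lit 401) (nat_lit 6544) (nat_lit 465) (nat_lit 6576)))) (.a (.f (nat_lit 463) (nat_lit 431) (nat_lit 7599) (.f (nat_lit 497) (nat_lit 499) (nat_lit 3535) (.d (nat_lit 462) (nat_lit 461) (nat_lit 461) (nat_lit 495) (nat_lit 3534)))) (.f (nat_lit 561) (nat_lit 593) (nat_lit 4560) (.f (nat_lit 529) (nat_lit 432) (nat_lit 4528) (.d (nat_lit 531)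 (nat_lit 495) (nat_lit 3567) (nat_lit 532) (nat_lit 1552))))))))
noncomputable def s7088 : Cert := .r (nat_lit 18869812124986400862522838600433063224370321858099589648353535105141378332107316629929567049661150110432825581272389191644684144010265595379075215801644304102841835847680) (.p (nat_lit 530) (.a s5358 (.a s5454 (.a s6807 (.a (.p (nat_lit 594) (.a (.f (nat_lit 593) (nat_lit 625) (nat_lit 5617) (.f (nat_lit 561) (nat_lit 466) (nat_lit 5585) (.d (nat_lit 595) (nat_lit 596) (nat_lit 3632) (nat_lit 627) (nat_lit 4594)))) (.a (.f (nat_lit 497) (nat_lit 465) (nat_lit 7633) (.f (nat_lit 626) (nat_lit 529) (nat_lit 7665) (.d (nat_lit 625) (nat_lit 593) (nat_lit 5617) (nat_lit 657) (nat_lit 5649)))) (.f (nat_lit 497) (nat_lit 465) (nat_lit 7633) (.f (nat_lit 626) (nat_lit 529) (nat_lit 7665) (.d (nat_lit 627) (nat_lit 595) (nat_lit 4594) (nat_lit 659) (nat_lit 4626))))))) (.a s6863 s6864))))))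
noncomputable def s7096 : Cert := .r (nat_lit 3773962425700235452738272624505952193199339552226928146794549392648115485167898379561026699849346401546134558067857772757880134458676407096525164659442171664912122642432) (.p (nat_lit 498) (.a (.p (nat_lit 562) (.a (.p (nat_lit 530) (.a (.p (nat_lit 594) (.a (.f (nat_lit 595) (nat_lit 627) (nat_lit 4594) (.f (nat_lit 561) (nat_lit 559) (nat_lit 559) (.d (nat_lit 466) (nat_lit 563) (nat_lit 4562) (nat_lit 593) (nat_lit 5585)))) (.f (nat_lit 497) (nat_lit 465) (nat_lit 7633) (.f (nat_lit 529) (nat_lit 626) (nat_lit 7665) (.d (nat_lit 499) (nat_lit 467) (nat_lit 6610) (nat_lit 500) (nat_lit 1520)))))) (.a s3165 (.a (.p (nat_lit 594) (.a (.f (nat_lit 593) (nat_lit 625) (nat_lit 5617) (.f (nat_lit 561) (nat_lit 466) (nat_lit 5585) (.d (nat_lit 559) (nat_lit 531) (nat_lit 2575) (nat_lit 558) (nat_lit 558)))) (.a (.f (nat_lit 467) (nat_lit 499) (nat_lit 6610) (.f (nat_lit 466) (nat_lit 435) (nat_lit 6578) (.d (nat_lit 465) (nat_lit 433) (nat_lit 7601) (nat_lit 497) (nat_lit 7633)))) (.f (nat_lit 595) (nat_lit 627) (nat_lit 4594) (.f (nat_lit 561) (nat_lit 559) (nat_lit 559) (.d (nat_lit 593) (nat_lit 596) (nat_lit 3632) (nat_lit 625) (nat_lit 5617))))))) (.a (.p (nat_lit 561) (.a (.f (nat_lit 531) (nat_lit 559) (nat_lit 2575) (.d (nat_lit 532) (nat_lit 529) (nat_lit 1552) (nat_lit 533) (nat_lit 1553))) (.a (.f (nat_lit 466) (nat_lit 593) (nat_lit 5585) (.f (nat_lit 563) (nat_lit 595) (nat_lit 4562) (.d (nat_lit 531) (nat_lit 434) (nat_lit 4530) (nat_lit 532) (nat_lit 2576)))) (.f (nat_lit 466) (nat_lit 593) (nat_lit 5585) (.f (nat_lit 529) (nat_lit 434) (nat_lit 5553) (.d (nat_lit 563) (nat_lit 564) (nat_lit 3600) (nat_lit 595) (nat_lit 4562))))))) (.a s3176 (.p (nat_lit 594) (.a (.f (nat_lit 497) (nat_lit 465) (nat_lit 7633) (.f (nat_lit 529) (nat_lit 626) (nat_lit 7665) (.d (nat_lit 499) (nat_lit 467) (nat_lit 6610) (nat_lit 500) (nat_lit 1520)))) (.f (nat_lit 595) (nat_lit 627) (nat_lit 4594) (.f (nat_lit 561) (nat_lit 559) (nat_lit 559) (.d (nat_lit 593) (nat_lit 596) (nat_lit 3632) (nat_lit 625) (nat_lit 5617)))))))))))) (.a (.p (nat_lit 530) (.a (.p (nat_lit 594) (.a (.f (nat_lit 595) (nat_lit 627) (nat_lit 4594) (.f (nat_lit 561) (nat_lit 559) (nat_lit 559) (.d (nat_lit 466) (nat_lit 563) (nat_lit 4562) (nat_lit 593) (nat_lit 5585)))) (.f (nat_lit 497) (nat_lit 465) (nat_lit 7633) (.f (nat_lit 529) (nat_lit 626) (nat_lit 7665) (.d (nat_lit 499) (nat_lit 467) (nat_lit 6610) (nat_lit 500) (nat_lit 1520)))))) (.a s5232 (.a (.p (nat_lit 594) (.a (.f (nat_lit 593) (nat_lit 625) (nat_lit 5617) (.f (nat_lit 561) (nat_lit 466) (nat_lit 5585) (.d (nat_lit 559) (nat_lit 531) (nat_lit 2575) (nat_lit 558) (nat_lit 558)))) (.a (.f (nat_lit 467) (nat_lit 499) (nat_lit 6610) (.f (nat_lit 466) (nat_lit 435) (nat_lit 6578) (.d (nat_lit 465) (nat_lit 433) (nat_lit 7601) (nat_lit 497) (nat_lit 7633)))) (.f (nat_lit 595) (nat_lit 627) (nat_lit 4594) (.f (nat_lit 561) (nat_lit 559) (nat_lit 559) (.d (nat_lit 593) (nat_lit 596) (nat_lit 3632) (nat_lit 625) (nat_lit 5617))))))) (.a (.p (nat_lit 561) (.a (.f (nat_lit 531) (nat_lit 559) (nat_lit 2575) (.d (nat_lit 532) (nat_lit 529) (nat_lit 1552) (nat_lit 533) (nat_lit 1553))) (.a (.f (nat_lit 466) (nat_lit 593) (nat_lit 5585) (.f (nat_lit 563) (nat_lit 595) (nat_lit 4562) (.d (nat_lit 531) (nat_lit 434) (nat_lit 4530) (nat_lit 532) (nat_lit 2576)))) (.f (nat_lit 466) (nat_lit 593) (nat_lit 5585) (.f (nat_lit 529) (nat_lit 434) (nat_lit 5553) (.d (nat_lit 563) (nat_lit 564) (nat_lit 3600) (nat_lit 595) (nat_lit 4562))))))) (.a (.p (nat_lit 594) (.a (.f (nat_lit 497) (nat_lit 465) (nat_lit 7633) (.f (nat_lit 529) (nat_lit 626) (nat_lit 7665) (.d (nat_lit 499) (nat_lit 467) (nat_lit 6610) (nat_lit 500) (nat_lit 1520)))) (.f (nat_lit 595) (nat_lit 627) (nat_lit 4594) (.f (nat_lit 561) (nat_lit 559) (nat_lit 559) (.d (nat_lit 563) (nat_lit 466) (nat_lit 4562) (nat_lit 596) (nat_lit 560)))))) (.p (nat_lit 594) (.a (.f (nat_lit 497) (nat_lit 465) (nat_lit 7633) (.f (nat_lit 529) (nat_lit 626) (nat_lit 7665) (.d (nat_lit 499) (nat_lit 467) (nat_lit 6610) (nat_lit 500) (nat_lit 1520)))) (.f (nat_lit 595) (nat_lit 627) (nat_lit 4594) (.f (nat_lit 561) (nat_lit 559) (nat_lit 559) (.d (nat_lit 593) (nat_lit 596) (nat_lit 3632) (nat_lit 625) (nat_lit 5617)))))))))))) (.a (.p (nat_lit 530) (.a s3165 (.a s5232 (.a (.p (nat_lit 594) (.a (.f (nat_lit 467) (nat_lit 499) (nat_lit 6610) (.f (nat_lit 466) (nat_lit 435) (nat_lit 6578) (.d (nat_lit 465) (nat_lit 433) (nat_lit 7601) (nat_lit 497) (nat_lit 7633)))) (.a (.f (nat_lit 625) (nat_lit 593) (nat_lit 5617) (.f (nat_lit 626) (nat_lit 657) (nat_lit 5649) (.d (nat_lit 499) (nat_lit 467) (nat_lit 6610) (nat_lit 531) (nat_lit 6642)))) (.f (nat_lit 595) (nat_lit 627) (nat_lit 4594) (.f (nat_lit 466) (nat_lit 563) (nat_lit 4562) (.d (nat_lit 465) (nat_lit 433) (nat_lit 7601) (nat_lit 497) (nat_lit 7633))))))) (.a (.p (nat_lit 594) (.a (.f (nat_lit 499) (nat_lit 467) (nat_lit 6610) (.f (nat_lit 529) (nat_lit 527) (nat_lit 2543) (.d (nat_lit 500) (nat_lit 501) (nat_lit 1521) (nat_lit 531) (nat_lit 2544)))) (.a (.f (nat_lit 625) (nat_lit 593) (nat_lit 5617) (.f (nat_lit 626) (nat_lit 657) (nat_lit 5649) (.d (nat_lit 499) (nat_lit 467) (nat_lit 6610) (nat_lit 531) (nat_lit 6642)))) (.f (nat_lit 625) (nat_lit 593) (nat_lit 5617) (.f (nat_lit 626) (nat_lit 657) (nat_lit 5649) (.d (nat_lit 627) (nat_lit 595) (nat_lit 4594) (nat_lit 659) (nat_lit 4626))))))) (.a s5236 (.a s5248 (.p (nat_lit 466) (.a (.f (nat_lit 433) (nat_lit 465) (nat_lit 7601) (.f (nat_lit 434) (nat_lit 401) (nat_lit 7569) (.d (nat_lit 435) (nat_lit 403) (nat_lit 6546) (nat_lit 467) (nat_lit 6578)))) (.a (.f (nat_lit 563) (nat_lit 595) (nat_lit 4562) (.f (nat_lit 434) (nat_lit 531) (nat_lit 4530) (.d (nat_lit 435) (nat_lit 403) (nat_lit 6546) (nat_lit 467) (nat_lit 6578)))) (.f (nat_lit 465) (nat_lit 433) (nat_lit 7601) (.f (nat_lit 594) (nat_lit 497) (nat_lit 7633) (.d (nat_lit 595) (nat_lit 563) (nat_lit 4562) (nat_lit 627) (nat_lit 4594)))))))))))))) (.a (.p (nat_lit 594) (.a (.p (nat_lit 530) (.a (.f (nat_lit 595) (nat_lit 627) (nat_lit 4594) (.f (nat_lit 561) (nat_lit 559) (nat_lit 559) (.d (nat_lit 563) (nat_lit 466) (nat_lit 4562) (nat_lit 596) (nat_lit 560)))) (.a (.f (nat_lit 467) (nat_lit 499) (nat_lit 6610) (.f (nat_lit 466) (nat_lit 435) (nat_lit 6578) (.d (nat_lit 465) (nat_lit 433) (nat_lit 7601) (nat_lit 497) (nat_lit 7633)))) (.f (nat_lit 595) (nat_lit 627) (nat_lit 4594) (.f (nat_lit 561) (nat_lit 559) (nat_lit 559) (.d (nat_lit 596) (nat_lit 563) (nat_lit 560) (nat_lit 597) (nat_lit 3633))))))) (.a s5264 (.a s5265 (.a s5282 (.a (.p (nat_lit 530) (.a (.f (nat_lit 593) (nat_lit 625) (nat_lit 5617) (.f (nat_lit 561) (nat_lit 466) (nat_lit 5585) (.d (nat_lit 559) (nat_lit 531) (nat_lit 2575) (nat_lit 558) (nat_lit 558)))) (.a (.f (nat_lit 467) (nat_lit 499) (nat_lit 6610) (.f (nat_lit 466) (nat_lit 435) (nat_lit 6578) (.d (nat_lit 465) (nat_lit 433) (nat_lit 7601) (nat_lit 497) (nat_lit 7633)))) (.f (nat_lit 595) (nat_lit 627) (nat_lit 4594) (.f (nat_lit 561) (nat_lit 559) (nat_lit 559) (.d (nat_lit 593) (nat_lit 596) (nat_lit 3632) (nat_lit 625) (nat_lit 5617))))))) (.a s5284 (.a (.p (nat_lit 530) (.a (.f (nat_lit 595) (nat_lit 627) (nat_lit 4594) (.f (nat_lit 561) (nat_lit 559) (nat_lit 559) (.d (nat_lit 593) (nat_lit 596) (nat_lit 3632) (nat_lit 625) (nat_lit 5617)))) (.a (.f (nat_lit 625) (nat_lit 593) (nat_lit 5617) (.f (nat_lit 626) (nat_lit 657) (nat_lit 5649) (.d (nat_lit 499) (nat_lit 467) (nat_lit 6610) (nat_lit 531) (nat_lit 6642)))) (.f (nat_lit 595) (nat_lit 627) (nat_lit 4594) (.f (nat_lit 561) (nat_lit 559) (nat_lit 559) (.d (nat_lit 596) (nat_lit 563) (nat_lit 560) (nat_lit 597) (nat_lit 3633))))))) (.p (nat_lit 530) (.a (.f (nat_lit 593) (nat_lit 625) (nat_lit 5617) (.f (nat_lit 561) (nat_lit 466) (nat_lit 5585) (.d (nat_lit 559) (nat_lit 531) (nat_lit 2575) (nat_lit 558) (nat_lit 558)))) (.a (.f (nat_lit 467) (nat_lit 499) (nat_lit 6610) (.f (nat_lit 466) (nat_lit 435) (nat_lit 6578) (.d (nat_lit 465) (nat_lit 433) (nat_lit 7601) (nat_lit 497) (nat_lit 7633)))) (.f (nat_lit 625) (nat_lit 593) (nat_lit 5617) (.f (nat_lit 626) (nat_lit 657) (nat_lit 5649) (.d (nat_lit 499) (nat_lit 467) (nat_lit 6610) (nat_lit 531) (nat_lit 6642))))))))))))))) (.a s5296 (.a s5306 (.a s5327 (.a s5336 (.a s5341 (.a (.p (nat_lit 530) (.a (.p (nat_lit 594) (.a (.f (nat_lit 497) (nat_lit 465) (nat_lit 7633) (.f (nat_lit 529) (nat_lit 626) (nat_lit 7665) (.d (nat_lit 499) (nat_lit 467) (nat_lit 6610) (nat_lit 500) (nat_lit 1520)))) (.f (nat_lit 593) (nat_lit 625) (nat_lit 5617) (.f (nat_lit 561) (nat_lit 466) (nat_lit 5585) (.d (nat_lit 559) (nat_lit 531) (nat_lit 2575) (nat_lit 558) (nat_lit 558)))))) (.a s3165 (.a (.p (nat_lit 594) (.a (.f (nat_lit 593) (nat_lit 625) (nat_lit 5617) (.f (nat_lit 561) (nat_lit 466) (nat_lit 5585) (.d (nat_lit 559) (nat_lit 531) (nat_lit 2575) (nat_lit 558) (nat_lit 558)))) (.a (.f (nat_lit 467) (nat_lit 499) (nat_lit 6610) (.f (nat_lit 466) (nat_lit 435) (nat_lit 6578) (.d (nat_lit 465) (nat_lit 433) (nat_lit 7601) (nat_lit 497) (nat_lit 7633)))) (.f (nat_lit 595) (nat_lit 627) (nat_lit 4594) (.f (nat_lit 561) (nat_lit 559) (nat_lit 559) (.d (nat_lit 593) (nat_lit 596) (nat_lit 3632) (nat_lit 625) (nat_lit 5617))))))) (.a (.p (nat_lit 594) (.a (.f (nat_lit 593) (nat_lit 625) (nat_lit 5617) (.f (nat_lit 561) (nat_lit 466) (nat_lit 5585) (.d (nat_lit 559) (nat_lit 531) (nat_lit 2575) (nat_lit 558) (nat_lit 558)))) (.a (.f (nat_lit 499) (nat_lit 467) (nat_lit 6610) (.f (nat_lit 529) (nat_lit 527) (nat_lit 2543) (.d (nat_lit 500) (nat_lit 501) (nat_lit 1521) (nat_lit 531) (nat_lit 2544)))) (.f (nat_lit 595) (nat_lit 627) (nat_lit 4594) (.f (nat_lit 561) (nat_lit 559) (nat_lit 559) (.d (nat_lit 593) (nat_lit 596) (nat_lit 3632) (nat_lit 625) (nat_lit 5617))))))) (.a (.p (nat_lit 594) (.a (.f (nat_lit 497) (nat_lit 465) (nat_lit 7633) (.f (nat_lit 529) (nat_lit 626) (nat_lit 7665) (.d (nat_lit 499) (nat_lit 467) (nat_lit 6610) (nat_lit 500) (nat_lit 1520)))) (.f (nat_lit 595) (nat_lit 627) (nat_lit 4594) (.f (nat_lit 561) (nat_lit 559) (nat_lit 559) (.d (nat_lit 593) (nat_lit 596) (nat_lit 3632) (nat_lit 625) (nat_lit 5617)))))) (.a (.p (nat_lit 561) (.a (.f (nat_lit 531) (nat_lit 559) (nat_lit 2575) (.d (nat_lit 532) (nat_lit 529) (nat_lit 1552) (nat_lit 533) (nat_lit 1553))) (.f (nat_lit 466) (nat_lit 593) (nat_lit 5585) (.f (nat_lit 435) (nat_lit 467) (nat_lit 6578) (.f (nat_lit 434) (nat_lit 403) (nat_lit 6546) (.d (nat_lit 433) (nat_lit 401) (nat_lit 7569) (nat_lit 465) (nat_lit 7601))))))) (.a s3176 s3177)))))))) (.a (.p (nat_lit 530) (.a s3176 (.a s5232 (.a (.p (nat_lit 594) (.a (.f (nat_lit 467) (nat_lit 499) (nat_lit 6610) (.f (nat_lit 466) (nat_lit 435) (nat_lit 6578) (.d (nat_lit 465) (nat_lit 433) (nat_lit 7601) (nat_lit 497) (nat_lit 7633)))) (.a (.f (nat_lit 625) (nat_lit 593) (nat_lit 5617) (.f (nat_lit 626) (nat_lit 657) (nat_lit 5649) (.d (nat_lit 499) (nat_lit 467) (nat_lit 6610) (nat_lit 531) (nat_lit 6642)))) (.f (nat_lit 595) (nat_lit 627) (nat_lit 4594) (.f (nat_lit 466) (nat_lit 563) (nat_lit 4562) (.d (nat_lit 465) (nat_lit 433) (nat_lit 7601) (nat_lit 497) (nat_lit 7633))))))) (.a (.p (nat_lit 594) (.a (.f (nat_lit 499) (nat_lit 467) (nat_lit 6610) (.f (nat_lit 529) (nat_lit 527) (nat_lit 2543) (.d (nat_lit 500) (nat_lit 501) (nat_lit 1521) (nat_lit 531) (nat_lit 2544)))) (.a (.f (nat_lit 625) (nat_lit 593) (nat_lit 5617) (.f (nat_lit 626) (nat_lit 657) (nat_lit 5649) (.d (nat_lit 499) (nat_lit 467) (nat_lit 6610) (nat_lit 531) (nat_lit 6642)))) (.f (nat_lit 625) (nat_lit 593) (nat_lit 5617) (.f (nat_lit 626) (nat_lit 657) (nat_lit 5649) (.d (nat_lit 627) (nat_lit 595) (nat_lit 4594) (nat_lit 659) (nat_lit 4626))))))) (.a s5236 (.a s3188 (.a s5355 (.a (.p (nat_lit 466) (.a (.f (nat_lit 433) (nat_lit 465) (nat_lit 7601) (.f (nat_lit 434) (nat_lit 401) (nat_lit 7569) (.d (nat_lit 435) (nat_lit 403) (nat_lit 6546) (nat_lit 467) (nat_lit 6578)))) (.a (.f (nat_lit 563) (nat_lit 595) (nat_lit 4562) (.f (nat_lit 434) (nat_lit 531) (nat_lit 4530) (.d (nat_lit 435) (nat_lit 403) (nat_lit 6546) (nat_lit 467) (nat_lit 6578)))) (.f (nat_lit 465) (nat_lit 433) (nat_lit 7601) (.f (nat_lit 594) (nat_lit 497) (nat_lit 7633) (.d (nat_lit 595) (nat_lit 563) (nat_lit 4562) (nat_lit 627) (nat_lit 4594))))))) s5358))))))))) (.a s5364 (.a s5368 (.p (nat_lit 530) (.a (.p (nat_lit 594) (.a (.f (nat_lit 497) (nat_lit 465) (nat_lit 7633) (.f (nat_lit 529) (nat_lit 626) (nat_lit 7665) (.d (nat_lit 499) (nat_lit 467) (nat_lit 6610) (nat_lit 500) (nat_lit 1520)))) (.f (nat_lit 593) (nat_lit 625) (nat_lit 5617) (.f (nat_lit 561) (nat_lit 466) (nat_lit 5585) (.d (nat_lit 559) (nat_lit 531) (nat_lit 2575) (nat_lit 558) (nat_lit 558)))))) (.a s3165 (.a (.p (nat_lit 594) (.a (.f (nat_lit 593) (nat_lit 625) (nat_lit 5617) (.f (nat_lit 561) (nat_lit 466) (nat_lit 5585) (.d (nat_lit 559) (nat_lit 531) (nat_lit 2575) (nat_lit 558) (nat_lit 558)))) (.a (.f (nat_lit 467) (nat_lit 499) (nat_lit 6610) (.f (nat_lit 466) (nat_lit 435) (nat_lit 6578) (.d (nat_lit 465) (nat_lit 433) (nat_lit 7601) (nat_lit 497) (nat_lit 7633)))) (.f (nat_lit 625) (nat_lit 593) (nat_lit 5617) (.f (nat_lit 626) (nat_lit 657) (nat_lit 5649) (.d (nat_lit 499) (nat_lit 467) (nat_lit 6610) (nat_lit 531) (nat_lit 6642))))))) (.a (.p (nat_lit 561) (.a (.f (nat_lit 531) (nat_lit 559) (nat_lit 2575) (.d (nat_lit 532) (nat_lit 529) (nat_lit 1552) (nat_lit 533) (nat_lit 1553))) (.f (nat_lit 466) (nat_lit 593) (nat_lit 5585) (.f (nat_lit 435) (nat_lit 467) (nat_lit 6578) (.f (nat_lit 434) (nat_lit 403) (nat_lit 6546) (.d (nat_lit 433) (nat_lit 401) (nat_lit 7569) (nat_lit 465) (nat_lit 7601))))))) (.a s5373 s5248)))))))))))))))))))) (.a (.p (nat_lit 530) (.a s5455 (.a s5458 (.a s5461 (.a (.p (nat_lit 496) (.a s5496 (.a s5572 (.a (.p (nat_lit 464) (.a (.f (nat_lit 433) (nat_lit 465) (nat_lit 6576) (.f (nat_lit 432) (nat_lit 401) (nat_lit 6544) (.d (nat_lit 431) (nat_lit 399) (nat_lit 7567) (nat_lit 463) (nat_lit 7599)))) (.a (.f (nat_lit 561) (nat_lit 593) (nat_lit 4560) (.f (nat_lit 529) (nat_lit 432) (nat_lit 4528) (.d (nat_lit 531) (nat_lit 495) (nat_lit 3567) (nat_lit 532) (nat_lit 1552)))) (.f (nat_lit 465) (nat_lit 433) (nat_lit 6576) (.f (nat_lit 463) (nat_lit 431) (nat_lit 7599) (.f (nat_lit 466) (nat_lit 499) (nat_lit 463) (.d (nat_lit 495) (nat_lit 467) (nat_lit 1487) (nat_lit 494) (nat_lit 1486)))))))) (.a (.p (nat_lit 464) (.a (.f (nat_lit 433) (nat_lit 465) (nat_lit 6576) (.f (nat_lit 432) (nat_lit 401) (nat_lit 6544) (.d (nat_lit 431) (nat_lit 399) (nat_lit 7567) (nat_lit 463) (nat_lit 7599)))) (.a (.f (nat_lit 463) (nat_lit 431) (nat_lit 7599) (.f (nat_lit 497) (nat_lit 499) (nat_lit 3535) (.d (nat_lit 462) (nat_lit 461) (nat_lit 461) (nat_lit 495) (nat_lit 3534)))) (.f (nat_lit 561) (nat_lit 593) (nat_lit 4560) (.f (nat_lit 529) (nat_lit 432) (nat_lit 4528) (.d (nat_lit 559) (nat_lit 558) (nat_lit 2574) (nat_lit 591) (nat_lit 5583))))))) (.a (.p (nat_lit 531) (.a (.d (nat_lit 529) (nat_lit 495) (nat_lit 3567) (nat_lit 559) (nat_lit 1551)) (.a (.f (nat_lit 497) (nat_lit 495) (nat_lit 495) (.d (nat_lit 532) (nat_lit 499) (nat_lit 496) (nat_lit 533) (nat_lit 3569))) (.f (nat_lit 529) (nat_lit 559) (nat_lit 1551) (.d (nat_lit 532) (nat_lit 497) (nat_lit 3568) (nat_lit 561) (nat_lit 1552)))))) (.p (nat_lit 464) (.a (.f (nat_lit 433) (nat_lit 465) (nat_lit 6576) (.f (nat_lit 432) (nat_lit 401) (nat_lit 6544) (.d (nat_lit 431) (nat_lit 399) (nat_lit 7567) (nat_lit 463) (nat_lit 7599)))) (.a (.f (nat_lit 561) (nat_lit 593) (nat_lit 4560) (.f (nat_lit 529) (nat_lit 432) (nat_lit 4528) (.d (nat_lit 559) (nat_lit 558) (nat_lit 2574) (nat_lit 591) (nat_lit 5583)))) (.f (nat_lit 465) (nat_lit 433) (nat_lit 6576) (.f (nat_lit 463) (nat_lit 431) (nat_lit 7599) (.d (nat_lit 497) (nat_lit 462) (nat_lit 462) (nat_lit 499) (nat_lit 3535))))))))))))) (.a s5610 (.a (.p (nat_lit 562) (.a (.p (nat_lit 594) (.a (.f (nat_lit 497) (nat_lit 465) (nat_lit 7633) (.f (nat_lit 529) (nat_lit 626) (nat_lit 7665) (.d (nat_lit 499) (nat_lit 467) (nat_lit 6610) (nat_lit 500) (nat_lit 1520)))) (.f (nat_lit 595) (nat_lit 627) (nat_lit 4594) (.f (nat_lit 561) (nat_lit 559) (nat_lit 559) (.d (nat_lit 563) (nat_lit 466) (nat_lit 4562) (nat_lit 596) (nat_lit 560)))))) (.a s5377 (.a (.p (nat_lit 594) (.a (.f (nat_lit 595) (nat_lit 627) (nat_lit 4594) (.f (nat_lit 561) (nat_lit 559) (nat_lit 559) (.d (nat_lit 563) (nat_lit 466) (nat_lit 4562) (nat_lit 596) (nat_lit 560)))) (.a (.f (nat_lit 467) (nat_lit 499) (nat_lit 6610) (.f (nat_lit 466) (nat_lit 435) (nat_lit 6578) (.d (nat_lit 465) (nat_lit 433) (nat_lit 7601) (nat_lit 497) (nat_lit 7633)))) (.f (nat_lit 595) (nat_lit 627) (nat_lit 4594) (.f (nat_lit 561) (nat_lit 559) (nat_lit 559) (.d (nat_lit 596) (nat_lit 563) (nat_lit 560) (nat_lit 597) (nat_lit 3633))))))) (.a s5460 (.a s5446 (.a s5611 (.a s5612 (.a s5613 (.p (nat_lit 594) (.a (.f (nat_lit 497) (nat_lit 465) (nat_lit 7633) (.f (nat_lit 529) (nat_lit 626) (nat_lit 7665) (.d (nat_lit 499) (nat_lit 467) (nat_lit 6610) (nat_lit 500) (nat_lit 1520)))) (.f (nat_lit 595) (nat_lit 627) (nat_lit 4594) (.f (nat_lit 561) (nat_lit 559) (nat_lit 559) (.d (nat_lit 596) (nat_lit 563) (nat_lit 560) (nat_lit 597) (nat_lit 3633))))))))))))))) (.a s5618 (.a s5628 (.a s5629 (.a (.p (nat_lit 562) (.a (.p (nat_lit 561) (.a (.f (nat_lit 531) (nat_lit 559) (nat_lit 2575) (.d (nat_lit 532) (nat_lit 529) (nat_lit 1552) (nat_lit 533) (nat_lit 1553))) (.a (.f (nat_lit 466) (nat_lit 593) (nat_lit 5585) (.f (nat_lit 563) (nat_lit 595) (nat_lit 4562) (.d (nat_lit 531) (nat_lit 434) (nat_lit 4530) (nat_lit 532) (nat_lit 2576)))) (.f (nat_lit 466) (nat_lit 593) (nat_lit 5585) (.f (nat_lit 529) (nat_lit 434) (nat_lit 5553) (.d (nat_lit 563) (nat_lit 564) (nat_lit 3600) (nat_lit 595) (nat_lit 4562))))))) (.a (.p (nat_lit 594) (.a (.f (nat_lit 625) (nat_lit 593) (nat_lit 5617) (.f (nat_lit 626) (nat_lit 657) (nat_lit 5649) (.d (nat_lit 499) (nat_lit 467) (nat_lit 6610) (nat_lit 531) (nat_lit 6642)))) (.a (.f (nat_lit 467) (nat_lit 499) (nat_lit 6610) (.f (nat_lit 466) (nat_lit 435) (nat_lit 6578) (.d (nat_lit 595) (nat_lit 563) (nat_lit 4562) (nat_lit 627) (nat_lit 4594)))) (.f (nat_lit 625) (nat_lit 593) (nat_lit 5617) (.f (nat_lit 626) (nat_lit 657) (nat_lit 5649) (.d (nat_lit 627) (nat_lit 595) (nat_lit 4594) (nat_lit 659) (nat_lit 4626))))))) (.a s5459 (.a s5460 (.a s5616 (.a (.p (nat_lit 594) (.a (.f (nat_lit 595) (nat_lit 627) (nat_lit 4594) (.f (nat_lit 561) (nat_lit 559) (nat_lit 559) (.d (nat_lit 593) (nat_lit 596) (nat_lit 3632) (nat_lit 625) (nat_lit 5617)))) (.a (.f (nat_lit 625) (nat_lit 593) (nat_lit 5617) (.f (nat_lit 626) (nat_lit 657) (nat_lit 5649) (.d (nat_lit 499) (nat_lit 467) (nat_lit 6610) (nat_lit 531) (nat_lit 6642)))) (.f (nat_lit 595) (nat_lit 627) (nat_lit 4594) (.f (nat_lit 561) (nat_lit 559) (nat_lit 559) (.d (nat_lit 596) (nat_lit 563) (nat_lit 560) (nat_lit 597) (nat_lit 3633))))))) (.p (nat_lit 561) (.a (.f (nat_lit 531) (nat_lit 559) (nat_lit 2575) (.d (nat_lit 532) (nat_lit 529) (nat_lit 1552) (nat_lit 533) (nat_lit 1553))) (.a (.f (nat_lit 531) (nat_lit 559) (nat_lit 2575) (.d (nat_lit 532) (nat_lit 533) (nat_lit 1553) (nat_lit 563) (nat_lit 2576))) (.f (nat_lit 593) (nat_lit 466) (nat_lit 5585) (.d (nat_lit 625) (nat_lit 594) (nat_lit 5617) (nat_lit 657) (nat_lit 7696))))))))))))) s5654))))))))))) (.a (.p (nat_lit 530) (.a (.p (nat_lit 529) (.a (.f (nat_lit 499) (nat_lit 527) (nat_lit 2543) (.d (nat_lit 500) (nat_lit 497) (nat_lit 1520) (nat_lit 501) (nat_lit 1521))) (.a (.f (nat_lit 531) (nat_lit 559) (nat_lit 1551) (.f (nat_lit 499) (nat_lit 500) (nat_lit 2544) (.f (nat_lit 563) (nat_lit 564) (nat_lit 528) (.d (nat_lit 466) (nat_lit 434) (nat_lit 4530) (nat_lit 595) (nat_lit 7634))))) (.f (nat_lit 531) (nat_lit 559) (nat_lit 1551) (.f (nat_lit 563) (nat_lit 564) (nat_lit 528) (.f (nat_lit 562) (nat_lit 527) (nat_lit 527) (.d (nat_lit 466) (nat_lit 434) (nat_lit 4530) (nat_lit 595) (nat_lit 4562)))))))) (.a s5458 (.a s5461 (.a (.p (nat_lit 529) (.a (.f (nat_lit 499) (nat_lit 527) (nat_lit 2543) (.d (nat_lit 500) (nat_lit 497) (nat_lit 1520) (nat_lit 501) (nat_lit 1521))) (.a (.f (nat_lit 531) (nat_lit 559) (nat_lit 1551) (.f (nat_lit 499) (nat_lit 500) (nat_lit 2544) (.f (nat_lit 563) (nat_lit 564) (nat_lit 528) (.d (nat_lit 466) (nat_lit 434) (nat_lit 4530) (nat_lit 595) (nat_lit 7634))))) (.f (nat_lit 531) (nat_lit 559) (nat_lit 1551) (.f (nat_lit 532) (nat_lit 561) (nat_lit 1552) (.d (nat_lit 564) (nat_lit 563) (nat_lit 528) (nat_lit 565) (nat_lit 529))))))) (.a (.p (nat_lit 562) (.a (.p (nat_lit 594) (.a (.f (nat_lit 595) (nat_lit 627) (nat_lit 4594) (.f (nat_lit 561) (nat_lit 559) (nat_lit 559) (.d (nat_lit 466) (nat_lit 563) (nat_lit 4562) (nat_lit 593) (nat_lit 5585)))) (.f (nat_lit 497) (nat_lit 465) (nat_lit 7633) (.f (nat_lit 529) (nat_lit 626) (nat_lit 7665) (.d (nat_lit 499) (nat_lit 467) (nat_lit 6610) (nat_lit 500) (nat_lit 1520)))))) (.a s5236 (.a (.p (nat_lit 594) (.a (.f (nat_lit 595) (nat_lit 627) (nat_lit 4594) (.f (nat_lit 561) (nat_lit 559) (nat_lit 559) (.d (nat_lit 563) (nat_lit 466) (nat_lit 4562) (nat_lit 596) (nat_lit 560)))) (.a (.f (nat_lit 467) (nat_lit 499) (nat_lit 6610) (.f (nat_lit 466) (nat_lit 435) (nat_lit 6578) (.d (nat_lit 465) (nat_lit 433) (nat_lit 7601) (nat_lit 497) (nat_lit 7633)))) (.f (nat_lit 595) (nat_lit 627) (nat_lit 4594) (.f (nat_lit 561) (nat_lit 559) (nat_lit 559) (.d (nat_lit 596) (nat_lit 563) (nat_lit 560) (nat_lit 597) (nat_lit 3633))))))) (.a s5340 (.a (.p (nat_lit 594) (.a (.f (nat_lit 497) (nat_lit 465) (nat_lit 7633) (.f (nat_lit 529) (nat_lit 626) (nat_lit 7665) (.d (nat_lit 499) (nat_lit 467) (nat_lit 6610) (nat_lit 500) (nat_lit 1520)))) (.f (nat_lit 595) (nat_lit 627) (nat_lit 4594) (.f (nat_lit 561) (nat_lit 559) (nat_lit 559) (.d (nat_lit 593) (nat_lit 596) (nat_lit 3632) (nat_lit 625) (nat_lit 5617)))))) (.a s5358 s5373))))))) (.a s5618 (.a s5673 (.a s5629 (.p (nat_lit 529) (.a (.f (nat_lit 499) (nat_lit 527) (nat_lit 2543) (.d (nat_lit 500) (nat_lit 497) (nat_lit 1520) (nat_lit 501) (nat_lit 1521))) (.f (nat_lit 531) (nat_lit 559) (nat_lit 1551) (.f (nat_lit 532) (nat_lit 561) (nat_lit 1552) (.d (nat_lit 564) (nat_lit 563) (nat_lit 528) (nat_lit 565) (nat_lit 529))))))))))))))) (.a (.p (nat_lit 530) (.a (.p (nat_lit 529) (.a (.f (nat_lit 499) (nat_lit 527) (nat_lit 2543) (.d (nat_lit 500) (nat_lit 497) (nat_lit 1520) (nat_lit 501) (nat_lit 1521))) (.a (.f (nat_lit 531) (nat_lit 559) (nat_lit 1551) (.f (nat_lit 499) (nat_lit 500) (nat_lit 2544) (.f (nat_lit 563) (nat_lit 564) (nat_lit 528) (.d (nat_lit 466) (nat_lit 434) (nat_lit 4530) (nat_lit 595) (nat_lit 7634))))) (.f (nat_lit 531) (nat_lit 559) (nat_lit 1551) (.f (nat_lit 563) (nat_lit 564) (nat_lit 528) (.f (nat_lit 562) (nat_lit 527) (nat_lit 527) (.d (nat_lit 466) (nat_lit 434) (nat_lit 4530) (nat_lit 595) (nat_lit 4562)))))))) (.a s5455 (.a s5720 (.a s5731 (.a (.p (nat_lit 529) (.a (.f (nat_lit 499) (nat_lit 527) (nat_lit 2543) (.d (nat_lit 500) (nat_lit 497) (nat_lit 1520) (nat_lit 501) (nat_lit 1521))) (.a (.f (nat_lit 531) (nat_lit 559) (nat_lit 1551) (.f (nat_lit 499) (nat_lit 500) (nat_lit 2544) (.f (nat_lit 563) (nat_lit 564) (nat_lit 528) (.d (nat_lit 466) (nat_lit 434) (nat_lit 4530) (nat_lit 595) (nat_lit 7634))))) (.f (nat_lit 559) (nat_lit 531) (nat_lit 1551) (.d (nat_lit 558) (nat_lit 527) (nat_lit 1550) (nat_lit 557) (nat_lit 2573)))))) (.a (.p (nat_lit 496) (.a (.p (nat_lit 464) (.a (.f (nat_lit 433) (nat_lit 465) (nat_lit 6576) (.f (nat_lit 432) (nat_lit 401) (nat_lit 6544) (.d (nat_lit 431) (nat_lit 399) (nat_lit 7567) (nat_lit 463) (nat_lit 7599)))) (.a (.f (nat_lit 463) (nat_lit 431) (nat_lit 7599) (.f (nat_lit 497) (nat_lit 499) (nat_lit 3535) (.d (nat_lit 462) (nat_lit 461) (nat_lit 461) (nat_lit 495) (nat_lit 3534)))) (.f (nat_lit 433) (nat_lit 465) (nat_lit 6576) (.f (nat_lit 432) (nat_lit 401) (nat_lit 6544) (.d (nat_lit 559) (nat_lit 527) (nat_lit 5551) (nat_lit 591) (nat_lit 5583))))))) (.a (.p (nat_lit 562) (.a s5405 (.a s5750 (.a (.p (nat_lit 594) (.a (.f (nat_lit 595) (nat_lit 627) (nat_lit 4594) (.f (nat_lit 466) (nat_lit 563) (nat_lit 4562) (.d (nat_lit 467) (nat_lit 435) (nat_lit 6578) (nat_lit 499) (nat_lit 6610)))) (.a (.f (nat_lit 625) (nat_lit 593) (nat_lit 5617) (.f (nat_lit 626) (nat_lit 657) (nat_lit 5649) (.d (nat_lit 627) (nat_lit 595) (nat_lit 4594) (nat_lit 659) (nat_lit 4626)))) (.f (nat_lit 497) (nat_lit 465) (nat_lit 7633) (.f (nat_lit 467) (nat_lit 499) (nat_lit 6610) (.d (nat_lit 466) (nat_lit 435) (nat_lit 6578) (nat_lit 495) (nat_lit 2511))))))) (.a (.p (nat_lit 594) (.a (.f (nat_lit 625) (nat_lit 593) (nat_lit 5617) (.f (nat_lit 626) (nat_lit 657) (nat_lit 5649) (.d (nat_lit 627) (nat_lit 595) (nat_lit 4594) (nat_lit 659) (nat_lit 4626)))) (.f (nat_lit 465) (nat_lit 497) (nat_lit 7633) (.d (nat_lit 433) (nat_lit 464) (nat_lit 6576) (nat_lit 466) (nat_lit 7601))))) (.a s5763 s5773)))))) (.a (.p (nat_lit 464) (.a (.f (nat_lit 433) (nat_lit 465) (nat_lit 6576) (.f (nat_lit 432) (nat_lit 401) (nat_lit 6544) (.d (nat_lit 431) (nat_lit 399) (nat_lit 7567) (nat_lit 463) (nat_lit 7599)))) (.a (.f (nat_lit 559) (nat_lit 591) (nat_lit 5583) (.f (nat_lit 527) (nat_lit 432) (nat_lit 5551) (.d (nat_lit 529) (nat_lit 499) (nat_lit 2543) (nat_lit 558) (nat_lit 1550)))) (.f (nat_lit 465) (nat_lit 433) (nat_lit 6576) (.f (nat_lit 463) (nat_lit 431) (nat_lit 7599) (.f (nat_lit 466) (nat_lit 499) (nat_lit 463) (.d (nat_lit 495) (nat_lit 467) (nat_lit 1487) (nat_lit 494) (nat_lit 1486)))))))) (.a (.p (nat_lit 497) (.a (.f (nat_lit 499) (nat_lit 527) (nat_lit 1519) (.f (nat_lit 529) (nat_lit 500) (nat_lit 1520) (.f (nat_lit 467) (nat_lit 468) (nat_lit 2512) (.d (nat_lit 495) (nat_lit 466) (nat_lit 2511) (nat_lit 494) (nat_lit 494))))) (.a (.p (nat_lit 499) (.a (.f (nat_lit 529) (nat_lit 500) (nat_lit 1520) (.f (nat_lit 467) (nat_lit 468) (nat_lit 2512) (.d (nat_lit 495) (nat_lit 466) (nat_lit 2511) (nat_lit 494) (nat_lit 494)))) (.a (.f (nat_lit 467) (nat_lit 468) (nat_lit 2512) (.f (nat_lit 466) (nat_lit 495) (nat_lit 2511) (.d (nat_lit 435) (nat_lit 403) (nat_lit 5522) (nat_lit 562) (nat_lit 6578)))) (.a (.f (nat_lit 500) (nat_lit 529) (nat_lit 1520) (.d (nat_lit 468) (nat_lit 467) (nat_lit 2512) (nat_lit 469) (nat_lit 2513))) (.a (.f (nat_lit 500) (nat_lit 529) (nat_lit 1520) (.f (nat_lit 469) (nat_lit 468) (nat_lit 2513) (.f (nat_lit 501) (nat_lit 470) (nat_lit 2514) (.d (nat_lit 533) (nat_lit 532) (nat_lit 497) (nat_lit 534) (nat_lit 498))))) (.f (nat_lit 529) (nat_lit 500) (nat_lit 1520) (.f (nat_lit 433) (nat_lit 465) (nat_lit 5552) (.f (nat_lit 495) (nat_lit 494) (nat_lit 494) (.f (nat_lit 466) (nat_lit 467) (nat_lit 2511) (.d (nat_lit 434) (nat_lit 401) (nat_lit 7569) (nat_lit 402) (nat_lit 5521))))))))))) (.a (.f (nat_lit 499) (nat_lit 527) (nat_lit 1519) (.f (nat_lit 467) (nat_lit 468) (nat_lit 2512) (.f (nat_lit 466) (nat_lit 495) (nat_lit 2511) (.d (nat_lit 435) (nat_lit 403) (nat_lit 5522) (nat_lit 562) (nat_lit 6578))))) (.a (.p (nat_lit 529) (.a (.f (nat_lit 433) (nat_lit 465) (nat_lit 5552) (.f (nat_lit 495) (nat_lit 494) (nat_lit 494) (.f (nat_lit 466) (nat_lit 467) (nat_lit 2511) (.d (nat_lit 434) (nat_lit 401) (nat_lit 7569) (nat_lit 402) (nat_lit 5521))))) (.a (.f (nat_lit 495) (nat_lit 494) (nat_lit 494) (.f (nat_lit 463) (nat_lit 462) (nat_lit 3534) (.d (nat_lit 431) (nat_lit 399) (nat_lit 4495) (nat_lit 527) (nat_lit 4527)))) (.f (nat_lit 465) (nat_lit 433) (nat_lit 5552) (.f (nat_lit 562) (nat_lit 594) (nat_lit 7633) (.f (nat_lit 563) (nat_lit 527) (nat_lit 527) (.f (nat_lit 466) (nat_lit 595) (nat_lit 4562) (.d (nat_lit 467) (nat_lit 435) (nat_lit 6578) (nat_lit 468) (nat_lit 1488))))))))) (.a (.f (nat_lit 499) (nat_lit 527) (nat_lit 1519) (.f (nat_lit 500) (nat_lit 529) (nat_lit 1520) (.d (nat_lit 468) (nat_lit 467) (nat_lit 2512) (nat_lit 469) (nat_lit 2513)))) (.a (.f (nat_lit 499) (nat_lit 527) (nat_lit 1519) (.f (nat_lit 500) (nat_lit 529) (nat_lit 1520) (.f (nat_lit 469) (nat_lit 468) (nat_lit 2513) (.f (nat_lit 501) (nat_lit 470) (nat_lit 2514) (.d (nat_lit 533) (nat_lit 532) (nat_lit 497) (nat_lit 534) (nat_lit 498)))))) (.f (nat_lit 499) (nat_lit 527) (nat_lit 1519) (.f (nat_lit 529) (nat_lit 500) (nat_lit 1520) (.f (nat_lit 433) (nat_lit 465) (nat_lit 5552) (.f (nat_lit 495) (nat_lit 494) (nat_lit 494) (.f (nat_lit 466) (nat_lit 467) (nat_lit 2511) (.d (nat_lit 434) (nat_lit 401) (nat_lit 7569) (nat_lit 402) (nat_lit 5521)))))))))))))) (.a (.p (nat_lit 464) (.a (.f (nat_lit 433) (nat_lit 465) (nat_lit 6576) (.f (nat_lit 432) (nat_lit 401) (nat_lit 6544) (.d (nat_lit 431) (nat_lit 399) (nat_lit 7567) (nat_lit 463) (nat_lit 7599)))) (.a (.f (nat_lit 559) (nat_lit 591) (nat_lit 5583) (.f (nat_lit 432) (nat_lit 527) (nat_lit 5551) (.d (nat_lit 431) (nat_lit 399) (nat_lit 7567) (nat_lit 463) (nat_lit 7599)))) (.a (.f (nat_lit 465) (nat_lit 433) (nat_lit 6576) (.f (nat_lit 463) (nat_lit 431) (nat_lit 7599) (.f (nat_lit 462) (nat_lit 497) (nat_lit 462) (.f (nat_lit 494) (nat_lit 493) (nat_lit 1485) (.f (nat_lit 495) (nat_lit 466) (nat_lit 1486) (.f (nat_lit 527) (nat_lit 529) (nat_lit 3566) (.d (nat_lit 430) (nat_lit 398) (nat_lit 4494) (nat_lit 429) (nat_lit 3501)))))))) (.f (nat_lit 433) (nat_lit 465) (nat_lit 6576) (.f (nat_lit 432) (nat_lit 401) (nat_lit 6544) (.d (nat_lit 559) (nat_lit 527) (nat_lit 5551) (nat_lit 591) (nat_lit 5583)))))))) (.a (.p (nat_lit 464) (.a (.f (nat_lit 463) (nat_lit 431) (nat_lit 7599) (.f (nat_lit 497) (nat_lit 499) (nat_lit 3535) (.d (nat_lit 462) (nat_lit 461) (nat_lit 461) (nat_lit 495) (nat_lit 3534)))) (.a (.f (nat_lit 559) (nat_lit 591) (nat_lit 5583) (.f (nat_lit 527) (nat_lit 432) (nat_lit 5551) (.d (nat_lit 529) (nat_lit 499) (nat_lit 2543) (nat_lit 558) (nat_lit 1550)))) (.f (nat_lit 559) (nat_lit 591) (nat_lit 5583) (.f (nat_lit 432) (nat_lit 527) (nat_lit 5551) (.d (nat_lit 431) (nat_lit 399) (nat_lit 7567) (nat_lit 463) (nat_lit 7599))))))) (.a (.p (nat_lit 464) (.a (.f (nat_lit 433) (nat_lit 465) (nat_lit 6576) (.f (nat_lit 432) (nat_lit 401) (nat_lit 6544) (.d (nat_lit 431) (nat_lit 399) (nat_lit 7567) (nat_lit 463) (nat_lit 7599)))) (.a (.f (nat_lit 559) (nat_lit 591) (nat_lit 5583) (.f (nat_lit 527) (nat_lit 432) (nat_lit 5551) (.d (nat_lit 529) (nat_lit 499) (nat_lit 2543) (nat_lit 558) (nat_lit 1550)))) (.f (nat_lit 465) (nat_lit 433) (nat_lit 6576) (.f (nat_lit 463) (nat_lit 431) (nat_lit 7599) (.d (nat_lit 497) (nat_lit 462) (nat_lit 462) (nat_lit 499) (nat_lit 3535))))))) (.a (.p (nat_lit 562) (.a (.p (nat_lit 594) (.a (.f (nat_lit 595) (nat_lit 627) (nat_lit 4594) (.f (nat_lit 466) (nat_lit 563) (nat_lit 4562) (.d (nat_lit 467) (nat_lit 435) (nat_lit 6578) (nat_lit 499) (nat_lit 6610)))) (.a (.f (nat_lit 625) (nat_lit 593) (nat_lit 5617) (.f (nat_lit 626) (nat_lit 657) (nat_lit 5649) (.d (nat_lit 627) (nat_lit 595) (nat_lit 4594) (nat_lit 659) (nat_lit 4626)))) (.f (nat_lit 497) (nat_lit 465) (nat_lit 7633) (.f (nat_lit 467) (nat_lit 499) (nat_lit 6610) (.d (nat_lit 466) (nat_lit 435) (nat_lit 6578) (nat_lit 495) (nat_lit 2511))))))) (.a s5835 (.a s5836 (.a (.p (nat_lit 594) (.a (.f (nat_lit 625) (nat_lit 593) (nat_lit 5617) (.f (nat_lit 626) (nat_lit 657) (nat_lit 5649) (.d (nat_lit 627) (nat_lit 595) (nat_lit 4594) (nat_lit 659) (nat_lit 4626)))) (.f (nat_lit 465) (nat_lit 497) (nat_lit 7633) (.d (nat_lit 433) (nat_lit 464) (nat_lit 6576) (nat_lit 466) (nat_lit 7601))))) (.a s5849 (.a s5763 (.a s5773 s5850)))))))) (.p (nat_lit 562) (.a (.p (nat_lit 594) (.a (.f (nat_lit 595) (nat_lit 627) (nat_lit 4594) (.f (nat_lit 466) (nat_lit 563) (nat_lit 4562) (.d (nat_lit 467) (nat_lit 435) (nat_lit 6578) (nat_lit 499) (nat_lit 6610)))) (.a (.f (nat_lit 625) (nat_lit 593) (nat_lit 5617) (.f (nat_lit 626) (nat_lit 657) (nat_lit 5649) (.d (nat_lit 627) (nat_lit 595) (nat_lit 4594) (nat_lit 659) (nat_lit 4626)))) (.f (nat_lit 497) (nat_lit 465) (nat_lit 7633) (.f (nat_lit 467) (nat_lit 499) (nat_lit 6610) (.d (nat_lit 466) (nat_lit 435) (nat_lit 6578) (nat_lit 495) (nat_lit 2511))))))) (.a s5859 (.a s5836 (.a (.p (nat_lit 594) (.a (.f (nat_lit 625) (nat_lit 593) (nat_lit 5617) (.f (nat_lit 626) (nat_lit 657) (nat_lit 5649) (.d (nat_lit 627) (nat_lit 595) (nat_lit 4594) (nat_lit 659) (nat_lit 4626)))) (.f (nat_lit 465) (nat_lit 497) (nat_lit 7633) (.d (nat_lit 433) (nat_lit 464) (nat_lit 6576) (nat_lit 466) (nat_lit 7601))))) (.a s5849 (.a s5763 (.a s5773 s5860))))))))))))))))) (.a (.p (nat_lit 529) (.a (.f (nat_lit 499) (nat_lit 527) (nat_lit 2543) (.d (nat_lit 500) (nat_lit 497) (nat_lit 1520) (nat_lit 501) (nat_lit 1521))) (.a (.f (nat_lit 531) (nat_lit 559) (nat_lit 1551) (.f (nat_lit 499) (nat_lit 500) (nat_lit 2544) (.f (nat_lit 496) (nat_lit 495) (nat_lit 3567) (.f (nat_lit 497) (nat_lit 532) (nat_lit 3568) (.f (nat_lit 467) (nat_lit 468) (nat_lit 2512) (.d (nat_lit 435) (nat_lit 403) (nat_lit 5522) (nat_lit 562) (nat_lit 5554))))))) (.a (.f (nat_lit 499) (nat_lit 527) (nat_lit 2543) (.d (nat_lit 500) (nat_lit 501) (nat_lit 1521) (nat_lit 531) (nat_lit 2544))) (.f (nat_lit 559) (nat_lit 531) (nat_lit 1551) (.d (nat_lit 558) (nat_lit 527) (nat_lit 1550) (nat_lit 557) (nat_lit 2573))))))) (.a s5673 (.p (nat_lit 466) (.a (.p (nat_lit 562) (.a (.f (nat_lit 433) (nat_lit 465) (nat_lit 7601) (.f (nat_lit 434) (nat_lit 401) (nat_lit 7569) (.d (nat_lit 435) (nat_lit 403) (nat_lit 6546) (nat_lit 467) (nat_lit 6578)))) (.a (.f (nat_lit 563) (nat_lit 595) (nat_lit 4562) (.f (nat_lit 529) (nat_lit 527) (nat_lit 527) (.d (nat_lit 531) (nat_lit 434) (nat_lit 4530) (nat_lit 564) (nat_lit 528)))) (.f (nat_lit 563) (nat_lit 595) (nat_lit 4562) (.f (nat_lit 529) (nat_lit 527) (nat_lit 527) (.d (nat_lit 564) (nat_lit 531) (nat_lit 528) (nat_lit 565) (nat_lit 3601))))))) (.a (.p (nat_lit 562) (.a (.f (nat_lit 433) (nat_lit 465) (nat_lit 7601) (.f (nat_lit 434) (nat_lit 401) (nat_lit 7569) (.d (nat_lit 435) (nat_lit 403) (nat_lit 6546) (nat_lit 467) (nat_lit 6578)))) (.a (.f (nat_lit 563) (nat_lit 595) (nat_lit 4562) (.f (nat_lit 434) (nat_lit 531) (nat_lit 4530) (.d (nat_lit 435) (nat_lit 403) (nat_lit 6546) (nat_lit 467) (nat_lit 6578)))) (.f (nat_lit 465) (nat_lit 433) (nat_lit 7601) (.f (nat_lit 594) (nat_lit 497) (nat_lit 7633) (.d (nat_lit 595) (nat_lit 563) (nat_lit 4562) (nat_lit 627) (nat_lit 4594))))))) (.a (.p (nat_lit 531) (.a (.f (nat_lit 529) (nat_lit 559) (nat_lit 1551) (.d (nat_lit 563) (nat_lit 434) (nat_lit 4530) (nat_lit 564) (nat_lit 528))) (.a (.f (nat_lit 434) (nat_lit 563) (nat_lit 4530) (.f (nat_lit 401) (nat_lit 433) (nat_lit 7569) (.f (nat_lit 402) (nat_lit 369) (nat_lit 7537) (.d (nat_lit 403) (nat_lit 371) (nat_lit 6514) (nat_lit 435) (nat_lit 6546))))) (.a (.f (nat_lit 529) (nat_lit 559) (nat_lit 1551) (.f (nat_lit 496) (nat_lit 495) (nat_lit 3567) (.f (nat_lit 497) (nat_lit 532) (nat_lit 3568) (.f (nat_lit 465) (nat_lit 433) (nat_lit 5552) (.f (nat_lit 434) (nat_lit 402) (nat_lit 5521) (.f (nat_lit 435) (nat_lit 403) (nat_lit 6546) (.f (nat_lit 464) (nat_lit 463) (nat_lit 2479) (.d (nat_lit 436) (nat_lit 437) (nat_lit 1457) (nat_lit 467) (nat_lit 2480))))))))) (.f (nat_lit 529) (nat_lit 559) (nat_lit 1551) (.f (nat_lit 496) (nat_lit 495) (nat_lit 3567) (.f (nat_lit 532) (nat_lit 497) (nat_lit 3568) (.d (nat_lit 564) (nat_lit 563) (nat_lit 528) (nat_lit 565) (nat_lit 529))))))))) (.a (.p (nat_lit 562) (.a (.f (nat_lit 433) (nat_lit 465) (nat_lit 7601) (.f (nat_lit 434) (nat_lit 401) (nat_lit 7569) (.d (nat_lit 435) (nat_lit 403) (nat_lit 6546) (nat_lit 467) (nat_lit 6578)))) (.a (.f (nat_lit 563) (nat_lit 595) (nat_lit 4562) (.f (nat_lit 529) (nat_lit 527) (nat_lit 527) (.f (nat_lit 435) (nat_lit 467) (nat_lit 6578) (.f (nat_lit 434) (nat_lit 403) (nat_lit 6546) (.f (nat_lit 401) (nat_lit 433) (nat_lit 7569) (.d (nat_lit 402) (nat_lit 369) (nat_lit 7537) (nat_lit 497) (nat_lit 5521))))))) (.a (.f (nat_lit 563) (nat_lit 595) (nat_lit 4562) (.f (nat_lit 529) (nat_lit 527) (nat_lit 527) (.f (nat_lit 435) (nat_lit 467) (nat_lit 6578) (.f (nat_lit 434) (nat_lit 403) (nat_lit 6546) (.f (nat_lit 497) (nat_lit 402) (nat_lit 5521) (.d (nat_lit 594) (nat_lit 465) (nat_lit 7633) (nat_lit 626) (nat_lit 7665))))))) (.f (nat_lit 465) (nat_lit 433) (nat_lit 7601) (.f (nat_lit 594) (nat_lit 497) (nat_lit 7633) (.d (nat_lit 595) (nat_lit 563) (nat_lit 4562) (nat_lit 627) (nat_lit 4594)))))))) (.a (.p (nat_lit 434) (.a (.f (nat_lit 433) (nat_lit 401) (nat_lit 7569) (.f (nat_lit 435) (nat_lit 403) (nat_lit 6546) (.d (nat_lit 562) (nat_lit 465) (nat_lit 7601) (nat_lit 467) (nat_lit 6578)))) (.a (.f (nat_lit 401) (nat_lit 433) (nat_lit 7569) (.f (nat_lit 402) (nat_lit 369) (nat_lit 7537) (.d (nat_lit 403) (nat_lit 371) (nat_lit 6514) (nat_lit 435) (nat_lit 6546)))) (.a (.f (nat_lit 403) (nat_lit 435) (nat_lit 6546) (.f (nat_lit 402) (nat_lit 371) (nat_lit 6514) (.f (nat_lit 497) (nat_lit 529) (nat_lit 5521) (.f (nat_lit 369) (nat_lit 401) (nat_lit 7537) (.d (nat_lit 370) (nat_lit 337) (nat_lit 7505) (nat_lit 465) (nat_lit 5489)))))) (.a (.f (nat_lit 435) (nat_lit 403) (nat_lit 6546) (.f (nat_lit 562) (nat_lit 467) (nat_lit 6578) (.f (nat_lit 465) (nat_lit 433) (nat_lit 7601) (.f (nat_lit 497) (nat_lit 594) (nat_lit 7633) (.d (nat_lit 402) (nat_lit 370) (nat_lit 5489) (nat_lit 529) (nat_lit 5521)))))) (.f (nat_lit 433) (nat_lit 401) (nat_lit 7569) (.f (nat_lit 465) (nat_lit 562) (nat_lit 7601) (.f (nat_lit 464) (nat_lit 496) (nat_lit 6576) (.f (nat_lit 463) (nat_lit 462) (nat_lit 2478) (.f (nat_lit 431) (nat_lit 430) (nat_lit 3502) (.f (nat_lit 432) (nat_lit 467) (nat_lit 431) (.f (nat_lit 399) (nat_lit 398) (nat_lit 3470) (.f (nat_lit 367) (nat_lit 335) (nat_lit 4431) (.f (nat_lit 368) (nat_lit 336) (nat_lit 6479) (.d (nat_lit 495) (nat_lit 400) (nat_lit 6511) (nat_lit 494) (nat_lit 1486)))))))))))))))) (.a (.p (nat_lit 562) (.a (.f (nat_lit 563) (nat_lit 595) (nat_lit 4562) (.f (nat_lit 529) (nat_lit 527) (nat_lit 527) (.d (nat_lit 531) (nat_lit 434) (nat_lit 4530) (nat_lit 564) (nat_lit 528)))) (.a (.f (nat_lit 563) (nat_lit 595) (nat_lit 4562) (.f (nat_lit 434) (nat_lit 531) (nat_lit 4530) (.d (nat_lit 435) (nat_lit 403) (nat_lit 6546) (nat_lit 467) (nat_lit 6578)))) (.a (.f (nat_lit 563) (nat_lit 595) (nat_lit 4562) (.f (nat_lit 529) (nat_lit 527) (nat_lit 527) (.f (nat_lit 435) (nat_lit 467) (nat_lit 6578) (.f (nat_lit 434) (nat_lit 403) (nat_lit 6546) (.f (nat_lit 401) (nat_lit 433) (nat_lit 7569) (.d (nat_lit 402) (nat_lit 369) (nat_lit 7537) (nat_lit 497) (nat_lit 5521))))))) (.a (.f (nat_lit 435) (nat_lit 467) (nat_lit 6578) (.f (nat_lit 434) (nat_lit 403) (nat_lit 6546) (.f (nat_lit 401) (nat_lit 433) (nat_lit 7569) (.f (nat_lit 402) (nat_lit 369) (nat_lit 7537) (.f (nat_lit 529) (nat_lit 497) (nat_lit 5521) (.f (nat_lit 559) (nat_lit 531) (nat_lit 1551) (.d (nat_lit 558) (nat_lit 527) (nat_lit 1550) (nat_lit 557) (nat_lit 2573)))))))) (.f (nat_lit 563) (nat_lit 595) (nat_lit 4562) (.f (nat_lit 529) (nat_lit 527) (nat_lit 527) (.d (nat_lit 564) (nat_lit 531) (nat_lit 528) (nat_lit 565) (nat_lit 3601))))))))) (.a (.p (nat_lit 531) (.a (.f (nat_lit 529) (nat_lit 559) (nat_lit 1551) (.d (nat_lit 563) (nat_lit 434) (nat_lit 4530) (nat_lit 564) (nat_lit 528))) (.a (.f (nat_lit 563) (nat_lit 434) (nat_lit 4530) (.d (nat_lit 595) (nat_lit 562) (nat_lit 4562) (nat_lit 627) (nat_lit 7666))) (.a (.f (nat_lit 529) (nat_lit 559) (nat_lit 1551) (.f (nat_lit 496) (nat_lit 495) (nat_lit 3567) (.f (nat_lit 497) (nat_lit 532) (nat_lit 3568) (.f (nat_lit 434) (nat_lit 402) (nat_lit 5521) (.f (nat_lit 435) (nat_lit 403) (nat_lit 6546) (.f (nat_lit 467) (nat_lit 562) (nat_lit 6578) (.d (nat_lit 468) (nat_lit 465) (nat_lit 1488) (nat_lit 469) (nat_lit 1489)))))))) (.f (nat_lit 529) (nat_lit 559) (nat_lit 1551) (.f (nat_lit 496) (nat_lit 495) (nat_lit 3567) (.f (nat_lit 532) (nat_lit 497) (nat_lit 3568) (.d (nat_lit 564) (nat_lit 563) (nat_lit 528) (nat_lit 565) (nat_lit 529))))))))) (.a (.p (nat_lit 562) (.a (.f (nat_lit 563) (nat_lit 595) (nat_lit 4562) (.f (nat_lit 529) (nat_lit 527) (nat_lit 527) (.d (nat_lit 564) (nat_lit 531) (nat_lit 528) (nat_lit 565) (nat_lit 3601)))) (.a (.f (nat_lit 465) (nat_lit 433) (nat_lit 7601) (.f (nat_lit 594) (nat_lit 497) (nat_lit 7633) (.d (nat_lit 595) (nat_lit 563) (nat_lit 4562) (nat_lit 627) (nat_lit 4594)))) (.a (.f (nat_lit 465) (nat_lit 433) (nat_lit 7601) (.f (nat_lit 594) (nat_lit 497) (nat_lit 7633) (.f (nat_lit 625) (nat_lit 593) (nat_lit 5617) (.f (nat_lit 626) (nat_lit 657) (nat_lit 5649) (.d (nat_lit 627) (nat_lit 595) (nat_lit 4594) (nat_lit 659) (nat_lit 4626)))))) (.f (nat_lit 465) (nat_lit 433) (nat_lit 7601) (.f (nat_lit 467) (nat_lit 435) (nat_lit 6578) (.f (nat_lit 497) (nat_lit 594) (nat_lit 7633) (.d (nat_lit 468) (nat_lit 469) (nat_lit 1489) (nat_lit 496) (nat_lit 1488))))))))) (.a (.p (nat_lit 562) (.a (.f (nat_lit 563) (nat_lit 595) (nat_lit 4562) (.f (nat_lit 529) (nat_lit 527) (nat_lit 527) (.d (nat_lit 531) (nat_lit 434) (nat_lit 4530) (nat_lit 564) (nat_lit 528)))) (.a (.f (nat_lit 465) (nat_lit 433) (nat_lit 7601) (.f (nat_lit 594) (nat_lit 497) (nat_lit 7633) (.d (nat_lit 595) (nat_lit 563) (nat_lit 4562) (nat_lit 627) (nat_lit 4594)))) (.a (.f (nat_lit 465) (nat_lit 433) (nat_lit 7601) (.f (nat_lit 594) (nat_lit 497) (nat_lit 7633) (.f (nat_lit 625) (nat_lit 593) (nat_lit 5617) (.f (nat_lit 626) (nat_lit 657) (nat_lit 5649) (.d (nat_lit 627) (nat_lit 595) (nat_lit 4594) (nat_lit 659) (nat_lit 4626)))))) (.f (nat_lit 433) (nat_lit 465) (nat_lit 7601) (.f (nat_lit 434) (nat_lit 401) (nat_lit 7569) (.f (nat_lit 403) (nat_lit 435) (nat_lit 6546) (.f (nat_lit 402) (nat_lit 371) (nat_lit 6514) (.f (nat_lit 529) (nat_lit 497) (nat_lit 5521) (.d (nat_lit 531) (nat_lit 559) (nat_lit 1551) (nat_lit 563) (nat_lit 4530))))))))))) (.p (nat_lit 562) (.a (.f (nat_lit 563) (nat_lit 595) (nat_lit 4562) (.f (nat_lit 529) (nat_lit 527) (nat_lit 527) (.d (nat_lit 531) (nat_lit 434) (nat_lit 4530) (nat_lit 564) (nat_lit 528)))) (.a (.f (nat_lit 465) (nat_lit 433) (nat_lit 7601) (.f (nat_lit 594) (nat_lit 497) (nat_lit 7633) (.d (nat_lit 595) (nat_lit 563) (nat_lit 4562) (nat_lit 627) (nat_lit 4594)))) (.a (.f (nat_lit 465) (nat_lit 433) (nat_lit 7601) (.f (nat_lit 594) (nat_lit 497) (nat_lit 7633) (.f (nat_lit 625) (nat_lit 593) (nat_lit 5617) (.f (nat_lit 626) (nat_lit 657) (nat_lit 5649) (.d (nat_lit 627) (nat_lit 595) (nat_lit 4594) (nat_lit 659) (nat_lit 4626)))))) (.f (nat_lit 433) (nat_lit 465) (nat_lit 7601) (.f (nat_lit 434) (nat_lit 401) (nat_lit 7569) (.f (nat_lit 531) (nat_lit 563) (nat_lit 4530) (.f (nat_lit 529) (nat_lit 559) (nat_lit 1551) (.f (nat_lit 497) (nat_lit 402) (nat_lit 5521) (.d (nat_lit 496) (nat_lit 495) (nat_lit 495) (nat_lit 532) (nat_lit 3568)))))))))))))))))))))))))))))) (.a (.p (nat_lit 530) (.a s5720 (.a s5458 (.a s5983 (.a (.p (nat_lit 496) (.a (.p (nat_lit 464) (.a (.f (nat_lit 433) (nat_lit 465) (nat_lit 6576) (.f (nat_lit 432) (nat_lit 401) (nat_lit 6544) (.d (nat_lit 431) (nat_lit 399) (nat_lit 7567) (nat_lit 463) (nat_lit 7599)))) (.a (.f (nat_lit 463) (nat_lit 431) (nat_lit 7599) (.f (nat_lit 497) (nat_lit 499) (nat_lit 3535) (.d (nat_lit 462) (nat_lit 461) (nat_lit 461) (nat_lit 495) (nat_lit 3534)))) (.f (nat_lit 433) (nat_lit 465) (nat_lit 6576) (.f (nat_lit 432) (nat_lit 401) (nat_lit 6544) (.d (nat_lit 559) (nat_lit 527) (nat_lit 5551) (nat_lit 591) (nat_lit 5583))))))) (.a s5572 (.a s5984 (.a (.p (nat_lit 497) (.a (.f (nat_lit 495) (nat_lit 531) (nat_lit 495) (.f (nat_lit 463) (nat_lit 462) (nat_lit 3534) (.d (nat_lit 431) (nat_lit 399) (nat_lit 4495) (nat_lit 527) (nat_lit 4527)))) (.a (.f (nat_lit 495) (nat_lit 531) (nat_lit 495) (.f (nat_lit 466) (nat_lit 467) (nat_lit 2511) (.f (nat_lit 494) (nat_lit 465) (nat_lit 2510) (.d (nat_lit 462) (nat_lit 461) (nat_lit 3533) (nat_lit 463) (nat_lit 3534))))) (.a (.p (nat_lit 495) (.a (.f (nat_lit 463) (nat_lit 462) (nat_lit 3534) (.d (nat_lit 431) (nat_lit 399) (nat_lit 4495) (nat_lit 527) (nat_lit 4527))) (.a (.f (nat_lit 466) (nat_lit 467) (nat_lit 2511) (.f (nat_lit 494) (nat_lit 465) (nat_lit 2510) (.d (nat_lit 462) (nat_lit 461) (nat_lit 3533) (nat_lit 463) (nat_lit 3534)))) (.a (.f (nat_lit 466) (nat_lit 467) (nat_lit 2511) (.f (nat_lit 494) (nat_lit 465) (nat_lit 2510) (.f (nat_lit 527) (nat_lit 499) (nat_lit 1519) (.f (nat_lit 493) (nat_lit 492) (nat_lit 492) (.d (nat_lit 461) (nat_lit 460) (nat_lit 3532) (nat_lit 462) (nat_lit 3533)))))) (.f (nat_lit 467) (nat_lit 466) (nat_lit 2511) (.d (nat_lit 499) (nat_lit 468) (nat_lit 2512) (nat_lit 527) (nat_lit 1519))))))) (.f (nat_lit 499) (nat_lit 527) (nat_lit 1519) (.f (nat_lit 531) (nat_lit 532) (nat_lit 496) (.f (nat_lit 467) (nat_lit 468) (nat_lit 2512) (.f (nat_lit 435) (nat_lit 403) (nat_lit 5522) (.f (nat_lit 434) (nat_lit 402) (nat_lit 7570) (.f (nat_lit 563) (nat_lit 466) (nat_lit 4530) (.f (nat_lit 595) (nat_lit 627) (nat_lit 7666) (.d (nat_lit 596) (nat_lit 564) (nat_lit 4563) (nat_lit 628) (nat_lit 4595))))))))))))) (.a s6009 (.a s6026 (.a s6027 s6041)))))))) (.a s6061 (.a (.p (nat_lit 562) (.a (.p (nat_lit 594) (.a (.f (nat_lit 593) (nat_lit 625) (nat_lit 5617) (.f (nat_lit 561) (nat_lit 466) (nat_lit 5585) (.d (nat_lit 559) (nat_lit 531) (nat_lit 2575) (nat_lit 558) (nat_lit 558)))) (.a (.f (nat_lit 467) (nat_lit 499) (nat_lit 6610) (.f (nat_lit 466) (nat_lit 435) (nat_lit 6578) (.d (nat_lit 465) (nat_lit 433) (nat_lit 7601) (nat_lit 497) (nat_lit 7633)))) (.f (nat_lit 595) (nat_lit 627) (nat_lit 4594) (.f (nat_lit 561) (nat_lit 559) (nat_lit 559) (.d (nat_lit 593) (nat_lit 596) (nat_lit 3632) (nat_lit 625) (nat_lit 5617))))))) (.a (.p (nat_lit 594) (.a (.f (nat_lit 467) (nat_lit 499) (nat_lit 6610) (.f (nat_lit 466) (nat_lit 435) (nat_lit 6578) (.d (nat_lit 465) (nat_lit 433) (nat_lit 7601) (nat_lit 497) (nat_lit 7633)))) (.a (.f (nat_lit 625) (nat_lit 593) (nat_lit 5617) (.f (nat_lit 626) (nat_lit 657) (nat_lit 5649) (.d (nat_lit 499) (nat_lit 467) (nat_lit 6610) (nat_lit 531) (nat_lit 6642)))) (.f (nat_lit 625) (nat_lit 593) (nat_lit 5617) (.f (nat_lit 626) (nat_lit 657) (nat_lit 5649) (.d (nat_lit 627) (nat_lit 595) (nat_lit 4594) (nat_lit 659) (nat_lit 4626))))))) (.a s5976 (.a (.p (nat_lit 594) (.a (.f (nat_lit 595) (nat_lit 627) (nat_lit 4594) (.f (nat_lit 561) (nat_lit 559) (nat_lit 559) (.d (nat_lit 593) (nat_lit 596) (nat_lit 3632) (nat_lit 625) (nat_lit 5617)))) (.f (nat_lit 467) (nat_lit 499) (nat_lit 6610) (.f (nat_lit 466) (nat_lit 435) (nat_lit 6578) (.d (nat_lit 465) (nat_lit 433) (nat_lit 7601) (nat_lit 497) (nat_lit 7633)))))) (.a s6084 (.a (.p (nat_lit 561) (.a (.f (nat_lit 466) (nat_lit 593) (nat_lit 5585) (.f (nat_lit 435) (nat_lit 467) (nat_lit 6578) (.f (nat_lit 434) (nat_lit 403) (nat_lit 6546) (.d (nat_lit 433) (nat_lit 401) (nat_lit 7569) (nat_lit 465) (nat_lit 7601))))) (.f (nat_lit 559) (nat_lit 531) (nat_lit 2575) (.f (nat_lit 591) (nat_lit 590) (nat_lit 1582) (.f (nat_lit 496) (nat_lit 464) (nat_lit 5583) (.d (nat_lit 623) (nat_lit 527) (nat_lit 6639) (nat_lit 655) (nat_lit 6671))))))) (.a s5701 s6085)))))))) (.a s6087 (.a (.p (nat_lit 562) (.a (.p (nat_lit 561) (.a (.f (nat_lit 466) (nat_lit 593) (nat_lit 5585) (.f (nat_lit 563) (nat_lit 595) (nat_lit 4562) (.d (nat_lit 531) (nat_lit 434) (nat_lit 4530) (nat_lit 532) (nat_lit 2576)))) (.a (.f (nat_lit 466) (nat_lit 593) (nat_lit 5585) (.f (nat_lit 435) (nat_lit 467) (nat_lit 6578) (.f (nat_lit 434) (nat_lit 403) (nat_lit 6546) (.d (nat_lit 433) (nat_lit 401) (nat_lit 7569) (nat_lit 465) (nat_lit 7601))))) (.f (nat_lit 531) (nat_lit 559) (nat_lit 2575) (.d (nat_lit 532) (nat_lit 533) (nat_lit 1553) (nat_lit 563) (nat_lit 2576)))))) (.a (.p (nat_lit 466) (.a (.f (nat_lit 433) (nat_lit 465) (nat_lit 7601) (.f (nat_lit 434) (nat_lit 401) (nat_lit 7569) (.d (nat_lit 435) (nat_lit 403) (nat_lit 6546) (nat_lit 467) (nat_lit 6578)))) (.a (.f (nat_lit 563) (nat_lit 595) (nat_lit 4562) (.f (nat_lit 434) (nat_lit 531) (nat_lit 4530) (.d (nat_lit 435) (nat_lit 403) (nat_lit 6546) (nat_lit 467) (nat_lit 6578)))) (.f (nat_lit 465) (nat_lit 433) (nat_lit 7601) (.f (nat_lit 594) (nat_lit 497) (nat_lit 7633) (.d (nat_lit 595) (nat_lit 563) (nat_lit 4562) (nat_lit 627) (nat_lit 4594))))))) (.a (.p (nat_lit 466) (.a (.f (nat_lit 433) (nat_lit 465) (nat_lit 7601) (.f (nat_lit 434) (nat_lit 401) (nat_lit 7569) (.d (nat_lit 435) (nat_lit 403) (nat_lit 6546) (nat_lit 467) (nat_lit 6578)))) (.f (nat_lit 561) (nat_lit 593) (nat_lit 5585) (.d (nat_lit 563) (nat_lit 527) (nat_lit 3599) (nat_lit 595) (nat_lit 4562))))) (.a (.p (nat_lit 561) (.a (.f (nat_lit 466) (nat_lit 593) (nat_lit 5585) (.f (nat_lit 435) (nat_lit 467) (nat_lit 6578) (.f (nat_lit 434) (nat_lit 403) (nat_lit 6546) (.d (nat_lit 433) (nat_lit 401) (nat_lit 7569) (nat_lit 465) (nat_lit 7601))))) (.f (nat_lit 559) (nat_lit 531) (nat_lit 2575) (.f (nat_lit 591) (nat_lit 590) (nat_lit 1582) (.f (nat_lit 496) (nat_lit 464) (nat_lit 5583) (.d (nat_lit 623) (nat_lit 527) (nat_lit 6639) (nat_lit 655) (nat_lit 6671))))))) (.a s5982 s6094)))))) (.a (.p (nat_lit 562) (.a (.p (nat_lit 594) (.a (.f (nat_lit 595) (nat_lit 627) (nat_lit 4594) (.f (nat_lit 561) (nat_lit 559) (nat_lit 559) (.d (nat_lit 593) (nat_lit 596) (nat_lit 3632) (nat_lit 625) (nat_lit 5617)))) (.a (.f (nat_lit 625) (nat_lit 593) (nat_lit 5617) (.f (nat_lit 626) (nat_lit 657) (nat_lit 5649) (.d (nat_lit 499) (nat_lit 467) (nat_lit 6610) (nat_lit 531) (nat_lit 6642)))) (.f (nat_lit 595) (nat_lit 627) (nat_lit 4594) (.f (nat_lit 561) (nat_lit 559) (nat_lit 559) (.d (nat_lit 596) (nat_lit 563) (nat_lit 560) (nat_lit 597) (nat_lit 3633))))))) (.a (.p (nat_lit 594) (.a (.f (nat_lit 625) (nat_lit 593) (nat_lit 5617) (.f (nat_lit 626) (nat_lit 657) (nat_lit 5649) (.d (nat_lit 499) (nat_lit 467) (nat_lit 6610) (nat_lit 531) (nat_lit 6642)))) (.a (.f (nat_lit 467) (nat_lit 499) (nat_lit 6610) (.f (nat_lit 466) (nat_lit 435) (nat_lit 6578) (.d (nat_lit 595) (nat_lit 563) (nat_lit 4562) (nat_lit 627) (nat_lit 4594)))) (.f (nat_lit 625) (nat_lit 593) (nat_lit 5617) (.f (nat_lit 626) (nat_lit 657) (nat_lit 5649) (.d (nat_lit 627) (nat_lit 595) (nat_lit 4594) (nat_lit 659) (nat_lit 4626))))))) (.a s5459 (.a s5975 (.a s5982 (.a s5976 s6096))))))) (.a (.p (nat_lit 562) (.a (.p (nat_lit 594) (.a (.f (nat_lit 595) (nat_lit 627) (nat_lit 4594) (.f (nat_lit 561) (nat_lit 559) (nat_lit 559) (.d (nat_lit 593) (nat_lit 596) (nat_lit 3632) (nat_lit 625) (nat_lit 5617)))) (.a (.f (nat_lit 625) (nat_lit 593) (nat_lit 5617) (.f (nat_lit 626) (nat_lit 657) (nat_lit 5649) (.d (nat_lit 499) (nat_lit 467) (nat_lit 6610) (nat_lit 531) (nat_lit 6642)))) (.f (nat_lit 595) (nat_lit 627) (nat_lit 4594) (.f (nat_lit 561) (nat_lit 559) (nat_lit 559) (.d (nat_lit 596) (nat_lit 563) (nat_lit 560) (nat_lit 597) (nat_lit 3633))))))) (.a s5701 (.a s6052 (.a s6094 (.a (.p (nat_lit 496) (.a s5694 (.a (.p (nat_lit 561) (.a (.f (nat_lit 531) (nat_lit 559) (nat_lit 2575) (.d (nat_lit 532) (nat_lit 533) (nat_lit 1553) (nat_lit 563) (nat_lit 2576))) (.f (nat_lit 464) (nat_lit 593) (nat_lit 4560) (.f (nat_lit 463) (nat_lit 431) (nat_lit 7599) (.f (nat_lit 497) (nat_lit 499) (nat_lit 3535) (.d (nat_lit 462) (nat_lit 461) (nat_lit 461) (nat_lit 465) (nat_lit 462))))))) (.a (.p (nat_lit 561) (.a (.f (nat_lit 531) (nat_lit 559) (nat_lit 2575) (.d (nat_lit 532) (nat_lit 533) (nat_lit 1553) (nat_lit 563) (nat_lit 2576))) (.a (.f (nat_lit 464) (nat_lit 593) (nat_lit 4560) (.f (nat_lit 559) (nat_lit 591) (nat_lit 5583) (.d (nat_lit 527) (nat_lit 432) (nat_lit 5551) (nat_lit 563) (nat_lit 3599)))) (.a (.f (nat_lit 464) (nat_lit 593) (nat_lit 4560) (.d (nat_lit 559) (nat_lit 531) (nat_lit 2575) (nat_lit 591) (nat_lit 5583))) (.f (nat_lit 563) (nat_lit 527) (nat_lit 3599) (.f (nat_lit 531) (nat_lit 532) (nat_lit 2576) (.d (nat_lit 595) (nat_lit 596) (nat_lit 560) (nat_lit 627) (nat_lit 7666)))))))) (.a (.p (nat_lit 531) (.a (.f (nat_lit 497) (nat_lit 495) (nat_lit 495) (.d (nat_lit 499) (nat_lit 527) (nat_lit 1519) (nat_lit 532) (nat_lit 496))) (.a (.f (nat_lit 497) (nat_lit 495) (nat_lit 495) (.d (nat_lit 532) (nat_lit 499) (nat_lit 496) (nat_lit 533) (nat_lit 3569))) (.a (.f (nat_lit 561) (nat_lit 559) (nat_lit 2575) (.d (nat_lit 532) (nat_lit 533) (nat_lit 1553) (nat_lit 563) (nat_lit 2576))) (.f (nat_lit 497) (nat_lit 495) (nat_lit 495) (.f (nat_lit 499) (nat_lit 527) (nat_lit 1519) (.d (nat_lit 467) (nat_lit 435) (nat_lit 5554) (nat_lit 468) (nat_lit 2512)))))))) (.p (nat_lit 561) (.a (.f (nat_lit 464) (nat_lit 593) (nat_lit 4560) (.f (nat_lit 463) (nat_lit 431) (nat_lit 7599) (.f (nat_lit 497) (nat_lit 499) (nat_lit 3535) (.d (nat_lit 462) (nat_lit 461) (nat_lit 461) (nat_lit 465) (nat_lit 462))))) (.f (nat_lit 563) (nat_lit 527) (nat_lit 3599) (.f (nat_lit 531) (nat_lit 532) (nat_lit 2576) (.d (nat_lit 595) (nat_lit 596) (nat_lit 560) (nat_lit 627) (nat_lit 7666))))))))))) (.a s6136 (.p (nat_lit 594) (.a (.f (nat_lit 625) (nat_lit 593) (nat_lit 5617) (.f (nat_lit 626) (nat_lit 657) (nat_lit 5649) (.d (nat_lit 499) (nat_lit 467) (nat_lit 6610) (nat_lit 531) (nat_lit 6642)))) (.a (.f (nat_lit 593) (nat_lit 625) (nat_lit 5617) (.f (nat_lit 497) (nat_lit 465) (nat_lit 7633) (.f (nat_lit 499) (nat_lit 467) (nat_lit 6610) (.f (nat_lit 496) (nat_lit 527) (nat_lit 1519) (.d (nat_lit 464) (nat_lit 463) (nat_lit 3535) (nat_lit 561) (nat_lit 4560)))))) (.a (.f (nat_lit 499) (nat_lit 467) (nat_lit 6610) (.f (nat_lit 531) (nat_lit 626) (nat_lit 6642) (.f (nat_lit 561) (nat_lit 559) (nat_lit 2575) (.d (nat_lit 532) (nat_lit 533) (nat_lit 1553) (nat_lit 563) (nat_lit 2576))))) (.p (nat_lit 496) (.a (.f (nat_lit 593) (nat_lit 625) (nat_lit 5617) (.f (nat_lit 464) (nat_lit 561) (nat_lit 4560) (.d (nat_lit 465) (nat_lit 433) (nat_lit 6576) (nat_lit 497) (nat_lit 7633)))) (.a (.f (nat_lit 497) (nat_lit 465) (nat_lit 7633) (.f (nat_lit 495) (nat_lit 531) (nat_lit 495) (.f (nat_lit 463) (nat_lit 462) (nat_lit 3534) (.d (nat_lit 431) (nat_lit 399) (nat_lit 4495) (nat_lit 464) (nat_lit 7599))))) (.a (.f (nat_lit 593) (nat_lit 625) (nat_lit 5617) (.f (nat_lit 464) (nat_lit 561) (nat_lit 4560) (.f (nat_lit 431) (nat_lit 463) (nat_lit 7599) (.f (nat_lit 432) (nat_lit 399) (nat_lit 7567) (.d (nat_lit 433) (nat_lit 401) (nat_lit 6544) (nat_lit 465) (nat_lit 6576)))))) (.a (.f (nat_lit 497) (nat_lit 465) (nat_lit 7633) (.f (nat_lit 531) (nat_lit 495) (nat_lit 495) (.f (nat_lit 561) (nat_lit 559) (nat_lit 2575) (.d (nat_lit 532) (nat_lit 533) (nat_lit 1553) (nat_lit 563) (nat_lit 2576))))) (.f (nat_lit 593) (nat_lit 625) (nat_lit 5617) (.f (nat_lit 561) (nat_lit 464) (nat_lit 4560) (.d (nat_lit 559) (nat_lit 531) (nat_lit 2575) (nat_lit 558) (nat_lit 558)))))))))))))))))))) (.a (.p (nat_lit 562) (.a (.p (nat_lit 594) (.a (.f (nat_lit 593) (nat_lit 625) (nat_lit 5617) (.f (nat_lit 561) (nat_lit 466) (nat_lit 5585) (.d (nat_lit 559) (nat_lit 531) (nat_lit 2575) (nat_lit 558) (nat_lit 558)))) (.a (.f (nat_lit 467) (nat_lit 499) (nat_lit 6610) (.f (nat_lit 466) (nat_lit 435) (nat_lit 6578) (.d (nat_lit 465) (nat_lit 433) (nat_lit 7601) (nat_lit 497) (nat_lit 7633)))) (.f (nat_lit 625) (nat_lit 593) (nat_lit 5617) (.f (nat_lit 626) (nat_lit 657) (nat_lit 5649) (.d (nat_lit 499) (nat_lit 467) (nat_lit 6610) (nat_lit 531) (nat_lit 6642))))))) (.a s5719 (.a (.p (nat_lit 561) (.a (.f (nat_lit 466) (nat_lit 593) (nat_lit 5585) (.f (nat_lit 435) (nat_lit 467) (nat_lit 6578) (.f (nat_lit 434) (nat_lit 403) (nat_lit 6546) (.d (nat_lit 433) (nat_lit 401) (nat_lit 7569) (nat_lit 465) (nat_lit 7601))))) (.f (nat_lit 559) (nat_lit 531) (nat_lit 2575) (.f (nat_lit 591) (nat_lit 590) (nat_lit 1582) (.f (nat_lit 496) (nat_lit 464) (nat_lit 5583) (.d (nat_lit 623) (nat_lit 527) (nat_lit 6639) (nat_lit 655) (nat_lit 6671))))))) (.a s6059 (.a s6169 (.a s6096 (.a s6136 (.p (nat_lit 561) (.a (.f (nat_lit 531) (nat_lit 559) (nat_lit 2575) (.d (nat_lit 532) (nat_lit 533) (nat_lit 1553) (nat_lit 563) (nat_lit 2576))) (.f (nat_lit 593) (nat_lit 466) (nat_lit 5585) (.d (nat_lit 625) (nat_lit 594) (nat_lit 5617) (nat_lit 657) (nat_lit 7696))))))))))))) (.a (.p (nat_lit 562) (.a s5454 (.a s5982 (.a s6060 (.a s6094 (.a s6085 (.p (nat_lit 561) (.a (.f (nat_lit 531) (nat_lit 559) (nat_lit 2575) (.d (nat_lit 532) (nat_lit 533) (nat_lit 1553) (nat_lit 563) (nat_lit 2576))) (.f (nat_lit 593) (nat_lit 466) (nat_lit 5585) (.d (nat_lit 625) (nat_lit 594) (nat_lit 5617) (nat_lit 657) (nat_lit 7696))))))))))) (.p (nat_lit 496) (.a (.p (nat_lit 464) (.a (.f (nat_lit 433) (nat_lit 465) (nat_lit 6576) (.f (nat_lit 432) (nat_lit 401) (nat_lit 6544) (.d (nat_lit 431) (nat_lit 399) (nat_lit 7567) (nat_lit 463) (nat_lit 7599)))) (.a (.f (nat_lit 463) (nat_lit 431) (nat_lit 7599) (.f (nat_lit 497) (nat_lit 499) (nat_lit 3535) (.d (nat_lit 462) (nat_lit 461) (nat_lit 461) (nat_lit 495) (nat_lit 3534)))) (.f (nat_lit 433) (nat_lit 465) (nat_lit 6576) (.f (nat_lit 432) (nat_lit 401) (nat_lit 6544) (.d (nat_lit 559) (nat_lit 527) (nat_lit 5551) (nat_lit 591) (nat_lit 5583))))))) (.a s5645 (.a s5984 (.a (.p (nat_lit 497) (.a (.f (nat_lit 499) (nat_lit 527) (nat_lit 1519) (.f (nat_lit 467) (nat_lit 468) (nat_lit 2512) (.f (nat_lit 466) (nat_lit 495) (nat_lit 2511) (.d (nat_lit 435) (nat_lit 403) (nat_lit 5522) (nat_lit 562) (nat_lit 6578))))) (.a (.f (nat_lit 495) (nat_lit 531) (nat_lit 495) (.f (nat_lit 466) (nat_lit 467) (nat_lit 2511) (.f (nat_lit 465) (nat_lit 494) (nat_lit 2510) (.d (nat_lit 433) (nat_lit 401) (nat_lit 4497) (nat_lit 562) (nat_lit 7601))))) (.a (.f (nat_lit 495) (nat_lit 531) (nat_lit 495) (.f (nat_lit 463) (nat_lit 462) (nat_lit 3534) (.d (nat_lit 431) (nat_lit 399) (nat_lit 4495) (nat_lit 527) (nat_lit 4527)))) (.f (nat_lit 499) (nat_lit 527) (nat_lit 1519) (.f (nat_lit 531) (nat_lit 532) (nat_lit 496) (.f (nat_lit 467) (nat_lit 468) (nat_lit 2512) (.d (nat_lit 435) (nat_lit 403) (nat_lit 5522) (nat_lit 562) (nat_lit 5554))))))))) (.a s6009 (.a s6026 (.a s6027 (.a (.p (nat_lit 464) (.a (.f (nat_lit 463) (nat_lit 431) (nat_lit 7599) (.f (nat_lit 497) (nat_lit 499) (nat_lit 3535) (.d (nat_lit 462) (nat_lit 461) (nat_lit 461) (nat_lit 495) (nat_lit 3534)))) (.a (.f (nat_lit 559) (nat_lit 591) (nat_lit 5583) (.f (nat_lit 432) (nat_lit 527) (nat_lit 5551) (.d (nat_lit 431) (nat_lit 399) (nat_lit 7567) (nat_lit 463) (nat_lit 7599)))) (.f (nat_lit 559) (nat_lit 591) (nat_lit 5583) (.f (nat_lit 561) (nat_lit 593) (nat_lit 4560) (.f (nat_lit 531) (nat_lit 562) (nat_lit 2575) (.f (nat_lit 497) (nat_lit 495) (nat_lit 495) (.d (nat_lit 532) (nat_lit 499) (nat_lit 496) (nat_lit 533) (nat_lit 3569))))))))) s6041)))))))))))))))))))))) (.a (.p (nat_lit 530) (.a s5731 (.a s5461 (.a s5983 (.a s6185 (.a (.p (nat_lit 466) (.a (.p (nat_lit 562) (.a (.f (nat_lit 561) (nat_lit 593) (nat_lit 5585) (.f (nat_lit 529) (nat_lit 434) (nat_lit 5553) (.d (nat_lit 563) (nat_lit 564) (nat_lit 3600) (nat_lit 595) (nat_lit 4562)))) (.a (.f (nat_lit 433) (nat_lit 465) (nat_lit 7601) (.f (nat_lit 434) (nat_lit 401) (nat_lit 7569) (.d (nat_lit 435) (nat_lit 403) (nat_lit 6546) (nat_lit 467) (nat_lit 6578)))) (.f (nat_lit 467) (nat_lit 435) (nat_lit 6578) (.f (nat_lit 594) (nat_lit 499) (nat_lit 6610) (.f (nat_lit 625) (nat_lit 593) (nat_lit 5617) (.f (nat_lit 626) (nat_lit 657) (nat_lit 5649) (.d (nat_lit 627) (nat_lit 595) (nat_lit 4594) (nat_lit 659) (nat_lit 4626))))))))) (.a s6212 (.a s6225 (.a (.p (nat_lit 562) (.a (.f (nat_lit 561) (nat_lit 593) (nat_lit 5585) (.f (nat_lit 529) (nat_lit 434) (nat_lit 5553) (.d (nat_lit 563) (nat_lit 564) (nat_lit 3600) (nat_lit 595) (nat_lit 4562)))) (.a (.f (nat_lit 433) (nat_lit 465) (nat_lit 7601) (.f (nat_lit 434) (nat_lit 401) (nat_lit 7569) (.d (nat_lit 435) (nat_lit 403) (nat_lit 6546) (nat_lit 467) (nat_lit 6578)))) (.f (nat_lit 561) (nat_lit 593) (nat_lit 5585) (.d (nat_lit 563) (nat_lit 527) (nat_lit 3599) (nat_lit 595) (nat_lit 4562)))))) (.a (.p (nat_lit 562) (.a (.f (nat_lit 561) (nat_lit 593) (nat_lit 5585) (.f (nat_lit 529) (nat_lit 434) (nat_lit 5553) (.d (nat_lit 563) (nat_lit 564) (nat_lit 3600) (nat_lit 595) (nat_lit 4562)))) (.a (.f (nat_lit 467) (nat_lit 435) (nat_lit 6578) (.f (nat_lit 594) (nat_lit 499) (nat_lit 6610) (.f (nat_lit 625) (nat_lit 593) (nat_lit 5617) (.f (nat_lit 626) (nat_lit 657) (nat_lit 5649) (.d (nat_lit 627) (nat_lit 595) (nat_lit 4594) (nat_lit 659) (nat_lit 4626)))))) (.a (.f (nat_lit 467) (nat_lit 435) (nat_lit 6578) (.f (nat_lit 594) (nat_lit 499) (nat_lit 6610) (.d (nat_lit 595) (nat_lit 563) (nat_lit 4562) (nat_lit 627) (nat_lit 4594)))) (.f (nat_lit 561) (nat_lit 593) (nat_lit 5585) (.f (nat_lit 529) (nat_lit 434) (nat_lit 5553) (.d (nat_lit 527) (nat_lit 499) (nat_lit 2543) (nat_lit 563) (nat_lit 527)))))))) (.a (.p (nat_lit 562) (.a (.f (nat_lit 467) (nat_lit 435) (nat_lit 6578) (.f (nat_lit 594) (nat_lit 499) (nat_lit 6610) (.f (nat_lit 625) (nat_lit 593) (nat_lit 5617) (.f (nat_lit 626) (nat_lit 657) (nat_lit 5649) (.d (nat_lit 627) (nat_lit 595) (nat_lit 4594) (nat_lit 659) (nat_lit 4626)))))) (.a (.f (nat_lit 467) (nat_lit 435) (nat_lit 6578) (.f (nat_lit 465) (nat_lit 433) (nat_lit 7601) (.f (nat_lit 499) (nat_lit 594) (nat_lit 6610) (.d (nat_lit 464) (nat_lit 463) (nat_lit 463) (nat_lit 500) (nat_lit 464))))) (.f (nat_lit 561) (nat_lit 593) (nat_lit 5585) (.d (nat_lit 563) (nat_lit 527) (nat_lit 3599) (nat_lit 595) (nat_lit 4562)))))) (.p (nat_lit 561) (.a (.f (nat_lit 562) (nat_lit 593) (nat_lit 5585) (.f (nat_lit 563) (nat_lit 595) (nat_lit 4562) (.d (nat_lit 529) (nat_lit 434) (nat_lit 5553) (nat_lit 564) (nat_lit 3600)))) (.a (.f (nat_lit 562) (nat_lit 593) (nat_lit 5585) (.f (nat_lit 595) (nat_lit 563) (nat_lit 4562) (.d (nat_lit 594) (nat_lit 559) (nat_lit 559) (nat_lit 627) (nat_lit 4594)))) (.a (.f (nat_lit 529) (nat_lit 434) (nat_lit 5553) (.f (nat_lit 593) (nat_lit 625) (nat_lit 6641) (.f (nat_lit 464) (nat_lit 496) (nat_lit 4560) (.f (nat_lit 499) (nat_lit 527) (nat_lit 2543) (.f (nat_lit 465) (nat_lit 463) (nat_lit 463) (.d (nat_lit 500) (nat_lit 467) (nat_lit 464) (nat_lit 501) (nat_lit 1521))))))) (.f (nat_lit 529) (nat_lit 434) (nat_lit 5553) (.f (nat_lit 527) (nat_lit 499) (nat_lit 2543) (.f (nat_lit 562) (nat_lit 563) (nat_lit 527) (.f (nat_lit 559) (nat_lit 558) (nat_lit 1550) (.f (nat_lit 591) (nat_lit 590) (nat_lit 1582) (.d (nat_lit 496) (nat_lit 464) (nat_lit 5583) (nat_lit 623) (nat_lit 6639)))))))))))))))))) (.a (.p (nat_lit 529) (.a (.f (nat_lit 499) (nat_lit 527) (nat_lit 2543) (.d (nat_lit 500) (nat_lit 501) (nat_lit 1521) (nat_lit 531) (nat_lit 2544))) (.a (.f (nat_lit 531) (nat_lit 559) (nat_lit 1551) (.f (nat_lit 561) (nat_lit 532) (nat_lit 1552) (.f (nat_lit 593) (nat_lit 625) (nat_lit 6641) (.d (nat_lit 466) (nat_lit 434) (nat_lit 5553) (nat_lit 562) (nat_lit 5585))))) (.f (nat_lit 527) (nat_lit 499) (nat_lit 2543) (.f (nat_lit 559) (nat_lit 558) (nat_lit 1550) (.f (nat_lit 495) (nat_lit 494) (nat_lit 3566) (.f (nat_lit 463) (nat_lit 431) (nat_lit 4527) (.f (nat_lit 464) (nat_lit 432) (nat_lit 6575) (.f (nat_lit 591) (nat_lit 496) (nat_lit 5583) (.f (nat_lit 623) (nat_lit 655) (nat_lit 6671) (.d (nat_lit 622) (nat_lit 590) (nat_lit 5614) (nat_lit 654) (nat_lit 5646)))))))))))) (.a s6265 (.a s6267 (.p (nat_lit 529) (.a (.f (nat_lit 499) (nat_lit 527) (nat_lit 2543) (.d (nat_lit 500) (nat_lit 501) (nat_lit 1521) (nat_lit 531) (nat_lit 2544))) (.a (.f (nat_lit 531) (nat_lit 559) (nat_lit 1551) (.f (nat_lit 532) (nat_lit 561) (nat_lit 1552) (.d (nat_lit 564) (nat_lit 563) (nat_lit 528) (nat_lit 565) (nat_lit 529)))) (.f (nat_lit 527) (nat_lit 499) (nat_lit 2543) (.f (nat_lit 559) (nat_lit 558) (nat_lit 1550) (.f (nat_lit 495) (nat_lit 494) (nat_lit 3566) (.f (nat_lit 463) (nat_lit 431) (nat_lit 4527) (.f (nat_lit 464) (nat_lit 432) (nat_lit 6575) (.f (nat_lit 591) (nat_lit 496) (nat_lit 5583) (.f (nat_lit 623) (nat_lit 655) (nat_lit 6671) (.d (nat_lit 622) (nat_lit 590) (nat_lit 5614) (nat_lit 654) (nat_lit 5646))))))))))))))))))))) (.a s6363 (.a (.p (nat_lit 562) (.a s5306 (.a (.p (nat_lit 530) (.a (.p (nat_lit 594) (.a (.f (nat_lit 595) (nat_lit 627) (nat_lit 4594) (.f (nat_lit 561) (nat_lit 559) (nat_lit 559) (.d (nat_lit 466) (nat_lit 563) (nat_lit 4562) (nat_lit 593) (nat_lit 5585)))) (.f (nat_lit 497) (nat_lit 465) (nat_lit 7633) (.f (nat_lit 529) (nat_lit 626) (nat_lit 7665) (.d (nat_lit 499) (nat_lit 467) (nat_lit 6610) (nat_lit 500) (nat_lit 1520)))))) (.a s5236 (.a (.p (nat_lit 594) (.a (.f (nat_lit 595) (nat_lit 627) (nat_lit 4594) (.f (nat_lit 561) (nat_lit 559) (nat_lit 559) (.d (nat_lit 563) (nat_lit 466) (nat_lit 4562) (nat_lit 596) (nat_lit 560)))) (.a (.f (nat_lit 467) (nat_lit 499) (nat_lit 6610) (.f (nat_lit 466) (nat_lit 435) (nat_lit 6578) (.d (nat_lit 465) (nat_lit 433) (nat_lit 7601) (nat_lit 497) (nat_lit 7633)))) (.f (nat_lit 595) (nat_lit 627) (nat_lit 4594) (.f (nat_lit 561) (nat_lit 559) (nat_lit 559) (.d (nat_lit 596) (nat_lit 563) (nat_lit 560) (nat_lit 597) (nat_lit 3633))))))) (.a s5459 (.a s5608 (.a (.p (nat_lit 594) (.a (.f (nat_lit 497) (nat_lit 465) (nat_lit 7633) (.f (nat_lit 529) (nat_lit 626) (nat_lit 7665) (.d (nat_lit 499) (nat_lit 467) (nat_lit 6610) (nat_lit 500) (nat_lit 1520)))) (.f (nat_lit 595) (nat_lit 627) (nat_lit 4594) (.f (nat_lit 561) (nat_lit 559) (nat_lit 559) (.d (nat_lit 593) (nat_lit 596) (nat_lit 3632) (nat_lit 625) (nat_lit 5617)))))) (.a s5373 (.p (nat_lit 594) (.a (.f (nat_lit 595) (nat_lit 627) (nat_lit 4594) (.f (nat_lit 561) (nat_lit 559) (nat_lit 559) (.d (nat_lit 593) (nat_lit 596) (nat_lit 3632) (nat_lit 625) (nat_lit 5617)))) (.a (.f (nat_lit 497) (nat_lit 465) (nat_lit 7633) (.f (nat_lit 626) (nat_lit 529) (nat_lit 7665) (.d (nat_lit 625) (nat_lit 593) (nat_lit 5617) (nat_lit 657) (nat_lit 5649)))) (.f (nat_lit 595) (nat_lit 627) (nat_lit 4594) (.f (nat_lit 561) (nat_lit 559) (nat_lit 559) (.d (nat_lit 596) (nat_lit 563) (nat_lit 560) (nat_lit 597) (nat_lit 3633))))))))))))))) (.a (.p (nat_lit 496) (.a s6378 (.a (.p (nat_lit 530) (.a s5405 (.a s5750 (.a (.p (nat_lit 594) (.a (.f (nat_lit 595) (nat_lit 627) (nat_lit 4594) (.f (nat_lit 466) (nat_lit 563) (nat_lit 4562) (.d (nat_lit 467) (nat_lit 435) (nat_lit 6578) (nat_lit 499) (nat_lit 6610)))) (.a (.f (nat_lit 625) (nat_lit 593) (nat_lit 5617) (.f (nat_lit 626) (nat_lit 657) (nat_lit 5649) (.d (nat_lit 627) (nat_lit 595) (nat_lit 4594) (nat_lit 659) (nat_lit 4626)))) (.f (nat_lit 497) (nat_lit 465) (nat_lit 7633) (.f (nat_lit 467) (nat_lit 499) (nat_lit 6610) (.d (nat_lit 466) (nat_lit 435) (nat_lit 6578) (nat_lit 495) (nat_lit 2511))))))) (.a (.p (nat_lit 594) (.a (.f (nat_lit 625) (nat_lit 593) (nat_lit 5617) (.f (nat_lit 626) (nat_lit 657) (nat_lit 5649) (.d (nat_lit 627) (nat_lit 595) (nat_lit 4594) (nat_lit 659) (nat_lit 4626)))) (.f (nat_lit 465) (nat_lit 497) (nat_lit 7633) (.d (nat_lit 433) (nat_lit 464) (nat_lit 6576) (nat_lit 466) (nat_lit 7601))))) (.a s5763 s5773)))))) (.a s6383 (.a (.p (nat_lit 497) (.a (.f (nat_lit 499) (nat_lit 527) (nat_lit 1519) (.f (nat_lit 467) (nat_lit 468) (nat_lit 2512) (.f (nat_lit 530) (nat_lit 594) (nat_lit 6610) (.d (nat_lit 435) (nat_lit 403) (nat_lit 5522) (nat_lit 466) (nat_lit 6578))))) (.a (.p (nat_lit 499) (.a (.f (nat_lit 467) (nat_lit 468) (nat_lit 2512) (.f (nat_lit 530) (nat_lit 594) (nat_lit 6610) (.d (nat_lit 435) (nat_lit 403) (nat_lit 5522) (nat_lit 466) (nat_lit 6578)))) (.a (.f (nat_lit 500) (nat_lit 529) (nat_lit 1520) (.d (nat_lit 468) (nat_lit 467) (nat_lit 2512) (nat_lit 469) (nat_lit 2513))) (.a (.f (nat_lit 500) (nat_lit 529) (nat_lit 1520) (.f (nat_lit 469) (nat_lit 468) (nat_lit 2513) (.f (nat_lit 501) (nat_lit 470) (nat_lit 2514) (.d (nat_lit 533) (nat_lit 532) (nat_lit 497) (nat_lit 534) (nat_lit 498))))) (.f (nat_lit 500) (nat_lit 529) (nat_lit 1520) (.f (nat_lit 533) (nat_lit 532) (nat_lit 497) (.f (nat_lit 501) (nat_lit 534) (nat_lit 498) (.f (nat_lit 466) (nat_lit 465) (nat_lit 3537) (.d (nat_lit 467) (nat_lit 495) (nat_lit 2511) (nat_lit 502) (nat_lit 3538)))))))))) (.a (.f (nat_lit 499) (nat_lit 527) (nat_lit 1519) (.f (nat_lit 500) (nat_lit 529) (nat_lit 1520) (.d (nat_lit 468) (nat_lit 467) (nat_lit 2512) (nat_lit 469) (nat_lit 2513)))) (.a (.p (nat_lit 495) (.a (.f (nat_lit 466) (nat_lit 467) (nat_lit 2511) (.f (nat_lit 465) (nat_lit 494) (nat_lit 2510) (.d (nat_lit 433) (nat_lit 401) (nat_lit 5520) (nat_lit 529) (nat_lit 5552)))) (.a (.f (nat_lit 466) (nat_lit 467) (nat_lit 2511) (.f (nat_lit 465) (nat_lit 494) (nat_lit 2510) (.d (nat_lit 433) (nat_lit 401) (nat_lit 5520) (nat_lit 530) (nat_lit 7601)))) (.f (nat_lit 463) (nat_lit 462) (nat_lit 3534) (.d (nat_lit 431) (nat_lit 399) (nat_lit 4495) (nat_lit 527) (nat_lit 4527)))))) (.f (nat_lit 499) (nat_lit 527) (nat_lit 1519) (.f (nat_lit 500) (nat_lit 529) (nat_lit 1520) (.f (nat_lit 469) (nat_lit 468) (nat_lit 2513) (.f (nat_lit 501) (nat_lit 470) (nat_lit 2514) (.d (nat_lit 533) (nat_lit 532) (nat_lit 497) (nat_lit 534) (nat_lit 498))))))))))) (.a s6418 (.a (.p (nat_lit 464) (.a (.f (nat_lit 463) (nat_lit 431) (nat_lit 7599) (.f (nat_lit 497) (nat_lit 499) (nat_lit 3535) (.d (nat_lit 462) (nat_lit 461) (nat_lit 461) (nat_lit 495) (nat_lit 3534)))) (.a (.f (nat_lit 559) (nat_lit 591) (nat_lit 5583) (.f (nat_lit 432) (nat_lit 527) (nat_lit 5551) (.d (nat_lit 431) (nat_lit 399) (nat_lit 7567) (nat_lit 463) (nat_lit 7599)))) (.a (.f (nat_lit 559) (nat_lit 591) (nat_lit 5583) (.f (nat_lit 432) (nat_lit 527) (nat_lit 5551) (.f (nat_lit 399) (nat_lit 431) (nat_lit 7567) (.f (nat_lit 400) (nat_lit 367) (nat_lit 7535) (.d (nat_lit 401) (nat_lit 369) (nat_lit 6512) (nat_lit 433) (nat_lit 6544)))))) (.f (nat_lit 559) (nat_lit 591) (nat_lit 5583) (.f (nat_lit 527) (nat_lit 432) (nat_lit 5551) (.f (nat_lit 499) (nat_lit 497) (nat_lit 1519) (.f (nat_lit 530) (nat_lit 529) (nat_lit 2543) (.f (nat_lit 594) (nat_lit 467) (nat_lit 6610) (.f (nat_lit 627) (nat_lit 595) (nat_lit 4594) (.f (nat_lit 626) (nat_lit 659) (nat_lit 4626) (.d (nat_lit 625) (nat_lit 593) (nat_lit 5617) (nat_lit 657) (nat_lit 5649))))))))))))) (.a (.p (nat_lit 464) (.a (.f (nat_lit 463) (nat_lit 431) (nat_lit 7599) (.f (nat_lit 497) (nat_lit 499) (nat_lit 3535) (.d (nat_lit 462) (nat_lit 461) (nat_lit 461) (nat_lit 495) (nat_lit 3534)))) (.a (.f (nat_lit 559) (nat_lit 591) (nat_lit 5583) (.f (nat_lit 432) (nat_lit 527) (nat_lit 5551) (.d (nat_lit 431) (nat_lit 399) (nat_lit 7567) (nat_lit 463) (nat_lit 7599)))) (.f (nat_lit 559) (nat_lit 591) (nat_lit 5583) (.f (nat_lit 527) (nat_lit 432) (nat_lit 5551) (.f (nat_lit 499) (nat_lit 497) (nat_lit 1519) (.f (nat_lit 530) (nat_lit 529) (nat_lit 2543) (.f (nat_lit 594) (nat_lit 467) (nat_lit 6610) (.f (nat_lit 627) (nat_lit 595) (nat_lit 4594) (.f (nat_lit 626) (nat_lit 659) (nat_lit 4626) (.d (nat_lit 625) (nat_lit 593) (nat_lit 5617) (nat_lit 657) (nat_lit 5649)))))))))))) (.a (.p (nat_lit 530) (.a (.p (nat_lit 594) (.a (.f (nat_lit 595) (nat_lit 627) (nat_lit 4594) (.f (nat_lit 466) (nat_lit 563) (nat_lit 4562) (.d (nat_lit 467) (nat_lit 435) (nat_lit 6578) (nat_lit 499) (nat_lit 6610)))) (.a (.f (nat_lit 625) (nat_lit 593) (nat_lit 5617) (.f (nat_lit 626) (nat_lit 657) (nat_lit 5649) (.d (nat_lit 627) (nat_lit 595) (nat_lit 4594) (nat_lit 659) (nat_lit 4626)))) (.f (nat_lit 497) (nat_lit 465) (nat_lit 7633) (.f (nat_lit 467) (nat_lit 499) (nat_lit 6610) (.d (nat_lit 466) (nat_lit 435) (nat_lit 6578) (nat_lit 495) (nat_lit 2511))))))) (.a s5835 (.a s5836 (.a s5849 (.a (.p (nat_lit 594) (.a (.f (nat_lit 625) (nat_lit 593) (nat_lit 5617) (.f (nat_lit 626) (nat_lit 657) (nat_lit 5649) (.d (nat_lit 627) (nat_lit 595) (nat_lit 4594) (nat_lit 659) (nat_lit 4626)))) (.f (nat_lit 465) (nat_lit 497) (nat_lit 7633) (.d (nat_lit 433) (nat_lit 464) (nat_lit 6576) (nat_lit 466) (nat_lit 7601))))) (.a s5763 (.a s5773 s5850)))))))) (.p (nat_lit 530) (.a (.p (nat_lit 594) (.a (.f (nat_lit 595) (nat_lit 627) (nat_lit 4594) (.f (nat_lit 466) (nat_lit 563) (nat_lit 4562) (.d (nat_lit 467) (nat_lit 435) (nat_lit 6578) (nat_lit 499) (nat_lit 6610)))) (.a (.f (nat_lit 625) (nat_lit 593) (nat_lit 5617) (.f (nat_lit 626) (nat_lit 657) (nat_lit 5649) (.d (nat_lit 627) (nat_lit 595) (nat_lit 4594) (nat_lit 659) (nat_lit 4626)))) (.f (nat_lit 497) (nat_lit 465) (nat_lit 7633) (.f (nat_lit 467) (nat_lit 499) (nat_lit 6610) (.d (nat_lit 466) (nat_lit 435) (nat_lit 6578) (nat_lit 495) (nat_lit 2511))))))) (.a s5859 (.a s5836 (.a s5849 (.a (.p (nat_lit 594) (.a (.f (nat_lit 625) (nat_lit 593) (nat_lit 5617) (.f (nat_lit 626) (nat_lit 657) (nat_lit 5649) (.d (nat_lit 627) (nat_lit 595) (nat_lit 4594) (nat_lit 659) (nat_lit 4626)))) (.f (nat_lit 465) (nat_lit 497) (nat_lit 7633) (.d (nat_lit 433) (nat_lit 464) (nat_lit 6576) (nat_lit 466) (nat_lit 7601))))) (.a s5763 (.a s5773 s5860))))))))))))))))) (.a (.p (nat_lit 530) (.a (.p (nat_lit 594) (.a (.f (nat_lit 595) (nat_lit 627) (nat_lit 4594) (.f (nat_lit 561) (nat_lit 559) (nat_lit 559) (.d (nat_lit 563) (nat_lit 466) (nat_lit 4562) (nat_lit 596) (nat_lit 560)))) (.a (.f (nat_lit 467) (nat_lit 499) (nat_lit 6610) (.f (nat_lit 466) (nat_lit 435) (nat_lit 6578) (.d (nat_lit 465) (nat_lit 433) (nat_lit 7601) (nat_lit 497) (nat_lit 7633)))) (.f (nat_lit 595) (nat_lit 627) (nat_lit 4594) (.f (nat_lit 561) (nat_lit 559) (nat_lit 559) (.d (nat_lit 596) (nat_lit 563) (nat_lit 560) (nat_lit 597) (nat_lit 3633))))))) (.a s5676 (.a s5459 (.a (.p (nat_lit 466) (.a (.f (nat_lit 433) (nat_lit 465) (nat_lit 7601) (.f (nat_lit 434) (nat_lit 401) (nat_lit 7569) (.d (nat_lit 435) (nat_lit 403) (nat_lit 6546) (nat_lit 467) (nat_lit 6578)))) (.f (nat_lit 561) (nat_lit 593) (nat_lit 5585) (.d (nat_lit 563) (nat_lit 527) (nat_lit 3599) (nat_lit 595) (nat_lit 4562))))) (.a (.p (nat_lit 594) (.a (.f (nat_lit 595) (nat_lit 627) (nat_lit 4594) (.f (nat_lit 561) (nat_lit 559) (nat_lit 559) (.d (nat_lit 593) (nat_lit 596) (nat_lit 3632) (nat_lit 625) (nat_lit 5617)))) (.f (nat_lit 467) (nat_lit 499) (nat_lit 6610) (.f (nat_lit 466) (nat_lit 435) (nat_lit 6578) (.d (nat_lit 465) (nat_lit 433) (nat_lit 7601) (nat_lit 497) (nat_lit 7633)))))) (.a s6052 (.a s6059 s6060)))))))) (.a s6452 (.a (.p (nat_lit 561) (.a (.f (nat_lit 563) (nat_lit 527) (nat_lit 3599) (.f (nat_lit 564) (nat_lit 529) (nat_lit 3600) (.d (nat_lit 596) (nat_lit 595) (nat_lit 560) (nat_lit 597) (nat_lit 561)))) (.a (.p (nat_lit 529) (.a (.f (nat_lit 563) (nat_lit 564) (nat_lit 3600) (.f (nat_lit 595) (nat_lit 596) (nat_lit 560) (.f (nat_lit 559) (nat_lit 594) (nat_lit 559) (.f (nat_lit 558) (nat_lit 557) (nat_lit 2573) (.d (nat_lit 590) (nat_lit 589) (nat_lit 1581) (nat_lit 591) (nat_lit 1582)))))) (.p (nat_lit 497) (.a (.f (nat_lit 593) (nat_lit 466) (nat_lit 6609) (.d (nat_lit 496) (nat_lit 464) (nat_lit 7632) (nat_lit 625) (nat_lit 7664))) (.a (.f (nat_lit 465) (nat_lit 433) (nat_lit 5552) (.d (nat_lit 466) (nat_lit 434) (nat_lit 6577) (nat_lit 593) (nat_lit 6609))) (.a (.f (nat_lit 465) (nat_lit 433) (nat_lit 5552) (.f (nat_lit 464) (nat_lit 432) (nat_lit 7600) (.f (nat_lit 499) (nat_lit 500) (nat_lit 1520) (.d (nat_lit 463) (nat_lit 462) (nat_lit 462) (nat_lit 466) (nat_lit 463))))) (.f (nat_lit 465) (nat_lit 433) (nat_lit 5552) (.f (nat_lit 464) (nat_lit 432) (nat_lit 7600) (.f (nat_lit 496) (nat_lit 593) (nat_lit 4560) (.d (nat_lit 463) (nat_lit 431) (nat_lit 7599) (nat_lit 462) (nat_lit 462))))))))))) (.a (.p (nat_lit 559) (.a (.f (nat_lit 594) (nat_lit 595) (nat_lit 559) (.f (nat_lit 558) (nat_lit 593) (nat_lit 558) (.d (nat_lit 590) (nat_lit 589) (nat_lit 1581) (nat_lit 591) (nat_lit 1582)))) (.a (.f (nat_lit 591) (nat_lit 590) (nat_lit 1582) (.f (nat_lit 496) (nat_lit 464) (nat_lit 5583) (.d (nat_lit 623) (nat_lit 527) (nat_lit 6639) (nat_lit 655) (nat_lit 6671)))) (.f (nat_lit 563) (nat_lit 527) (nat_lit 3599) (.d (nat_lit 595) (nat_lit 594) (nat_lit 559) (nat_lit 596) (nat_lit 560)))))) (.a (.p (nat_lit 559) (.a (.f (nat_lit 594) (nat_lit 595) (nat_lit 559) (.f (nat_lit 558) (nat_lit 593) (nat_lit 558) (.d (nat_lit 590) (nat_lit 589) (nat_lit 1581) (nat_lit 591) (nat_lit 1582)))) (.a (.f (nat_lit 591) (nat_lit 590) (nat_lit 1582) (.f (nat_lit 496) (nat_lit 464) (nat_lit 5583) (.d (nat_lit 623) (nat_lit 527) (nat_lit 6639) (nat_lit 655) (nat_lit 6671)))) (.f (nat_lit 594) (nat_lit 595) (nat_lit 559) (.f (nat_lit 593) (nat_lit 558) (nat_lit 558) (.f (nat_lit 625) (nat_lit 657) (nat_lit 7696) (.d (nat_lit 496) (nat_lit 464) (nat_lit 4560) (nat_lit 529) (nat_lit 7664)))))))) (.f (nat_lit 563) (nat_lit 527) (nat_lit 3599) (.f (nat_lit 564) (nat_lit 529) (nat_lit 3600) (.f (nat_lit 533) (nat_lit 532) (nat_lit 2577) (.f (nat_lit 565) (nat_lit 534) (nat_lit 2578) (.d (nat_lit 597) (nat_lit 596) (nat_lit 561) (nat_lit 598) (nat_lit 562))))))))))) (.a s6499 (.a (.p (nat_lit 496) (.a s6378 (.a (.p (nat_lit 464) (.a (.f (nat_lit 463) (nat_lit 431) (nat_lit 7599) (.f (nat_lit 465) (nat_lit 433) (nat_lit 6576) (.f (nat_lit 466) (nat_lit 499) (nat_lit 463) (.d (nat_lit 495) (nat_lit 467) (nat_lit 1487) (nat_lit 494) (nat_lit 1486))))) (.a (.f (nat_lit 431) (nat_lit 463) (nat_lit 7599) (.f (nat_lit 432) (nat_lit 399) (nat_lit 7567) (.d (nat_lit 433) (nat_lit 401) (nat_lit 6544) (nat_lit 465) (nat_lit 6576)))) (.a (.f (nat_lit 561) (nat_lit 593) (nat_lit 4560) (.f (nat_lit 432) (nat_lit 529) (nat_lit 4528) (.d (nat_lit 431) (nat_lit 399) (nat_lit 7567) (nat_lit 463) (nat_lit 7599)))) (.f (nat_lit 561) (nat_lit 593) (nat_lit 4560) (.f (nat_lit 559) (nat_lit 591) (nat_lit 5583) (.f (nat_lit 529) (nat_lit 432) (nat_lit 4528) (.d (nat_lit 558) (nat_lit 530) (nat_lit 2574) (nat_lit 557) (nat_lit 2573))))))))) (.a (.p (nat_lit 466) (.a (.p (nat_lit 530) (.a (.f (nat_lit 433) (nat_lit 465) (nat_lit 7601) (.f (nat_lit 434) (nat_lit 401) (nat_lit 7569) (.d (nat_lit 435) (nat_lit 403) (nat_lit 6546) (nat_lit 467) (nat_lit 6578)))) (.a (.f (nat_lit 467) (nat_lit 435) (nat_lit 6578) (.f (nat_lit 497) (nat_lit 495) (nat_lit 2511) (.d (nat_lit 468) (nat_lit 469) (nat_lit 1489) (nat_lit 499) (nat_lit 2512)))) (.a (.f (nat_lit 433) (nat_lit 465) (nat_lit 7601) (.f (nat_lit 434) (nat_lit 401) (nat_lit 7569) (.f (nat_lit 403) (nat_lit 435) (nat_lit 6546) (.f (nat_lit 402) (nat_lit 371) (nat_lit 6514) (.f (nat_lit 529) (nat_lit 497) (nat_lit 5521) (.d (nat_lit 527) (nat_lit 499) (nat_lit 2543) (nat_lit 563) (nat_lit 527))))))) (.f (nat_lit 433) (nat_lit 465) (nat_lit 7601) (.f (nat_lit 434) (nat_lit 401) (nat_lit 7569) (.f (nat_lit 563) (nat_lit 595) (nat_lit 4562) (.f (nat_lit 529) (nat_lit 527) (nat_lit 527) (.f (nat_lit 497) (nat_lit 402) (nat_lit 5521) (.d (nat_lit 495) (nat_lit 467) (nat_lit 2511) (nat_lit 494) (nat_lit 494))))))))))) (.a (.p (nat_lit 530) (.a (.f (nat_lit 433) (nat_lit 465) (nat_lit 7601) (.f (nat_lit 434) (nat_lit 401) (nat_lit 7569) (.d (nat_lit 435) (nat_lit 403) (nat_lit 6546) (nat_lit 467) (nat_lit 6578)))) (.a (.f (nat_lit 467) (nat_lit 435) (nat_lit 6578) (.f (nat_lit 497) (nat_lit 495) (nat_lit 2511) (.d (nat_lit 468) (nat_lit 469) (nat_lit 1489) (nat_lit 499) (nat_lit 2512)))) (.f (nat_lit 561) (nat_lit 593) (nat_lit 5585) (.f (nat_lit 529) (nat_lit 434) (nat_lit 5553) (.d (nat_lit 563) (nat_lit 564) (nat_lit 3600) (nat_lit 595) (nat_lit 4562))))))) (.a (.p (nat_lit 530) (.a (.f (nat_lit 433) (nat_lit 465) (nat_lit 7601) (.f (nat_lit 434) (nat_lit 401) (nat_lit 7569) (.d (nat_lit 435) (nat_lit 403) (nat_lit 6546) (nat_lit 467) (nat_lit 6578)))) (.a (.f (nat_lit 467) (nat_lit 435) (nat_lit 6578) (.f (nat_lit 497) (nat_lit 495) (nat_lit 2511) (.d (nat_lit 468) (nat_lit 469) (nat_lit 1489) (nat_lit 499) (nat_lit 2512)))) (.f (nat_lit 561) (nat_lit 593) (nat_lit 5585) (.d (nat_lit 563) (nat_lit 527) (nat_lit 3599) (nat_lit 595) (nat_lit 4562)))))) (.a (.p (nat_lit 530) (.a (.f (nat_lit 433) (nat_lit 465) (nat_lit 7601) (.f (nat_lit 434) (nat_lit 401) (nat_lit 7569) (.d (nat_lit 435) (nat_lit 403) (nat_lit 6546) (nat_lit 467) (nat_lit 6578)))) (.f (nat_lit 561) (nat_lit 593) (nat_lit 5585) (.d (nat_lit 563) (nat_lit 527) (nat_lit 3599) (nat_lit 595) (nat_lit 4562))))) (.a (.p (nat_lit 497) (.a (.f (nat_lit 467) (nat_lit 495) (nat_lit 2511) (.d (nat_lit 468) (nat_lit 465) (nat_lit 1488) (nat_lit 469) (nat_lit 1489))) (.a (.f (nat_lit 467) (nat_lit 495) (nat_lit 2511) (.d (nat_lit 468) (nat_lit 469) (nat_lit 1489) (nat_lit 499) (nat_lit 2512))) (.f (nat_lit 499) (nat_lit 527) (nat_lit 1519) (.f (nat_lit 529) (nat_lit 500) (nat_lit 1520) (.f (nat_lit 465) (nat_lit 433) (nat_lit 5552) (.d (nat_lit 434) (nat_lit 402) (nat_lit 5521) (nat_lit 561) (nat_lit 6577)))))))) (.a (.p (nat_lit 530) (.a (.f (nat_lit 467) (nat_lit 435) (nat_lit 6578) (.f (nat_lit 497) (nat_lit 495) (nat_lit 2511) (.d (nat_lit 468) (nat_lit 469) (nat_lit 1489) (nat_lit 499) (nat_lit 2512)))) (.f (nat_lit 561) (nat_lit 593) (nat_lit 5585) (.d (nat_lit 563) (nat_lit 527) (nat_lit 3599) (nat_lit 595) (nat_lit 4562))))) (.p (nat_lit 530) (.a (.f (nat_lit 433) (nat_lit 465) (nat_lit 7601) (.f (nat_lit 434) (nat_lit 401) (nat_lit 7569) (.f (nat_lit 403) (nat_lit 435) (nat_lit 6546) (.f (nat_lit 402) (nat_lit 371) (nat_lit 6514) (.f (nat_lit 529) (nat_lit 497) (nat_lit 5521) (.d (nat_lit 527) (nat_lit 499) (nat_lit 2543) (nat_lit 563) (nat_lit 527))))))) (.a (.f (nat_lit 561) (nat_lit 593) (nat_lit 5585) (.f (nat_lit 529) (nat_lit 434) (nat_lit 5553) (.d (nat_lit 563) (nat_lit 564) (nat_lit 3600) (nat_lit 595) (nat_lit 4562)))) (.a (.f (nat_lit 561) (nat_lit 593) (nat_lit 5585) (.d (nat_lit 563) (nat_lit 527) (nat_lit 3599) (nat_lit 595) (nat_lit 4562))) (.f (nat_lit 561) (nat_lit 593) (nat_lit 5585) (.f (nat_lit 529) (nat_lit 434) (nat_lit 5553) (.f (nat_lit 499) (nat_lit 527) (nat_lit 2543) (.d (nat_lit 500) (nat_lit 497) (nat_lit 1520) (nat_lit 501) (nat_lit 1521)))))))))))))))) (.a s6418 (.p (nat_lit 561) (.a (.f (nat_lit 464) (nat_lit 593) (nat_lit 4560) (.f (nat_lit 559) (nat_lit 591) (nat_lit 5583) (.d (nat_lit 432) (nat_lit 527) (nat_lit 5551) (nat_lit 529) (nat_lit 4528)))) (.a (.f (nat_lit 464) (nat_lit 593) (nat_lit 4560) (.f (nat_lit 432) (nat_lit 529) (nat_lit 4528) (.d (nat_lit 431) (nat_lit 399) (nat_lit 7567) (nat_lit 463) (nat_lit 7599)))) (.a (.f (nat_lit 464) (nat_lit 593) (nat_lit 4560) (.f (nat_lit 559) (nat_lit 591) (nat_lit 5583) (.d (nat_lit 527) (nat_lit 432) (nat_lit 5551) (nat_lit 563) (nat_lit 3599)))) (.a (.f (nat_lit 563) (nat_lit 527) (nat_lit 3599) (.f (nat_lit 529) (nat_lit 564) (nat_lit 3600) (.f (nat_lit 593) (nat_lit 625) (nat_lit 7664) (.d (nat_lit 466) (nat_lit 497) (nat_lit 6609) (nat_lit 530) (nat_lit 5585))))) (.f (nat_lit 563) (nat_lit 527) (nat_lit 3599) (.f (nat_lit 529) (nat_lit 564) (nat_lit 3600) (.f (nat_lit 464) (nat_lit 432) (nat_lit 4528) (.f (nat_lit 559) (nat_lit 591) (nat_lit 5583) (.d (nat_lit 558) (nat_lit 530) (nat_lit 2574) (nat_lit 557) (nat_lit 2573)))))))))))))))) (.a (.p (nat_lit 530) (.a (.p (nat_lit 594) (.a (.f (nat_lit 497) (nat_lit 465) (nat_lit 7633) (.f (nat_lit 529) (nat_lit 626) (nat_lit 7665) (.d (nat_lit 499) (nat_lit 467) (nat_lit 6610) (nat_lit 500) (nat_lit 1520)))) (.f (nat_lit 595) (nat_lit 627) (nat_lit 4594) (.f (nat_lit 561) (nat_lit 559) (nat_lit 559) (.d (nat_lit 593) (nat_lit 596) (nat_lit 3632) (nat_lit 625) (nat_lit 5617)))))) (.a (.p (nat_lit 594) (.a (.f (nat_lit 497) (nat_lit 465) (nat_lit 7633) (.f (nat_lit 529) (nat_lit 626) (nat_lit 7665) (.d (nat_lit 499) (nat_lit 467) (nat_lit 6610) (nat_lit 500) (nat_lit 1520)))) (.a (.f (nat_lit 467) (nat_lit 499) (nat_lit 6610) (.f (nat_lit 466) (nat_lit 435) (nat_lit 6578) (.d (nat_lit 465) (nat_lit 433) (nat_lit 7601) (nat_lit 497) (nat_lit 7633)))) (.f (nat_lit 625) (nat_lit 593) (nat_lit 5617) (.f (nat_lit 626) (nat_lit 657) (nat_lit 5649) (.d (nat_lit 627) (nat_lit 595) (nat_lit 4594) (nat_lit 659) (nat_lit 4626))))))) (.a (.p (nat_lit 594) (.a (.f (nat_lit 595) (nat_lit 627) (nat_lit 4594) (.f (nat_lit 561) (nat_lit 559) (nat_lit 559) (.d (nat_lit 593) (nat_lit 596) (nat_lit 3632) (nat_lit 625) (nat_lit 5617)))) (.f (nat_lit 467) (nat_lit 499) (nat_lit 6610) (.f (nat_lit 466) (nat_lit 435) (nat_lit 6578) (.d (nat_lit 465) (nat_lit 433) (nat_lit 7601) (nat_lit 497) (nat_lit 7633)))))) (.a (.p (nat_lit 594) (.a (.f (nat_lit 595) (nat_lit 627) (nat_lit 4594) (.f (nat_lit 561) (nat_lit 559) (nat_lit 559) (.d (nat_lit 593) (nat_lit 596) (nat_lit 3632) (nat_lit 625) (nat_lit 5617)))) (.a (.f (nat_lit 625) (nat_lit 593) (nat_lit 5617) (.f (nat_lit 626) (nat_lit 657) (nat_lit 5649) (.d (nat_lit 627) (nat_lit 595) (nat_lit 4594) (nat_lit 659) (nat_lit 4626)))) (.a (.f (nat_lit 499) (nat_lit 467) (nat_lit 6610) (.f (nat_lit 529) (nat_lit 527) (nat_lit 2543) (.f (nat_lit 627) (nat_lit 595) (nat_lit 4594) (.f (nat_lit 626) (nat_lit 659) (nat_lit 4626) (.f (nat_lit 561) (nat_lit 658) (nat_lit 7697) (.f (nat_lit 559) (nat_lit 558) (nat_lit 2574) (.f (nat_lit 466) (nat_lit 434) (nat_lit 5553) (.f (nat_lit 465) (nat_lit 433) (nat_lit 7601) (.f (nat_lit 464) (nat_lit 463) (nat_lit 463) (.d (nat_lit 496) (nat_lit 432) (nat_lit 4528) (nat_lit 591) (nat_lit 5583))))))))))) (.f (nat_lit 593) (nat_lit 625) (nat_lit 5617) (.f (nat_lit 466) (nat_lit 561) (nat_lit 5585) (.d (nat_lit 467) (nat_lit 435) (nat_lit 6578) (nat_lit 499) (nat_lit 6610)))))))) (.a s6553 (.a (.p (nat_lit 496) (.a s5685 (.a s5405 (.a (.p (nat_lit 464) (.a (.f (nat_lit 431) (nat_lit 463) (nat_lit 7599) (.f (nat_lit 432) (nat_lit 399) (nat_lit 7567) (.d (nat_lit 433) (nat_lit 401) (nat_lit 6544) (nat_lit 465) (nat_lit 6576)))) (.a (.f (nat_lit 431) (nat_lit 463) (nat_lit 7599) (.f (nat_lit 432) (nat_lit 399) (nat_lit 7567) (.d (nat_lit 559) (nat_lit 527) (nat_lit 5551) (nat_lit 591) (nat_lit 5583)))) (.a (.f (nat_lit 465) (nat_lit 433) (nat_lit 6576) (.f (nat_lit 463) (nat_lit 431) (nat_lit 7599) (.f (nat_lit 466) (nat_lit 499) (nat_lit 463) (.d (nat_lit 435) (nat_lit 434) (nat_lit 2479) (nat_lit 467) (nat_lit 6578))))) (.f (nat_lit 433) (nat_lit 465) (nat_lit 6576) (.f (nat_lit 432) (nat_lit 401) (nat_lit 6544) (.d (nat_lit 559) (nat_lit 527) (nat_lit 5551) (nat_lit 591) (nat_lit 5583)))))))) (.a (.p (nat_lit 466) (.a (.f (nat_lit 433) (nat_lit 465) (nat_lit 7601) (.f (nat_lit 434) (nat_lit 401) (nat_lit 7569) (.d (nat_lit 435) (nat_lit 403) (nat_lit 6546) (nat_lit 467) (nat_lit 6578)))) (.a (.f (nat_lit 467) (nat_lit 435) (nat_lit 6578) (.f (nat_lit 497) (nat_lit 495) (nat_lit 2511) (.d (nat_lit 468) (nat_lit 469) (nat_lit 1489) (nat_lit 499) (nat_lit 2512)))) (.f (nat_lit 561) (nat_lit 593) (nat_lit 5585) (.f (nat_lit 529) (nat_lit 434) (nat_lit 5553) (.f (nat_lit 499) (nat_lit 527) (nat_lit 2543) (.d (nat_lit 500) (nat_lit 497) (nat_lit 1520) (nat_lit 501) (nat_lit 1521)))))))) (.a (.p (nat_lit 466) (.a (.f (nat_lit 465) (nat_lit 433) (nat_lit 7601) (.f (nat_lit 467) (nat_lit 435) (nat_lit 6578) (.d (nat_lit 495) (nat_lit 464) (nat_lit 1487) (nat_lit 497) (nat_lit 2511)))) (.a (.f (nat_lit 433) (nat_lit 465) (nat_lit 7601) (.f (nat_lit 434) (nat_lit 401) (nat_lit 7569) (.d (nat_lit 435) (nat_lit 403) (nat_lit 6546) (nat_lit 467) (nat_lit 6578)))) (.f (nat_lit 561) (nat_lit 593) (nat_lit 5585) (.f (nat_lit 529) (nat_lit 434) (nat_lit 5553) (.f (nat_lit 559) (nat_lit 558) (nat_lit 2574) (.d (nat_lit 464) (nat_lit 432) (nat_lit 4528) (nat_lit 591) (nat_lit 5583)))))))) (.a (.p (nat_lit 464) (.a (.f (nat_lit 463) (nat_lit 431) (nat_lit 7599) (.f (nat_lit 497) (nat_lit 499) (nat_lit 3535) (.d (nat_lit 462) (nat_lit 461) (nat_lit 461) (nat_lit 495) (nat_lit 3534)))) (.a (.f (nat_lit 431) (nat_lit 463) (nat_lit 7599) (.f (nat_lit 432) (nat_lit 399) (nat_lit 7567) (.d (nat_lit 559) (nat_lit 527) (nat_lit 5551) (nat_lit 591) (nat_lit 5583)))) (.a (.f (nat_lit 559) (nat_lit 591) (nat_lit 5583) (.f (nat_lit 432) (nat_lit 527) (nat_lit 5551) (.f (nat_lit 401) (nat_lit 433) (nat_lit 6544) (.f (nat_lit 400) (nat_lit 369) (nat_lit 6512) (.d (nat_lit 399) (nat_lit 367) (nat_lit 7535) (nat_lit 431) (nat_lit 7567)))))) (.f (nat_lit 559) (nat_lit 591) (nat_lit 5583) (.f (nat_lit 527) (nat_lit 432) (nat_lit 5551) (.d (nat_lit 499) (nat_lit 497) (nat_lit 1519) (nat_lit 529) (nat_lit 2543)))))))) (.p (nat_lit 464) (.a (.f (nat_lit 463) (nat_lit 431) (nat_lit 7599) (.f (nat_lit 497) (nat_lit 499) (nat_lit 3535) (.d (nat_lit 462) (nat_lit 461) (nat_lit 461) (nat_lit 465) (nat_lit 462)))) (.a (.f (nat_lit 431) (nat_lit 463) (nat_lit 7599) (.f (nat_lit 432) (nat_lit 399) (nat_lit 7567) (.d (nat_lit 559) (nat_lit 527) (nat_lit 5551) (nat_lit 591) (nat_lit 5583)))) (.f (nat_lit 559) (nat_lit 591) (nat_lit 5583) (.f (nat_lit 527) (nat_lit 432) (nat_lit 5551) (.d (nat_lit 499) (nat_lit 497) (nat_lit 1519) (nat_lit 529) (nat_lit 2543)))))))))))))) (.a s6579 (.p (nat_lit 594) (.a (.f (nat_lit 595) (nat_lit 627) (nat_lit 4594) (.f (nat_lit 561) (nat_lit 559) (nat_lit 559) (.d (nat_lit 593) (nat_lit 596) (nat_lit 3632) (nat_lit 625) (nat_lit 5617)))) (.a (.f (nat_lit 625) (nat_lit 593) (nat_lit 5617) (.f (nat_lit 626) (nat_lit 657) (nat_lit 5649) (.d (nat_lit 627) (nat_lit 595) (nat_lit 4594) (nat_lit 659) (nat_lit 4626)))) (.f (nat_lit 499) (nat_lit 467) (nat_lit 6610) (.f (nat_lit 529) (nat_lit 527) (nat_lit 2543) (.d (nat_lit 497) (nat_lit 500) (nat_lit 1520) (nat_lit 626) (nat_lit 7665))))))))))))))) (.a s6584 (.a s6595 (.p (nat_lit 530) (.a s5373 (.a (.p (nat_lit 499) (.a (.f (nat_lit 529) (nat_lit 527) (nat_lit 2543) (.d (nat_lit 500) (nat_lit 497) (nat_lit 1520) (nat_lit 501) (nat_lit 1521))) (.a (.f (nat_lit 594) (nat_lit 467) (nat_lit 6610) (.f (nat_lit 497) (nat_lit 465) (nat_lit 7633) (.d (nat_lit 529) (nat_lit 500) (nat_lit 1520) (nat_lit 626) (nat_lit 7665)))) (.f (nat_lit 467) (nat_lit 594) (nat_lit 6610) (.d (nat_lit 435) (nat_lit 403) (nat_lit 5522) (nat_lit 466) (nat_lit 6578)))))) (.a s6059 (.a (.p (nat_lit 561) (.a (.f (nat_lit 466) (nat_lit 593) (nat_lit 5585) (.f (nat_lit 435) (nat_lit 467) (nat_lit 6578) (.f (nat_lit 434) (nat_lit 403) (nat_lit 6546) (.d (nat_lit 433) (nat_lit 401) (nat_lit 7569) (nat_lit 465) (nat_lit 7601))))) (.f (nat_lit 527) (nat_lit 563) (nat_lit 3599) (.f (nat_lit 529) (nat_lit 499) (nat_lit 2543) (.f (nat_lit 559) (nat_lit 558) (nat_lit 1550) (.f (nat_lit 591) (nat_lit 590) (nat_lit 1582) (.d (nat_lit 496) (nat_lit 464) (nat_lit 5583) (nat_lit 623) (nat_lit 6639)))))))) (.a s6609 (.a (.p (nat_lit 594) (.a (.f (nat_lit 593) (nat_lit 625) (nat_lit 5617) (.f (nat_lit 561) (nat_lit 466) (nat_lit 5585) (.f (nat_lit 563) (nat_lit 527) (nat_lit 3599) (.d (nat_lit 564) (nat_lit 529) (nat_lit 3600) (nat_lit 565) (nat_lit 1585))))) (.a (.f (nat_lit 593) (nat_lit 625) (nat_lit 5617) (.f (nat_lit 466) (nat_lit 561) (nat_lit 5585) (.d (nat_lit 467) (nat_lit 435) (nat_lit 6578) (nat_lit 499) (nat_lit 6610)))) (.f (nat_lit 499) (nat_lit 467) (nat_lit 6610) (.f (nat_lit 529) (nat_lit 527) (nat_lit 2543) (.d (nat_lit 497) (nat_lit 500) (nat_lit 1520) (nat_lit 626) (nat_lit 7665))))))) s6611))))))))))))))))))) (.a (.p (nat_lit 496) (.a s6282 (.a s6286 (.a s6294 (.a (.p (nat_lit 497) (.a (.f (nat_lit 499) (nat_lit 527) (nat_lit 1519) (.f (nat_lit 500) (nat_lit 529) (nat_lit 1520) (.d (nat_lit 468) (nat_lit 467) (nat_lit 2512) (nat_lit 469) (nat_lit 2513)))) (.a (.p (nat_lit 499) (.a (.f (nat_lit 500) (nat_lit 529) (nat_lit 1520) (.d (nat_lit 468) (nat_lit 467) (nat_lit 2512) (nat_lit 469) (nat_lit 2513))) (.a (.f (nat_lit 467) (nat_lit 468) (nat_lit 2512) (.f (nat_lit 531) (nat_lit 532) (nat_lit 496) (.f (nat_lit 466) (nat_lit 495) (nat_lit 2511) (.d (nat_lit 434) (nat_lit 402) (nat_lit 4498) (nat_lit 563) (nat_lit 7602))))) (.f (nat_lit 500) (nat_lit 529) (nat_lit 1520) (.d (nat_lit 532) (nat_lit 531) (nat_lit 496) (nat_lit 533) (nat_lit 497)))))) (.a (.f (nat_lit 499) (nat_lit 527) (nat_lit 1519) (.f (nat_lit 467) (nat_lit 468) (nat_lit 2512) (.f (nat_lit 531) (nat_lit 532) (nat_lit 496) (.f (nat_lit 466) (nat_lit 495) (nat_lit 2511) (.d (nat_lit 434) (nat_lit 402) (nat_lit 4498) (nat_lit 563) (nat_lit 7602)))))) (.a (.p (nat_lit 495) (.a (.f (nat_lit 463) (nat_lit 462) (nat_lit 3534) (.d (nat_lit 431) (nat_lit 399) (nat_lit 4495) (nat_lit 527) (nat_lit 4527))) (.f (nat_lit 466) (nat_lit 467) (nat_lit 2511) (.f (nat_lit 465) (nat_lit 494) (nat_lit 2510) (.d (nat_lit 433) (nat_lit 401) (nat_lit 5520) (nat_lit 529) (nat_lit 5552)))))) (.f (nat_lit 499) (nat_lit 527) (nat_lit 1519) (.f (nat_lit 500) (nat_lit 529) (nat_lit 1520) (.d (nat_lit 532) (nat_lit 531) (nat_lit 496) (nat_lit 533) (nat_lit 497))))))))) (.a s6342 (.a (.p (nat_lit 464) (.a (.f (nat_lit 463) (nat_lit 431) (nat_lit 7599) (.f (nat_lit 497) (nat_lit 499) (nat_lit 3535) (.d (nat_lit 462) (nat_lit 461) (nat_lit 461) (nat_lit 495) (nat_lit 3534)))) (.a (.f (nat_lit 431) (nat_lit 463) (nat_lit 7599) (.f (nat_lit 432) (nat_lit 399) (nat_lit 7567) (.d (nat_lit 561) (nat_lit 529) (nat_lit 4528) (nat_lit 593) (nat_lit 4560)))) (.f (nat_lit 559) (nat_lit 591) (nat_lit 5583) (.f (nat_lit 432) (nat_lit 527) (nat_lit 5551) (.d (nat_lit 561) (nat_lit 529) (nat_lit 4528) (nat_lit 593) (nat_lit 4560))))))) (.p (nat_lit 561) (.a (.f (nat_lit 464) (nat_lit 593) (nat_lit 4560) (.f (nat_lit 432) (nat_lit 529) (nat_lit 4528) (.d (nat_lit 433) (nat_lit 401) (nat_lit 6544) (nat_lit 465) (nat_lit 6576)))) (.a (.f (nat_lit 464) (nat_lit 593) (nat_lit 4560) (.f (nat_lit 559) (nat_lit 591) (nat_lit 5583) (.f (nat_lit 432) (nat_lit 527) (nat_lit 5551) (.d (nat_lit 433) (nat_lit 401) (nat_lit 6544) (nat_lit 465) (nat_lit 6576))))) (.a (.p (nat_lit 562) (.a (.f (nat_lit 563) (nat_lit 527) (nat_lit 3599) (.f (nat_lit 564) (nat_lit 529) (nat_lit 3600) (.d (nat_lit 532) (nat_lit 531) (nat_lit 2576) (nat_lit 533) (nat_lit 2577)))) (.a (.p (nat_lit 529) (.a (.f (nat_lit 593) (nat_lit 625) (nat_lit 7664) (.f (nat_lit 497) (nat_lit 466) (nat_lit 6609) (.d (nat_lit 465) (nat_lit 433) (nat_lit 5552) (nat_lit 594) (nat_lit 4561)))) (.a (.f (nat_lit 563) (nat_lit 564) (nat_lit 3600) (.f (nat_lit 595) (nat_lit 596) (nat_lit 560) (.f (nat_lit 594) (nat_lit 559) (nat_lit 559) (.f (nat_lit 531) (nat_lit 532) (nat_lit 2576) (.d (nat_lit 499) (nat_lit 466) (nat_lit 7634) (nat_lit 467) (nat_lit 5586)))))) (.a (.f (nat_lit 563) (nat_lit 564) (nat_lit 3600) (.f (nat_lit 593) (nat_lit 625) (nat_lit 7664) (.f (nat_lit 466) (nat_lit 497) (nat_lit 6609) (.f (nat_lit 531) (nat_lit 532) (nat_lit 2576) (.d (nat_lit 595) (nat_lit 499) (nat_lit 7634) (nat_lit 596) (nat_lit 560)))))) (.f (nat_lit 563) (nat_lit 564) (nat_lit 3600) (.f (nat_lit 593) (nat_lit 625) (nat_lit 7664) (.f (nat_lit 595) (nat_lit 596) (nat_lit 560) (.f (nat_lit 594) (nat_lit 559) (nat_lit 559) (.d (nat_lit 497) (nat_lit 465) (nat_lit 4561) (nat_lit 626) (nat_lit 4593)))))))))) (.a (.f (nat_lit 563) (nat_lit 527) (nat_lit 3599) (.f (nat_lit 595) (nat_lit 596) (nat_lit 560) (.f (nat_lit 531) (nat_lit 532) (nat_lit 2576) (.f (nat_lit 594) (nat_lit 559) (nat_lit 559) (.d (nat_lit 499) (nat_lit 466) (nat_lit 7634) (nat_lit 467) (nat_lit 5586)))))) (.a (.f (nat_lit 563) (nat_lit 527) (nat_lit 3599) (.f (nat_lit 529) (nat_lit 564) (nat_lit 3600) (.f (nat_lit 593) (nat_lit 625) (nat_lit 7664) (.f (nat_lit 497) (nat_lit 466) (nat_lit 6609) (.d (nat_lit 465) (nat_lit 433) (nat_lit 5552) (nat_lit 594) (nat_lit 4561)))))) (.p (nat_lit 559) (.a (.f (nat_lit 591) (nat_lit 590) (nat_lit 1582) (.d (nat_lit 623) (nat_lit 527) (nat_lit 6639) (nat_lit 655) (nat_lit 6671))) (.f (nat_lit 594) (nat_lit 595) (nat_lit 559) (.f (nat_lit 593) (nat_lit 558) (nat_lit 558) (.d (nat_lit 625) (nat_lit 529) (nat_lit 7664) (nat_lit 657) (nat_lit 7696))))))))))) (.a (.p (nat_lit 562) (.a (.f (nat_lit 563) (nat_lit 527) (nat_lit 3599) (.f (nat_lit 564) (nat_lit 529) (nat_lit 3600) (.d (nat_lit 532) (nat_lit 531) (nat_lit 2576) (nat_lit 533) (nat_lit 2577)))) (.a s6688 (.a (.f (nat_lit 563) (nat_lit 527) (nat_lit 3599) (.f (nat_lit 595) (nat_lit 596) (nat_lit 560) (.f (nat_lit 531) (nat_lit 532) (nat_lit 2576) (.f (nat_lit 594) (nat_lit 559) (nat_lit 559) (.d (nat_lit 499) (nat_lit 466) (nat_lit 7634) (nat_lit 467) (nat_lit 5586)))))) (.a (.f (nat_lit 563) (nat_lit 527) (nat_lit 3599) (.f (nat_lit 529) (nat_lit 564) (nat_lit 3600) (.f (nat_lit 464) (nat_lit 432) (nat_lit 4528) (.f (nat_lit 465) (nat_lit 433) (nat_lit 6576) (.f (nat_lit 497) (nat_lit 594) (nat_lit 4561) (.f (nat_lit 466) (nat_lit 434) (nat_lit 6577) (.d (nat_lit 467) (nat_lit 468) (nat_lit 1488) (nat_lit 495) (nat_lit 2511)))))))) s6706))))) (.f (nat_lit 464) (nat_lit 593) (nat_lit 4560) (.f (nat_lit 432) (nat_lit 529) (nat_lit 4528) (.d (nat_lit 559) (nat_lit 527) (nat_lit 5551) (nat_lit 591) (nat_lit 5583)))))))))))))))) (.a (.p (nat_lit 562) (.a s5336 (.a (.p (nat_lit 530) (.a (.p (nat_lit 594) (.a (.f (nat_lit 497) (nat_lit 465) (nat_lit 7633) (.f (nat_lit 529) (nat_lit 626) (nat_lit 7665) (.d (nat_lit 499) (nat_lit 467) (nat_lit 6610) (nat_lit 500) (nat_lit 1520)))) (.f (nat_lit 595) (nat_lit 627) (nat_lit 4594) (.f (nat_lit 561) (nat_lit 559) (nat_lit 559) (.d (nat_lit 563) (nat_lit 466) (nat_lit 4562) (nat_lit 596) (nat_lit 560)))))) (.a s5377 (.a (.p (nat_lit 594) (.a (.f (nat_lit 595) (nat_lit 627) (nat_lit 4594) (.f (nat_lit 561) (nat_lit 559) (nat_lit 559) (.d (nat_lit 563) (nat_lit 466) (nat_lit 4562) (nat_lit 596) (nat_lit 560)))) (.a (.f (nat_lit 467) (nat_lit 499) (nat_lit 6610) (.f (nat_lit 466) (nat_lit 435) (nat_lit 6578) (.d (nat_lit 465) (nat_lit 433) (nat_lit 7601) (nat_lit 497) (nat_lit 7633)))) (.f (nat_lit 595) (nat_lit 627) (nat_lit 4594) (.f (nat_lit 561) (nat_lit 559) (nat_lit 559) (.d (nat_lit 596) (nat_lit 563) (nat_lit 560) (nat_lit 597) (nat_lit 3633))))))) (.a s5460 (.a s5446 (.a s5611 (.a s5612 (.a s5613 (.p (nat_lit 594) (.a (.f (nat_lit 497) (nat_lit 465) (nat_lit 7633) (.f (nat_lit 529) (nat_lit 626) (nat_lit 7665) (.d (nat_lit 499) (nat_lit 467) (nat_lit 6610) (nat_lit 500) (nat_lit 1520)))) (.f (nat_lit 595) (nat_lit 627) (nat_lit 4594) (.f (nat_lit 561) (nat_lit 559) (nat_lit 559) (.d (nat_lit 596) (nat_lit 563) (nat_lit 560) (nat_lit 597) (nat_lit 3633))))))))))))))) (.a (.p (nat_lit 594) (.a (.p (nat_lit 530) (.a (.f (nat_lit 595) (nat_lit 627) (nat_lit 4594) (.f (nat_lit 561) (nat_lit 559) (nat_lit 559) (.d (nat_lit 563) (nat_lit 466) (nat_lit 4562) (nat_lit 596) (nat_lit 560)))) (.a (.f (nat_lit 467) (nat_lit 499) (nat_lit 6610) (.f (nat_lit 466) (nat_lit 435) (nat_lit 6578) (.d (nat_lit 465) (nat_lit 433) (nat_lit 7601) (nat_lit 497) (nat_lit 7633)))) (.f (nat_lit 595) (nat_lit 627) (nat_lit 4594) (.f (nat_lit 561) (nat_lit 559) (nat_lit 559) (.d (nat_lit 596) (nat_lit 563) (nat_lit 560) (nat_lit 597) (nat_lit 3633))))))) (.a s5264 (.a s5265 (.a s6720 s5335))))) (.a (.p (nat_lit 530) (.a s3165 (.a s5377 (.a s5672 (.a (.p (nat_lit 466) (.a (.f (nat_lit 433) (nat_lit 465) (nat_lit 7601) (.f (nat_lit 434) (nat_lit 401) (nat_lit 7569) (.d (nat_lit 435) (nat_lit 403) (nat_lit 6546) (nat_lit 467) (nat_lit 6578)))) (.a (.f (nat_lit 563) (nat_lit 595) (nat_lit 4562) (.f (nat_lit 529) (nat_lit 527) (nat_lit 527) (.d (nat_lit 531) (nat_lit 434) (nat_lit 4530) (nat_lit 564) (nat_lit 528)))) (.f (nat_lit 563) (nat_lit 595) (nat_lit 4562) (.f (nat_lit 529) (nat_lit 527) (nat_lit 527) (.d (nat_lit 564) (nat_lit 531) (nat_lit 528) (nat_lit 565) (nat_lit 3601))))))) (.a s6582 s5248)))))) (.a (.p (nat_lit 530) (.a (.p (nat_lit 594) (.a (.f (nat_lit 595) (nat_lit 627) (nat_lit 4594) (.f (nat_lit 561) (nat_lit 559) (nat_lit 559) (.d (nat_lit 563) (nat_lit 466) (nat_lit 4562) (nat_lit 596) (nat_lit 560)))) (.a (.f (nat_lit 467) (nat_lit 499) (nat_lit 6610) (.f (nat_lit 466) (nat_lit 435) (nat_lit 6578) (.d (nat_lit 465) (nat_lit 433) (nat_lit 7601) (nat_lit 497) (nat_lit 7633)))) (.f (nat_lit 595) (nat_lit 627) (nat_lit 4594) (.f (nat_lit 561) (nat_lit 559) (nat_lit 559) (.d (nat_lit 596) (nat_lit 563) (nat_lit 560) (nat_lit 597) (nat_lit 3633))))))) (.a s5672 (.a s5975 (.a (.p (nat_lit 561) (.a (.f (nat_lit 563) (nat_lit 527) (nat_lit 3599) (.d (nat_lit 595) (nat_lit 466) (nat_lit 4562) (nat_lit 596) (nat_lit 560))) (.a (.f (nat_lit 531) (nat_lit 559) (nat_lit 2575) (.d (nat_lit 532) (nat_lit 533) (nat_lit 1553) (nat_lit 563) (nat_lit 2576))) (.f (nat_lit 559) (nat_lit 531) (nat_lit 2575) (.f (nat_lit 591) (nat_lit 590) (nat_lit 1582) (.f (nat_lit 496) (nat_lit 464) (nat_lit 5583) (.d (nat_lit 623) (nat_lit 527) (nat_lit 6639) (nat_lit 655) (nat_lit 6671)))))))) (.a s6084 (.a s6094 s6169))))))) (.a (.p (nat_lit 530) (.a s5460 (.a (.p (nat_lit 466) (.a (.f (nat_lit 433) (nat_lit 465) (nat_lit 7601) (.f (nat_lit 434) (nat_lit 401) (nat_lit 7569) (.d (nat_lit 435) (nat_lit 403) (nat_lit 6546) (nat_lit 467) (nat_lit 6578)))) (.a (.f (nat_lit 563) (nat_lit 595) (nat_lit 4562) (.f (nat_lit 529) (nat_lit 527) (nat_lit 527) (.d (nat_lit 531) (nat_lit 434) (nat_lit 4530) (nat_lit 564) (nat_lit 528)))) (.f (nat_lit 563) (nat_lit 595) (nat_lit 4562) (.f (nat_lit 529) (nat_lit 527) (nat_lit 527) (.d (nat_lit 564) (nat_lit 531) (nat_lit 528) (nat_lit 565) (nat_lit 3601))))))) (.a s5975 (.a (.p (nat_lit 594) (.a (.f (nat_lit 595) (nat_lit 627) (nat_lit 4594) (.f (nat_lit 561) (nat_lit 559) (nat_lit 559) (.d (nat_lit 563) (nat_lit 466) (nat_lit 4562) (nat_lit 596) (nat_lit 560)))) (.a (.f (nat_lit 467) (nat_lit 499) (nat_lit 6610) (.f (nat_lit 466) (nat_lit 435) (nat_lit 6578) (.d (nat_lit 595) (nat_lit 563) (nat_lit 4562) (nat_lit 627) (nat_lit 4594)))) (.a (.f (nat_lit 499) (nat_lit 467) (nat_lit 6610) (.f (nat_lit 529) (nat_lit 527) (nat_lit 2543) (.f (nat_lit 627) (nat_lit 595) (nat_lit 4594) (.f (nat_lit 626) (nat_lit 659) (nat_lit 4626) (.f (nat_lit 561) (nat_lit 658) (nat_lit 7697) (.f (nat_lit 559) (nat_lit 558) (nat_lit 2574) (.f (nat_lit 466) (nat_lit 434) (nat_lit 5553) (.f (nat_lit 465) (nat_lit 433) (nat_lit 7601) (.f (nat_lit 464) (nat_lit 463) (nat_lit 463) (.d (nat_lit 496) (nat_lit 432) (nat_lit 4528) (nat_lit 591) (nat_lit 5583))))))))))) (.a (.f (nat_lit 595) (nat_lit 627) (nat_lit 4594) (.f (nat_lit 561) (nat_lit 559) (nat_lit 559) (.d (nat_lit 596) (nat_lit 563) (nat_lit 560) (nat_lit 597) (nat_lit 3633)))) (.f (nat_lit 467) (nat_lit 499) (nat_lit 6610) (.f (nat_lit 466) (nat_lit 435) (nat_lit 6578) (.f (nat_lit 433) (nat_lit 465) (nat_lit 7601) (.f (nat_lit 434) (nat_lit 401) (nat_lit 7569) (.f (nat_lit 529) (nat_lit 561) (nat_lit 5553) (.f (nat_lit 527) (nat_lit 563) (nat_lit 527) (.f (nat_lit 495) (nat_lit 494) (nat_lit 3566) (.d (nat_lit 431) (nat_lit 432) (nat_lit 431) (nat_lit 463) (nat_lit 4527)))))))))))))) (.a s6726 (.a (.p (nat_lit 561) (.a (.f (nat_lit 531) (nat_lit 559) (nat_lit 2575) (.d (nat_lit 532) (nat_lit 529) (nat_lit 1552) (nat_lit 533) (nat_lit 1553))) (.a (.f (nat_lit 531) (nat_lit 559) (nat_lit 2575) (.d (nat_lit 532) (nat_lit 533) (nat_lit 1553) (nat_lit 563) (nat_lit 2576))) (.f (nat_lit 563) (nat_lit 527) (nat_lit 3599) (.f (nat_lit 564) (nat_lit 529) (nat_lit 3600) (.d (nat_lit 596) (nat_lit 595) (nat_lit 560) (nat_lit 597) (nat_lit 561))))))) s6732))))))) (.a s6499 (.a (.p (nat_lit 496) (.a s6378 (.a s6744 (.a s6383 (.a (.p (nat_lit 497) (.a (.f (nat_lit 499) (nat_lit 527) (nat_lit 1519) (.f (nat_lit 500) (nat_lit 529) (nat_lit 1520) (.d (nat_lit 468) (nat_lit 467) (nat_lit 2512) (nat_lit 469) (nat_lit 2513)))) (.a (.p (nat_lit 529) (.a (.f (nat_lit 499) (nat_lit 500) (nat_lit 1520) (.f (nat_lit 467) (nat_lit 468) (nat_lit 2512) (.f (nat_lit 495) (nat_lit 466) (nat_lit 2511) (.f (nat_lit 494) (nat_lit 493) (nat_lit 493) (.d (nat_lit 462) (nat_lit 461) (nat_lit 3533) (nat_lit 463) (nat_lit 3534)))))) (.a (.f (nat_lit 465) (nat_lit 433) (nat_lit 5552) (.f (nat_lit 561) (nat_lit 594) (nat_lit 4561) (.f (nat_lit 466) (nat_lit 434) (nat_lit 6577) (.d (nat_lit 467) (nat_lit 468) (nat_lit 1488) (nat_lit 495) (nat_lit 2511))))) (.a (.f (nat_lit 465) (nat_lit 433) (nat_lit 5552) (.f (nat_lit 561) (nat_lit 594) (nat_lit 4561) (.f (nat_lit 466) (nat_lit 434) (nat_lit 6577) (.f (nat_lit 499) (nat_lit 500) (nat_lit 1520) (.f (nat_lit 563) (nat_lit 564) (nat_lit 3600) (.d (nat_lit 531) (nat_lit 532) (nat_lit 496) (nat_lit 595) (nat_lit 7634))))))) (.f (nat_lit 465) (nat_lit 433) (nat_lit 5552) (.f (nat_lit 499) (nat_lit 500) (nat_lit 1520) (.f (nat_lit 531) (nat_lit 532) (nat_lit 496) (.f (nat_lit 467) (nat_lit 468) (nat_lit 2512) (.d (nat_lit 594) (nat_lit 561) (nat_lit 4561) (nat_lit 563) (nat_lit 5586)))))))))) (.a (.f (nat_lit 499) (nat_lit 527) (nat_lit 1519) (.f (nat_lit 467) (nat_lit 468) (nat_lit 2512) (.f (nat_lit 531) (nat_lit 532) (nat_lit 496) (.f (nat_lit 466) (nat_lit 495) (nat_lit 2511) (.d (nat_lit 434) (nat_lit 402) (nat_lit 4498) (nat_lit 563) (nat_lit 7602)))))) (.a (.p (nat_lit 495) (.a (.f (nat_lit 466) (nat_lit 467) (nat_lit 2511) (.f (nat_lit 465) (nat_lit 494) (nat_lit 2510) (.d (nat_lit 433) (nat_lit 401) (nat_lit 5520) (nat_lit 529) (nat_lit 5552)))) (.f (nat_lit 463) (nat_lit 462) (nat_lit 3534) (.d (nat_lit 431) (nat_lit 399) (nat_lit 4495) (nat_lit 527) (nat_lit 4527))))) (.f (nat_lit 499) (nat_lit 527) (nat_lit 1519) (.f (nat_lit 500) (nat_lit 529) (nat_lit 1520) (.f (nat_lit 469) (nat_lit 468) (nat_lit 2513) (.f (nat_lit 501) (nat_lit 470) (nat_lit 2514) (.d (nat_lit 533) (nat_lit 532) (nat_lit 497) (nat_lit 534) (nat_lit 498))))))))))) (.a s6418 (.a (.p (nat_lit 464) (.a (.f (nat_lit 463) (nat_lit 431) (nat_lit 7599) (.f (nat_lit 497) (nat_lit 499) (nat_lit 3535) (.d (nat_lit 462) (nat_lit 461) (nat_lit 461) (nat_lit 495) (nat_lit 3534)))) (.a (.f (nat_lit 559) (nat_lit 591) (nat_lit 5583) (.f (nat_lit 432) (nat_lit 527) (nat_lit 5551) (.d (nat_lit 431) (nat_lit 399) (nat_lit 7567) (nat_lit 463) (nat_lit 7599)))) (.a (.f (nat_lit 559) (nat_lit 591) (nat_lit 5583) (.f (nat_lit 432) (nat_lit 527) (nat_lit 5551) (.f (nat_lit 399) (nat_lit 431) (nat_lit 7567) (.f (nat_lit 400) (nat_lit 367) (nat_lit 7535) (.d (nat_lit 401) (nat_lit 369) (nat_lit 6512) (nat_lit 433) (nat_lit 6544)))))) (.f (nat_lit 559) (nat_lit 591) (nat_lit 5583) (.f (nat_lit 432) (nat_lit 527) (nat_lit 5551) (.f (nat_lit 529) (nat_lit 561) (nat_lit 4528) (.f (nat_lit 497) (nat_lit 400) (nat_lit 4496) (.d (nat_lit 499) (nat_lit 463) (nat_lit 3535) (nat_lit 500) (nat_lit 1520)))))))))) (.a (.p (nat_lit 464) (.a (.f (nat_lit 463) (nat_lit 431) (nat_lit 7599) (.f (nat_lit 497) (nat_lit 499) (nat_lit 3535) (.d (nat_lit 462) (nat_lit 461) (nat_lit 461) (nat_lit 495) (nat_lit 3534)))) (.a (.f (nat_lit 559) (nat_lit 591) (nat_lit 5583) (.f (nat_lit 432) (nat_lit 527) (nat_lit 5551) (.d (nat_lit 431) (nat_lit 399) (nat_lit 7567) (nat_lit 463) (nat_lit 7599)))) (.a (.f (nat_lit 559) (nat_lit 591) (nat_lit 5583) (.f (nat_lit 432) (nat_lit 527) (nat_lit 5551) (.f (nat_lit 529) (nat_lit 561) (nat_lit 4528) (.f (nat_lit 400) (nat_lit 497) (nat_lit 4496) (.d (nat_lit 399) (nat_lit 367) (nat_lit 7535) (nat_lit 431) (nat_lit 7567)))))) (.f (nat_lit 559) (nat_lit 591) (nat_lit 5583) (.f (nat_lit 432) (nat_lit 527) (nat_lit 5551) (.f (nat_lit 529) (nat_lit 561) (nat_lit 4528) (.f (nat_lit 497) (nat_lit 400) (nat_lit 4496) (.d (nat_lit 499) (nat_lit 463) (nat_lit 3535) (nat_lit 500) (nat_lit 1520)))))))))) (.p (nat_lit 561) (.a (.f (nat_lit 563) (nat_lit 527) (nat_lit 3599) (.f (nat_lit 564) (nat_lit 529) (nat_lit 3600) (.d (nat_lit 532) (nat_lit 531) (nat_lit 2576) (nat_lit 533) (nat_lit 2577)))) (.a s6688 (.a (.f (nat_lit 563) (nat_lit 527) (nat_lit 3599) (.f (nat_lit 595) (nat_lit 596) (nat_lit 560) (.f (nat_lit 531) (nat_lit 532) (nat_lit 2576) (.f (nat_lit 594) (nat_lit 559) (nat_lit 559) (.d (nat_lit 499) (nat_lit 466) (nat_lit 7634) (nat_lit 467) (nat_lit 5586)))))) (.a (.f (nat_lit 563) (nat_lit 527) (nat_lit 3599) (.f (nat_lit 529) (nat_lit 564) (nat_lit 3600) (.f (nat_lit 464) (nat_lit 432) (nat_lit 4528) (.f (nat_lit 465) (nat_lit 433) (nat_lit 6576) (.f (nat_lit 497) (nat_lit 594) (nat_lit 4561) (.f (nat_lit 466) (nat_lit 434) (nat_lit 6577) (.d (nat_lit 467) (nat_lit 468) (nat_lit 1488) (nat_lit 495) (nat_lit 2511)))))))) s6706))))))))))))) (.a s6802 (.a (.p (nat_lit 530) (.a s3165 (.a s5611 (.a s6084 (.a s6726 (.a s6553 (.a s5248 (.a (.p (nat_lit 499) (.a (.f (nat_lit 529) (nat_lit 527) (nat_lit 2543) (.d (nat_lit 500) (nat_lit 497) (nat_lit 1520) (nat_lit 501) (nat_lit 1521))) (.a (.f (nat_lit 594) (nat_lit 467) (nat_lit 6610) (.f (nat_lit 497) (nat_lit 465) (nat_lit 7633) (.d (nat_lit 529) (nat_lit 500) (nat_lit 1520) (nat_lit 626) (nat_lit 7665)))) (.f (nat_lit 467) (nat_lit 594) (nat_lit 6610) (.d (nat_lit 435) (nat_lit 403) (nat_lit 5522) (nat_lit 466) (nat_lit 6578)))))) s6803)))))))) (.a s6808 (.a s6819 (.a s6825 (.p (nat_lit 530) (.a s3165 (.a s5611 (.a s6169 (.a s6732 (.a (.p (nat_lit 594) (.a (.f (nat_lit 497) (nat_lit 465) (nat_lit 7633) (.f (nat_lit 529) (nat_lit 626) (nat_lit 7665) (.d (nat_lit 499) (nat_lit 467) (nat_lit 6610) (nat_lit 500) (nat_lit 1520)))) (.a (.f (nat_lit 467) (nat_lit 499) (nat_lit 6610) (.f (nat_lit 466) (nat_lit 435) (nat_lit 6578) (.d (nat_lit 465) (nat_lit 433) (nat_lit 7601) (nat_lit 497) (nat_lit 7633)))) (.a (.f (nat_lit 467) (nat_lit 499) (nat_lit 6610) (.f (nat_lit 466) (nat_lit 435) (nat_lit 6578) (.f (nat_lit 433) (nat_lit 465) (nat_lit 7601) (.f (nat_lit 434) (nat_lit 401) (nat_lit 7569) (.f (nat_lit 529) (nat_lit 561) (nat_lit 5553) (.f (nat_lit 527) (nat_lit 563) (nat_lit 527) (.f (nat_lit 495) (nat_lit 494) (nat_lit 3566) (.d (nat_lit 431) (nat_lit 432) (nat_lit 431) (nat_lit 463) (nat_lit 4527))))))))) (.a (.f (nat_lit 497) (nat_lit 465) (nat_lit 7633) (.f (nat_lit 529) (nat_lit 626) (nat_lit 7665) (.f (nat_lit 563) (nat_lit 527) (nat_lit 527) (.d (nat_lit 564) (nat_lit 561) (nat_lit 3600) (nat_lit 565) (nat_lit 3601))))) (.f (nat_lit 499) (nat_lit 467) (nat_lit 6610) (.f (nat_lit 529) (nat_lit 527) (nat_lit 2543) (.d (nat_lit 497) (nat_lit 500) (nat_lit 1520) (nat_lit 626) (nat_lit 7665))))))))) (.a s5248 s6818))))))))))))))))))))) (.a (.p (nat_lit 496) (.a s6282 (.a s6286 (.a s6294 (.a (.p (nat_lit 497) (.a (.f (nat_lit 499) (nat_lit 527) (nat_lit 1519) (.f (nat_lit 529) (nat_lit 500) (nat_lit 1520) (.f (nat_lit 531) (nat_lit 532) (nat_lit 496) (.d (nat_lit 530) (nat_lit 495) (nat_lit 495) (nat_lit 559) (nat_lit 1551))))) (.a (.p (nat_lit 531) (.a (.f (nat_lit 530) (nat_lit 495) (nat_lit 495) (.d (nat_lit 529) (nat_lit 532) (nat_lit 3568) (nat_lit 559) (nat_lit 1551))) (.a (.f (nat_lit 495) (nat_lit 530) (nat_lit 495) (.f (nat_lit 499) (nat_lit 532) (nat_lit 496) (.d (nat_lit 467) (nat_lit 466) (nat_lit 2511) (nat_lit 468) (nat_lit 2512)))) (.a (.f (nat_lit 499) (nat_lit 532) (nat_lit 496) (.f (nat_lit 467) (nat_lit 468) (nat_lit 2512) (.f (nat_lit 466) (nat_lit 495) (nat_lit 2511) (.f (nat_lit 434) (nat_lit 402) (nat_lit 4498) (.f (nat_lit 529) (nat_lit 500) (nat_lit 1520) (.d (nat_lit 465) (nat_lit 433) (nat_lit 5552) (nat_lit 561) (nat_lit 6577))))))) (.a (.f (nat_lit 499) (nat_lit 532) (nat_lit 496) (.f (nat_lit 529) (nat_lit 500) (nat_lit 1520) (.f (nat_lit 530) (nat_lit 559) (nat_lit 1551) (.f (nat_lit 465) (nat_lit 433) (nat_lit 5552) (.f (nat_lit 562) (nat_lit 594) (nat_lit 7633) (.d (nat_lit 467) (nat_lit 435) (nat_lit 5554) (nat_lit 468) (nat_lit 2512))))))) (.f (nat_lit 495) (nat_lit 530) (nat_lit 495) (.f (nat_lit 466) (nat_lit 467) (nat_lit 2511) (.f (nat_lit 465) (nat_lit 494) (nat_lit 2510) (.d (nat_lit 433) (nat_lit 401) (nat_lit 5520) (nat_lit 529) (nat_lit 5552)))))))))) (.a (.f (nat_lit 499) (nat_lit 527) (nat_lit 1519) (.f (nat_lit 467) (nat_lit 468) (nat_lit 2512) (.f (nat_lit 531) (nat_lit 532) (nat_lit 496) (.d (nat_lit 495) (nat_lit 466) (nat_lit 2511) (nat_lit 530) (nat_lit 495))))) (.a (.f (nat_lit 499) (nat_lit 527) (nat_lit 1519) (.f (nat_lit 500) (nat_lit 529) (nat_lit 1520) (.d (nat_lit 468) (nat_lit 467) (nat_lit 2512) (nat_lit 469) (nat_lit 2513)))) (.p (nat_lit 495) (.a (.f (nat_lit 530) (nat_lit 531) (nat_lit 495) (.f (nat_lit 529) (nat_lit 494) (nat_lit 494) (.f (nat_lit 466) (nat_lit 467) (nat_lit 2511) (.d (nat_lit 434) (nat_lit 402) (nat_lit 5521) (nat_lit 561) (nat_lit 5553))))) (.a (.f (nat_lit 530) (nat_lit 531) (nat_lit 495) (.f (nat_lit 494) (nat_lit 529) (nat_lit 494) (.d (nat_lit 462) (nat_lit 461) (nat_lit 3533) (nat_lit 463) (nat_lit 3534)))) (.f (nat_lit 463) (nat_lit 462) (nat_lit 3534) (.d (nat_lit 431) (nat_lit 399) (nat_lit 4495) (nat_lit 527) (nat_lit 4527))))))))))) (.a s6342 (.a (.p (nat_lit 464) (.a (.f (nat_lit 463) (nat_lit 431) (nat_lit 7599) (.f (nat_lit 497) (nat_lit 499) (nat_lit 3535) (.d (nat_lit 462) (nat_lit 461) (nat_lit 461) (nat_lit 495) (nat_lit 3534)))) (.a (.f (nat_lit 431) (nat_lit 463) (nat_lit 7599) (.f (nat_lit 432) (nat_lit 399) (nat_lit 7567) (.d (nat_lit 561) (nat_lit 529) (nat_lit 4528) (nat_lit 593) (nat_lit 4560)))) (.f (nat_lit 559) (nat_lit 591) (nat_lit 5583) (.f (nat_lit 432) (nat_lit 527) (nat_lit 5551) (.d (nat_lit 561) (nat_lit 529) (nat_lit 4528) (nat_lit 593) (nat_lit 4560))))))) s6362))))))) (.a (.p (nat_lit 530) (.a s5673 (.a s5628 (.a s6087 (.a s6265 (.a (.p (nat_lit 496) (.a (.p (nat_lit 464) (.a (.f (nat_lit 433) (nat_lit 465) (nat_lit 6576) (.f (nat_lit 432) (nat_lit 401) (nat_lit 6544) (.d (nat_lit 431) (nat_lit 399) (nat_lit 7567) (nat_lit 463) (nat_lit 7599)))) (.a (.f (nat_lit 561) (nat_lit 593) (nat_lit 4560) (.f (nat_lit 529) (nat_lit 432) (nat_lit 4528) (.d (nat_lit 531) (nat_lit 495) (nat_lit 3567) (nat_lit 532) (nat_lit 1552)))) (.f (nat_lit 465) (nat_lit 433) (nat_lit 6576) (.f (nat_lit 463) (nat_lit 431) (nat_lit 7599) (.f (nat_lit 466) (nat_lit 499) (nat_lit 463) (.d (nat_lit 495) (nat_lit 467) (nat_lit 1487) (nat_lit 494) (nat_lit 1486)))))))) (.a s6041 (.a (.p (nat_lit 464) (.a (.f (nat_lit 433) (nat_lit 465) (nat_lit 6576) (.f (nat_lit 432) (nat_lit 401) (nat_lit 6544) (.d (nat_lit 431) (nat_lit 399) (nat_lit 7567) (nat_lit 463) (nat_lit 7599)))) (.a (.f (nat_lit 463) (nat_lit 431) (nat_lit 7599) (.f (nat_lit 497) (nat_lit 499) (nat_lit 3535) (.d (nat_lit 462) (nat_lit 461) (nat_lit 461) (nat_lit 495) (nat_lit 3534)))) (.f (nat_lit 433) (nat_lit 465) (nat_lit 6576) (.f (nat_lit 432) (nat_lit 401) (nat_lit 6544) (.d (nat_lit 561) (nat_lit 529) (nat_lit 4528) (nat_lit 593) (nat_lit 4560))))))) (.a (.p (nat_lit 529) (.a (.f (nat_lit 499) (nat_lit 527) (nat_lit 2543) (.d (nat_lit 500) (nat_lit 497) (nat_lit 1520) (nat_lit 501) (nat_lit 1521))) (.a (.f (nat_lit 531) (nat_lit 495) (nat_lit 3567) (.d (nat_lit 532) (nat_lit 497) (nat_lit 3568) (nat_lit 561) (nat_lit 1552))) (.f (nat_lit 531) (nat_lit 495) (nat_lit 3567) (.d (nat_lit 499) (nat_lit 500) (nat_lit 2544) (nat_lit 527) (nat_lit 2543)))))) (.a (.p (nat_lit 464) (.a (.f (nat_lit 433) (nat_lit 465) (nat_lit 6576) (.f (nat_lit 432) (nat_lit 401) (nat_lit 6544) (.d (nat_lit 431) (nat_lit 399) (nat_lit 7567) (nat_lit 463) (nat_lit 7599)))) (.a (.f (nat_lit 561) (nat_lit 593) (nat_lit 4560) (.f (nat_lit 529) (nat_lit 432) (nat_lit 4528) (.d (nat_lit 531) (nat_lit 495) (nat_lit 3567) (nat_lit 532) (nat_lit 1552)))) (.f (nat_lit 465) (nat_lit 433) (nat_lit 6576) (.f (nat_lit 463) (nat_lit 431) (nat_lit 7599) (.f (nat_lit 462) (nat_lit 497) (nat_lit 462) (.f (nat_lit 494) (nat_lit 493) (nat_lit 1485) (.f (nat_lit 495) (nat_lit 466) (nat_lit 1486) (.f (nat_lit 527) (nat_lit 529) (nat_lit 3566) (.d (nat_lit 430) (nat_lit 398) (nat_lit 4494) (nat_lit 429) (nat_lit 3501))))))))))) (.p (nat_lit 464) (.a (.f (nat_lit 433) (nat_lit 465) (nat_lit 6576) (.f (nat_lit 432) (nat_lit 401) (nat_lit 6544) (.d (nat_lit 431) (nat_lit 399) (nat_lit 7567) (nat_lit 463) (nat_lit 7599)))) (.a (.f (nat_lit 561) (nat_lit 593) (nat_lit 4560) (.f (nat_lit 529) (nat_lit 432) (nat_lit 4528) (.f (nat_lit 499) (nat_lit 527) (nat_lit 2543) (.d (nat_lit 463) (nat_lit 431) (nat_lit 7599) (nat_lit 497) (nat_lit 3535))))) (.a (.f (nat_lit 465) (nat_lit 433) (nat_lit 6576) (.f (nat_lit 463) (nat_lit 431) (nat_lit 7599) (.d (nat_lit 497) (nat_lit 462) (nat_lit 462) (nat_lit 499) (nat_lit 3535)))) (.f (nat_lit 433) (nat_lit 465) (nat_lit 6576) (.f (nat_lit 432) (nat_lit 401) (nat_lit 6544) (.d (nat_lit 561) (nat_lit 529) (nat_lit 4528) (nat_lit 593) (nat_lit 4560)))))))))))))) (.a (.p (nat_lit 562) (.a s5236 (.a s5676 (.a s5340 (.a s6582 (.a (.p (nat_lit 594) (.a (.f (nat_lit 497) (nat_lit 465) (nat_lit 7633) (.f (nat_lit 529) (nat_lit 626) (nat_lit 7665) (.d (nat_lit 499) (nat_lit 467) (nat_lit 6610) (nat_lit 500) (nat_lit 1520)))) (.a (.f (nat_lit 467) (nat_lit 499) (nat_lit 6610) (.f (nat_lit 466) (nat_lit 435) (nat_lit 6578) (.d (nat_lit 465) (nat_lit 433) (nat_lit 7601) (nat_lit 497) (nat_lit 7633)))) (.f (nat_lit 625) (nat_lit 593) (nat_lit 5617) (.f (nat_lit 626) (nat_lit 657) (nat_lit 5649) (.d (nat_lit 627) (nat_lit 595) (nat_lit 4594) (nat_lit 659) (nat_lit 4626))))))) (.a s5358 (.a s6583 s5373)))))))) (.a s6856 (.a (.p (nat_lit 562) (.a (.p (nat_lit 466) (.a (.f (nat_lit 433) (nat_lit 465) (nat_lit 7601) (.f (nat_lit 434) (nat_lit 401) (nat_lit 7569) (.d (nat_lit 435) (nat_lit 403) (nat_lit 6546) (nat_lit 467) (nat_lit 6578)))) (.a (.f (nat_lit 563) (nat_lit 595) (nat_lit 4562) (.f (nat_lit 434) (nat_lit 531) (nat_lit 4530) (.d (nat_lit 435) (nat_lit 403) (nat_lit 6546) (nat_lit 467) (nat_lit 6578)))) (.f (nat_lit 465) (nat_lit 433) (nat_lit 7601) (.f (nat_lit 594) (nat_lit 497) (nat_lit 7633) (.d (nat_lit 595) (nat_lit 563) (nat_lit 4562) (nat_lit 627) (nat_lit 4594))))))) (.a (.p (nat_lit 466) (.a (.f (nat_lit 433) (nat_lit 465) (nat_lit 7601) (.f (nat_lit 434) (nat_lit 401) (nat_lit 7569) (.d (nat_lit 435) (nat_lit 403) (nat_lit 6546) (nat_lit 467) (nat_lit 6578)))) (.a (.f (nat_lit 563) (nat_lit 595) (nat_lit 4562) (.f (nat_lit 529) (nat_lit 527) (nat_lit 527) (.d (nat_lit 531) (nat_lit 434) (nat_lit 4530) (nat_lit 564) (nat_lit 528)))) (.f (nat_lit 563) (nat_lit 595) (nat_lit 4562) (.f (nat_lit 529) (nat_lit 527) (nat_lit 527) (.d (nat_lit 564) (nat_lit 531) (nat_lit 528) (nat_lit 565) (nat_lit 3601))))))) (.a s5340 (.a (.p (nat_lit 594) (.a (.f (nat_lit 593) (nat_lit 625) (nat_lit 5617) (.f (nat_lit 561) (nat_lit 466) (nat_lit 5585) (.d (nat_lit 595) (nat_lit 596) (nat_lit 3632) (nat_lit 627) (nat_lit 4594)))) (.a (.f (nat_lit 497) (nat_lit 465) (nat_lit 7633) (.f (nat_lit 626) (nat_lit 529) (nat_lit 7665) (.d (nat_lit 625) (nat_lit 593) (nat_lit 5617) (nat_lit 657) (nat_lit 5649)))) (.f (nat_lit 497) (nat_lit 465) (nat_lit 7633) (.f (nat_lit 626) (nat_lit 529) (nat_lit 7665) (.d (nat_lit 627) (nat_lit 595) (nat_lit 4594) (nat_lit 659) (nat_lit 4626))))))) (.a s5358 (.a s6863 s6864))))))) (.a (.p (nat_lit 562) (.a (.p (nat_lit 594) (.a (.f (nat_lit 499) (nat_lit 467) (nat_lit 6610) (.f (nat_lit 529) (nat_lit 527) (nat_lit 2543) (.d (nat_lit 500) (nat_lit 501) (nat_lit 1521) (nat_lit 531) (nat_lit 2544)))) (.a (.f (nat_lit 625) (nat_lit 593) (nat_lit 5617) (.f (nat_lit 626) (nat_lit 657) (nat_lit 5649) (.d (nat_lit 499) (nat_lit 467) (nat_lit 6610) (nat_lit 531) (nat_lit 6642)))) (.f (nat_lit 625) (nat_lit 593) (nat_lit 5617) (.f (nat_lit 626) (nat_lit 657) (nat_lit 5649) (.d (nat_lit 627) (nat_lit 595) (nat_lit 4594) (nat_lit 659) (nat_lit 4626))))))) (.a (.p (nat_lit 594) (.a (.f (nat_lit 625) (nat_lit 593) (nat_lit 5617) (.f (nat_lit 626) (nat_lit 657) (nat_lit 5649) (.d (nat_lit 499) (nat_lit 467) (nat_lit 6610) (nat_lit 531) (nat_lit 6642)))) (.a (.f (nat_lit 467) (nat_lit 499) (nat_lit 6610) (.f (nat_lit 466) (nat_lit 435) (nat_lit 6578) (.d (nat_lit 595) (nat_lit 563) (nat_lit 4562) (nat_lit 627) (nat_lit 4594)))) (.f (nat_lit 625) (nat_lit 593) (nat_lit 5617) (.f (nat_lit 626) (nat_lit 657) (nat_lit 5649) (.d (nat_lit 627) (nat_lit 595) (nat_lit 4594) (nat_lit 659) (nat_lit 4626))))))) (.a s5358 (.a s6805 (.p (nat_lit 594) (.a (.f (nat_lit 499) (nat_lit 467) (nat_lit 6610) (.f (nat_lit 529) (nat_lit 527) (nat_lit 2543) (.d (nat_lit 500) (nat_lit 501) (nat_lit 1521) (nat_lit 531) (nat_lit 2544)))) (.a (.f (nat_lit 625) (nat_lit 593) (nat_lit 5617) (.f (nat_lit 626) (nat_lit 657) (nat_lit 5649) (.d (nat_lit 499) (nat_lit 467) (nat_lit 6610) (nat_lit 531) (nat_lit 6642)))) (.f (nat_lit 593) (nat_lit 625) (nat_lit 5617) (.f (nat_lit 561) (nat_lit 466) (nat_lit 5585) (.f (nat_lit 563) (nat_lit 527) (nat_lit 3599) (.d (nat_lit 564) (nat_lit 529) (nat_lit 3600) (nat_lit 565) (nat_lit 1585))))))))))))) (.a (.p (nat_lit 529) (.a (.f (nat_lit 499) (nat_lit 527) (nat_lit 2543) (.d (nat_lit 500) (nat_lit 497) (nat_lit 1520) (nat_lit 501) (nat_lit 1521))) (.a (.p (nat_lit 531) (.a (.f (nat_lit 532) (nat_lit 561) (nat_lit 1552) (.d (nat_lit 496) (nat_lit 495) (nat_lit 3567) (nat_lit 497) (nat_lit 3568))) (.a (.f (nat_lit 532) (nat_lit 561) (nat_lit 1552) (.d (nat_lit 500) (nat_lit 499) (nat_lit 2544) (nat_lit 501) (nat_lit 2545))) (.a (.f (nat_lit 499) (nat_lit 500) (nat_lit 2544) (.f (nat_lit 496) (nat_lit 495) (nat_lit 3567) (.f (nat_lit 497) (nat_lit 532) (nat_lit 496) (.f (nat_lit 465) (nat_lit 433) (nat_lit 5552) (.f (nat_lit 562) (nat_lit 594) (nat_lit 7633) (.d (nat_lit 467) (nat_lit 435) (nat_lit 5554) (nat_lit 468) (nat_lit 2512))))))) (.f (nat_lit 499) (nat_lit 500) (nat_lit 2544) (.f (nat_lit 563) (nat_lit 564) (nat_lit 528) (.f (nat_lit 595) (nat_lit 627) (nat_lit 7666) (.f (nat_lit 594) (nat_lit 626) (nat_lit 5618) (.f (nat_lit 562) (nat_lit 467) (nat_lit 6610) (.d (nat_lit 596) (nat_lit 561) (nat_lit 560) (nat_lit 628) (nat_lit 4595))))))))))) (.a (.f (nat_lit 499) (nat_lit 527) (nat_lit 2543) (.d (nat_lit 500) (nat_lit 501) (nat_lit 1521) (nat_lit 531) (nat_lit 2544))) (.p (nat_lit 531) (.a (.f (nat_lit 532) (nat_lit 561) (nat_lit 1552) (.d (nat_lit 496) (nat_lit 495) (nat_lit 3567) (nat_lit 497) (nat_lit 3568))) (.a (.f (nat_lit 532) (nat_lit 561) (nat_lit 1552) (.d (nat_lit 564) (nat_lit 563) (nat_lit 528) (nat_lit 565) (nat_lit 529))) (.a (.f (nat_lit 496) (nat_lit 495) (nat_lit 3567) (.f (nat_lit 497) (nat_lit 532) (nat_lit 3568) (.f (nat_lit 465) (nat_lit 433) (nat_lit 5552) (.f (nat_lit 562) (nat_lit 594) (nat_lit 7633) (.d (nat_lit 563) (nat_lit 527) (nat_lit 527) (nat_lit 564) (nat_lit 528)))))) (.f (nat_lit 496) (nat_lit 495) (nat_lit 3567) (.f (nat_lit 563) (nat_lit 564) (nat_lit 528) (.f (nat_lit 562) (nat_lit 527) (nat_lit 527) (.f (nat_lit 595) (nat_lit 627) (nat_lit 7666) (.f (nat_lit 561) (nat_lit 596) (nat_lit 560) (.d (nat_lit 464) (nat_lit 432) (nat_lit 4528) (nat_lit 593) (nat_lit 4560))))))))))))))) (.p (nat_lit 562) (.a s5358 (.a s5454 (.a s6807 (.a (.p (nat_lit 594) (.a (.f (nat_lit 593) (nat_lit 625) (nat_lit 5617) (.f (nat_lit 561) (nat_lit 466) (nat_lit 5585) (.d (nat_lit 595) (nat_lit 596) (nat_lit 3632) (nat_lit 627) (nat_lit 4594)))) (.a (.f (nat_lit 497) (nat_lit 465) (nat_lit 7633) (.f (nat_lit 626) (nat_lit 529) (nat_lit 7665) (.d (nat_lit 625) (nat_lit 593) (nat_lit 5617) (nat_lit 657) (nat_lit 5649)))) (.f (nat_lit 497) (nat_lit 465) (nat_lit 7633) (.f (nat_lit 626) (nat_lit 529) (nat_lit 7665) (.d (nat_lit 627) (nat_lit 595) (nat_lit 4594) (nat_lit 659) (nat_lit 4626))))))) (.a s6863 s6864))))))))))))))))) (.a (.p (nat_lit 562) (.a s5364 (.a (.p (nat_lit 530) (.a (.p (nat_lit 561) (.a (.f (nat_lit 531) (nat_lit 559) (nat_lit 2575) (.d (nat_lit 532) (nat_lit 529) (nat_lit 1552) (nat_lit 533) (nat_lit 1553))) (.a (.f (nat_lit 466) (nat_lit 593) (nat_lit 5585) (.f (nat_lit 563) (nat_lit 595) (nat_lit 4562) (.d (nat_lit 531) (nat_lit 434) (nat_lit 4530) (nat_lit 532) (nat_lit 2576)))) (.f (nat_lit 466) (nat_lit 593) (nat_lit 5585) (.f (nat_lit 529) (nat_lit 434) (nat_lit 5553) (.d (nat_lit 563) (nat_lit 564) (nat_lit 3600) (nat_lit 595) (nat_lit 4562))))))) (.a (.p (nat_lit 466) (.a (.f (nat_lit 433) (nat_lit 465) (nat_lit 7601) (.f (nat_lit 434) (nat_lit 401) (nat_lit 7569) (.d (nat_lit 435) (nat_lit 403) (nat_lit 6546) (nat_lit 467) (nat_lit 6578)))) (.a (.f (nat_lit 563) (nat_lit 595) (nat_lit 4562) (.f (nat_lit 434) (nat_lit 531) (nat_lit 4530) (.d (nat_lit 435) (nat_lit 403) (nat_lit 6546) (nat_lit 467) (nat_lit 6578)))) (.f (nat_lit 465) (nat_lit 433) (nat_lit 7601) (.f (nat_lit 594) (nat_lit 497) (nat_lit 7633) (.d (nat_lit 595) (nat_lit 563) (nat_lit 4562) (nat_lit 627) (nat_lit 4594))))))) (.a (.p (nat_lit 594) (.a (.f (nat_lit 595) (nat_lit 627) (nat_lit 4594) (.f (nat_lit 561) (nat_lit 559) (nat_lit 559) (.d (nat_lit 593) (nat_lit 596) (nat_lit 3632) (nat_lit 625) (nat_lit 5617)))) (.a (.f (nat_lit 497) (nat_lit 465) (nat_lit 7633) (.f (nat_lit 626) (nat_lit 529) (nat_lit 7665) (.d (nat_lit 625) (nat_lit 593) (nat_lit 5617) (nat_lit 657) (nat_lit 5649)))) (.f (nat_lit 595) (nat_lit 627) (nat_lit 4594) (.f (nat_lit 561) (nat_lit 559) (nat_lit 559) (.d (nat_lit 596) (nat_lit 563) (nat_lit 560) (nat_lit 597) (nat_lit 3633))))))) (.p (nat_lit 561) (.a (.f (nat_lit 531) (nat_lit 559) (nat_lit 2575) (.d (nat_lit 532) (nat_lit 529) (nat_lit 1552) (nat_lit 533) (nat_lit 1553))) (.f (nat_lit 466) (nat_lit 593) (nat_lit 5585) (.f (nat_lit 435) (nat_lit 467) (nat_lit 6578) (.f (nat_lit 434) (nat_lit 403) (nat_lit 6546) (.d (nat_lit 433) (nat_lit 401) (nat_lit 7569) (nat_lit 465) (nat_lit 7601))))))))))) (.a (.p (nat_lit 530) (.a (.p (nat_lit 466) (.a (.f (nat_lit 433) (nat_lit 465) (nat_lit 7601) (.f (nat_lit 434) (nat_lit 401) (nat_lit 7569) (.d (nat_lit 435) (nat_lit 403) (nat_lit 6546) (nat_lit 467) (nat_lit 6578)))) (.a (.f (nat_lit 563) (nat_lit 595) (nat_lit 4562) (.f (nat_lit 434) (nat_lit 531) (nat_lit 4530) (.d (nat_lit 435) (nat_lit 403) (nat_lit 6546) (nat_lit 467) (nat_lit 6578)))) (.f (nat_lit 465) (nat_lit 433) (nat_lit 7601) (.f (nat_lit 594) (nat_lit 497) (nat_lit 7633) (.d (nat_lit 595) (nat_lit 563) (nat_lit 4562) (nat_lit 627) (nat_lit 4594))))))) (.a (.p (nat_lit 466) (.a (.f (nat_lit 433) (nat_lit 465) (nat_lit 7601) (.f (nat_lit 434) (nat_lit 401) (nat_lit 7569) (.d (nat_lit 435) (nat_lit 403) (nat_lit 6546) (nat_lit 467) (nat_lit 6578)))) (.a (.f (nat_lit 563) (nat_lit 595) (nat_lit 4562) (.f (nat_lit 529) (nat_lit 527) (nat_lit 527) (.d (nat_lit 531) (nat_lit 434) (nat_lit 4530) (nat_lit 564) (nat_lit 528)))) (.f (nat_lit 563) (nat_lit 595) (nat_lit 4562) (.f (nat_lit 529) (nat_lit 527) (nat_lit 527) (.d (nat_lit 564) (nat_lit 531) (nat_lit 528) (nat_lit 565) (nat_lit 3601))))))) (.a (.p (nat_lit 594) (.a (.f (nat_lit 497) (nat_lit 465) (nat_lit 7633) (.f (nat_lit 626) (nat_lit 529) (nat_lit 7665) (.d (nat_lit 625) (nat_lit 593) (nat_lit 5617) (nat_lit 657) (nat_lit 5649)))) (.a (.f (nat_lit 595) (nat_lit 627) (nat_lit 4594) (.f (nat_lit 466) (nat_lit 563) (nat_lit 4562) (.d (nat_lit 465) (nat_lit 433) (nat_lit 7601) (nat_lit 497) (nat_lit 7633)))) (.f (nat_lit 625) (nat_lit 593) (nat_lit 5617) (.f (nat_lit 626) (nat_lit 657) (nat_lit 5649) (.d (nat_lit 627) (nat_lit 595) (nat_lit 4594) (nat_lit 659) (nat_lit 4626))))))) (.a (.p (nat_lit 594) (.a (.f (nat_lit 497) (nat_lit 465) (nat_lit 7633) (.f (nat_lit 529) (nat_lit 626) (nat_lit 7665) (.f (nat_lit 559) (nat_lit 531) (nat_lit 1551) (.d (nat_lit 558) (nat_lit 527) (nat_lit 1550) (nat_lit 557) (nat_lit 2573))))) (.a (.f (nat_lit 497) (nat_lit 465) (nat_lit 7633) (.f (nat_lit 626) (nat_lit 529) (nat_lit 7665) (.d (nat_lit 625) (nat_lit 593) (nat_lit 5617) (nat_lit 657) (nat_lit 5649)))) (.a (.f (nat_lit 625) (nat_lit 593) (nat_lit 5617) (.f (nat_lit 626) (nat_lit 657) (nat_lit 5649) (.d (nat_lit 627) (nat_lit 595) (nat_lit 4594) (nat_lit 659) (nat_lit 4626)))) (.p (nat_lit 466) (.a (.d (nat_lit 465) (nat_lit 433) (nat_lit 7601) (nat_lit 497) (nat_lit 7633)) (.a (.f (nat_lit 433) (nat_lit 465) (nat_lit 7601) (.f (nat_lit 434) (nat_lit 401) (nat_lit 7569) (.d (nat_lit 435) (nat_lit 403) (nat_lit 6546) (nat_lit 467) (nat_lit 6578)))) (.a (.f (nat_lit 435) (nat_lit 467) (nat_lit 6578) (.f (nat_lit 434) (nat_lit 403) (nat_lit 6546) (.f (nat_lit 401) (nat_lit 433) (nat_lit 7569) (.f (nat_lit 402) (nat_lit 369) (nat_lit 7537) (.f (nat_lit 529) (nat_lit 497) (nat_lit 5521) (.f (nat_lit 559) (nat_lit 531) (nat_lit 1551) (.d (nat_lit 558) (nat_lit 527) (nat_lit 1550) (nat_lit 557) (nat_lit 2573)))))))) (.f (nat_lit 497) (nat_lit 465) (nat_lit 7633) (.f (nat_lit 435) (nat_lit 467) (nat_lit 6578) (.f (nat_lit 434) (nat_lit 403) (nat_lit 6546) (.f (nat_lit 529) (nat_lit 402) (nat_lit 5521) (.f (nat_lit 531) (nat_lit 559) (nat_lit 1551) (.d (nat_lit 496) (nat_lit 495) (nat_lit 495) (nat_lit 532) (nat_lit 3568))))))))))))))) (.a s6922 s6937)))))) (.a (.p (nat_lit 530) (.a (.p (nat_lit 561) (.a (.f (nat_lit 466) (nat_lit 593) (nat_lit 5585) (.f (nat_lit 563) (nat_lit 595) (nat_lit 4562) (.d (nat_lit 531) (nat_lit 434) (nat_lit 4530) (nat_lit 532) (nat_lit 2576)))) (.a (.f (nat_lit 466) (nat_lit 593) (nat_lit 5585) (.f (nat_lit 435) (nat_lit 467) (nat_lit 6578) (.f (nat_lit 434) (nat_lit 403) (nat_lit 6546) (.d (nat_lit 433) (nat_lit 401) (nat_lit 7569) (nat_lit 465) (nat_lit 7601))))) (.f (nat_lit 531) (nat_lit 559) (nat_lit 2575) (.d (nat_lit 532) (nat_lit 533) (nat_lit 1553) (nat_lit 563) (nat_lit 2576)))))) (.a (.p (nat_lit 466) (.a (.f (nat_lit 433) (nat_lit 465) (nat_lit 7601) (.f (nat_lit 434) (nat_lit 401) (nat_lit 7569) (.d (nat_lit 435) (nat_lit 403) (nat_lit 6546) (nat_lit 467) (nat_lit 6578)))) (.a (.f (nat_lit 563) (nat_lit 595) (nat_lit 4562) (.f (nat_lit 434) (nat_lit 531) (nat_lit 4530) (.d (nat_lit 435) (nat_lit 403) (nat_lit 6546) (nat_lit 467) (nat_lit 6578)))) (.f (nat_lit 465) (nat_lit 433) (nat_lit 7601) (.f (nat_lit 594) (nat_lit 497) (nat_lit 7633) (.d (nat_lit 595) (nat_lit 563) (nat_lit 4562) (nat_lit 627) (nat_lit 4594))))))) (.a (.p (nat_lit 466) (.a (.f (nat_lit 433) (nat_lit 465) (nat_lit 7601) (.f (nat_lit 434) (nat_lit 401) (nat_lit 7569) (.d (nat_lit 435) (nat_lit 403) (nat_lit 6546) (nat_lit 467) (nat_lit 6578)))) (.f (nat_lit 561) (nat_lit 593) (nat_lit 5585) (.d (nat_lit 563) (nat_lit 527) (nat_lit 3599) (nat_lit 595) (nat_lit 4562))))) (.a (.p (nat_lit 561) (.a (.f (nat_lit 466) (nat_lit 593) (nat_lit 5585) (.f (nat_lit 435) (nat_lit 467) (nat_lit 6578) (.f (nat_lit 434) (nat_lit 403) (nat_lit 6546) (.d (nat_lit 433) (nat_lit 401) (nat_lit 7569) (nat_lit 465) (nat_lit 7601))))) (.f (nat_lit 559) (nat_lit 531) (nat_lit 2575) (.f (nat_lit 591) (nat_lit 590) (nat_lit 1582) (.f (nat_lit 496) (nat_lit 464) (nat_lit 5583) (.d (nat_lit 623) (nat_lit 527) (nat_lit 6639) (nat_lit 655) (nat_lit 6671))))))) (.a s5982 s6094)))))) (.a s6452 (.a (.p (nat_lit 561) (.a (.f (nat_lit 563) (nat_lit 527) (nat_lit 3599) (.f (nat_lit 564) (nat_lit 529) (nat_lit 3600) (.d (nat_lit 596) (nat_lit 595) (nat_lit 560) (nat_lit 597) (nat_lit 561)))) (.a (.p (nat_lit 529) (.a (.f (nat_lit 563) (nat_lit 564) (nat_lit 3600) (.f (nat_lit 595) (nat_lit 596) (nat_lit 560) (.f (nat_lit 559) (nat_lit 594) (nat_lit 559) (.f (nat_lit 558) (nat_lit 557) (nat_lit 2573) (.d (nat_lit 590) (nat_lit 589) (nat_lit 1581) (nat_lit 591) (nat_lit 1582)))))) (.p (nat_lit 497) (.a (.f (nat_lit 593) (nat_lit 466) (nat_lit 6609) (.d (nat_lit 496) (nat_lit 464) (nat_lit 7632) (nat_lit 625) (nat_lit 7664))) (.a (.f (nat_lit 465) (nat_lit 433) (nat_lit 5552) (.d (nat_lit 466) (nat_lit 434) (nat_lit 6577) (nat_lit 593) (nat_lit 6609))) (.a (.f (nat_lit 465) (nat_lit 433) (nat_lit 5552) (.f (nat_lit 464) (nat_lit 432) (nat_lit 7600) (.f (nat_lit 466) (nat_lit 434) (nat_lit 6577) (.f (nat_lit 463) (nat_lit 462) (nat_lit 462) (.d (nat_lit 431) (nat_lit 430) (nat_lit 3502) (nat_lit 496) (nat_lit 7599)))))) (.f (nat_lit 465) (nat_lit 433) (nat_lit 5552) (.f (nat_lit 464) (nat_lit 432) (nat_lit 7600) (.f (nat_lit 496) (nat_lit 593) (nat_lit 4560) (.d (nat_lit 463) (nat_lit 431) (nat_lit 7599) (nat_lit 462) (nat_lit 462))))))))))) (.a (.p (nat_lit 559) (.a (.f (nat_lit 594) (nat_lit 595) (nat_lit 559) (.f (nat_lit 558) (nat_lit 593) (nat_lit 558) (.d (nat_lit 590) (nat_lit 589) (nat_lit 1581) (nat_lit 591) (nat_lit 1582)))) (.a (.f (nat_lit 591) (nat_lit 590) (nat_lit 1582) (.f (nat_lit 496) (nat_lit 464) (nat_lit 5583) (.d (nat_lit 623) (nat_lit 527) (nat_lit 6639) (nat_lit 655) (nat_lit 6671)))) (.f (nat_lit 563) (nat_lit 527) (nat_lit 3599) (.d (nat_lit 595) (nat_lit 594) (nat_lit 559) (nat_lit 596) (nat_lit 560)))))) (.a (.p (nat_lit 559) (.a (.f (nat_lit 594) (nat_lit 595) (nat_lit 559) (.f (nat_lit 558) (nat_lit 593) (nat_lit 558) (.d (nat_lit 590) (nat_lit 589) (nat_lit 1581) (nat_lit 591) (nat_lit 1582)))) (.a (.f (nat_lit 591) (nat_lit 590) (nat_lit 1582) (.f (nat_lit 496) (nat_lit 464) (nat_lit 5583) (.d (nat_lit 623) (nat_lit 527) (nat_lit 6639) (nat_lit 655) (nat_lit 6671)))) (.f (nat_lit 594) (nat_lit 595) (nat_lit 559) (.f (nat_lit 593) (nat_lit 558) (nat_lit 558) (.f (nat_lit 625) (nat_lit 657) (nat_lit 7696) (.d (nat_lit 496) (nat_lit 464) (nat_lit 4560) (nat_lit 529) (nat_lit 7664)))))))) (.f (nat_lit 563) (nat_lit 527) (nat_lit 3599) (.f (nat_lit 564) (nat_lit 529) (nat_lit 3600) (.d (nat_lit 532) (nat_lit 531) (nat_lit 2576) (nat_lit 533) (nat_lit 2577))))))))) (.a s6819 (.a (.p (nat_lit 530) (.a (.p (nat_lit 561) (.a (.f (nat_lit 531) (nat_lit 559) (nat_lit 2575) (.d (nat_lit 532) (nat_lit 529) (nat_lit 1552) (nat_lit 533) (nat_lit 1553))) (.a (.f (nat_lit 466) (nat_lit 593) (nat_lit 5585) (.f (nat_lit 563) (nat_lit 595) (nat_lit 4562) (.d (nat_lit 531) (nat_lit 434) (nat_lit 4530) (nat_lit 532) (nat_lit 2576)))) (.f (nat_lit 466) (nat_lit 593) (nat_lit 5585) (.f (nat_lit 529) (nat_lit 434) (nat_lit 5553) (.d (nat_lit 563) (nat_lit 564) (nat_lit 3600) (nat_lit 595) (nat_lit 4562))))))) (.a (.p (nat_lit 466) (.a (.f (nat_lit 433) (nat_lit 465) (nat_lit 7601) (.f (nat_lit 434) (nat_lit 401) (nat_lit 7569) (.d (nat_lit 435) (nat_lit 403) (nat_lit 6546) (nat_lit 467) (nat_lit 6578)))) (.a (.f (nat_lit 563) (nat_lit 595) (nat_lit 4562) (.f (nat_lit 529) (nat_lit 527) (nat_lit 527) (.d (nat_lit 531) (nat_lit 434) (nat_lit 4530) (nat_lit 564) (nat_lit 528)))) (.f (nat_lit 563) (nat_lit 595) (nat_lit 4562) (.f (nat_lit 529) (nat_lit 527) (nat_lit 527) (.d (nat_lit 564) (nat_lit 531) (nat_lit 528) (nat_lit 565) (nat_lit 3601))))))) (.a (.p (nat_lit 561) (.a (.f (nat_lit 466) (nat_lit 593) (nat_lit 5585) (.f (nat_lit 563) (nat_lit 595) (nat_lit 4562) (.d (nat_lit 531) (nat_lit 434) (nat_lit 4530) (nat_lit 532) (nat_lit 2576)))) (.a (.f (nat_lit 466) (nat_lit 593) (nat_lit 5585) (.f (nat_lit 435) (nat_lit 467) (nat_lit 6578) (.f (nat_lit 434) (nat_lit 403) (nat_lit 6546) (.d (nat_lit 433) (nat_lit 401) (nat_lit 7569) (nat_lit 465) (nat_lit 7601))))) (.f (nat_lit 531) (nat_lit 559) (nat_lit 2575) (.d (nat_lit 532) (nat_lit 533) (nat_lit 1553) (nat_lit 563) (nat_lit 2576)))))) (.a s5340 (.a (.p (nat_lit 561) (.a (.f (nat_lit 531) (nat_lit 559) (nat_lit 2575) (.d (nat_lit 532) (nat_lit 529) (nat_lit 1552) (nat_lit 533) (nat_lit 1553))) (.f (nat_lit 466) (nat_lit 593) (nat_lit 5585) (.f (nat_lit 435) (nat_lit 467) (nat_lit 6578) (.f (nat_lit 434) (nat_lit 403) (nat_lit 6546) (.d (nat_lit 433) (nat_lit 401) (nat_lit 7569) (nat_lit 465) (nat_lit 7601))))))) (.p (nat_lit 561) (.a (.f (nat_lit 531) (nat_lit 559) (nat_lit 2575) (.d (nat_lit 532) (nat_lit 529) (nat_lit 1552) (nat_lit 533) (nat_lit 1553))) (.a (.f (nat_lit 531) (nat_lit 559) (nat_lit 2575) (.d (nat_lit 532) (nat_lit 533) (nat_lit 1553) (nat_lit 563) (nat_lit 2576))) (.f (nat_lit 563) (nat_lit 527) (nat_lit 3599) (.f (nat_lit 564) (nat_lit 529) (nat_lit 3600) (.d (nat_lit 596) (nat_lit 595) (nat_lit 560) (nat_lit 597) (nat_lit 561))))))))))))) (.a (.p (nat_lit 561) (.a (.p (nat_lit 530) (.a (.f (nat_lit 531) (nat_lit 559) (nat_lit 2575) (.d (nat_lit 532) (nat_lit 529) (nat_lit 1552) (nat_lit 533) (nat_lit 1553))) (.f (nat_lit 466) (nat_lit 593) (nat_lit 5585) (.f (nat_lit 435) (nat_lit 467) (nat_lit 6578) (.f (nat_lit 434) (nat_lit 403) (nat_lit 6546) (.d (nat_lit 433) (nat_lit 401) (nat_lit 7569) (nat_lit 465) (nat_lit 7601))))))) (.a (.p (nat_lit 530) (.a (.f (nat_lit 466) (nat_lit 593) (nat_lit 5585) (.f (nat_lit 435) (nat_lit 467) (nat_lit 6578) (.f (nat_lit 434) (nat_lit 403) (nat_lit 6546) (.d (nat_lit 433) (nat_lit 401) (nat_lit 7569) (nat_lit 465) (nat_lit 7601))))) (.f (nat_lit 559) (nat_lit 531) (nat_lit 2575) (.f (nat_lit 591) (nat_lit 590) (nat_lit 1582) (.f (nat_lit 496) (nat_lit 464) (nat_lit 5583) (.d (nat_lit 623) (nat_lit 527) (nat_lit 6639) (nat_lit 655) (nat_lit 6671))))))) (.a (.p (nat_lit 559) (.a (.f (nat_lit 594) (nat_lit 595) (nat_lit 559) (.f (nat_lit 558) (nat_lit 593) (nat_lit 558) (.d (nat_lit 590) (nat_lit 589) (nat_lit 1581) (nat_lit 591) (nat_lit 1582)))) (.a (.f (nat_lit 591) (nat_lit 590) (nat_lit 1582) (.f (nat_lit 496) (nat_lit 464) (nat_lit 5583) (.d (nat_lit 623) (nat_lit 527) (nat_lit 6639) (nat_lit 655) (nat_lit 6671)))) (.f (nat_lit 594) (nat_lit 595) (nat_lit 559) (.f (nat_lit 593) (nat_lit 558) (nat_lit 558) (.f (nat_lit 625) (nat_lit 657) (nat_lit 7696) (.d (nat_lit 496) (nat_lit 464) (nat_lit 4560) (nat_lit 529) (nat_lit 7664)))))))) (.a (.p (nat_lit 559) (.a (.f (nat_lit 590) (nat_lit 591) (nat_lit 1582) (.f (nat_lit 558) (nat_lit 589) (nat_lit 1581) (.d (nat_lit 529) (nat_lit 530) (nat_lit 2574) (nat_lit 557) (nat_lit 2573)))) (.a (.f (nat_lit 591) (nat_lit 590) (nat_lit 1582) (.f (nat_lit 496) (nat_lit 464) (nat_lit 5583) (.d (nat_lit 623) (nat_lit 527) (nat_lit 6639) (nat_lit 655) (nat_lit 6671)))) (.f (nat_lit 530) (nat_lit 531) (nat_lit 2575) (.f (nat_lit 529) (nat_lit 558) (nat_lit 2574) (.f (nat_lit 594) (nat_lit 595) (nat_lit 559) (.d (nat_lit 497) (nat_lit 465) (nat_lit 4561) (nat_lit 626) (nat_lit 7665)))))))) (.p (nat_lit 593) (.a (.f (nat_lit 625) (nat_lit 657) (nat_lit 7696) (.d (nat_lit 496) (nat_lit 464) (nat_lit 4560) (nat_lit 529) (nat_lit 7664))) (.a (.f (nat_lit 530) (nat_lit 466) (nat_lit 5585) (.d (nat_lit 625) (nat_lit 529) (nat_lit 6641) (nat_lit 594) (nat_lit 5617))) (.a (.f (nat_lit 530) (nat_lit 466) (nat_lit 5585) (.d (nat_lit 625) (nat_lit 594) (nat_lit 5617) (nat_lit 657) (nat_lit 7696))) (.f (nat_lit 466) (nat_lit 530) (nat_lit 5585) (.f (nat_lit 497) (nat_lit 529) (nat_lit 6609) (.f (nat_lit 496) (nat_lit 464) (nat_lit 4560) (.f (nat_lit 495) (nat_lit 467) (nat_lit 2511) (.f (nat_lit 463) (nat_lit 462) (nat_lit 3534) (.d (nat_lit 431) (nat_lit 399) (nat_lit 4495) (nat_lit 527) (nat_lit 4527)))))))))))))))) (.a s6969 (.a s6970 (.a (.p (nat_lit 530) (.a (.p (nat_lit 561) (.a (.f (nat_lit 531) (nat_lit 559) (nat_lit 2575) (.d (nat_lit 532) (nat_lit 529) (nat_lit 1552) (nat_lit 533) (nat_lit 1553))) (.f (nat_lit 466) (nat_lit 593) (nat_lit 5585) (.f (nat_lit 435) (nat_lit 467) (nat_lit 6578) (.f (nat_lit 434) (nat_lit 403) (nat_lit 6546) (.d (nat_lit 433) (nat_lit 401) (nat_lit 7569) (nat_lit 465) (nat_lit 7601))))))) (.a s6937 (.a (.p (nat_lit 561) (.a (.f (nat_lit 466) (nat_lit 593) (nat_lit 5585) (.f (nat_lit 435) (nat_lit 467) (nat_lit 6578) (.f (nat_lit 434) (nat_lit 403) (nat_lit 6546) (.d (nat_lit 433) (nat_lit 401) (nat_lit 7569) (nat_lit 465) (nat_lit 7601))))) (.f (nat_lit 559) (nat_lit 531) (nat_lit 2575) (.f (nat_lit 591) (nat_lit 590) (nat_lit 1582) (.f (nat_lit 496) (nat_lit 464) (nat_lit 5583) (.d (nat_lit 623) (nat_lit 527) (nat_lit 6639) (nat_lit 655) (nat_lit 6671))))))) (.a s6609 (.a s6864 (.p (nat_lit 561) (.a (.f (nat_lit 531) (nat_lit 559) (nat_lit 2575) (.d (nat_lit 532) (nat_lit 529) (nat_lit 1552) (nat_lit 533) (nat_lit 1553))) (.a (.f (nat_lit 531) (nat_lit 559) (nat_lit 2575) (.d (nat_lit 532) (nat_lit 533) (nat_lit 1553) (nat_lit 563) (nat_lit 2576))) (.f (nat_lit 593) (nat_lit 466) (nat_lit 5585) (.d (nat_lit 625) (nat_lit 594) (nat_lit 5617) (nat_lit 657) (nat_lit 7696)))))))))))) s6974))))))))))))) (.a (.p (nat_lit 562) (.a s5296 (.a (.p (nat_lit 530) (.a (.p (nat_lit 561) (.a (.f (nat_lit 531) (nat_lit 559) (nat_lit 2575) (.d (nat_lit 532) (nat_lit 529) (nat_lit 1552) (nat_lit 533) (nat_lit 1553))) (.a (.f (nat_lit 466) (nat_lit 593) (nat_lit 5585) (.f (nat_lit 563) (nat_lit 595) (nat_lit 4562) (.d (nat_lit 531) (nat_lit 434) (nat_lit 4530) (nat_lit 532) (nat_lit 2576)))) (.f (nat_lit 466) (nat_lit 593) (nat_lit 5585) (.f (nat_lit 529) (nat_lit 434) (nat_lit 5553) (.d (nat_lit 563) (nat_lit 564) (nat_lit 3600) (nat_lit 595) (nat_lit 4562))))))) (.a (.p (nat_lit 594) (.a (.f (nat_lit 625) (nat_lit 593) (nat_lit 5617) (.f (nat_lit 626) (nat_lit 657) (nat_lit 5649) (.d (nat_lit 499) (nat_lit 467) (nat_lit 6610) (nat_lit 531) (nat_lit 6642)))) (.a (.f (nat_lit 467) (nat_lit 499) (nat_lit 6610) (.f (nat_lit 466) (nat_lit 435) (nat_lit 6578) (.d (nat_lit 595) (nat_lit 563) (nat_lit 4562) (nat_lit 627) (nat_lit 4594)))) (.f (nat_lit 625) (nat_lit 593) (nat_lit 5617) (.f (nat_lit 626) (nat_lit 657) (nat_lit 5649) (.d (nat_lit 627) (nat_lit 595) (nat_lit 4594) (nat_lit 659) (nat_lit 4626))))))) (.a s5459 (.a s5460 (.a s5616 (.a (.p (nat_lit 594) (.a (.f (nat_lit 595) (nat_lit 627) (nat_lit 4594) (.f (nat_lit 561) (nat_lit 559) (nat_lit 559) (.d (nat_lit 593) (nat_lit 596) (nat_lit 3632) (nat_lit 625) (nat_lit 5617)))) (.a (.f (nat_lit 625) (nat_lit 593) (nat_lit 5617) (.f (nat_lit 626) (nat_lit 657) (nat_lit 5649) (.d (nat_lit 499) (nat_lit 467) (nat_lit 6610) (nat_lit 531) (nat_lit 6642)))) (.f (nat_lit 595) (nat_lit 627) (nat_lit 4594) (.f (nat_lit 561) (nat_lit 559) (nat_lit 559) (.d (nat_lit 596) (nat_lit 563) (nat_lit 560) (nat_lit 597) (nat_lit 3633))))))) (.p (nat_lit 561) (.a (.f (nat_lit 531) (nat_lit 559) (nat_lit 2575) (.d (nat_lit 532) (nat_lit 529) (nat_lit 1552) (nat_lit 533) (nat_lit 1553))) (.a (.f (nat_lit 531) (nat_lit 559) (nat_lit 2575) (.d (nat_lit 532) (nat_lit 533) (nat_lit 1553) (nat_lit 563) (nat_lit 2576))) (.f (nat_lit 593) (nat_lit 466) (nat_lit 5585) (.d (nat_lit 625) (nat_lit 594) (nat_lit 5617) (nat_lit 657) (nat_lit 7696))))))))))))) (.a (.p (nat_lit 530) (.a (.p (nat_lit 594) (.a (.f (nat_lit 499) (nat_lit 467) (nat_lit 6610) (.f (nat_lit 529) (nat_lit 527) (nat_lit 2543) (.d (nat_lit 500) (nat_lit 501) (nat_lit 1521) (nat_lit 531) (nat_lit 2544)))) (.a (.f (nat_lit 625) (nat_lit 593) (nat_lit 5617) (.f (nat_lit 626) (nat_lit 657) (nat_lit 5649) (.d (nat_lit 499) (nat_lit 467) (nat_lit 6610) (nat_lit 531) (nat_lit 6642)))) (.f (nat_lit 625) (nat_lit 593) (nat_lit 5617) (.f (nat_lit 626) (nat_lit 657) (nat_lit 5649) (.d (nat_lit 627) (nat_lit 595) (nat_lit 4594) (nat_lit 659) (nat_lit 4626))))))) (.a (.p (nat_lit 594) (.a (.f (nat_lit 625) (nat_lit 593) (nat_lit 5617) (.f (nat_lit 626) (nat_lit 657) (nat_lit 5649) (.d (nat_lit 499) (nat_lit 467) (nat_lit 6610) (nat_lit 531) (nat_lit 6642)))) (.a (.f (nat_lit 467) (nat_lit 499) (nat_lit 6610) (.f (nat_lit 466) (nat_lit 435) (nat_lit 6578) (.d (nat_lit 595) (nat_lit 563) (nat_lit 4562) (nat_lit 627) (nat_lit 4594)))) (.f (nat_lit 625) (nat_lit 593) (nat_lit 5617) (.f (nat_lit 626) (nat_lit 657) (nat_lit 5649) (.d (nat_lit 627) (nat_lit 595) (nat_lit 4594) (nat_lit 659) (nat_lit 4626))))))) (.a (.p (nat_lit 594) (.a (.f (nat_lit 467) (nat_lit 499) (nat_lit 6610) (.f (nat_lit 466) (nat_lit 435) (nat_lit 6578) (.d (nat_lit 595) (nat_lit 563) (nat_lit 4562) (nat_lit 627) (nat_lit 4594)))) (.a (.f (nat_lit 625) (nat_lit 593) (nat_lit 5617) (.f (nat_lit 626) (nat_lit 657) (nat_lit 5649) (.d (nat_lit 627) (nat_lit 595) (nat_lit 4594) (nat_lit 659) (nat_lit 4626)))) (.f (nat_lit 499) (nat_lit 467) (nat_lit 6610) (.f (nat_lit 529) (nat_lit 527) (nat_lit 2543) (.d (nat_lit 497) (nat_lit 500) (nat_lit 1520) (nat_lit 626) (nat_lit 7665))))))) (.a s5248 s6922))))) (.a (.p (nat_lit 594) (.a s5265 (.a (.p (nat_lit 530) (.a (.f (nat_lit 625) (nat_lit 593) (nat_lit 5617) (.f (nat_lit 626) (nat_lit 657) (nat_lit 5649) (.d (nat_lit 499) (nat_lit 467) (nat_lit 6610) (nat_lit 531) (nat_lit 6642)))) (.a (.f (nat_lit 467) (nat_lit 499) (nat_lit 6610) (.f (nat_lit 466) (nat_lit 435) (nat_lit 6578) (.d (nat_lit 595) (nat_lit 563) (nat_lit 4562) (nat_lit 627) (nat_lit 4594)))) (.f (nat_lit 625) (nat_lit 593) (nat_lit 5617) (.f (nat_lit 626) (nat_lit 657) (nat_lit 5649) (.d (nat_lit 627) (nat_lit 595) (nat_lit 4594) (nat_lit 659) (nat_lit 4626))))))) (.a (.p (nat_lit 530) (.a (.f (nat_lit 595) (nat_lit 627) (nat_lit 4594) (.f (nat_lit 561) (nat_lit 559) (nat_lit 559) (.d (nat_lit 466) (nat_lit 563) (nat_lit 4562) (nat_lit 593) (nat_lit 5585)))) (.a (.f (nat_lit 467) (nat_lit 499) (nat_lit 6610) (.f (nat_lit 466) (nat_lit 435) (nat_lit 6578) (.d (nat_lit 595) (nat_lit 563) (nat_lit 4562) (nat_lit 627) (nat_lit 4594)))) (.a (.f (nat_lit 595) (nat_lit 627) (nat_lit 4594) (.f (nat_lit 561) (nat_lit 559) (nat_lit 559) (.d (nat_lit 593) (nat_lit 596) (nat_lit 3632) (nat_lit 625) (nat_lit 5617)))) (.f (nat_lit 593) (nat_lit 625) (nat_lit 5617) (.f (nat_lit 466) (nat_lit 561) (nat_lit 5585) (.d (nat_lit 467) (nat_lit 435) (nat_lit 6578) (nat_lit 499) (nat_lit 6610)))))))) (.a s5282 (.a s5294 (.a (.p (nat_lit 530) (.a (.f (nat_lit 595) (nat_lit 627) (nat_lit 4594) (.f (nat_lit 561) (nat_lit 559) (nat_lit 559) (.d (nat_lit 466) (nat_lit 563) (nat_lit 4562) (nat_lit 593) (nat_lit 5585)))) (.a (.f (nat_lit 625) (nat_lit 593) (nat_lit 5617) (.f (nat_lit 626) (nat_lit 657) (nat_lit 5649) (.d (nat_lit 627) (nat_lit 595) (nat_lit 4594) (nat_lit 659) (nat_lit 4626)))) (.a (.f (nat_lit 595) (nat_lit 627) (nat_lit 4594) (.f (nat_lit 561) (nat_lit 559) (nat_lit 559) (.d (nat_lit 563) (nat_lit 466) (nat_lit 4562) (nat_lit 596) (nat_lit 560)))) (.f (nat_lit 593) (nat_lit 625) (nat_lit 5617) (.f (nat_lit 561) (nat_lit 466) (nat_lit 5585) (.d (nat_lit 559) (nat_lit 531) (nat_lit 2575) (nat_lit 558) (nat_lit 558)))))))) (.a (.p (nat_lit 530) (.a (.f (nat_lit 595) (nat_lit 627) (nat_lit 4594) (.f (nat_lit 561) (nat_lit 559) (nat_lit 559) (.d (nat_lit 593) (nat_lit 596) (nat_lit 3632) (nat_lit 625) (nat_lit 5617)))) (.a (.f (nat_lit 625) (nat_lit 593) (nat_lit 5617) (.f (nat_lit 626) (nat_lit 657) (nat_lit 5649) (.d (nat_lit 499) (nat_lit 467) (nat_lit 6610) (nat_lit 531) (nat_lit 6642)))) (.f (nat_lit 595) (nat_lit 627) (nat_lit 4594) (.f (nat_lit 561) (nat_lit 559) (nat_lit 559) (.d (nat_lit 596) (nat_lit 563) (nat_lit 560) (nat_lit 597) (nat_lit 3633))))))) (.p (nat_lit 530) (.a (.f (nat_lit 593) (nat_lit 625) (nat_lit 5617) (.f (nat_lit 561) (nat_lit 466) (nat_lit 5585) (.d (nat_lit 559) (nat_lit 531) (nat_lit 2575) (nat_lit 558) (nat_lit 558)))) (.a (.f (nat_lit 625) (nat_lit 593) (nat_lit 5617) (.f (nat_lit 626) (nat_lit 657) (nat_lit 5649) (.d (nat_lit 499) (nat_lit 467) (nat_lit 6610) (nat_lit 531) (nat_lit 6642)))) (.a (.f (nat_lit 593) (nat_lit 625) (nat_lit 5617) (.f (nat_lit 466) (nat_lit 561) (nat_lit 5585) (.d (nat_lit 467) (nat_lit 435) (nat_lit 6578) (nat_lit 499) (nat_lit 6610)))) (.f (nat_lit 499) (nat_lit 467) (nat_lit 6610) (.f (nat_lit 531) (nat_lit 626) (nat_lit 6642) (.f (nat_lit 561) (nat_lit 559) (nat_lit 2575) (.d (nat_lit 532) (nat_lit 533) (nat_lit 1553) (nat_lit 563) (nat_lit 2576))))))))))))))))) (.a s6452 (.a s5327 (.a s6802 (.a (.p (nat_lit 530) (.a (.p (nat_lit 594) (.a (.f (nat_lit 593) (nat_lit 625) (nat_lit 5617) (.f (nat_lit 561) (nat_lit 466) (nat_lit 5585) (.d (nat_lit 559) (nat_lit 531) (nat_lit 2575) (nat_lit 558) (nat_lit 558)))) (.a (.f (nat_lit 499) (nat_lit 467) (nat_lit 6610) (.f (nat_lit 529) (nat_lit 527) (nat_lit 2543) (.d (nat_lit 500) (nat_lit 501) (nat_lit 1521) (nat_lit 531) (nat_lit 2544)))) (.f (nat_lit 595) (nat_lit 627) (nat_lit 4594) (.f (nat_lit 561) (nat_lit 559) (nat_lit 559) (.d (nat_lit 593) (nat_lit 596) (nat_lit 3632) (nat_lit 625) (nat_lit 5617))))))) (.a s5616 (.a (.p (nat_lit 594) (.a (.f (nat_lit 499) (nat_lit 467) (nat_lit 6610) (.f (nat_lit 529) (nat_lit 527) (nat_lit 2543) (.d (nat_lit 500) (nat_lit 501) (nat_lit 1521) (nat_lit 531) (nat_lit 2544)))) (.a (.f (nat_lit 625) (nat_lit 593) (nat_lit 5617) (.f (nat_lit 626) (nat_lit 657) (nat_lit 5649) (.d (nat_lit 499) (nat_lit 467) (nat_lit 6610) (nat_lit 531) (nat_lit 6642)))) (.f (nat_lit 625) (nat_lit 593) (nat_lit 5617) (.f (nat_lit 626) (nat_lit 657) (nat_lit 5649) (.d (nat_lit 627) (nat_lit 595) (nat_lit 4594) (nat_lit 659) (nat_lit 4626))))))) (.a s5976 (.a (.p (nat_lit 594) (.a (.f (nat_lit 595) (nat_lit 627) (nat_lit 4594) (.f (nat_lit 561) (nat_lit 559) (nat_lit 559) (.d (nat_lit 593) (nat_lit 596) (nat_lit 3632) (nat_lit 625) (nat_lit 5617)))) (.a (.f (nat_lit 625) (nat_lit 593) (nat_lit 5617) (.f (nat_lit 626) (nat_lit 657) (nat_lit 5649) (.d (nat_lit 627) (nat_lit 595) (nat_lit 4594) (nat_lit 659) (nat_lit 4626)))) (.f (nat_lit 499) (nat_lit 467) (nat_lit 6610) (.f (nat_lit 529) (nat_lit 527) (nat_lit 2543) (.d (nat_lit 497) (nat_lit 500) (nat_lit 1520) (nat_lit 626) (nat_lit 7665))))))) (.a s5248 (.p (nat_lit 594) (.a (.f (nat_lit 593) (nat_lit 625) (nat_lit 5617) (.f (nat_lit 561) (nat_lit 466) (nat_lit 5585) (.d (nat_lit 559) (nat_lit 531) (nat_lit 2575) (nat_lit 558) (nat_lit 558)))) (.a (.f (nat_lit 625) (nat_lit 593) (nat_lit 5617) (.f (nat_lit 626) (nat_lit 657) (nat_lit 5649) (.d (nat_lit 627) (nat_lit 595) (nat_lit 4594) (nat_lit 659) (nat_lit 4626)))) (.f (nat_lit 595) (nat_lit 627) (nat_lit 4594) (.f (nat_lit 559) (nat_lit 561) (nat_lit 559) (.f (nat_lit 529) (nat_lit 531) (nat_lit 1551) (.d (nat_lit 558) (nat_lit 527) (nat_lit 1550) (nat_lit 557) (nat_lit 2573))))))))))))))) (.a s6986 (.a (.p (nat_lit 594) (.a (.p (nat_lit 561) (.a (.f (nat_lit 563) (nat_lit 527) (nat_lit 3599) (.d (nat_lit 595) (nat_lit 559) (nat_lit 559) (nat_lit 596) (nat_lit 560))) (.a (.f (nat_lit 595) (nat_lit 559) (nat_lit 559) (.d (nat_lit 596) (nat_lit 563) (nat_lit 560) (nat_lit 593) (nat_lit 3632))) (.a (.f (nat_lit 559) (nat_lit 595) (nat_lit 559) (.f (nat_lit 558) (nat_lit 593) (nat_lit 558) (.d (nat_lit 590) (nat_lit 589) (nat_lit 1581) (nat_lit 591) (nat_lit 1582)))) (.f (nat_lit 563) (nat_lit 527) (nat_lit 3599) (.f (nat_lit 564) (nat_lit 529) (nat_lit 3600) (.d (nat_lit 532) (nat_lit 531) (nat_lit 2576) (nat_lit 533) (nat_lit 2577)))))))) (.a (.p (nat_lit 530) (.a (.f (nat_lit 595) (nat_lit 627) (nat_lit 4594) (.f (nat_lit 561) (nat_lit 559) (nat_lit 559) (.d (nat_lit 593) (nat_lit 596) (nat_lit 3632) (nat_lit 625) (nat_lit 5617)))) (.a (.f (nat_lit 625) (nat_lit 593) (nat_lit 5617) (.f (nat_lit 626) (nat_lit 657) (nat_lit 5649) (.d (nat_lit 499) (nat_lit 467) (nat_lit 6610) (nat_lit 531) (nat_lit 6642)))) (.f (nat_lit 499) (nat_lit 467) (nat_lit 6610) (.f (nat_lit 531) (nat_lit 626) (nat_lit 6642) (.d (nat_lit 529) (nat_lit 500) (nat_lit 2544) (nat_lit 559) (nat_lit 1551))))))) (.a (.p (nat_lit 530) (.a (.f (nat_lit 499) (nat_lit 467) (nat_lit 6610) (.f (nat_lit 529) (nat_lit 527) (nat_lit 2543) (.d (nat_lit 500) (nat_lit 501) (nat_lit 1521) (nat_lit 531) (nat_lit 2544)))) (.a (.f (nat_lit 625) (nat_lit 593) (nat_lit 5617) (.f (nat_lit 626) (nat_lit 657) (nat_lit 5649) (.d (nat_lit 499) (nat_lit 467) (nat_lit 6610) (nat_lit 531) (nat_lit 6642)))) (.f (nat_lit 625) (nat_lit 593) (nat_lit 5617) (.f (nat_lit 626) (nat_lit 657) (nat_lit 5649) (.d (nat_lit 627) (nat_lit 595) (nat_lit 4594) (nat_lit 659) (nat_lit 4626))))))) (.a (.p (nat_lit 530) (.a (.f (nat_lit 595) (nat_lit 627) (nat_lit 4594) (.f (nat_lit 561) (nat_lit 559) (nat_lit 559) (.d (nat_lit 593) (nat_lit 596) (nat_lit 3632) (nat_lit 625) (nat_lit 5617)))) (.a (.f (nat_lit 625) (nat_lit 593) (nat_lit 5617) (.f (nat_lit 626) (nat_lit 657) (nat_lit 5649) (.d (nat_lit 499) (nat_lit 467) (nat_lit 6610) (nat_lit 531) (nat_lit 6642)))) (.f (nat_lit 595) (nat_lit 627) (nat_lit 4594) (.f (nat_lit 561) (nat_lit 559) (nat_lit 559) (.d (nat_lit 596) (nat_lit 563) (nat_lit 560) (nat_lit 597) (nat_lit 3633))))))) (.a s6496 (.p (nat_lit 530) (.a (.f (nat_lit 499) (nat_lit 467) (nat_lit 6610) (.f (nat_lit 529) (nat_lit 527) (nat_lit 2543) (.d (nat_lit 500) (nat_lit 501) (nat_lit 1521) (nat_lit 531) (nat_lit 2544)))) (.a (.f (nat_lit 625) (nat_lit 593) (nat_lit 5617) (.f (nat_lit 626) (nat_lit 657) (nat_lit 5649) (.d (nat_lit 499) (nat_lit 467) (nat_lit 6610) (nat_lit 531) (nat_lit 6642)))) (.a (.f (nat_lit 499) (nat_lit 467) (nat_lit 6610) (.f (nat_lit 529) (nat_lit 527) (nat_lit 2543) (.d (nat_lit 497) (nat_lit 500) (nat_lit 1520) (nat_lit 626) (nat_lit 7665)))) (.f (nat_lit 625) (nat_lit 593) (nat_lit 5617) (.f (nat_lit 626) (nat_lit 657) (nat_lit 5649) (.f (nat_lit 529) (nat_lit 497) (nat_lit 7665) (.f (nat_lit 563) (nat_lit 527) (nat_lit 527) (.d (nat_lit 531) (nat_lit 559) (nat_lit 1551) (nat_lit 564) (nat_lit 528)))))))))))))))) (.a (.p (nat_lit 530) (.a s5248 (.a (.p (nat_lit 561) (.a (.f (nat_lit 531) (nat_lit 559) (nat_lit 2575) (.d (nat_lit 532) (nat_lit 529) (nat_lit 1552) (nat_lit 533) (nat_lit 1553))) (.a (.f (nat_lit 531) (nat_lit 559) (nat_lit 2575) (.d (nat_lit 532) (nat_lit 533) (nat_lit 1553) (nat_lit 563) (nat_lit 2576))) (.f (nat_lit 593) (nat_lit 466) (nat_lit 5585) (.d (nat_lit 625) (nat_lit 594) (nat_lit 5617) (nat_lit 657) (nat_lit 7696)))))) (.a s6096 (.p (nat_lit 594) (.a (.f (nat_lit 593) (nat_lit 625) (nat_lit 5617) (.f (nat_lit 561) (nat_lit 466) (nat_lit 5585) (.f (nat_lit 563) (nat_lit 527) (nat_lit 3599) (.d (nat_lit 564) (nat_lit 529) (nat_lit 3600) (nat_lit 565) (nat_lit 1585))))) (.a (.f (nat_lit 593) (nat_lit 625) (nat_lit 5617) (.f (nat_lit 466) (nat_lit 561) (nat_lit 5585) (.d (nat_lit 467) (nat_lit 435) (nat_lit 6578) (nat_lit 499) (nat_lit 6610)))) (.f (nat_lit 499) (nat_lit 467) (nat_lit 6610) (.f (nat_lit 529) (nat_lit 527) (nat_lit 2543) (.d (nat_lit 497) (nat_lit 500) (nat_lit 1520) (nat_lit 626) (nat_lit 7665))))))))))) (.p (nat_lit 530) (.a (.p (nat_lit 594) (.a (.f (nat_lit 593) (nat_lit 625) (nat_lit 5617) (.f (nat_lit 561) (nat_lit 466) (nat_lit 5585) (.d (nat_lit 559) (nat_lit 531) (nat_lit 2575) (nat_lit 558) (nat_lit 558)))) (.a (.f (nat_lit 499) (nat_lit 467) (nat_lit 6610) (.f (nat_lit 529) (nat_lit 527) (nat_lit 2543) (.d (nat_lit 500) (nat_lit 501) (nat_lit 1521) (nat_lit 531) (nat_lit 2544)))) (.f (nat_lit 595) (nat_lit 627) (nat_lit 4594) (.f (nat_lit 561) (nat_lit 559) (nat_lit 559) (.d (nat_lit 593) (nat_lit 596) (nat_lit 3632) (nat_lit 625) (nat_lit 5617))))))) (.a (.p (nat_lit 594) (.a (.f (nat_lit 595) (nat_lit 627) (nat_lit 4594) (.f (nat_lit 561) (nat_lit 559) (nat_lit 559) (.d (nat_lit 593) (nat_lit 596) (nat_lit 3632) (nat_lit 625) (nat_lit 5617)))) (.a (.f (nat_lit 625) (nat_lit 593) (nat_lit 5617) (.f (nat_lit 626) (nat_lit 657) (nat_lit 5649) (.d (nat_lit 499) (nat_lit 467) (nat_lit 6610) (nat_lit 531) (nat_lit 6642)))) (.f (nat_lit 595) (nat_lit 627) (nat_lit 4594) (.f (nat_lit 561) (nat_lit 559) (nat_lit 559) (.d (nat_lit 596) (nat_lit 563) (nat_lit 560) (nat_lit 597) (nat_lit 3633))))))) (.a (.p (nat_lit 594) (.a (.f (nat_lit 499) (nat_lit 467) (nat_lit 6610) (.f (nat_lit 529) (nat_lit 527) (nat_lit 2543) (.d (nat_lit 500) (nat_lit 501) (nat_lit 1521) (nat_lit 531) (nat_lit 2544)))) (.a (.f (nat_lit 625) (nat_lit 593) (nat_lit 5617) (.f (nat_lit 626) (nat_lit 657) (nat_lit 5649) (.d (nat_lit 499) (nat_lit 467) (nat_lit 6610) (nat_lit 531) (nat_lit 6642)))) (.f (nat_lit 625) (nat_lit 593) (nat_lit 5617) (.f (nat_lit 626) (nat_lit 657) (nat_lit 5649) (.d (nat_lit 627) (nat_lit 595) (nat_lit 4594) (nat_lit 659) (nat_lit 4626))))))) (.a s5459 (.a s5460 (.a (.p (nat_lit 561) (.a (.f (nat_lit 531) (nat_lit 559) (nat_lit 2575) (.d (nat_lit 532) (nat_lit 529) (nat_lit 1552) (nat_lit 533) (nat_lit 1553))) (.f (nat_lit 563) (nat_lit 527) (nat_lit 3599) (.d (nat_lit 595) (nat_lit 466) (nat_lit 4562) (nat_lit 596) (nat_lit 560))))) (.p (nat_lit 561) (.a (.f (nat_lit 531) (nat_lit 559) (nat_lit 2575) (.d (nat_lit 532) (nat_lit 529) (nat_lit 1552) (nat_lit 533) (nat_lit 1553))) (.a (.f (nat_lit 531) (nat_lit 559) (nat_lit 2575) (.d (nat_lit 532) (nat_lit 533) (nat_lit 1553) (nat_lit 563) (nat_lit 2576))) (.f (nat_lit 593) (nat_lit 466) (nat_lit 5585) (.d (nat_lit 625) (nat_lit 594) (nat_lit 5617) (nat_lit 657) (nat_lit 7696))))))))))))))))))))))))) (.a (.p (nat_lit 562) (.a s5368 (.a (.p (nat_lit 530) (.a (.p (nat_lit 594) (.a (.f (nat_lit 497) (nat_lit 465) (nat_lit 7633) (.f (nat_lit 529) (nat_lit 626) (nat_lit 7665) (.d (nat_lit 499) (nat_lit 467) (nat_lit 6610) (nat_lit 500) (nat_lit 1520)))) (.f (nat_lit 595) (nat_lit 627) (nat_lit 4594) (.f (nat_lit 561) (nat_lit 559) (nat_lit 559) (.d (nat_lit 593) (nat_lit 596) (nat_lit 3632) (nat_lit 625) (nat_lit 5617)))))) (.a s5447 (.a (.p (nat_lit 594) (.a (.f (nat_lit 595) (nat_lit 627) (nat_lit 4594) (.f (nat_lit 561) (nat_lit 559) (nat_lit 559) (.d (nat_lit 593) (nat_lit 596) (nat_lit 3632) (nat_lit 625) (nat_lit 5617)))) (.a (.f (nat_lit 625) (nat_lit 593) (nat_lit 5617) (.f (nat_lit 626) (nat_lit 657) (nat_lit 5649) (.d (nat_lit 499) (nat_lit 467) (nat_lit 6610) (nat_lit 531) (nat_lit 6642)))) (.f (nat_lit 595) (nat_lit 627) (nat_lit 4594) (.f (nat_lit 561) (nat_lit 559) (nat_lit 559) (.d (nat_lit 596) (nat_lit 563) (nat_lit 560) (nat_lit 597) (nat_lit 3633))))))) (.a (.p (nat_lit 594) (.a (.f (nat_lit 497) (nat_lit 465) (nat_lit 7633) (.f (nat_lit 529) (nat_lit 626) (nat_lit 7665) (.d (nat_lit 499) (nat_lit 467) (nat_lit 6610) (nat_lit 500) (nat_lit 1520)))) (.f (nat_lit 595) (nat_lit 627) (nat_lit 4594) (.f (nat_lit 561) (nat_lit 559) (nat_lit 559) (.d (nat_lit 596) (nat_lit 563) (nat_lit 560) (nat_lit 597) (nat_lit 3633)))))) (.a (.p (nat_lit 496) (.a s5444 (.a (.p (nat_lit 561) (.a (.f (nat_lit 531) (nat_lit 559) (nat_lit 2575) (.d (nat_lit 532) (nat_lit 533) (nat_lit 1553) (nat_lit 563) (nat_lit 2576))) (.f (nat_lit 464) (nat_lit 593) (nat_lit 4560) (.f (nat_lit 463) (nat_lit 431) (nat_lit 7599) (.f (nat_lit 497) (nat_lit 499) (nat_lit 3535) (.d (nat_lit 462) (nat_lit 461) (nat_lit 461) (nat_lit 465) (nat_lit 462))))))) (.a (.p (nat_lit 561) (.a (.f (nat_lit 531) (nat_lit 559) (nat_lit 2575) (.d (nat_lit 532) (nat_lit 533) (nat_lit 1553) (nat_lit 563) (nat_lit 2576))) (.a (.f (nat_lit 464) (nat_lit 593) (nat_lit 4560) (.f (nat_lit 529) (nat_lit 432) (nat_lit 4528) (.d (nat_lit 559) (nat_lit 558) (nat_lit 2574) (nat_lit 591) (nat_lit 5583)))) (.f (nat_lit 593) (nat_lit 464) (nat_lit 4560) (.d (nat_lit 625) (nat_lit 529) (nat_lit 6641) (nat_lit 657) (nat_lit 7696)))))) (.a (.p (nat_lit 464) (.a (.f (nat_lit 463) (nat_lit 431) (nat_lit 7599) (.f (nat_lit 497) (nat_lit 499) (nat_lit 3535) (.d (nat_lit 462) (nat_lit 461) (nat_lit 461) (nat_lit 465) (nat_lit 462)))) (.a (.f (nat_lit 431) (nat_lit 463) (nat_lit 7599) (.f (nat_lit 432) (nat_lit 399) (nat_lit 7567) (.d (nat_lit 433) (nat_lit 401) (nat_lit 6544) (nat_lit 465) (nat_lit 6576)))) (.a (.f (nat_lit 463) (nat_lit 431) (nat_lit 7599) (.f (nat_lit 497) (nat_lit 499) (nat_lit 3535) (.d (nat_lit 462) (nat_lit 461) (nat_lit 461) (nat_lit 495) (nat_lit 3534)))) (.f (nat_lit 561) (nat_lit 593) (nat_lit 4560) (.f (nat_lit 529) (nat_lit 432) (nat_lit 4528) (.d (nat_lit 559) (nat_lit 558) (nat_lit 2574) (nat_lit 591) (nat_lit 5583)))))))) (.a (.p (nat_lit 531) (.a (.f (nat_lit 497) (nat_lit 495) (nat_lit 495) (.d (nat_lit 532) (nat_lit 499) (nat_lit 496) (nat_lit 533) (nat_lit 3569))) (.a (.f (nat_lit 561) (nat_lit 559) (nat_lit 2575) (.d (nat_lit 532) (nat_lit 533) (nat_lit 1553) (nat_lit 563) (nat_lit 2576))) (.d (nat_lit 495) (nat_lit 497) (nat_lit 495) (nat_lit 529) (nat_lit 3567))))) s7005)))))) (.p (nat_lit 594) (.a (.f (nat_lit 595) (nat_lit 627) (nat_lit 4594) (.f (nat_lit 561) (nat_lit 559) (nat_lit 559) (.d (nat_lit 593) (nat_lit 596) (nat_lit 3632) (nat_lit 625) (nat_lit 5617)))) (.a (.f (nat_lit 497) (nat_lit 465) (nat_lit 7633) (.f (nat_lit 626) (nat_lit 529) (nat_lit 7665) (.d (nat_lit 625) (nat_lit 593) (nat_lit 5617) (nat_lit 657) (nat_lit 5649)))) (.f (nat_lit 595) (nat_lit 627) (nat_lit 4594) (.f (nat_lit 561) (nat_lit 559) (nat_lit 559) (.d (nat_lit 596) (nat_lit 563) (nat_lit 560) (nat_lit 597) (nat_lit 3633))))))))))))) (.a (.p (nat_lit 594) (.a (.p (nat_lit 561) (.a (.f (nat_lit 563) (nat_lit 527) (nat_lit 3599) (.d (nat_lit 595) (nat_lit 559) (nat_lit 559) (nat_lit 596) (nat_lit 560))) (.a (.f (nat_lit 595) (nat_lit 559) (nat_lit 559) (.d (nat_lit 596) (nat_lit 563) (nat_lit 560) (nat_lit 593) (nat_lit 3632))) (.a (.f (nat_lit 559) (nat_lit 595) (nat_lit 559) (.f (nat_lit 558) (nat_lit 593) (nat_lit 558) (.d (nat_lit 590) (nat_lit 589) (nat_lit 1581) (nat_lit 591) (nat_lit 1582)))) (.f (nat_lit 563) (nat_lit 527) (nat_lit 3599) (.f (nat_lit 564) (nat_lit 529) (nat_lit 3600) (.d (nat_lit 532) (nat_lit 531) (nat_lit 2576) (nat_lit 533) (nat_lit 2577)))))))) (.a (.p (nat_lit 530) (.a (.f (nat_lit 595) (nat_lit 627) (nat_lit 4594) (.f (nat_lit 561) (nat_lit 559) (nat_lit 559) (.d (nat_lit 593) (nat_lit 596) (nat_lit 3632) (nat_lit 625) (nat_lit 5617)))) (.a (.f (nat_lit 625) (nat_lit 593) (nat_lit 5617) (.f (nat_lit 626) (nat_lit 657) (nat_lit 5649) (.d (nat_lit 499) (nat_lit 467) (nat_lit 6610) (nat_lit 531) (nat_lit 6642)))) (.f (nat_lit 499) (nat_lit 467) (nat_lit 6610) (.f (nat_lit 531) (nat_lit 626) (nat_lit 6642) (.d (nat_lit 529) (nat_lit 500) (nat_lit 2544) (nat_lit 559) (nat_lit 1551))))))) (.a (.p (nat_lit 530) (.a (.f (nat_lit 499) (nat_lit 467) (nat_lit 6610) (.f (nat_lit 529) (nat_lit 527) (nat_lit 2543) (.d (nat_lit 500) (nat_lit 501) (nat_lit 1521) (nat_lit 531) (nat_lit 2544)))) (.a (.f (nat_lit 625) (nat_lit 593) (nat_lit 5617) (.f (nat_lit 626) (nat_lit 657) (nat_lit 5649) (.d (nat_lit 499) (nat_lit 467) (nat_lit 6610) (nat_lit 531) (nat_lit 6642)))) (.f (nat_lit 625) (nat_lit 593) (nat_lit 5617) (.f (nat_lit 626) (nat_lit 657) (nat_lit 5649) (.d (nat_lit 627) (nat_lit 595) (nat_lit 4594) (nat_lit 659) (nat_lit 4626))))))) (.a (.p (nat_lit 530) (.a (.f (nat_lit 595) (nat_lit 627) (nat_lit 4594) (.f (nat_lit 561) (nat_lit 559) (nat_lit 559) (.d (nat_lit 593) (nat_lit 596) (nat_lit 3632) (nat_lit 625) (nat_lit 5617)))) (.a (.f (nat_lit 625) (nat_lit 593) (nat_lit 5617) (.f (nat_lit 626) (nat_lit 657) (nat_lit 5649) (.d (nat_lit 499) (nat_lit 467) (nat_lit 6610) (nat_lit 531) (nat_lit 6642)))) (.f (nat_lit 595) (nat_lit 627) (nat_lit 4594) (.f (nat_lit 561) (nat_lit 559) (nat_lit 559) (.d (nat_lit 596) (nat_lit 563) (nat_lit 560) (nat_lit 597) (nat_lit 3633))))))) (.a (.p (nat_lit 530) (.a (.f (nat_lit 497) (nat_lit 465) (nat_lit 7633) (.f (nat_lit 529) (nat_lit 626) (nat_lit 7665) (.d (nat_lit 499) (nat_lit 467) (nat_lit 6610) (nat_lit 500) (nat_lit 1520)))) (.f (nat_lit 595) (nat_lit 627) (nat_lit 4594) (.f (nat_lit 561) (nat_lit 559) (nat_lit 559) (.d (nat_lit 593) (nat_lit 596) (nat_lit 3632) (nat_lit 625) (nat_lit 5617)))))) (.a s6720 s5367))))))) (.a (.p (nat_lit 530) (.a s5447 (.a s5701 (.a (.p (nat_lit 594) (.a (.f (nat_lit 499) (nat_lit 467) (nat_lit 6610) (.f (nat_lit 529) (nat_lit 527) (nat_lit 2543) (.d (nat_lit 500) (nat_lit 501) (nat_lit 1521) (nat_lit 531) (nat_lit 2544)))) (.a (.f (nat_lit 625) (nat_lit 593) (nat_lit 5617) (.f (nat_lit 626) (nat_lit 657) (nat_lit 5649) (.d (nat_lit 499) (nat_lit 467) (nat_lit 6610) (nat_lit 531) (nat_lit 6642)))) (.f (nat_lit 625) (nat_lit 593) (nat_lit 5617) (.f (nat_lit 626) (nat_lit 657) (nat_lit 5649) (.d (nat_lit 627) (nat_lit 595) (nat_lit 4594) (nat_lit 659) (nat_lit 4626))))))) (.a s6583 (.a s5248 s6937)))))) (.a (.p (nat_lit 594) (.a (.p (nat_lit 530) (.a (.f (nat_lit 595) (nat_lit 627) (nat_lit 4594) (.f (nat_lit 561) (nat_lit 559) (nat_lit 559) (.d (nat_lit 593) (nat_lit 596) (nat_lit 3632) (nat_lit 625) (nat_lit 5617)))) (.a (.f (nat_lit 625) (nat_lit 593) (nat_lit 5617) (.f (nat_lit 626) (nat_lit 657) (nat_lit 5649) (.d (nat_lit 499) (nat_lit 467) (nat_lit 6610) (nat_lit 531) (nat_lit 6642)))) (.f (nat_lit 595) (nat_lit 627) (nat_lit 4594) (.f (nat_lit 561) (nat_lit 559) (nat_lit 559) (.d (nat_lit 596) (nat_lit 563) (nat_lit 560) (nat_lit 597) (nat_lit 3633))))))) (.a (.p (nat_lit 530) (.a (.f (nat_lit 625) (nat_lit 593) (nat_lit 5617) (.f (nat_lit 626) (nat_lit 657) (nat_lit 5649) (.d (nat_lit 499) (nat_lit 467) (nat_lit 6610) (nat_lit 531) (nat_lit 6642)))) (.a (.f (nat_lit 625) (nat_lit 593) (nat_lit 5617) (.f (nat_lit 626) (nat_lit 657) (nat_lit 5649) (.d (nat_lit 627) (nat_lit 595) (nat_lit 4594) (nat_lit 659) (nat_lit 4626)))) (.a (.f (nat_lit 499) (nat_lit 467) (nat_lit 6610) (.f (nat_lit 626) (nat_lit 531) (nat_lit 6642) (.d (nat_lit 627) (nat_lit 595) (nat_lit 4594) (nat_lit 659) (nat_lit 4626)))) (.f (nat_lit 497) (nat_lit 465) (nat_lit 7633) (.f (nat_lit 499) (nat_lit 467) (nat_lit 6610) (.f (nat_lit 496) (nat_lit 527) (nat_lit 1519) (.d (nat_lit 531) (nat_lit 495) (nat_lit 495) (nat_lit 532) (nat_lit 496))))))))) (.a s6586 (.a (.p (nat_lit 561) (.a (.f (nat_lit 563) (nat_lit 527) (nat_lit 3599) (.d (nat_lit 595) (nat_lit 559) (nat_lit 559) (nat_lit 596) (nat_lit 560))) (.a (.f (nat_lit 595) (nat_lit 559) (nat_lit 559) (.d (nat_lit 596) (nat_lit 563) (nat_lit 560) (nat_lit 593) (nat_lit 3632))) (.a (.f (nat_lit 559) (nat_lit 595) (nat_lit 559) (.f (nat_lit 558) (nat_lit 593) (nat_lit 558) (.d (nat_lit 590) (nat_lit 589) (nat_lit 1581) (nat_lit 591) (nat_lit 1582)))) (.f (nat_lit 563) (nat_lit 527) (nat_lit 3599) (.f (nat_lit 532) (nat_lit 531) (nat_lit 2576) (.f (nat_lit 564) (nat_lit 533) (nat_lit 2577) (.f (nat_lit 565) (nat_lit 593) (nat_lit 1585) (.d (nat_lit 597) (nat_lit 596) (nat_lit 561) (nat_lit 598) (nat_lit 562)))))))))) (.a (.p (nat_lit 530) (.a (.f (nat_lit 595) (nat_lit 627) (nat_lit 4594) (.f (nat_lit 561) (nat_lit 559) (nat_lit 559) (.d (nat_lit 596) (nat_lit 563) (nat_lit 560) (nat_lit 597) (nat_lit 3633)))) (.a (.f (nat_lit 499) (nat_lit 467) (nat_lit 6610) (.f (nat_lit 626) (nat_lit 531) (nat_lit 6642) (.d (nat_lit 627) (nat_lit 595) (nat_lit 4594) (nat_lit 659) (nat_lit 4626)))) (.f (nat_lit 499) (nat_lit 467) (nat_lit 6610) (.f (nat_lit 531) (nat_lit 626) (nat_lit 6642) (.f (nat_lit 561) (nat_lit 559) (nat_lit 2575) (.d (nat_lit 532) (nat_lit 533) (nat_lit 1553) (nat_lit 563) (nat_lit 2576)))))))) (.p (nat_lit 530) (.a (.f (nat_lit 625) (nat_lit 593) (nat_lit 5617) (.f (nat_lit 626) (nat_lit 657) (nat_lit 5649) (.d (nat_lit 499) (nat_lit 467) (nat_lit 6610) (nat_lit 531) (nat_lit 6642)))) (.a (.f (nat_lit 593) (nat_lit 625) (nat_lit 5617) (.f (nat_lit 497) (nat_lit 465) (nat_lit 7633) (.f (nat_lit 499) (nat_lit 467) (nat_lit 6610) (.f (nat_lit 496) (nat_lit 527) (nat_lit 1519) (.d (nat_lit 464) (nat_lit 463) (nat_lit 3535) (nat_lit 561) (nat_lit 4560)))))) (.a (.f (nat_lit 499) (nat_lit 467) (nat_lit 6610) (.f (nat_lit 531) (nat_lit 626) (nat_lit 6642) (.f (nat_lit 561) (nat_lit 559) (nat_lit 2575) (.d (nat_lit 532) (nat_lit 533) (nat_lit 1553) (nat_lit 563) (nat_lit 2576))))) (.f (nat_lit 625) (nat_lit 593) (nat_lit 5617) (.f (nat_lit 626) (nat_lit 657) (nat_lit 5649) (.f (nat_lit 659) (nat_lit 627) (nat_lit 4626) (.f (nat_lit 658) (nat_lit 691) (nat_lit 4658) (.f (nat_lit 531) (nat_lit 563) (nat_lit 6674) (.f (nat_lit 497) (nat_lit 465) (nat_lit 7633) (.f (nat_lit 496) (nat_lit 495) (nat_lit 495) (.f (nat_lit 559) (nat_lit 561) (nat_lit 2575) (.f (nat_lit 464) (nat_lit 591) (nat_lit 5583) (.f (nat_lit 432) (nat_lit 527) (nat_lit 5551) (.d (nat_lit 431) (nat_lit 399) (nat_lit 7567) (nat_lit 463) (nat_lit 7599)))))))))))))))))))))) (.a (.p (nat_lit 594) (.a (.p (nat_lit 561) (.a (.f (nat_lit 563) (nat_lit 527) (nat_lit 3599) (.d (nat_lit 595) (nat_lit 559) (nat_lit 559) (nat_lit 596) (nat_lit 560))) (.a (.f (nat_lit 595) (nat_lit 559) (nat_lit 559) (.d (nat_lit 596) (nat_lit 563) (nat_lit 560) (nat_lit 593) (nat_lit 3632))) (.a (.f (nat_lit 559) (nat_lit 595) (nat_lit 559) (.f (nat_lit 558) (nat_lit 593) (nat_lit 558) (.d (nat_lit 590) (nat_lit 589) (nat_lit 1581) (nat_lit 591) (nat_lit 1582)))) (.f (nat_lit 563) (nat_lit 527) (nat_lit 3599) (.f (nat_lit 564) (nat_lit 529) (nat_lit 3600) (.d (nat_lit 532) (nat_lit 531) (nat_lit 2576) (nat_lit 533) (nat_lit 2577)))))))) (.a (.p (nat_lit 530) (.a (.f (nat_lit 595) (nat_lit 627) (nat_lit 4594) (.f (nat_lit 561) (nat_lit 559) (nat_lit 559) (.d (nat_lit 593) (nat_lit 596) (nat_lit 3632) (nat_lit 625) (nat_lit 5617)))) (.a (.f (nat_lit 625) (nat_lit 593) (nat_lit 5617) (.f (nat_lit 626) (nat_lit 657) (nat_lit 5649) (.d (nat_lit 499) (nat_lit 467) (nat_lit 6610) (nat_lit 531) (nat_lit 6642)))) (.f (nat_lit 499) (nat_lit 467) (nat_lit 6610) (.f (nat_lit 531) (nat_lit 626) (nat_lit 6642) (.d (nat_lit 529) (nat_lit 500) (nat_lit 2544) (nat_lit 559) (nat_lit 1551))))))) (.a (.p (nat_lit 530) (.a (.f (nat_lit 499) (nat_lit 467) (nat_lit 6610) (.f (nat_lit 529) (nat_lit 527) (nat_lit 2543) (.d (nat_lit 500) (nat_lit 501) (nat_lit 1521) (nat_lit 531) (nat_lit 2544)))) (.a (.f (nat_lit 625) (nat_lit 593) (nat_lit 5617) (.f (nat_lit 626) (nat_lit 657) (nat_lit 5649) (.d (nat_lit 499) (nat_lit 467) (nat_lit 6610) (nat_lit 531) (nat_lit 6642)))) (.f (nat_lit 625) (nat_lit 593) (nat_lit 5617) (.f (nat_lit 626) (nat_lit 657) (nat_lit 5649) (.d (nat_lit 627) (nat_lit 595) (nat_lit 4594) (nat_lit 659) (nat_lit 4626))))))) (.a (.p (nat_lit 530) (.a (.f (nat_lit 595) (nat_lit 627) (nat_lit 4594) (.f (nat_lit 561) (nat_lit 559) (nat_lit 559) (.d (nat_lit 593) (nat_lit 596) (nat_lit 3632) (nat_lit 625) (nat_lit 5617)))) (.a (.f (nat_lit 625) (nat_lit 593) (nat_lit 5617) (.f (nat_lit 626) (nat_lit 657) (nat_lit 5649) (.d (nat_lit 499) (nat_lit 467) (nat_lit 6610) (nat_lit 531) (nat_lit 6642)))) (.f (nat_lit 595) (nat_lit 627) (nat_lit 4594) (.f (nat_lit 561) (nat_lit 559) (nat_lit 559) (.d (nat_lit 596) (nat_lit 563) (nat_lit 560) (nat_lit 597) (nat_lit 3633))))))) (.a s6496 (.p (nat_lit 530) (.a (.f (nat_lit 499) (nat_lit 467) (nat_lit 6610) (.f (nat_lit 529) (nat_lit 527) (nat_lit 2543) (.d (nat_lit 500) (nat_lit 501) (nat_lit 1521) (nat_lit 531) (nat_lit 2544)))) (.a (.f (nat_lit 625) (nat_lit 593) (nat_lit 5617) (.f (nat_lit 626) (nat_lit 657) (nat_lit 5649) (.d (nat_lit 499) (nat_lit 467) (nat_lit 6610) (nat_lit 531) (nat_lit 6642)))) (.a (.f (nat_lit 593) (nat_lit 625) (nat_lit 5617) (.f (nat_lit 499) (nat_lit 467) (nat_lit 6610) (.f (nat_lit 527) (nat_lit 529) (nat_lit 2543) (.f (nat_lit 561) (nat_lit 563) (nat_lit 3599) (.f (nat_lit 559) (nat_lit 558) (nat_lit 558) (.f (nat_lit 591) (nat_lit 590) (nat_lit 1582) (.d (nat_lit 496) (nat_lit 464) (nat_lit 5583) (nat_lit 623) (nat_lit 6639)))))))) (.f (nat_lit 625) (nat_lit 593) (nat_lit 5617) (.f (nat_lit 626) (nat_lit 657) (nat_lit 5649) (.f (nat_lit 659) (nat_lit 627) (nat_lit 4626) (.f (nat_lit 658) (nat_lit 691) (nat_lit 4658) (.f (nat_lit 529) (nat_lit 561) (nat_lit 7697) (.d (nat_lit 531) (nat_lit 559) (nat_lit 1551) (nat_lit 563) (nat_lit 6674))))))))))))))))) (.a s6595 (.a (.p (nat_lit 561) (.a (.f (nat_lit 563) (nat_lit 527) (nat_lit 3599) (.f (nat_lit 564) (nat_lit 529) (nat_lit 3600) (.d (nat_lit 596) (nat_lit 595) (nat_lit 560) (nat_lit 597) (nat_lit 561)))) (.a (.p (nat_lit 563) (.a (.f (nat_lit 564) (nat_lit 529) (nat_lit 3600) (.d (nat_lit 532) (nat_lit 531) (nat_lit 2576) (nat_lit 533) (nat_lit 2577))) (.a (.f (nat_lit 595) (nat_lit 596) (nat_lit 560) (.f (nat_lit 531) (nat_lit 532) (nat_lit 2576) (.f (nat_lit 594) (nat_lit 559) (nat_lit 559) (.d (nat_lit 499) (nat_lit 467) (nat_lit 5586) (nat_lit 626) (nat_lit 5618))))) (.f (nat_lit 564) (nat_lit 529) (nat_lit 3600) (.d (nat_lit 596) (nat_lit 595) (nat_lit 560) (nat_lit 597) (nat_lit 561)))))) (.a (.p (nat_lit 559) (.a (.f (nat_lit 594) (nat_lit 595) (nat_lit 559) (.f (nat_lit 558) (nat_lit 593) (nat_lit 558) (.d (nat_lit 590) (nat_lit 589) (nat_lit 1581) (nat_lit 591) (nat_lit 1582)))) (.a (.f (nat_lit 591) (nat_lit 590) (nat_lit 1582) (.f (nat_lit 496) (nat_lit 464) (nat_lit 5583) (.d (nat_lit 623) (nat_lit 527) (nat_lit 6639) (nat_lit 655) (nat_lit 6671)))) (.f (nat_lit 563) (nat_lit 527) (nat_lit 3599) (.d (nat_lit 595) (nat_lit 594) (nat_lit 559) (nat_lit 596) (nat_lit 560)))))) (.a (.p (nat_lit 559) (.a (.f (nat_lit 594) (nat_lit 595) (nat_lit 559) (.f (nat_lit 558) (nat_lit 593) (nat_lit 558) (.d (nat_lit 590) (nat_lit 589) (nat_lit 1581) (nat_lit 591) (nat_lit 1582)))) (.a (.f (nat_lit 591) (nat_lit 590) (nat_lit 1582) (.f (nat_lit 496) (nat_lit 464) (nat_lit 5583) (.d (nat_lit 623) (nat_lit 527) (nat_lit 6639) (nat_lit 655) (nat_lit 6671)))) (.f (nat_lit 594) (nat_lit 595) (nat_lit 559) (.f (nat_lit 593) (nat_lit 558) (nat_lit 558) (.f (nat_lit 625) (nat_lit 657) (nat_lit 7696) (.d (nat_lit 496) (nat_lit 464) (nat_lit 4560) (nat_lit 529) (nat_lit 7664)))))))) (.f (nat_lit 563) (nat_lit 527) (nat_lit 3599) (.f (nat_lit 564) (nat_lit 529) (nat_lit 3600) (.d (nat_lit 532) (nat_lit 531) (nat_lit 2576) (nat_lit 533) (nat_lit 2577))))))))) (.a s6825 (.a (.p (nat_lit 561) (.a (.f (nat_lit 563) (nat_lit 527) (nat_lit 3599) (.f (nat_lit 564) (nat_lit 529) (nat_lit 3600) (.d (nat_lit 596) (nat_lit 595) (nat_lit 560) (nat_lit 597) (nat_lit 561)))) (.a (.p (nat_lit 563) (.a (.f (nat_lit 564) (nat_lit 529) (nat_lit 3600) (.d (nat_lit 532) (nat_lit 531) (nat_lit 2576) (nat_lit 533) (nat_lit 2577))) (.a (.f (nat_lit 531) (nat_lit 532) (nat_lit 2576) (.f (nat_lit 595) (nat_lit 596) (nat_lit 560) (.d (nat_lit 530) (nat_lit 559) (nat_lit 2575) (nat_lit 627) (nat_lit 7666)))) (.f (nat_lit 564) (nat_lit 529) (nat_lit 3600) (.d (nat_lit 596) (nat_lit 595) (nat_lit 560) (nat_lit 597) (nat_lit 561)))))) (.a (.f (nat_lit 563) (nat_lit 527) (nat_lit 3599) (.f (nat_lit 531) (nat_lit 532) (nat_lit 2576) (.f (nat_lit 595) (nat_lit 596) (nat_lit 560) (.d (nat_lit 530) (nat_lit 559) (nat_lit 2575) (nat_lit 627) (nat_lit 7666))))) (.p (nat_lit 559) (.a (.f (nat_lit 590) (nat_lit 591) (nat_lit 1582) (.f (nat_lit 558) (nat_lit 589) (nat_lit 1581) (.d (nat_lit 529) (nat_lit 530) (nat_lit 2574) (nat_lit 557) (nat_lit 2573)))) (.a (.f (nat_lit 591) (nat_lit 590) (nat_lit 1582) (.f (nat_lit 496) (nat_lit 464) (nat_lit 5583) (.d (nat_lit 623) (nat_lit 527) (nat_lit 6639) (nat_lit 655) (nat_lit 6671)))) (.f (nat_lit 530) (nat_lit 531) (nat_lit 2575) (.f (nat_lit 529) (nat_lit 558) (nat_lit 2574) (.f (nat_lit 499) (nat_lit 527) (nat_lit 2543) (.d (nat_lit 500) (nat_lit 497) (nat_lit 1520) (nat_lit 501) (nat_lit 1521)))))))))))) (.a (.p (nat_lit 530) (.a (.p (nat_lit 594) (.a (.f (nat_lit 497) (nat_lit 465) (nat_lit 7633) (.f (nat_lit 529) (nat_lit 626) (nat_lit 7665) (.d (nat_lit 499) (nat_lit 467) (nat_lit 6610) (nat_lit 500) (nat_lit 1520)))) (.f (nat_lit 595) (nat_lit 627) (nat_lit 4594) (.f (nat_lit 561) (nat_lit 559) (nat_lit 559) (.d (nat_lit 593) (nat_lit 596) (nat_lit 3632) (nat_lit 625) (nat_lit 5617)))))) (.a s5447 (.a s5701 (.a (.p (nat_lit 594) (.a (.f (nat_lit 499) (nat_lit 467) (nat_lit 6610) (.f (nat_lit 529) (nat_lit 527) (nat_lit 2543) (.d (nat_lit 500) (nat_lit 501) (nat_lit 1521) (nat_lit 531) (nat_lit 2544)))) (.a (.f (nat_lit 625) (nat_lit 593) (nat_lit 5617) (.f (nat_lit 626) (nat_lit 657) (nat_lit 5649) (.d (nat_lit 499) (nat_lit 467) (nat_lit 6610) (nat_lit 531) (nat_lit 6642)))) (.f (nat_lit 625) (nat_lit 593) (nat_lit 5617) (.f (nat_lit 626) (nat_lit 657) (nat_lit 5649) (.d (nat_lit 627) (nat_lit 595) (nat_lit 4594) (nat_lit 659) (nat_lit 4626))))))) (.a s5248 s6579)))))) (.a (.p (nat_lit 530) (.a s3190 (.a s5447 (.a s5701 (.a (.p (nat_lit 594) (.a (.f (nat_lit 499) (nat_lit 467) (nat_lit 6610) (.f (nat_lit 529) (nat_lit 527) (nat_lit 2543) (.d (nat_lit 500) (nat_lit 501) (nat_lit 1521) (nat_lit 531) (nat_lit 2544)))) (.a (.f (nat_lit 625) (nat_lit 593) (nat_lit 5617) (.f (nat_lit 626) (nat_lit 657) (nat_lit 5649) (.d (nat_lit 499) (nat_lit 467) (nat_lit 6610) (nat_lit 531) (nat_lit 6642)))) (.f (nat_lit 625) (nat_lit 593) (nat_lit 5617) (.f (nat_lit 626) (nat_lit 657) (nat_lit 5649) (.d (nat_lit 627) (nat_lit 595) (nat_lit 4594) (nat_lit 659) (nat_lit 4626))))))) (.a s6583 (.a s6806 (.a (.p (nat_lit 496) (.a (.p (nat_lit 561) (.a (.f (nat_lit 464) (nat_lit 593) (nat_lit 4560) (.f (nat_lit 463) (nat_lit 431) (nat_lit 7599) (.f (nat_lit 497) (nat_lit 499) (nat_lit 3535) (.d (nat_lit 462) (nat_lit 461) (nat_lit 461) (nat_lit 465) (nat_lit 462))))) (.f (nat_lit 563) (nat_lit 527) (nat_lit 3599) (.f (nat_lit 531) (nat_lit 532) (nat_lit 2576) (.d (nat_lit 595) (nat_lit 596) (nat_lit 560) (nat_lit 627) (nat_lit 7666)))))) (.a s7005 (.a (.p (nat_lit 529) (.a (.d (nat_lit 527) (nat_lit 499) (nat_lit 2543) (nat_lit 563) (nat_lit 527)) (.a (.f (nat_lit 531) (nat_lit 495) (nat_lit 3567) (.f (nat_lit 497) (nat_lit 532) (nat_lit 3568) (.f (nat_lit 499) (nat_lit 500) (nat_lit 1520) (.d (nat_lit 467) (nat_lit 435) (nat_lit 5554) (nat_lit 468) (nat_lit 2512))))) (.f (nat_lit 495) (nat_lit 531) (nat_lit 3567) (.d (nat_lit 494) (nat_lit 493) (nat_lit 493) (nat_lit 497) (nat_lit 494)))))) (.a (.p (nat_lit 561) (.a (.f (nat_lit 563) (nat_lit 527) (nat_lit 3599) (.f (nat_lit 531) (nat_lit 532) (nat_lit 2576) (.d (nat_lit 595) (nat_lit 596) (nat_lit 560) (nat_lit 627) (nat_lit 7666)))) (.f (nat_lit 593) (nat_lit 464) (nat_lit 4560) (.d (nat_lit 625) (nat_lit 529) (nat_lit 6641) (nat_lit 657) (nat_lit 7696))))) (.p (nat_lit 561) (.a (.f (nat_lit 464) (nat_lit 593) (nat_lit 4560) (.f (nat_lit 463) (nat_lit 431) (nat_lit 7599) (.f (nat_lit 497) (nat_lit 499) (nat_lit 3535) (.d (nat_lit 462) (nat_lit 461) (nat_lit 461) (nat_lit 465) (nat_lit 462))))) (.f (nat_lit 563) (nat_lit 527) (nat_lit 3599) (.f (nat_lit 564) (nat_lit 529) (nat_lit 3600) (.d (nat_lit 596) (nat_lit 595) (nat_lit 560) (nat_lit 597) (nat_lit 561))))))))))) s6863)))))))) (.a s6970 (.a (.p (nat_lit 530) (.a s3190 (.a s5447 (.a s6136 (.a s6732 (.a s6611 (.a s5248 s6937))))))) (.p (nat_lit 594) (.a (.p (nat_lit 530) (.a (.f (nat_lit 499) (nat_lit 467) (nat_lit 6610) (.f (nat_lit 529) (nat_lit 527) (nat_lit 2543) (.d (nat_lit 500) (nat_lit 501) (nat_lit 1521) (nat_lit 531) (nat_lit 2544)))) (.a (.f (nat_lit 625) (nat_lit 593) (nat_lit 5617) (.f (nat_lit 626) (nat_lit 657) (nat_lit 5649) (.d (nat_lit 499) (nat_lit 467) (nat_lit 6610) (nat_lit 531) (nat_lit 6642)))) (.f (nat_lit 625) (nat_lit 593) (nat_lit 5617) (.f (nat_lit 626) (nat_lit 657) (nat_lit 5649) (.d (nat_lit 627) (nat_lit 595) (nat_lit 4594) (nat_lit 659) (nat_lit 4626))))))) (.a (.p (nat_lit 530) (.a (.f (nat_lit 595) (nat_lit 627) (nat_lit 4594) (.f (nat_lit 561) (nat_lit 559) (nat_lit 559) (.d (nat_lit 593) (nat_lit 596) (nat_lit 3632) (nat_lit 625) (nat_lit 5617)))) (.a (.f (nat_lit 625) (nat_lit 593) (nat_lit 5617) (.f (nat_lit 626) (nat_lit 657) (nat_lit 5649) (.d (nat_lit 499) (nat_lit 467) (nat_lit 6610) (nat_lit 531) (nat_lit 6642)))) (.f (nat_lit 499) (nat_lit 467) (nat_lit 6610) (.f (nat_lit 531) (nat_lit 626) (nat_lit 6642) (.d (nat_lit 529) (nat_lit 500) (nat_lit 2544) (nat_lit 559) (nat_lit 1551))))))) (.a (.p (nat_lit 530) (.a (.f (nat_lit 595) (nat_lit 627) (nat_lit 4594) (.f (nat_lit 561) (nat_lit 559) (nat_lit 559) (.d (nat_lit 593) (nat_lit 596) (nat_lit 3632) (nat_lit 625) (nat_lit 5617)))) (.a (.f (nat_lit 625) (nat_lit 593) (nat_lit 5617) (.f (nat_lit 626) (nat_lit 657) (nat_lit 5649) (.d (nat_lit 499) (nat_lit 467) (nat_lit 6610) (nat_lit 531) (nat_lit 6642)))) (.f (nat_lit 595) (nat_lit 627) (nat_lit 4594) (.f (nat_lit 561) (nat_lit 559) (nat_lit 559) (.d (nat_lit 596) (nat_lit 563) (nat_lit 560) (nat_lit 597) (nat_lit 3633))))))) (.a (.p (nat_lit 530) (.a (.f (nat_lit 497) (nat_lit 465) (nat_lit 7633) (.f (nat_lit 529) (nat_lit 626) (nat_lit 7665) (.d (nat_lit 499) (nat_lit 467) (nat_lit 6610) (nat_lit 500) (nat_lit 1520)))) (.f (nat_lit 595) (nat_lit 627) (nat_lit 4594) (.f (nat_lit 561) (nat_lit 559) (nat_lit 559) (.d (nat_lit 593) (nat_lit 596) (nat_lit 3632) (nat_lit 625) (nat_lit 5617)))))) (.a (.p (nat_lit 561) (.a (.f (nat_lit 563) (nat_lit 527) (nat_lit 3599) (.d (nat_lit 595) (nat_lit 559) (nat_lit 559) (nat_lit 596) (nat_lit 560))) (.a (.f (nat_lit 595) (nat_lit 559) (nat_lit 559) (.d (nat_lit 596) (nat_lit 563) (nat_lit 560) (nat_lit 593) (nat_lit 3632))) (.a (.f (nat_lit 559) (nat_lit 595) (nat_lit 559) (.f (nat_lit 558) (nat_lit 593) (nat_lit 558) (.d (nat_lit 590) (nat_lit 589) (nat_lit 1581) (nat_lit 591) (nat_lit 1582)))) (.a (.f (nat_lit 563) (nat_lit 527) (nat_lit 3599) (.f (nat_lit 564) (nat_lit 529) (nat_lit 3600) (.d (nat_lit 596) (nat_lit 595) (nat_lit 560) (nat_lit 597) (nat_lit 561)))) (.f (nat_lit 563) (nat_lit 527) (nat_lit 3599) (.f (nat_lit 529) (nat_lit 564) (nat_lit 3600) (.f (nat_lit 497) (nat_lit 465) (nat_lit 4561) (.d (nat_lit 626) (nat_lit 593) (nat_lit 4593) (nat_lit 658) (nat_lit 7697)))))))))) (.a (.p (nat_lit 530) (.a (.f (nat_lit 497) (nat_lit 465) (nat_lit 7633) (.f (nat_lit 529) (nat_lit 626) (nat_lit 7665) (.d (nat_lit 499) (nat_lit 467) (nat_lit 6610) (nat_lit 500) (nat_lit 1520)))) (.f (nat_lit 595) (nat_lit 627) (nat_lit 4594) (.f (nat_lit 561) (nat_lit 559) (nat_lit 559) (.d (nat_lit 596) (nat_lit 563) (nat_lit 560) (nat_lit 597) (nat_lit 3633)))))) (.a (.p (nat_lit 530) (.a (.f (nat_lit 595) (nat_lit 627) (nat_lit 4594) (.f (nat_lit 561) (nat_lit 559) (nat_lit 559) (.d (nat_lit 593) (nat_lit 596) (nat_lit 3632) (nat_lit 625) (nat_lit 5617)))) (.f (nat_lit 499) (nat_lit 467) (nat_lit 6610) (.f (nat_lit 529) (nat_lit 527) (nat_lit 2543) (.d (nat_lit 500) (nat_lit 501) (nat_lit 1521) (nat_lit 531) (nat_lit 2544)))))) s5367))))))))))))))))))))))) (.a (.p (nat_lit 562) (.a s5364 (.a (.p (nat_lit 530) (.a (.p (nat_lit 561) (.a (.f (nat_lit 531) (nat_lit 559) (nat_lit 2575) (.d (nat_lit 532) (nat_lit 529) (nat_lit 1552) (nat_lit 533) (nat_lit 1553))) (.a (.f (nat_lit 466) (nat_lit 593) (nat_lit 5585) (.f (nat_lit 563) (nat_lit 595) (nat_lit 4562) (.d (nat_lit 531) (nat_lit 434) (nat_lit 4530) (nat_lit 532) (nat_lit 2576)))) (.f (nat_lit 466) (nat_lit 593) (nat_lit 5585) (.f (nat_lit 529) (nat_lit 434) (nat_lit 5553) (.d (nat_lit 563) (nat_lit 564) (nat_lit 3600) (nat_lit 595) (nat_lit 4562))))))) (.a s5454 (.a (.p (nat_lit 594) (.a (.f (nat_lit 595) (nat_lit 627) (nat_lit 4594) (.f (nat_lit 561) (nat_lit 559) (nat_lit 559) (.d (nat_lit 593) (nat_lit 596) (nat_lit 3632) (nat_lit 625) (nat_lit 5617)))) (.a (.f (nat_lit 497) (nat_lit 465) (nat_lit 7633) (.f (nat_lit 626) (nat_lit 529) (nat_lit 7665) (.d (nat_lit 625) (nat_lit 593) (nat_lit 5617) (nat_lit 657) (nat_lit 5649)))) (.f (nat_lit 595) (nat_lit 627) (nat_lit 4594) (.f (nat_lit 561) (nat_lit 559) (nat_lit 559) (.d (nat_lit 596) (nat_lit 563) (nat_lit 560) (nat_lit 597) (nat_lit 3633))))))) (.a s5613 (.p (nat_lit 594) (.a (.f (nat_lit 593) (nat_lit 625) (nat_lit 5617) (.f (nat_lit 561) (nat_lit 466) (nat_lit 5585) (.d (nat_lit 559) (nat_lit 531) (nat_lit 2575) (nat_lit 558) (nat_lit 558)))) (.a (.f (nat_lit 497) (nat_lit 465) (nat_lit 7633) (.f (nat_lit 626) (nat_lit 529) (nat_lit 7665) (.d (nat_lit 625) (nat_lit 593) (nat_lit 5617) (nat_lit 657) (nat_lit 5649)))) (.f (nat_lit 497) (nat_lit 465) (nat_lit 7633) (.f (nat_lit 529) (nat_lit 626) (nat_lit 7665) (.f (nat_lit 559) (nat_lit 531) (nat_lit 1551) (.d (nat_lit 558) (nat_lit 557) (nat_lit 2573) (nat_lit 561) (nat_lit 2574))))))))))))) (.a (.p (nat_lit 530) (.a s5248 (.a s5454 (.a (.p (nat_lit 594) (.a (.f (nat_lit 625) (nat_lit 593) (nat_lit 5617) (.f (nat_lit 626) (nat_lit 657) (nat_lit 5649) (.d (nat_lit 627) (nat_lit 595) (nat_lit 4594) (nat_lit 659) (nat_lit 4626)))) (.a (.f (nat_lit 595) (nat_lit 627) (nat_lit 4594) (.f (nat_lit 563) (nat_lit 466) (nat_lit 4562) (.f (nat_lit 529) (nat_lit 527) (nat_lit 527) (.d (nat_lit 531) (nat_lit 559) (nat_lit 1551) (nat_lit 564) (nat_lit 528))))) (.f (nat_lit 625) (nat_lit 593) (nat_lit 5617) (.f (nat_lit 626) (nat_lit 657) (nat_lit 5649) (.f (nat_lit 531) (nat_lit 499) (nat_lit 6642) (.f (nat_lit 529) (nat_lit 559) (nat_lit 1551) (.d (nat_lit 563) (nat_lit 527) (nat_lit 527) (nat_lit 564) (nat_lit 528))))))))) (.p (nat_lit 594) (.a (.f (nat_lit 497) (nat_lit 465) (nat_lit 7633) (.f (nat_lit 626) (nat_lit 529) (nat_lit 7665) (.d (nat_lit 625) (nat_lit 593) (nat_lit 5617) (nat_lit 657) (nat_lit 5649)))) (.a (.f (nat_lit 595) (nat_lit 627) (nat_lit 4594) (.f (nat_lit 466) (nat_lit 563) (nat_lit 4562) (.d (nat_lit 465) (nat_lit 433) (nat_lit 7601) (nat_lit 497) (nat_lit 7633)))) (.f (nat_lit 625) (nat_lit 593) (nat_lit 5617) (.f (nat_lit 626) (nat_lit 657) (nat_lit 5649) (.d (nat_lit 627) (nat_lit 595) (nat_lit 4594) (nat_lit 659) (nat_lit 4626))))))))))) (.a (.p (nat_lit 530) (.a s5454 (.a s5982 (.a s6060 (.a s6094 (.a s6085 (.p (nat_lit 561) (.a (.f (nat_lit 531) (nat_lit 559) (nat_lit 2575) (.d (nat_lit 532) (nat_lit 533) (nat_lit 1553) (nat_lit 563) (nat_lit 2576))) (.f (nat_lit 593) (nat_lit 466) (nat_lit 5585) (.d (nat_lit 625) (nat_lit 594) (nat_lit 5617) (nat_lit 657) (nat_lit 7696))))))))))) (.a s6452 (.a (.p (nat_lit 561) (.a (.f (nat_lit 563) (nat_lit 527) (nat_lit 3599) (.f (nat_lit 564) (nat_lit 529) (nat_lit 3600) (.d (nat_lit 596) (nat_lit 595) (nat_lit 560) (nat_lit 597) (nat_lit 561)))) (.a (.p (nat_lit 559) (.a (.f (nat_lit 594) (nat_lit 595) (nat_lit 559) (.f (nat_lit 558) (nat_lit 593) (nat_lit 558) (.d (nat_lit 590) (nat_lit 589) (nat_lit 1581) (nat_lit 591) (nat_lit 1582)))) (.a (.f (nat_lit 595) (nat_lit 594) (nat_lit 559) (.f (nat_lit 563) (nat_lit 596) (nat_lit 560) (.f (nat_lit 532) (nat_lit 531) (nat_lit 2576) (.d (nat_lit 564) (nat_lit 529) (nat_lit 3600) (nat_lit 533) (nat_lit 2577))))) (.a (.f (nat_lit 590) (nat_lit 591) (nat_lit 1582) (.f (nat_lit 558) (nat_lit 589) (nat_lit 1581) (.f (nat_lit 529) (nat_lit 557) (nat_lit 2573) (.f (nat_lit 563) (nat_lit 564) (nat_lit 3600) (.f (nat_lit 531) (nat_lit 532) (nat_lit 2576) (.f (nat_lit 595) (nat_lit 596) (nat_lit 560) (.f (nat_lit 499) (nat_lit 466) (nat_lit 7634) (.d (nat_lit 500) (nat_lit 468) (nat_lit 6611) (nat_lit 497) (nat_lit 1520))))))))) (.f (nat_lit 590) (nat_lit 591) (nat_lit 1582) (.f (nat_lit 558) (nat_lit 589) (nat_lit 1581) (.f (nat_lit 529) (nat_lit 557) (nat_lit 2573) (.f (nat_lit 593) (nat_lit 594) (nat_lit 558) (.d (nat_lit 496) (nat_lit 464) (nat_lit 4560) (nat_lit 625) (nat_lit 7664)))))))))) (.a (.p (nat_lit 559) (.a (.f (nat_lit 594) (nat_lit 595) (nat_lit 559) (.f (nat_lit 558) (nat_lit 593) (nat_lit 558) (.d (nat_lit 590) (nat_lit 589) (nat_lit 1581) (nat_lit 591) (nat_lit 1582)))) (.a (.f (nat_lit 591) (nat_lit 590) (nat_lit 1582) (.f (nat_lit 496) (nat_lit 464) (nat_lit 5583) (.d (nat_lit 623) (nat_lit 527) (nat_lit 6639) (nat_lit 655) (nat_lit 6671)))) (.f (nat_lit 563) (nat_lit 527) (nat_lit 3599) (.d (nat_lit 595) (nat_lit 594) (nat_lit 559) (nat_lit 596) (nat_lit 560)))))) (.a (.p (nat_lit 559) (.a (.f (nat_lit 594) (nat_lit 595) (nat_lit 559) (.f (nat_lit 558) (nat_lit 593) (nat_lit 558) (.d (nat_lit 590) (nat_lit 589) (nat_lit 1581) (nat_lit 591) (nat_lit 1582)))) (.a (.f (nat_lit 591) (nat_lit 590) (nat_lit 1582) (.f (nat_lit 496) (nat_lit 464) (nat_lit 5583) (.d (nat_lit 623) (nat_lit 527) (nat_lit 6639) (nat_lit 655) (nat_lit 6671)))) (.f (nat_lit 594) (nat_lit 595) (nat_lit 559) (.f (nat_lit 593) (nat_lit 558) (nat_lit 558) (.f (nat_lit 625) (nat_lit 657) (nat_lit 7696) (.d (nat_lit 496) (nat_lit 464) (nat_lit 4560) (nat_lit 529) (nat_lit 7664)))))))) (.f (nat_lit 563) (nat_lit 527) (nat_lit 3599) (.f (nat_lit 564) (nat_lit 529) (nat_lit 3600) (.d (nat_lit 532) (nat_lit 531) (nat_lit 2576) (nat_lit 533) (nat_lit 2577))))))))) (.a s6802 (.a (.p (nat_lit 530) (.a s3177 (.a (.p (nat_lit 594) (.a (.f (nat_lit 593) (nat_lit 625) (nat_lit 5617) (.f (nat_lit 561) (nat_lit 466) (nat_lit 5585) (.d (nat_lit 559) (nat_lit 531) (nat_lit 2575) (nat_lit 558) (nat_lit 558)))) (.a (.f (nat_lit 497) (nat_lit 465) (nat_lit 7633) (.f (nat_lit 626) (nat_lit 529) (nat_lit 7665) (.d (nat_lit 625) (nat_lit 593) (nat_lit 5617) (nat_lit 657) (nat_lit 5649)))) (.f (nat_lit 497) (nat_lit 465) (nat_lit 7633) (.f (nat_lit 529) (nat_lit 626) (nat_lit 7665) (.f (nat_lit 559) (nat_lit 531) (nat_lit 1551) (.d (nat_lit 558) (nat_lit 557) (nat_lit 2573) (nat_lit 561) (nat_lit 2574)))))))) (.a s5248 (.a s6085 (.a (.p (nat_lit 594) (.a (.f (nat_lit 593) (nat_lit 625) (nat_lit 5617) (.f (nat_lit 561) (nat_lit 466) (nat_lit 5585) (.d (nat_lit 559) (nat_lit 531) (nat_lit 2575) (nat_lit 558) (nat_lit 558)))) (.a (.f (nat_lit 625) (nat_lit 593) (nat_lit 5617) (.f (nat_lit 626) (nat_lit 657) (nat_lit 5649) (.d (nat_lit 627) (nat_lit 595) (nat_lit 4594) (nat_lit 659) (nat_lit 4626)))) (.f (nat_lit 595) (nat_lit 627) (nat_lit 4594) (.f (nat_lit 559) (nat_lit 561) (nat_lit 559) (.f (nat_lit 529) (nat_lit 531) (nat_lit 1551) (.d (nat_lit 558) (nat_lit 527) (nat_lit 1550) (nat_lit 557) (nat_lit 2573)))))))) (.a s6579 (.p (nat_lit 594) (.a (.f (nat_lit 593) (nat_lit 625) (nat_lit 5617) (.f (nat_lit 561) (nat_lit 466) (nat_lit 5585) (.d (nat_lit 595) (nat_lit 596) (nat_lit 3632) (nat_lit 627) (nat_lit 4594)))) (.a (.f (nat_lit 497) (nat_lit 465) (nat_lit 7633) (.f (nat_lit 626) (nat_lit 529) (nat_lit 7665) (.d (nat_lit 625) (nat_lit 593) (nat_lit 5617) (nat_lit 657) (nat_lit 5649)))) (.f (nat_lit 497) (nat_lit 465) (nat_lit 7633) (.f (nat_lit 626) (nat_lit 529) (nat_lit 7665) (.d (nat_lit 627) (nat_lit 595) (nat_lit 4594) (nat_lit 659) (nat_lit 4626)))))))))))))) (.a s7088 (.a s6970 (.a (.p (nat_lit 530) (.a (.p (nat_lit 594) (.a (.f (nat_lit 593) (nat_lit 625) (nat_lit 5617) (.f (nat_lit 561) (nat_lit 466) (nat_lit 5585) (.d (nat_lit 559) (nat_lit 531) (nat_lit 2575) (nat_lit 558) (nat_lit 558)))) (.a (.f (nat_lit 497) (nat_lit 465) (nat_lit 7633) (.f (nat_lit 626) (nat_lit 529) (nat_lit 7665) (.d (nat_lit 625) (nat_lit 593) (nat_lit 5617) (nat_lit 657) (nat_lit 5649)))) (.f (nat_lit 497) (nat_lit 465) (nat_lit 7633) (.f (nat_lit 529) (nat_lit 626) (nat_lit 7665) (.f (nat_lit 559) (nat_lit 531) (nat_lit 1551) (.d (nat_lit 558) (nat_lit 557) (nat_lit 2573) (nat_lit 561) (nat_lit 2574)))))))) (.a s5248 (.a (.p (nat_lit 561) (.a (.f (nat_lit 531) (nat_lit 559) (nat_lit 2575) (.d (nat_lit 532) (nat_lit 533) (nat_lit 1553) (nat_lit 563) (nat_lit 2576))) (.f (nat_lit 593) (nat_lit 466) (nat_lit 5585) (.d (nat_lit 625) (nat_lit 594) (nat_lit 5617) (nat_lit 657) (nat_lit 7696))))) (.a s6609 s6864))))) s6974)))))))))))) (.p (nat_lit 530) (.a (.p (nat_lit 529) (.a (.f (nat_lit 499) (nat_lit 527) (nat_lit 2543) (.d (nat_lit 500) (nat_lit 497) (nat_lit 1520) (nat_lit 501) (nat_lit 1521))) (.a (.f (nat_lit 531) (nat_lit 559) (nat_lit 1551) (.f (nat_lit 499) (nat_lit 500) (nat_lit 2544) (.f (nat_lit 563) (nat_lit 564) (nat_lit 528) (.d (nat_lit 466) (nat_lit 434) (nat_lit 4530) (nat_lit 595) (nat_lit 7634))))) (.f (nat_lit 531) (nat_lit 559) (nat_lit 1551) (.f (nat_lit 563) (nat_lit 564) (nat_lit 528) (.f (nat_lit 562) (nat_lit 527) (nat_lit 527) (.d (nat_lit 466) (nat_lit 434) (nat_lit 4530) (nat_lit 595) (nat_lit 4562)))))))) (.a s5610 (.a s6061 (.a s5731 (.a (.p (nat_lit 529) (.a (.f (nat_lit 499) (nat_lit 527) (nat_lit 2543) (.d (nat_lit 500) (nat_lit 497) (nat_lit 1520) (nat_lit 501) (nat_lit 1521))) (.a (.f (nat_lit 531) (nat_lit 559) (nat_lit 1551) (.f (nat_lit 499) (nat_lit 500) (nat_lit 2544) (.f (nat_lit 563) (nat_lit 564) (nat_lit 528) (.d (nat_lit 466) (nat_lit 434) (nat_lit 4530) (nat_lit 595) (nat_lit 7634))))) (.f (nat_lit 559) (nat_lit 531) (nat_lit 1551) (.d (nat_lit 558) (nat_lit 527) (nat_lit 1550) (nat_lit 557) (nat_lit 2573)))))) (.a (.p (nat_lit 529) (.a (.f (nat_lit 499) (nat_lit 527) (nat_lit 2543) (.d (nat_lit 500) (nat_lit 497) (nat_lit 1520) (nat_lit 501) (nat_lit 1521))) (.f (nat_lit 559) (nat_lit 531) (nat_lit 1551) (.d (nat_lit 558) (nat_lit 557) (nat_lit 2573) (nat_lit 561) (nat_lit 2574))))) (.a s5673 (.p (nat_lit 562) (.a (.p (nat_lit 594) (.a (.f (nat_lit 595) (nat_lit 627) (nat_lit 4594) (.f (nat_lit 561) (nat_lit 559) (nat_lit 559) (.d (nat_lit 593) (nat_lit 596) (nat_lit 3632) (nat_lit 625) (nat_lit 5617)))) (.a (.f (nat_lit 497) (nat_lit 465) (nat_lit 7633) (.f (nat_lit 626) (nat_lit 529) (nat_lit 7665) (.d (nat_lit 625) (nat_lit 593) (nat_lit 5617) (nat_lit 657) (nat_lit 5649)))) (.f (nat_lit 595) (nat_lit 627) (nat_lit 4594) (.f (nat_lit 561) (nat_lit 559) (nat_lit 559) (.d (nat_lit 596) (nat_lit 563) (nat_lit 560) (nat_lit 597) (nat_lit 3633))))))) (.a (.p (nat_lit 594) (.a (.f (nat_lit 497) (nat_lit 465) (nat_lit 7633) (.f (nat_lit 626) (nat_lit 529) (nat_lit 7665) (.d (nat_lit 625) (nat_lit 593) (nat_lit 5617) (nat_lit 657) (nat_lit 5649)))) (.a (.f (nat_lit 595) (nat_lit 627) (nat_lit 4594) (.f (nat_lit 466) (nat_lit 563) (nat_lit 4562) (.d (nat_lit 465) (nat_lit 433) (nat_lit 7601) (nat_lit 497) (nat_lit 7633)))) (.f (nat_lit 625) (nat_lit 593) (nat_lit 5617) (.f (nat_lit 626) (nat_lit 657) (nat_lit 5649) (.d (nat_lit 627) (nat_lit 595) (nat_lit 4594) (nat_lit 659) (nat_lit 4626))))))) (.a (.p (nat_lit 466) (.a (.f (nat_lit 433) (nat_lit 465) (nat_lit 7601) (.f (nat_lit 434) (nat_lit 401) (nat_lit 7569) (.d (nat_lit 435) (nat_lit 403) (nat_lit 6546) (nat_lit 467) (nat_lit 6578)))) (.f (nat_lit 561) (nat_lit 593) (nat_lit 5585) (.d (nat_lit 563) (nat_lit 527) (nat_lit 3599) (nat_lit 595) (nat_lit 4562))))) (.a s6809 (.a s6579 (.a s5358 s6609))))))))))))))))))))))))))))))))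
noncomputable def s7108 : Cert := .r (nat_lit 18869812128501177264509710774503796433499995185341540522026907474751343623210314739829166948347900646451490313420764903077122343325272053234930137433682206587892745109504) (.p (nat_lit 594) (.a (.f (nat_lit 595) (nat_lit 627) (nat_lit 4594) (.f (nat_lit 561) (nat_lit 559) (nat_lit 559) (.d (nat_lit 466) (nat_lit 563) (nat_lit 4562) (nat_lit 593) (nat_lit 5585)))) (.a (.f (nat_lit 595) (nat_lit 627) (nat_lit 4594) (.f (nat_lit 563) (nat_lit 466) (nat_lit 4562) (.f (nat_lit 593) (nat_lit 625) (nat_lit 5617) (.d (nat_lit 564) (nat_lit 565) (nat_lit 1585) (nat_lit 592) (nat_lit 2608))))) (.a (.f (nat_lit 595) (nat_lit 627) (nat_lit 4594) (.f (nat_lit 561) (nat_lit 559) (nat_lit 559) (.d (nat_lit 563) (nat_lit 466) (nat_lit 4562) (nat_lit 596) (nat_lit 560)))) (.a (.f (nat_lit 595) (nat_lit 627) (nat_lit 4594) (.f (nat_lit 561) (nat_lit 559) (nat_lit 559) (.d (nat_lit 593) (nat_lit 596) (nat_lit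 3632) (nat_lit 625) (nat_lit 5617)))) (.f (nat_lit 467) (nat_lit 499) (nat_lit 6610) (.f (nat_lit 466) (nat_lit 435) (nat_lit 6578) (.d (nat_lit 465) (nat_lit 433) (nat_lit 7601) (nat_lit 497) (nat_lit 7633)))))))))
noncomputable def s7111 : Cert := .r (nat_lit 18869812128501177264509710774503796433499995185341540522026907474751343623210314739829166948347900646451490313420764903077122343325272053234930137433682206587892745109504) (.p (nat_lit 594) (.a (.f (nat_lit 595) (nat_lit 627) (nat_lit 4594) (.f (nat_lit 561) (nat_lit 559) (nat_lit 559) (.d (nat_lit 466) (nat_lit 563) (nat_lit 4562) (nat_lit 593) (nat_lit 5585)))) (.a (.f (nat_lit 595) (nat_lit 627) (nat_lit 4594) (.f (nat_lit 563) (nat_lit 466) (nat_lit 4562) (.f (nat_lit 593) (nat_lit 625) (nat_lit 5617) (.d (nat_lit 564) (nat_lit 565) (nat_lit 1585) (nat_lit 592) (nat_lit 2608))))) (.a (.f (nat_lit 595) (nat_lit 627) (nat_lit 4594) (.f (nat_lit 561) (nat_lit 559) (nat_lit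 559) (.d (nat_lit 563) (nat_lit 466) (nat_lit 4562) (nat_lit 596) (nat_lit 560)))) (.a (.f (nat_lit 595) (nat_lit 627) (nat_lit 4594) (.f (nat_lit 561) (nat_lit 559) (nat_lit 559) (.d (nat_lit 593) (nat_lit 596) (nat_lit 3632) (nat_lit 625) (nat_lit 5617)))) (.f (nat_lit 593) (nat_lit 625) (nat_lit 5617) (.f (nat_lit 561) (nat_lit 466) (nat_lit 5585) (.f (nat_lit 559) (nat_lit 558) (nat_lit 558) (.f (nat_lit 591) (nat_lit 590) (nat_lit 1582) (.f (nat_lit 592) (nat_lit 563) (nat_lit 1583) (.d (nat_lit 623) (nat_lit 622) (nat_lit 1614) (nat_lit 655) (nat_lit 6671))))))))))))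
noncomputable def s7112 : Cert := .r (nat_lit 18869812128501177264509710774503796433499995185341540522026907474751343623210314739829166948347900646451490313420764903077122343325272053234930137433682206587892745109504) (.p (nat_lit 594) (.a (.f (nat_lit 595) (nat_lit 627) (nat_lit 4594) (.f (nat_lit 563) (nat_lit 466) (nat_lit 4562) (.f (nat_lit 593) (nat_lit 625) (nat_lit 5617) (.d (nat_lit 564) (nat_lit 565) (nat_lit 1585) (nat_lit 592) (nat_lit 2608))))) (.a (.f (nat_lit 593) (nat_lit 625) (nat_lit 5617) (.f (nat_lit 561) (nat_lit 466) (nat_lit 5585) (.d (nat_lit 595) (nat_lit 596) (nat_lit 3632) (nat_lit 627) (nat_lit 4594)))) (.a (.f (nat_lit 499) (nat_lit 467) (nat_lit 6610) (.f (nat_lit 531) (nat_lit 626) (nat_lit 6642) (.f (nat_lit 595) (nat_lit 627) (nat_lit 4594) (.f (nat_lit 563) (nat_lit 466) (nat_lit 4562) (.d (nat_lit 500) (nat_lit 468) (nat_lit 6611) (nat_lit 529) (nat_lit 2544)))))) (.f (nat_lit 625) (nat_lit 593)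 (nat_lit 5617) (.f (nat_lit 626) (nat_lit 657) (nat_lit 5649) (.d (nat_lit 499) (nat_lit 467) (nat_lit 6610) (nat_lit 531) (nat_lit 6642))))))))
noncomputable def s7114 : Cert := .r (nat_lit 18869812128501177263691363122529760965996697761134640733972746963240577425839491897805133499246732007730672790339288863789400672293382035482625823297210858324560613212160) (.p (nat_lit 498) (.a (.p (nat_lit 594) (.a (.f (nat_lit 595) (nat_lit 627) (nat_lit 4594) (.f (nat_lit 561) (nat_lit 559) (nat_lit 559) (.d (nat_lit 466) (nat_lit 563) (nat_lit 4562) (nat_lit 593) (nat_lit 5585)))) (.f (nat_lit 497) (nat_lit 465) (nat_lit 7633) (.f (nat_lit 529) (nat_lit 626) (nat_lit 7665) (.d (nat_lit 499) (nat_lit 467) (nat_lit 6610) (nat_lit 500) (nat_lit 1520)))))) (.a s5232 (.a (.p (nat_lit 594) (.a (.f (nat_lit 593) (nat_lit 625) (nat_lit 5617) (.f (nat_lit 561) (nat_lit 466) (nat_lit 5585) (.d (nat_lit 559) (nat_lit 531) (nat_lit 2575) (nat_lit 558)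 (nat_lit 558)))) (.a (.f (nat_lit 467) (nat_lit 499) (nat_lit 6610) (.f (nat_lit 466) (nat_lit 435) (nat_lit 6578) (.d (nat_lit 465) (nat_lit 433) (nat_lit 7601) (nat_lit 497) (nat_lit 7633)))) (.f (nat_lit 595) (nat_lit 627) (nat_lit 4594) (.f (nat_lit 561) (nat_lit 559) (nat_lit 559) (.d (nat_lit 593) (nat_lit 596) (nat_lit 3632) (nat_lit 625) (nat_lit 5617))))))) (.a (.p (nat_lit 561) (.a (.f (nat_lit 531) (nat_lit 559) (nat_lit 2575) (.d (nat_lit 532) (nat_lit 529) (nat_lit 1552) (nat_lit 533) (nat_lit 1553))) (.a (.f (nat_lit 466) (nat_lit 593) (nat_lit 5585) (.f (nat_lit 563) (nat_lit 595) (nat_lit 4562) (.d (nat_lit 531) (nat_lit 434) (nat_lit 4530) (nat_lit 532) (nat_lit 2576)))) (.f (nat_lit 466) (nat_lit 593) (nat_lit 5585) (.f (nat_lit 529) (nat_lit 434) (nat_lit 5553) (.d (nat_lit 563) (nat_lit 564) (nat_lit 3600) (nat_lit 595) (nat_lit 4562))))))) (.a (.p (nat_lit 594) (.a (.f (nat_lit 497) (nat_lit 465) (nat_lit 7633)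 (.f (nat_lit 529) (nat_lit 626) (nat_lit 7665) (.d (nat_lit 499) (nat_lit 467) (nat_lit 6610) (nat_lit 500) (nat_lit 1520)))) (.f (nat_lit 595) (nat_lit 627) (nat_lit 4594) (.f (nat_lit 561) (nat_lit 559) (nat_lit 559) (.d (nat_lit 563) (nat_lit 466) (nat_lit 4562) (nat_lit 596) (nat_lit 560)))))) (.p (nat_lit 594) (.a (.f (nat_lit 497) (nat_lit 465) (nat_lit 7633) (.f (nat_lit 529) (nat_lit 626) (nat_lit 7665) (.d (nat_lit 499) (nat_lit 467) (nat_lit 6610) (nat_lit 500) (nat_lit 1520)))) (.f (nat_lit 595) (nat_lit 627) (nat_lit 4594) (.f (nat_lit 561) (nat_lit 559) (nat_lit 559) (.d (nat_lit 593) (nat_lit 596) (nat_lit 3632) (nat_lit 625) (nat_lit 5617))))))))))))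
noncomputable def s7120 : Cert := .r (nat_lit 18869812128501177264509710774503796433499995185341540522026907474751343623210314739829166948347900646451490313420764903077122343325272053234930137433682206587892745109504) (.p (nat_lit 466) (.a (.f (nat_lit 561) (nat_lit 593) (nat_lit 5585) (.f (nat_lit 529) (nat_lit 434) (nat_lit 5553) (.d (nat_lit 563) (nat_lit 564) (nat_lit 3600) (nat_lit 595) (nat_lit 4562)))) (.a (.f (nat_lit 433) (nat_lit 465) (nat_lit 7601) (.f (nat_lit 434) (nat_lit 401) (nat_lit 7569) (.d (nat_lit 435) (nat_lit 403) (nat_lit 6546) (nat_lit 467) (nat_lit 6578)))) (.f (nat_lit 561) (nat_lit 593) (nat_lit 5585) (.f (nat_lit 563) (nat_lit 595) (nat_lit 4562) (.f (nat_lit 529) (nat_lit 564) (nat_lit 3600) (.f (nat_lit 465) (nat_lit 433) (nat_lit 7601) (.d (nat_lit 592) (nat_lit 497) (nat_lit 5584) (nat_lit 591) (nat_lit 1583)))))))))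
noncomputable def s7121 : Cert := .r (nat_lit 18869812128501177264509710774503796433499995185341540522026907474751343623210314739829166948347900646451490313420764903077122343325272053234930137433682206587892745109504) (.p (nat_lit 594) (.a (.f (nat_lit 497) (nat_lit 465) (nat_lit 7633) (.f (nat_lit 529) (nat_lit 626) (nat_lit 7665) (.d (nat_lit 499) (nat_lit 467) (nat_lit 6610) (nat_lit 500) (nat_lit 1520)))) (.a (.f (nat_lit 467) (nat_lit 499) (nat_lit 6610) (.f (nat_lit 466) (nat_lit 435) (nat_lit 6578) (.d (nat_lit 465) (nat_lit 433) (nat_lit 7601) (nat_lit 497) (nat_lit 7633)))) (.f (nat_lit 593) (nat_lit 625) (nat_lit 5617) (.f (nat_lit 561) (nat_lit 466) (nat_lit 5585) (.f (nat_lit 559) (nat_lit 558) (nat_lit 558) (.f (nat_lit 591) (nat_lit 590) (nat_lit 1582) (.f (nat_lit 592) (nat_lit 563) (nat_lit 1583) (.d (nat_lit 623) (nat_lit 622) (nat_lit 1614) (nat_lit 655) (nat_lit 6671))))))))))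
noncomputable def s7156 : Cert := .r (nat_lit 18869812128501177263691363122529760965996697761134640733972746963240577425839491897805133499246732007730672790339288863789400672293382035482625823297210858324560613212160) (.p (nat_lit 498) (.a (.p (nat_lit 594) (.a (.f (nat_lit 497) (nat_lit 465) (nat_lit 7633) (.f (nat_lit 529) (nat_lit 626) (nat_lit 7665) (.d (nat_lit 499) (nat_lit 467) (nat_lit 6610) (nat_lit 500) (nat_lit 1520)))) (.f (nat_lit 593) (nat_lit 625) (nat_lit 5617) (.f (nat_lit 561) (nat_lit 466) (nat_lit 5585) (.d (nat_lit 559) (nat_lit 531) (nat_lit 2575) (nat_lit 558) (nat_lit 558)))))) (.a s5232 (.a (.p (nat_lit 594) (.a (.f (nat_lit 593) (nat_lit 625) (nat_lit 5617) (.f (nat_lit 561) (nat_lit 466) (nat_lit 5585) (.d (nat_lit 559) (nat_lit 531) (nat_lit 2575) (nat_lit 558) (nat_lit 558)))) (.a (.f (nat_lit 467) (nat_lit 499) (nat_lit 6610) (.f (nat_lit 466) (nat_lit 435) (nat_lit 6578) (.d (nat_lit 465) (nat_lit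 433) (nat_lit 7601) (nat_lit 497) (nat_lit 7633)))) (.f (nat_lit 595) (nat_lit 627) (nat_lit 4594) (.f (nat_lit 561) (nat_lit 559) (nat_lit 559) (.d (nat_lit 593) (nat_lit 596) (nat_lit 3632) (nat_lit 625) (nat_lit 5617))))))) (.a (.p (nat_lit 561) (.a (.f (nat_lit 531) (nat_lit 559) (nat_lit 2575) (.d (nat_lit 532) (nat_lit 529) (nat_lit 1552) (nat_lit 533) (nat_lit 1553))) (.f (nat_lit 466) (nat_lit 593) (nat_lit 5585) (.f (nat_lit 435) (nat_lit 467) (nat_lit 6578) (.f (nat_lit 434) (nat_lit 403) (nat_lit 6546) (.d (nat_lit 433) (nat_lit 401) (nat_lit 7569) (nat_lit 465) (nat_lit 7601))))))) (.a (.p (nat_lit 594) (.a (.f (nat_lit 497) (nat_lit 465) (nat_lit 7633) (.f (nat_lit 529) (nat_lit 626) (nat_lit 7665) (.d (nat_lit 499) (nat_lit 467) (nat_lit 6610) (nat_lit 500) (nat_lit 1520)))) (.f (nat_lit 595) (nat_lit 627) (nat_lit 4594) (.f (nat_lit 561) (nat_lit 559) (nat_lit 559) (.d (nat_lit 593) (nat_lit 596) (nat_lit 3632) (nat_lit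 625) (nat_lit 5617)))))) (.a s5611 (.a s5616 (.p (nat_lit 594) (.a (.f (nat_lit 593) (nat_lit 625) (nat_lit 5617) (.f (nat_lit 561) (nat_lit 466) (nat_lit 5585) (.d (nat_lit 559) (nat_lit 531) (nat_lit 2575) (nat_lit 558) (nat_lit 558)))) (.a (.f (nat_lit 497) (nat_lit 465) (nat_lit 7633) (.f (nat_lit 626) (nat_lit 529) (nat_lit 7665) (.d (nat_lit 625) (nat_lit 593) (nat_lit 5617) (nat_lit 657) (nat_lit 5649)))) (.f (nat_lit 497) (nat_lit 465) (nat_lit 7633) (.f (nat_lit 529) (nat_lit 626) (nat_lit 7665) (.f (nat_lit 559) (nat_lit 531) (nat_lit 1551) (.d (nat_lit 558) (nat_lit 557) (nat_lit 2573) (nat_lit 561) (nat_lit 2574))))))))))))))))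
noncomputable def s7175 : Cert := .r (nat_lit 18869812128501177263691363122529760965996697761134640733972746963240577425839491897805133499246732007730672790339288863789400672293382035482625823297210858324560613212160) (.p (nat_lit 531) (.a (.d (nat_lit 559) (nat_lit 529) (nat_lit 1551) (nat_lit 561) (nat_lit 2575)) (.a (.f (nat_lit 529) (nat_lit 559) (nat_lit 1551) (.f (nat_lit 563) (nat_lit 564) (nat_lit 528) (.f (nat_lit 499) (nat_lit 500) (nat_lit 2544) (.f (nat_lit 467) (nat_lit 435) (nat_lit 5554) (.f (nat_lit 466) (nat_lit 434) (nat_lit 7602) (.f (nat_lit 595) (nat_lit 498) (nat_lit 4562) (.f (nat_lit 627) (nat_lit 659) (nat_lit 7698) (.d (nat_lit 628) (nat_lit 596) (nat_lit 4595) (nat_lit 660) (nat_lit 4627))))))))) (.a (.f (nat_lit 561) (nat_lit 559) (nat_lit 2575) (.d (nat_lit 532) (nat_lit 533) (nat_lit 1553) (nat_lit 563) (nat_lit 2576))) (.p (nat_lit 529) (.a (.f (nat_lit 561) (nat_lit 532) (nat_lit 1552) (.f (nat_lit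 563) (nat_lit 564) (nat_lit 528) (.f (nat_lit 595) (nat_lit 596) (nat_lit 560) (.d (nat_lit 498) (nat_lit 466) (nat_lit 4562) (nat_lit 627) (nat_lit 7666))))) (.a (.f (nat_lit 563) (nat_lit 564) (nat_lit 528) (.f (nat_lit 499) (nat_lit 500) (nat_lit 2544) (.f (nat_lit 467) (nat_lit 435) (nat_lit 5554) (.f (nat_lit 466) (nat_lit 434) (nat_lit 7602) (.f (nat_lit 595) (nat_lit 498) (nat_lit 4562) (.f (nat_lit 627) (nat_lit 659) (nat_lit 7698) (.d (nat_lit 628) (nat_lit 596) (nat_lit 4595) (nat_lit 660) (nat_lit 4627)))))))) (.f (nat_lit 532) (nat_lit 561) (nat_lit 1552) (.d (nat_lit 500) (nat_lit 499) (nat_lit 2544) (nat_lit 501) (nat_lit 2545))))))))))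
noncomputable def s7176 : Cert := .r (nat_lit 18869812128501177264509710774503796433499995185341540522026907474751343623210314739829166948347900646451490313420764903077122343325272053234930137433682206587892745109504) (.p (nat_lit 594) (.a (.f (nat_lit 595) (nat_lit 627) (nat_lit 4594) (.f (nat_lit 563) (nat_lit 466) (nat_lit 4562) (.f (nat_lit 593) (nat_lit 625) (nat_lit 5617) (.d (nat_lit 564) (nat_lit 565) (nat_lit 1585) (nat_lit 592) (nat_lit 2608))))) (.a (.f (nat_lit 593) (nat_lit 625) (nat_lit 5617) (.f (nat_lit 561) (nat_lit 466) (nat_lit 5585) (.d (nat_lit 595) (nat_lit 596) (nat_lit 3632) (nat_lit 627) (nat_lit 4594)))) (.a (.f (nat_lit 497) (nat_lit 465) (nat_lit 7633) (.f (nat_lit 529) (nat_lit 626) (nat_lit 7665) (.f (nat_lit 595) (nat_lit 627) (nat_lit 4594) (.f (nat_lit 563) (nat_lit 466) (nat_lit 4562) (.d (nat_lit 561) (nat_lit 564) (nat_lit 3600) (nat_lit 596) (nat_lit 560)))))) (.f (nat_lit 497) (nat_lit 465)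 (nat_lit 7633) (.f (nat_lit 626) (nat_lit 529) (nat_lit 7665) (.d (nat_lit 625) (nat_lit 593) (nat_lit 5617) (nat_lit 657) (nat_lit 5649))))))))
noncomputable def s7177 : Cert := .r (nat_lit 18869812128501177263691363122529760965996697761134640733972746963240577425839491897805133499246732007730672790339288863789400672293382035482625823297210858324560613212160) (.p (nat_lit 498) (.a (.p (nat_lit 594) (.a (.f (nat_lit 497) (nat_lit 465) (nat_lit 7633) (.f (nat_lit 529) (nat_lit 626) (nat_lit 7665) (.d (nat_lit 499) (nat_lit 467) (nat_lit 6610) (nat_lit 500) (nat_lit 1520)))) (.f (nat_lit 595) (nat_lit 627) (nat_lit 4594) (.f (nat_lit 563) (nat_lit 466) (nat_lit 4562) (.f (nat_lit 593) (nat_lit 625) (nat_lit 5617) (.d (nat_lit 564) (nat_lit 565) (nat_lit 1585) (nat_lit 592) (nat_lit 2608))))))) (.a (.p (nat_lit 594) (.a (.f (nat_lit 595) (nat_lit 627) (nat_lit 4594) (.f (nat_lit 563) (nat_lit 466) (nat_lit 4562) (.f (nat_lit 593) (nat_lit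 625) (nat_lit 5617) (.d (nat_lit 564) (nat_lit 565) (nat_lit 1585) (nat_lit 592) (nat_lit 2608))))) (.a (.f (nat_lit 467) (nat_lit 499) (nat_lit 6610) (.f (nat_lit 466) (nat_lit 435) (nat_lit 6578) (.d (nat_lit 465) (nat_lit 433) (nat_lit 7601) (nat_lit 497) (nat_lit 7633)))) (.f (nat_lit 625) (nat_lit 593) (nat_lit 5617) (.f (nat_lit 626) (nat_lit 657) (nat_lit 5649) (.d (nat_lit 499) (nat_lit 467) (nat_lit 6610) (nat_lit 531) (nat_lit 6642))))))) (.a s7112 (.a s5232 (.a s5612 (.a s7120 (.a s5447 s7176))))))))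
noncomputable def s7182 : Cert := .r (nat_lit 18869812124986400861704490948459027756867024433892689860299374593630612134736493787905533600559981471712008058190913152356962472978375577626770901665172955839509703950336) (.p (nat_lit 530) (.a s3103 (.a (.p (nat_lit 594) (.a (.p (nat_lit 498) (.a (.f (nat_lit 497) (nat_lit 465) (nat_lit 7633) (.f (nat_lit 529) (nat_lit 626) (nat_lit 7665) (.d (nat_lit 499) (nat_lit 467) (nat_lit 6610) (nat_lit 500) (nat_lit 1520)))) (.f (nat_lit 595) (nat_lit 627) (nat_lit 4594) (.f (nat_lit 563) (nat_lit 466) (nat_lit 4562) (.f (nat_lit 593) (nat_lit 625) (nat_lit 5617) (.d (nat_lit 564) (nat_lit 565) (nat_lit 1585) (nat_lit 592) (nat_lit 2608))))))) (.a (.p (nat_lit 498) (.a (.f (nat_lit 595) (nat_lit 627) (nat_lit 4594) (.f (nat_lit 563) (nat_lit 466) (nat_lit 4562) (.f (nat_lit 593) (nat_lit 625) (nat_lit 5617) (.d (nat_lit 564) (nat_lit 565) (nat_lit 1585) (nat_lit 592) (nat_lit 2608))))) (.a (.f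 (nat_lit 467) (nat_lit 499) (nat_lit 6610) (.f (nat_lit 466) (nat_lit 435) (nat_lit 6578) (.d (nat_lit 465) (nat_lit 433) (nat_lit 7601) (nat_lit 497) (nat_lit 7633)))) (.f (nat_lit 625) (nat_lit 593) (nat_lit 5617) (.f (nat_lit 626) (nat_lit 657) (nat_lit 5649) (.d (nat_lit 499) (nat_lit 467) (nat_lit 6610) (nat_lit 531) (nat_lit 6642))))))) (.a (.p (nat_lit 498) (.a (.f (nat_lit 595) (nat_lit 627) (nat_lit 4594) (.f (nat_lit 563) (nat_lit 466) (nat_lit 4562) (.f (nat_lit 593) (nat_lit 625) (nat_lit 5617) (.d (nat_lit 564) (nat_lit 565) (nat_lit 1585) (nat_lit 592) (nat_lit 2608))))) (.a (.f (nat_lit 625) (nat_lit 593) (nat_lit 5617) (.f (nat_lit 626) (nat_lit 657) (nat_lit 5649) (.d (nat_lit 499) (nat_lit 467) (nat_lit 6610) (nat_lit 531) (nat_lit 6642)))) (.f (nat_lit 499) (nat_lit 467) (nat_lit 6610) (.f (nat_lit 531) (nat_lit 626) (nat_lit 6642) (.d (nat_lit 529) (nat_lit 500) (nat_lit 2544) (nat_lit 559) (nat_lit 1551)))))))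 (.a s3695 (.a (.p (nat_lit 529) (.a (.f (nat_lit 531) (nat_lit 559) (nat_lit 1551) (.d (nat_lit 499) (nat_lit 500) (nat_lit 2544) (nat_lit 626) (nat_lit 6642))) (.a (.f (nat_lit 626) (nat_lit 497) (nat_lit 7665) (.f (nat_lit 657) (nat_lit 625) (nat_lit 5649) (.f (nat_lit 658) (nat_lit 689) (nat_lit 5681) (.d (nat_lit 659) (nat_lit 627) (nat_lit 4626) (nat_lit 691) (nat_lit 4658))))) (.f (nat_lit 531) (nat_lit 559) (nat_lit 1551) (.f (nat_lit 563) (nat_lit 564) (nat_lit 528) (.d (nat_lit 499) (nat_lit 467) (nat_lit 5586) (nat_lit 500) (nat_lit 2544))))))) (.a s3705 (.a s3706 s3506)))))))) (.a (.p (nat_lit 498) (.a s3090 (.a (.p (nat_lit 594) (.a (.f (nat_lit 595) (nat_lit 627) (nat_lit 4594) (.f (nat_lit 563) (nat_lit 466) (nat_lit 4562) (.f (nat_lit 593) (nat_lit 625) (nat_lit 5617) (.d (nat_lit 564) (nat_lit 565) (nat_lit 1585) (nat_lit 592) (nat_lit 2608))))) (.a (.f (nat_lit 467) (nat_lit 499) (nat_lit 6610) (.f (nat_lit 466)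 (nat_lit 435) (nat_lit 6578) (.d (nat_lit 465) (nat_lit 433) (nat_lit 7601) (nat_lit 497) (nat_lit 7633)))) (.f (nat_lit 625) (nat_lit 593) (nat_lit 5617) (.f (nat_lit 626) (nat_lit 657) (nat_lit 5649) (.d (nat_lit 499) (nat_lit 467) (nat_lit 6610) (nat_lit 531) (nat_lit 6642))))))) (.a (.p (nat_lit 594) (.a (.f (nat_lit 593) (nat_lit 625) (nat_lit 5617) (.f (nat_lit 561) (nat_lit 466) (nat_lit 5585) (.d (nat_lit 559) (nat_lit 531) (nat_lit 2575) (nat_lit 558) (nat_lit 558)))) (.a (.f (nat_lit 467) (nat_lit 499) (nat_lit 6610) (.f (nat_lit 466) (nat_lit 435) (nat_lit 6578) (.d (nat_lit 465) (nat_lit 433) (nat_lit 7601) (nat_lit 497) (nat_lit 7633)))) (.f (nat_lit 595) (nat_lit 627) (nat_lit 4594) (.f (nat_lit 561) (nat_lit 559) (nat_lit 559) (.d (nat_lit 593) (nat_lit 596) (nat_lit 3632) (nat_lit 625) (nat_lit 5617))))))) (.a s7108 (.a (.p (nat_lit 594) (.a (.f (nat_lit 595) (nat_lit 627) (nat_lit 4594) (.f (nat_lit 561) (nat_lit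 559) (nat_lit 559) (.d (nat_lit 563) (nat_lit 466) (nat_lit 4562) (nat_lit 596) (nat_lit 560)))) (.a (.f (nat_lit 467) (nat_lit 499) (nat_lit 6610) (.f (nat_lit 466) (nat_lit 435) (nat_lit 6578) (.d (nat_lit 465) (nat_lit 433) (nat_lit 7601) (nat_lit 497) (nat_lit 7633)))) (.f (nat_lit 595) (nat_lit 627) (nat_lit 4594) (.f (nat_lit 561) (nat_lit 559) (nat_lit 559) (.d (nat_lit 596) (nat_lit 563) (nat_lit 560) (nat_lit 597) (nat_lit 3633))))))) (.a (.p (nat_lit 561) (.a (.f (nat_lit 466) (nat_lit 593) (nat_lit 5585) (.f (nat_lit 563) (nat_lit 595) (nat_lit 4562) (.d (nat_lit 531) (nat_lit 434) (nat_lit 4530) (nat_lit 532) (nat_lit 2576)))) (.a (.f (nat_lit 466) (nat_lit 593) (nat_lit 5585) (.f (nat_lit 435) (nat_lit 467) (nat_lit 6578) (.f (nat_lit 434) (nat_lit 403) (nat_lit 6546) (.d (nat_lit 433) (nat_lit 401) (nat_lit 7569) (nat_lit 465) (nat_lit 7601))))) (.f (nat_lit 531) (nat_lit 559) (nat_lit 2575) (.d (nat_lit 532) (nat_lit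 533) (nat_lit 1553) (nat_lit 563) (nat_lit 2576)))))) (.a (.p (nat_lit 594) (.a (.f (nat_lit 595) (nat_lit 627) (nat_lit 4594) (.f (nat_lit 561) (nat_lit 559) (nat_lit 559) (.d (nat_lit 593) (nat_lit 596) (nat_lit 3632) (nat_lit 625) (nat_lit 5617)))) (.a (.f (nat_lit 625) (nat_lit 593) (nat_lit 5617) (.f (nat_lit 626) (nat_lit 657) (nat_lit 5649) (.d (nat_lit 499) (nat_lit 467) (nat_lit 6610) (nat_lit 531) (nat_lit 6642)))) (.f (nat_lit 595) (nat_lit 627) (nat_lit 4594) (.f (nat_lit 561) (nat_lit 559) (nat_lit 559) (.d (nat_lit 596) (nat_lit 563) (nat_lit 560) (nat_lit 597) (nat_lit 3633))))))) (.p (nat_lit 594) (.a (.f (nat_lit 593) (nat_lit 625) (nat_lit 5617) (.f (nat_lit 561) (nat_lit 466) (nat_lit 5585) (.d (nat_lit 559) (nat_lit 531) (nat_lit 2575) (nat_lit 558) (nat_lit 558)))) (.a (.f (nat_lit 467) (nat_lit 499) (nat_lit 6610) (.f (nat_lit 466) (nat_lit 435) (nat_lit 6578) (.d (nat_lit 465) (nat_lit 433) (nat_lit 7601)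 (nat_lit 497) (nat_lit 7633)))) (.f (nat_lit 625) (nat_lit 593) (nat_lit 5617) (.f (nat_lit 626) (nat_lit 657) (nat_lit 5649) (.d (nat_lit 499) (nat_lit 467) (nat_lit 6610) (nat_lit 531) (nat_lit 6642))))))))))))))) (.a (.p (nat_lit 498) (.a s3090 (.a (.p (nat_lit 594) (.a (.f (nat_lit 595) (nat_lit 627) (nat_lit 4594) (.f (nat_lit 563) (nat_lit 466) (nat_lit 4562) (.f (nat_lit 593) (nat_lit 625) (nat_lit 5617) (.d (nat_lit 564) (nat_lit 565) (nat_lit 1585) (nat_lit 592) (nat_lit 2608))))) (.a (.f (nat_lit 625) (nat_lit 593) (nat_lit 5617) (.f (nat_lit 626) (nat_lit 657) (nat_lit 5649) (.d (nat_lit 499) (nat_lit 467) (nat_lit 6610) (nat_lit 531) (nat_lit 6642)))) (.f (nat_lit 499) (nat_lit 467) (nat_lit 6610) (.f (nat_lit 531) (nat_lit 626) (nat_lit 6642) (.d (nat_lit 529) (nat_lit 500) (nat_lit 2544) (nat_lit 559) (nat_lit 1551))))))) (.a (.p (nat_lit 561) (.a (.f (nat_lit 531) (nat_lit 559) (nat_lit 2575) (.d (nat_lit 532) (nat_lit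 529) (nat_lit 1552) (nat_lit 533) (nat_lit 1553))) (.a (.f (nat_lit 466) (nat_lit 593) (nat_lit 5585) (.f (nat_lit 563) (nat_lit 595) (nat_lit 4562) (.d (nat_lit 531) (nat_lit 434) (nat_lit 4530) (nat_lit 532) (nat_lit 2576)))) (.f (nat_lit 466) (nat_lit 593) (nat_lit 5585) (.f (nat_lit 529) (nat_lit 434) (nat_lit 5553) (.d (nat_lit 563) (nat_lit 564) (nat_lit 3600) (nat_lit 595) (nat_lit 4562))))))) (.a s7111 (.a s5460 (.a (.p (nat_lit 561) (.a (.f (nat_lit 531) (nat_lit 559) (nat_lit 2575) (.d (nat_lit 532) (nat_lit 529) (nat_lit 1552) (nat_lit 533) (nat_lit 1553))) (.f (nat_lit 466) (nat_lit 593) (nat_lit 5585) (.f (nat_lit 435) (nat_lit 467) (nat_lit 6578) (.f (nat_lit 434) (nat_lit 403) (nat_lit 6546) (.d (nat_lit 433) (nat_lit 401) (nat_lit 7569) (nat_lit 465) (nat_lit 7601))))))) (.a s7112 (.p (nat_lit 594) (.a (.f (nat_lit 595) (nat_lit 627) (nat_lit 4594) (.f (nat_lit 561) (nat_lit 559) (nat_lit 559) (.d (nat_lit 593) (nat_lit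 596) (nat_lit 3632) (nat_lit 625) (nat_lit 5617)))) (.a (.f (nat_lit 625) (nat_lit 593) (nat_lit 5617) (.f (nat_lit 626) (nat_lit 657) (nat_lit 5649) (.d (nat_lit 499) (nat_lit 467) (nat_lit 6610) (nat_lit 531) (nat_lit 6642)))) (.f (nat_lit 595) (nat_lit 627) (nat_lit 4594) (.f (nat_lit 561) (nat_lit 559) (nat_lit 559) (.d (nat_lit 596) (nat_lit 563) (nat_lit 560) (nat_lit 597) (nat_lit 3633))))))))))))))) (.a s7114 (.a (.p (nat_lit 498) (.a (.p (nat_lit 594) (.a (.f (nat_lit 595) (nat_lit 627) (nat_lit 4594) (.f (nat_lit 561) (nat_lit 559) (nat_lit 559) (.d (nat_lit 466) (nat_lit 563) (nat_lit 4562) (nat_lit 593) (nat_lit 5585)))) (.f (nat_lit 497) (nat_lit 465) (nat_lit 7633) (.f (nat_lit 529) (nat_lit 626) (nat_lit 7665) (.d (nat_lit 499) (nat_lit 467) (nat_lit 6610) (nat_lit 500) (nat_lit 1520)))))) (.a (.p (nat_lit 594) (.a (.f (nat_lit 497) (nat_lit 465) (nat_lit 7633) (.f (nat_lit 529) (nat_lit 626) (nat_lit 7665) (.d (nat_lit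 499) (nat_lit 467) (nat_lit 6610) (nat_lit 500) (nat_lit 1520)))) (.f (nat_lit 595) (nat_lit 627) (nat_lit 4594) (.f (nat_lit 563) (nat_lit 466) (nat_lit 4562) (.f (nat_lit 593) (nat_lit 625) (nat_lit 5617) (.d (nat_lit 564) (nat_lit 565) (nat_lit 1585) (nat_lit 592) (nat_lit 2608))))))) (.a s7108 (.a s7111 (.a (.p (nat_lit 594) (.a (.f (nat_lit 497) (nat_lit 465) (nat_lit 7633) (.f (nat_lit 529) (nat_lit 626) (nat_lit 7665) (.d (nat_lit 499) (nat_lit 467) (nat_lit 6610) (nat_lit 500) (nat_lit 1520)))) (.f (nat_lit 595) (nat_lit 627) (nat_lit 4594) (.f (nat_lit 561) (nat_lit 559) (nat_lit 559) (.d (nat_lit 563) (nat_lit 466) (nat_lit 4562) (nat_lit 596) (nat_lit 560)))))) (.a (.p (nat_lit 594) (.a (.f (nat_lit 497) (nat_lit 465) (nat_lit 7633) (.f (nat_lit 529) (nat_lit 626) (nat_lit 7665) (.d (nat_lit 499) (nat_lit 467) (nat_lit 6610) (nat_lit 500) (nat_lit 1520)))) (.f (nat_lit 595) (nat_lit 627) (nat_lit 4594) (.f (nat_lit 561)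 (nat_lit 559) (nat_lit 559) (.d (nat_lit 593) (nat_lit 596) (nat_lit 3632) (nat_lit 625) (nat_lit 5617)))))) (.a s7120 s7121)))))))) (.a (.p (nat_lit 561) (.a (.f (nat_lit 531) (nat_lit 559) (nat_lit 2575) (.d (nat_lit 532) (nat_lit 529) (nat_lit 1552) (nat_lit 533) (nat_lit 1553))) (.a (.f (nat_lit 559) (nat_lit 531) (nat_lit 2575) (.f (nat_lit 591) (nat_lit 590) (nat_lit 1582) (.f (nat_lit 592) (nat_lit 563) (nat_lit 1583) (.f (nat_lit 594) (nat_lit 595) (nat_lit 559) (.f (nat_lit 593) (nat_lit 558) (nat_lit 558) (.d (nat_lit 623) (nat_lit 622) (nat_lit 1614) (nat_lit 655) (nat_lit 6671))))))) (.a (.p (nat_lit 529) (.a (.f (nat_lit 563) (nat_lit 564) (nat_lit 3600) (.f (nat_lit 592) (nat_lit 591) (nat_lit 1583) (.d (nat_lit 497) (nat_lit 465) (nat_lit 5584) (nat_lit 624) (nat_lit 6640)))) (.a (.f (nat_lit 563) (nat_lit 564) (nat_lit 3600) (.f (nat_lit 559) (nat_lit 558) (nat_lit 2574) (.d (nat_lit 591) (nat_lit 590) (nat_lit 1582)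 (nat_lit 592) (nat_lit 1583)))) (.f (nat_lit 559) (nat_lit 558) (nat_lit 2574) (.f (nat_lit 594) (nat_lit 595) (nat_lit 559) (.d (nat_lit 497) (nat_lit 465) (nat_lit 4561) (nat_lit 626) (nat_lit 7665))))))) (.p (nat_lit 563) (.a (.f (nat_lit 564) (nat_lit 529) (nat_lit 3600) (.d (nat_lit 532) (nat_lit 531) (nat_lit 2576) (nat_lit 533) (nat_lit 2577))) (.a (.f (nat_lit 531) (nat_lit 532) (nat_lit 2576) (.f (nat_lit 595) (nat_lit 596) (nat_lit 560) (.f (nat_lit 627) (nat_lit 659) (nat_lit 7698) (.f (nat_lit 626) (nat_lit 658) (nat_lit 5650) (.f (nat_lit 594) (nat_lit 499) (nat_lit 6642) (.f (nat_lit 592) (nat_lit 591) (nat_lit 1583) (.d (nat_lit 593) (nat_lit 564) (nat_lit 2608) (nat_lit 628) (nat_lit 592)))))))) (.a (.f (nat_lit 564) (nat_lit 529) (nat_lit 3600) (.d (nat_lit 592) (nat_lit 591) (nat_lit 1583) (nat_lit 593) (nat_lit 1584))) (.f (nat_lit 531) (nat_lit 532) (nat_lit 2576) (.f (nat_lit 595) (nat_lit 596) (nat_lit 560)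 (.f (nat_lit 627) (nat_lit 659) (nat_lit 7698) (.f (nat_lit 626) (nat_lit 658) (nat_lit 5650) (.f (nat_lit 594) (nat_lit 499) (nat_lit 6642) (.f (nat_lit 592) (nat_lit 591) (nat_lit 1583) (.d (nat_lit 628) (nat_lit 593) (nat_lit 592) (nat_lit 660) (nat_lit 4627)))))))))))))))) (.a (.p (nat_lit 594) (.a (.p (nat_lit 529) (.a (.f (nat_lit 531) (nat_lit 559) (nat_lit 1551) (.d (nat_lit 499) (nat_lit 500) (nat_lit 2544) (nat_lit 626) (nat_lit 6642))) (.a (.f (nat_lit 626) (nat_lit 497) (nat_lit 7665) (.f (nat_lit 657) (nat_lit 625) (nat_lit 5649) (.f (nat_lit 658) (nat_lit 689) (nat_lit 5681) (.d (nat_lit 659) (nat_lit 627) (nat_lit 4626) (nat_lit 691) (nat_lit 4658))))) (.f (nat_lit 531) (nat_lit 559) (nat_lit 1551) (.f (nat_lit 563) (nat_lit 564) (nat_lit 528) (.d (nat_lit 499) (nat_lit 467) (nat_lit 5586) (nat_lit 500) (nat_lit 2544))))))) (.a (.p (nat_lit 626) (.a (.f (nat_lit 531) (nat_lit 499) (nat_lit 6642) (.f (nat_lit 561)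 (nat_lit 559) (nat_lit 2575) (.d (nat_lit 532) (nat_lit 533) (nat_lit 1553) (nat_lit 563) (nat_lit 2576)))) (.a (.f (nat_lit 531) (nat_lit 499) (nat_lit 6642) (.f (nat_lit 658) (nat_lit 563) (nat_lit 6674) (.d (nat_lit 657) (nat_lit 625) (nat_lit 5649) (nat_lit 689) (nat_lit 5681)))) (.f (nat_lit 657) (nat_lit 625) (nat_lit 5649) (.f (nat_lit 658) (nat_lit 689) (nat_lit 5681) (.d (nat_lit 659) (nat_lit 627) (nat_lit 4626) (nat_lit 691) (nat_lit 4658))))))) (.a (.p (nat_lit 498) (.a (.f (nat_lit 497) (nat_lit 465) (nat_lit 7633) (.f (nat_lit 529) (nat_lit 626) (nat_lit 7665) (.d (nat_lit 499) (nat_lit 467) (nat_lit 6610) (nat_lit 500) (nat_lit 1520)))) (.f (nat_lit 595) (nat_lit 627) (nat_lit 4594) (.f (nat_lit 561) (nat_lit 559) (nat_lit 559) (.d (nat_lit 563) (nat_lit 466) (nat_lit 4562) (nat_lit 596) (nat_lit 560)))))) (.a s3730 (.a s3736 (.a s3737 s3738))))))) (.a s7156 (.a s7175 (.a s7177 (.a (.p (nat_lit 498) (.a s3090 (.a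 (.p (nat_lit 594) (.a (.f (nat_lit 595) (nat_lit 627) (nat_lit 4594) (.f (nat_lit 563) (nat_lit 466) (nat_lit 4562) (.f (nat_lit 593) (nat_lit 625) (nat_lit 5617) (.d (nat_lit 564) (nat_lit 565) (nat_lit 1585) (nat_lit 592) (nat_lit 2608))))) (.a (.f (nat_lit 497) (nat_lit 465) (nat_lit 7633) (.f (nat_lit 626) (nat_lit 529) (nat_lit 7665) (.d (nat_lit 625) (nat_lit 593) (nat_lit 5617) (nat_lit 657) (nat_lit 5649)))) (.f (nat_lit 497) (nat_lit 465) (nat_lit 7633) (.f (nat_lit 529) (nat_lit 626) (nat_lit 7665) (.f (nat_lit 531) (nat_lit 559) (nat_lit 1551) (.f (nat_lit 563) (nat_lit 564) (nat_lit 528) (.d (nat_lit 466) (nat_lit 434) (nat_lit 4530) (nat_lit 595) (nat_lit 4562))))))))) (.a (.p (nat_lit 561) (.a (.f (nat_lit 531) (nat_lit 559) (nat_lit 2575) (.d (nat_lit 532) (nat_lit 529) (nat_lit 1552) (nat_lit 533) (nat_lit 1553))) (.a (.f (nat_lit 466) (nat_lit 593) (nat_lit 5585) (.f (nat_lit 563) (nat_lit 595) (nat_lit 4562) (.d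 (nat_lit 531) (nat_lit 434) (nat_lit 4530) (nat_lit 532) (nat_lit 2576)))) (.f (nat_lit 466) (nat_lit 593) (nat_lit 5585) (.f (nat_lit 529) (nat_lit 434) (nat_lit 5553) (.d (nat_lit 563) (nat_lit 564) (nat_lit 3600) (nat_lit 595) (nat_lit 4562))))))) (.a s7111 (.a s5613 (.a (.p (nat_lit 561) (.a (.f (nat_lit 531) (nat_lit 559) (nat_lit 2575) (.d (nat_lit 532) (nat_lit 529) (nat_lit 1552) (nat_lit 533) (nat_lit 1553))) (.f (nat_lit 466) (nat_lit 593) (nat_lit 5585) (.f (nat_lit 435) (nat_lit 467) (nat_lit 6578) (.f (nat_lit 434) (nat_lit 403) (nat_lit 6546) (.d (nat_lit 433) (nat_lit 401) (nat_lit 7569) (nat_lit 465) (nat_lit 7601))))))) (.a s7120 (.p (nat_lit 594) (.a (.f (nat_lit 595) (nat_lit 627) (nat_lit 4594) (.f (nat_lit 561) (nat_lit 559) (nat_lit 559) (.d (nat_lit 593) (nat_lit 596) (nat_lit 3632) (nat_lit 625) (nat_lit 5617)))) (.a (.f (nat_lit 497) (nat_lit 465) (nat_lit 7633) (.f (nat_lit 626) (nat_lit 529) (nat_lit 7665)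 (.d (nat_lit 625) (nat_lit 593) (nat_lit 5617) (nat_lit 657) (nat_lit 5649)))) (.f (nat_lit 595) (nat_lit 627) (nat_lit 4594) (.f (nat_lit 561) (nat_lit 559) (nat_lit 559) (.d (nat_lit 596) (nat_lit 563) (nat_lit 560) (nat_lit 597) (nat_lit 3633))))))))))))))) (.p (nat_lit 498) (.a (.p (nat_lit 594) (.a (.f (nat_lit 497) (nat_lit 465) (nat_lit 7633) (.f (nat_lit 529) (nat_lit 626) (nat_lit 7665) (.d (nat_lit 499) (nat_lit 467) (nat_lit 6610) (nat_lit 500) (nat_lit 1520)))) (.f (nat_lit 593) (nat_lit 625) (nat_lit 5617) (.f (nat_lit 561) (nat_lit 466) (nat_lit 5585) (.d (nat_lit 559) (nat_lit 531) (nat_lit 2575) (nat_lit 558) (nat_lit 558)))))) (.a s5232 (.a (.p (nat_lit 594) (.a (.f (nat_lit 593) (nat_lit 625) (nat_lit 5617) (.f (nat_lit 561) (nat_lit 466) (nat_lit 5585) (.d (nat_lit 559) (nat_lit 531) (nat_lit 2575) (nat_lit 558) (nat_lit 558)))) (.a (.f (nat_lit 467) (nat_lit 499) (nat_lit 6610) (.f (nat_lit 466) (nat_lit 435)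 (nat_lit 6578) (.d (nat_lit 465) (nat_lit 433) (nat_lit 7601) (nat_lit 497) (nat_lit 7633)))) (.f (nat_lit 625) (nat_lit 593) (nat_lit 5617) (.f (nat_lit 626) (nat_lit 657) (nat_lit 5649) (.d (nat_lit 499) (nat_lit 467) (nat_lit 6610) (nat_lit 531) (nat_lit 6642))))))) (.a (.p (nat_lit 561) (.a (.f (nat_lit 531) (nat_lit 559) (nat_lit 2575) (.d (nat_lit 532) (nat_lit 529) (nat_lit 1552) (nat_lit 533) (nat_lit 1553))) (.f (nat_lit 466) (nat_lit 593) (nat_lit 5585) (.f (nat_lit 435) (nat_lit 467) (nat_lit 6578) (.f (nat_lit 434) (nat_lit 403) (nat_lit 6546) (.d (nat_lit 433) (nat_lit 401) (nat_lit 7569) (nat_lit 465) (nat_lit 7601))))))) (.a s7121 (.a s5611 (.a (.p (nat_lit 594) (.a (.f (nat_lit 593) (nat_lit 625) (nat_lit 5617) (.f (nat_lit 561) (nat_lit 466) (nat_lit 5585) (.d (nat_lit 559) (nat_lit 531) (nat_lit 2575) (nat_lit 558) (nat_lit 558)))) (.a (.f (nat_lit 625) (nat_lit 593) (nat_lit 5617) (.f (nat_lit 626) (nat_lit 657)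 (nat_lit 5649) (.d (nat_lit 499) (nat_lit 467) (nat_lit 6610) (nat_lit 531) (nat_lit 6642)))) (.a (.f (nat_lit 593) (nat_lit 625) (nat_lit 5617) (.f (nat_lit 561) (nat_lit 466) (nat_lit 5585) (.f (nat_lit 559) (nat_lit 558) (nat_lit 558) (.f (nat_lit 591) (nat_lit 590) (nat_lit 1582) (.f (nat_lit 592) (nat_lit 563) (nat_lit 1583) (.d (nat_lit 623) (nat_lit 622) (nat_lit 1614) (nat_lit 655) (nat_lit 6671))))))) (.f (nat_lit 499) (nat_lit 467) (nat_lit 6610) (.f (nat_lit 531) (nat_lit 626) (nat_lit 6642) (.d (nat_lit 529) (nat_lit 500) (nat_lit 2544) (nat_lit 559) (nat_lit 1551)))))))) (.a s5447 (.p (nat_lit 594) (.a (.f (nat_lit 593) (nat_lit 625) (nat_lit 5617) (.f (nat_lit 561) (nat_lit 466) (nat_lit 5585) (.d (nat_lit 559) (nat_lit 531) (nat_lit 2575) (nat_lit 558) (nat_lit 558)))) (.a (.f (nat_lit 497) (nat_lit 465) (nat_lit 7633) (.f (nat_lit 626) (nat_lit 529) (nat_lit 7665) (.d (nat_lit 625) (nat_lit 593) (nat_lit 5617) (nat_lit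 657) (nat_lit 5649)))) (.f (nat_lit 497) (nat_lit 465) (nat_lit 7633) (.f (nat_lit 529) (nat_lit 626) (nat_lit 7665) (.f (nat_lit 559) (nat_lit 531) (nat_lit 1551) (.d (nat_lit 558) (nat_lit 557) (nat_lit 2573) (nat_lit 561) (nat_lit 2574))))))))))))))))))))))))))))))
noncomputable def s7206 : Cert := .r (nat_lit 81045225973576705845931866949422482179170868230352120136932872080819937316538974369105772087653654582751346444588976596909568446798598709460541101730559254928086662937195436834816) (.p (nat_lit 496) (.a (.f (nat_lit 623) (nat_lit 591) (nat_lit 5615) (.f (nat_lit 624) (nat_lit 655) (nat_lit 5647) (.f (nat_lit 625) (nat_lit 657) (nat_lit 4624) (.f (nat_lit 626) (nat_lit 595) (nat_lit 2639) (.f (nat_lit 659) (nat_lit 658) (nat_lit 623) (.d (nat_lit 627) (nat_lit 530) (nat_lit 4626) (nat_lit 660) (nat_lit 624))))))) (.a (.f (nat_lit 593) (nat_lit 625) (nat_lit 4592) (.d (nat_lit 591) (nat_lit 563) (nat_lit 2607) (nat_lit 623)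 (nat_lit 5615))) (.a (.f (nat_lit 591) (nat_lit 623) (nat_lit 5615) (.f (nat_lit 593) (nat_lit 563) (nat_lit 2607) (.f (nat_lit 627) (nat_lit 626) (nat_lit 591) (.f (nat_lit 595) (nat_lit 628) (nat_lit 592) (.f (nat_lit 495) (nat_lit 463) (nat_lit 7631) (.f (nat_lit 497) (nat_lit 465) (nat_lit 6608) (.f (nat_lit 498) (nat_lit 530) (nat_lit 4594) (.d (nat_lit 527) (nat_lit 499) (nat_lit 1519) (nat_lit 624) (nat_lit 7663))))))))) (.a (.f (nat_lit 593) (nat_lit 625) (nat_lit 4592) (.f (nat_lit 563) (nat_lit 591) (nat_lit 2607) (.d (nat_lit 564) (nat_lit 565) (nat_lit 1585) (nat_lit 595) (nat_lit 2608)))) (.f (nat_lit 593) (nat_lit 625) (nat_lit 4592) (.f (nat_lit 495) (nat_lit 463) (nat_lit 7631) (.f (nat_lit 624) (nat_lit 527) (nat_lit 7663) (.d (nat_lit 623) (nat_lit 595) (nat_lit 1615) (nat_lit 655) (nat_lit 5647))))))))))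
noncomputable def s7207 : Cert := .r (nat_lit 64836180782635327101742773731878883933028500135655100996324835636715824771957301922231916427704030386313073450013582889165837387910271462164107996909801584275503921517658290257920) (.p (nat_lit 592) (.a s4168 (.a s3761 (.a s3916 (.a (.p (nat_lit 593) (.a (.f (nat_lit 559) (nat_lit 595) (nat_lit 3631) (.d (nat_lit 558) (nat_lit 557) (nat_lit 557) (nat_lit 591) (nat_lit 3630))) (.a (.f (nat_lit 591) (nat_lit 563) (nat_lit 2607) (.f (nat_lit 626) (nat_lit 627) (nat_lit 591) (.f (nat_lit 625) (nat_lit 590) (nat_lit 590) (.d (nat_lit 657) (nat_lit 530) (nat_lit 5649) (nat_lit 689) (nat_lit 7728))))) (.f (nat_lit 595) (nat_lit 559) (nat_lit 3631) (.f (nat_lit 563) (nat_lit 564) (nat_lit 2608) (.f (nat_lit 627) (nat_lit 628) (nat_lit 592) (.d (nat_lit 659) (nat_lit 530) (nat_lit 7698) (nat_lit 691) (nat_lit 7730)))))))) (.a s7206 (.a s4001 (.a s3955 s3961))))))))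
noncomputable def s7215 : Cert := .r (nat_lit 64836180782635327105257550133865756107099233344784774323566786510389197141567267213334914537603630284999823986032247621314213099342709661479114454765656505907541824002709199519744) (.p (nat_lit 529) (.a (.f (nat_lit 527) (nat_lit 563) (nat_lit 527) (.f (nat_lit 495) (nat_lit 494) (nat_lit 3566) (.f (nat_lit 559) (nat_lit 558) (nat_lit 1550) (.d (nat_lit 463) (nat_lit 431) (nat_lit 4527) (nat_lit 592) (nat_lit 4559))))) (.a (.f (nat_lit 531) (nat_lit 559) (nat_lit 1551) (.f (nat_lit 563) (nat_lit 564) (nat_lit 528) (.f (nat_lit 626) (nat_lit 658) (nat_lit 6674) (.f (nat_lit 627) (nat_lit 659) (nat_lit 4626) (.f (nat_lit 595) (nat_lit 498) (nat_lit 4594) (.f (nat_lit 625) (nat_lit 657) (nat_lit 5649) (.d (nat_lit 596) (nat_lit 597) (nat_lit 1617) (nat_lit 624) (nat_lit 2640)))))))) (.a (.f (nat_lit 559) (nat_lit 531) (nat_lit 1551) (.d (nat_lit 558) (nat_lit 527) (nat_lit 1550) (nat_lit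 557) (nat_lit 2573))) (.f (nat_lit 563) (nat_lit 527) (nat_lit 527) (.d (nat_lit 564) (nat_lit 531) (nat_lit 528) (nat_lit 565) (nat_lit 3601)))))))
noncomputable def s7216 : Cert := .r (nat_lit 64836180782635327101742773731878883933028500135655100996324835636715824771957301922231916427704030386313073450013582889165837387910271462164107996909801584275503921517658290257920) (.p (nat_lit 530) (.a (.p (nat_lit 498) (.a (.f (nat_lit 595) (nat_lit 627) (nat_lit 4594) (.f (nat_lit 563) (nat_lit 466) (nat_lit 4562) (.f (nat_lit 593) (nat_lit 625) (nat_lit 5617) (.d (nat_lit 564) (nat_lit 565) (nat_lit 1585) (nat_lit 592) (nat_lit 2608))))) (.a (.f (nat_lit 625) (nat_lit 593) (nat_lit 5617) (.f (nat_lit 626) (nat_lit 657) (nat_lit 5649) (.d (nat_lit 499) (nat_lit 467) (nat_lit 6610) (nat_lit 531) (nat_lit 6642)))) (.f (nat_lit 499) (nat_lit 467) (nat_lit 6610) (.f (nat_lit 531) (nat_lit 626) (nat_lit 6642) (.d (nat_lit 529) (nat_lit 500)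 (nat_lit 2544) (nat_lit 559) (nat_lit 1551))))))) (.a (.p (nat_lit 498) (.a (.f (nat_lit 595) (nat_lit 627) (nat_lit 4594) (.f (nat_lit 563) (nat_lit 466) (nat_lit 4562) (.f (nat_lit 593) (nat_lit 625) (nat_lit 5617) (.d (nat_lit 564) (nat_lit 565) (nat_lit 1585) (nat_lit 592) (nat_lit 2608))))) (.a (.f (nat_lit 625) (nat_lit 593) (nat_lit 5617) (.f (nat_lit 626) (nat_lit 657) (nat_lit 5649) (.d (nat_lit 499) (nat_lit 467) (nat_lit 6610) (nat_lit 531) (nat_lit 6642)))) (.f (nat_lit 467) (nat_lit 499) (nat_lit 6610) (.f (nat_lit 466) (nat_lit 435) (nat_lit 6578) (.d (nat_lit 595) (nat_lit 563) (nat_lit 4562) (nat_lit 627) (nat_lit 4594))))))) (.a (.p (nat_lit 498) (.a (.f (nat_lit 499) (nat_lit 467) (nat_lit 6610) (.f (nat_lit 529) (nat_lit 527) (nat_lit 2543) (.d (nat_lit 500) (nat_lit 501) (nat_lit 1521) (nat_lit 531) (nat_lit 2544)))) (.a (.f (nat_lit 625) (nat_lit 593) (nat_lit 5617) (.f (nat_lit 626) (nat_lit 657) (nat_lit 5649)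 (.d (nat_lit 499) (nat_lit 467) (nat_lit 6610) (nat_lit 531) (nat_lit 6642)))) (.f (nat_lit 625) (nat_lit 593) (nat_lit 5617) (.f (nat_lit 626) (nat_lit 657) (nat_lit 5649) (.d (nat_lit 627) (nat_lit 595) (nat_lit 4594) (nat_lit 659) (nat_lit 4626))))))) (.a s3484 (.a (.p (nat_lit 529) (.a (.f (nat_lit 531) (nat_lit 559) (nat_lit 1551) (.d (nat_lit 499) (nat_lit 500) (nat_lit 2544) (nat_lit 626) (nat_lit 6642))) (.a (.f (nat_lit 527) (nat_lit 563) (nat_lit 527) (.f (nat_lit 495) (nat_lit 494) (nat_lit 3566) (.f (nat_lit 559) (nat_lit 558) (nat_lit 1550) (.d (nat_lit 463) (nat_lit 431) (nat_lit 4527) (nat_lit 592) (nat_lit 4559))))) (.f (nat_lit 563) (nat_lit 527) (nat_lit 527) (.d (nat_lit 564) (nat_lit 531) (nat_lit 528) (nat_lit 565) (nat_lit 3601)))))) (.a s7215 (.p (nat_lit 498) (.a (.f (nat_lit 595) (nat_lit 627) (nat_lit 4594) (.f (nat_lit 563) (nat_lit 466) (nat_lit 4562) (.f (nat_lit 593) (nat_lit 625) (nat_lit 5617) (.d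 (nat_lit 564) (nat_lit 565) (nat_lit 1585) (nat_lit 592) (nat_lit 2608))))) (.f (nat_lit 499) (nat_lit 467) (nat_lit 6610) (.f (nat_lit 529) (nat_lit 527) (nat_lit 2543) (.d (nat_lit 500) (nat_lit 501) (nat_lit 1521) (nat_lit 531) (nat_lit 2544)))))))))))))
noncomputable def s7221 : Cert := .r (nat_lit 64836180782635327101742773731878883933028500135655100996324835636715824771957301922231916427704030386313073450013582889165837387910271462164107996909801584275503921517658290257920) (.p (nat_lit 592) (.a s3916 (.a s3761 (.a s3929 (.a (.p (nat_lit 496) (.a (.f (nat_lit 593) (nat_lit 625) (nat_lit 4592) (.d (nat_lit 591) (nat_lit 563) (nat_lit 2607) (nat_lit 623) (nat_lit 5615))) (.f (nat_lit 495) (nat_lit 463) (nat_lit 7631) (.f (nat_lit 624) (nat_lit 527) (nat_lit 7663) (.d (nat_lit 497) (nat_lit 465) (nat_lit 6608) (nat_lit 529) (nat_lit 6640)))))) (.a s3949 (.a s3954 s3955)))))))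
noncomputable def s7244 : Cert := .r (nat_lit 18869812124986400861704490948459027756867024433892689860299374593630612134736493787905533600559981471712008058190913152356962472978375577626770901665172955839509703950336) (.p (nat_lit 561) (.a (.f (nat_lit 563) (nat_lit 527) (nat_lit 3599) (.f (nat_lit 595) (nat_lit 596) (nat_lit 560) (.f (nat_lit 531) (nat_lit 532) (nat_lit 2576) (.d (nat_lit 559) (nat_lit 530) (nat_lit 2575) (nat_lit 594) (nat_lit 559))))) (.a (.p (nat_lit 591) (.a (.f (nat_lit 559) (nat_lit 590) (nat_lit 1582) (.f (nat_lit 594) (nat_lit 595) (nat_lit 559) (.f (nat_lit 530) (nat_lit 531) (nat_lit 2575) (.f (nat_lit 593) (nat_lit 558) (nat_lit 558) (.d (nat_lit 498) (nat_lit 466) (nat_lit 5585) (nat_lit 625) (nat_lit 5617)))))) (.a (.f (nat_lit 592) (nat_lit 563) (nat_lit 1583) (.d (nat_lit 590) (nat_lit 559) (nat_lit 1582) (nat_lit 589) (nat_lit 2605))) (.a (.f (nat_lit 592) (nat_lit 563) (nat_lit 1583) (.d (nat_lit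 590) (nat_lit 589) (nat_lit 2605) (nat_lit 593) (nat_lit 2606))) (.f (nat_lit 592) (nat_lit 563) (nat_lit 1583) (.f (nat_lit 623) (nat_lit 496) (nat_lit 5615) (.d (nat_lit 655) (nat_lit 559) (nat_lit 6671) (nat_lit 624) (nat_lit 5647)))))))) (.a (.f (nat_lit 563) (nat_lit 527) (nat_lit 3599) (.f (nat_lit 592) (nat_lit 591) (nat_lit 1583) (.f (nat_lit 593) (nat_lit 564) (nat_lit 1584) (.d (nat_lit 625) (nat_lit 496) (nat_lit 4592) (nat_lit 657) (nat_lit 7696))))) (.p (nat_lit 559) (.a (.f (nat_lit 594) (nat_lit 595) (nat_lit 559) (.f (nat_lit 530) (nat_lit 531) (nat_lit 2575) (.f (nat_lit 593) (nat_lit 558) (nat_lit 558) (.d (nat_lit 498) (nat_lit 466) (nat_lit 5585) (nat_lit 625) (nat_lit 5617))))) (.f (nat_lit 591) (nat_lit 590) (nat_lit 1582) (.f (nat_lit 623) (nat_lit 655) (nat_lit 6671) (.d (nat_lit 496) (nat_lit 527) (nat_lit 6639) (nat_lit 592) (nat_lit 5615))))))))))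
noncomputable def s7249 : Cert := .r (nat_lit 26417736974629483566187600110435565538700866874725570717051787194121860459520791492077787050915299006794944808252440842156503642238225162891893770168038347926808494604288) (.p (nat_lit 559) (.a (.f (nat_lit 530) (nat_lit 531) (nat_lit 2575) (.f (nat_lit 529) (nat_lit 558) (nat_lit 2574) (.f (nat_lit 594) (nat_lit 595) (nat_lit 559) (.d (nat_lit 497) (nat_lit 465) (nat_lit 4561) (nat_lit 626) (nat_lit 7665))))) (.a (.f (nat_lit 594) (nat_lit 595) (nat_lit 559) (.f (nat_lit 530) (nat_lit 531) (nat_lit 2575) (.f (nat_lit 593) (nat_lit 558) (nat_lit 558) (.d (nat_lit 498) (nat_lit 466) (nat_lit 5585) (nat_lit 625) (nat_lit 5617))))) (.a (.f (nat_lit 594) (nat_lit 595) (nat_lit 559) (.f (nat_lit 558) (nat_lit 593) (nat_lit 558) (.d (nat_lit 529) (nat_lit 530) (nat_lit 2574) (nat_lit 557) (nat_lit 2573)))) (.a (.f (nat_lit 594) (nat_lit 595) (nat_lit 559) (.f (nat_lit 558) (nat_lit 593) (nat_lit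 558) (.d (nat_lit 590) (nat_lit 589) (nat_lit 1581) (nat_lit 591) (nat_lit 1582)))) (.a (.f (nat_lit 530) (nat_lit 531) (nat_lit 2575) (.f (nat_lit 558) (nat_lit 529) (nat_lit 2574) (.d (nat_lit 590) (nat_lit 589) (nat_lit 1581) (nat_lit 591) (nat_lit 1582)))) (.f (nat_lit 531) (nat_lit 530) (nat_lit 2575) (.f (nat_lit 563) (nat_lit 532) (nat_lit 2576) (.d (nat_lit 595) (nat_lit 594) (nat_lit 559) (nat_lit 596) (nat_lit 560))))))))))
noncomputable def s7266 : Cert := .r (nat_lit 16209045209811190869175494079248089194601395851564043574500726304403487138212284581610349447855157796998254466287401765934644211245289720274808682447528572317755697259046850527232) (.p (nat_lit 591) (.a (.f (nat_lit 561) (nat_lit 563) (nat_lit 1583) (.d (nat_lit 590) (nat_lit 559) (nat_lit 1582) (nat_lit 589) (nat_lit 2605))) (.a (.f (nat_lit 496) (nat_lit 623) (nat_lit 5615) (.f (nat_lit 593) (nat_lit 625) (nat_lit 4592) (.f (nat_lit 594) (nat_lit 563)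 (nat_lit 2607) (.d (nat_lit 559) (nat_lit 558) (nat_lit 3630) (nat_lit 595) (nat_lit 3631))))) (.f (nat_lit 496) (nat_lit 623) (nat_lit 5615) (.f (nat_lit 593) (nat_lit 625) (nat_lit 4592) (.f (nat_lit 590) (nat_lit 561) (nat_lit 2606) (.f (nat_lit 557) (nat_lit 558) (nat_lit 3629) (.f (nat_lit 589) (nat_lit 556) (nat_lit 3628) (.d (nat_lit 621) (nat_lit 620) (nat_lit 1612) (nat_lit 622) (nat_lit 1613))))))))))
noncomputable def s7267 : Cert := .r (nat_lit 16209045209811190869175494079248089194601395851564043574500726304403487138212284581610349447855157796998254466287401765934644211245289720274808682447528572317755697259046850527232) (.p (nat_lit 496) (.a (.f (nat_lit 495) (nat_lit 463) (nat_lit 7631) (.f (nat_lit 624) (nat_lit 527) (nat_lit 7663) (.d (nat_lit 497) (nat_lit 465) (nat_lit 6608) (nat_lit 529) (nat_lit 6640)))) (.a (.f (nat_lit 497) (nat_lit 465) (nat_lit 6608) (.f (nat_lit 495) (nat_lit 463) (nat_lit 7631) (.f (nat_lit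 529) (nat_lit 624) (nat_lit 6640) (.d (nat_lit 494) (nat_lit 493) (nat_lit 493) (nat_lit 530) (nat_lit 494))))) (.a (.f (nat_lit 495) (nat_lit 463) (nat_lit 7631) (.f (nat_lit 624) (nat_lit 527) (nat_lit 7663) (.d (nat_lit 623) (nat_lit 591) (nat_lit 5615) (nat_lit 655) (nat_lit 5647)))) (.f (nat_lit 591) (nat_lit 623) (nat_lit 5615) (.f (nat_lit 593) (nat_lit 625) (nat_lit 4592) (.f (nat_lit 590) (nat_lit 561) (nat_lit 2606) (.f (nat_lit 557) (nat_lit 558) (nat_lit 3629) (.f (nat_lit 589) (nat_lit 556) (nat_lit 3628) (.d (nat_lit 621) (nat_lit 620) (nat_lit 1612) (nat_lit 622) (nat_lit 1613)))))))))))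
noncomputable def s7268 : Cert := .r (nat_lit 16209045209811190869175494079248089194601395851564043574500726304403487138212284581610349447855157796998254466287401765934644211245289720274808682447528572317755697259046850527232) (.p (nat_lit 624) (.a (.f (nat_lit 527) (nat_lit 495) (nat_lit 7663) (.f (nat_lit 561) (nat_lit 563) (nat_lit 3599) (.d (nat_lit 529) (nat_lit 497) (nat_lit 6640) (nat_lit 656) (nat_lit 6672)))) (.a (.f (nat_lit 529) (nat_lit 497) (nat_lit 6640) (.f (nat_lit 561) (nat_lit 656) (nat_lit 6672) (.d (nat_lit 563) (nat_lit 564) (nat_lit 3600) (nat_lit 591) (nat_lit 1583)))) (.a (.f (nat_lit 527) (nat_lit 495) (nat_lit 7663) (.f (nat_lit 656) (nat_lit 559) (nat_lit 7695) (.d (nat_lit 657) (nat_lit 625) (nat_lit 4624) (nat_lit 689) (nat_lit 4656)))) (.f (nat_lit 527) (nat_lit 495) (nat_lit 7663) (.f (nat_lit 529) (nat_lit 497) (nat_lit 6640) (.d (nat_lit 563) (nat_lit 530) (nat_lit 527) (nat_lit 561) (nat_lit 3599))))))))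
noncomputable def s7291 : Cert := .r (nat_lit 16209045209811190869175494079248089194601395851564043574500726304403487138212284581610349447855157796998254466287401765934644211245289720274808682447528572317755697259046850527232) (.p (nat_lit 624) (.a (.f (nat_lit 655) (nat_lit 623) (nat_lit 5647) (.f (nat_lit 656) (nat_lit 687) (nat_lit 5679) (.d (nat_lit 657) (nat_lit 625) (nat_lit 4624) (nat_lit 689) (nat_lit 4656)))) (.a (.f (nat_lit 655) (nat_lit 623) (nat_lit 5647) (.f (nat_lit 656) (nat_lit 687) (nat_lit 5679) (.f (nat_lit 561) (nat_lit 529) (nat_lit 6672) (.f (nat_lit 593) (nat_lit 688) (nat_lit 6704) (.f (nat_lit 563) (nat_lit 564) (nat_lit 1584) (.f (nat_lit 595) (nat_lit 596) (nat_lit 560) (.f (nat_lit 594) (nat_lit 559) (nat_lit 559) (.f (nat_lit 627) (nat_lit 628) (nat_lit 592) (.d (nat_lit 530) (nat_lit 498) (nat_lit 4594) (nat_lit 659) (nat_lit 7698)))))))))) (.a (.f (nat_lit 657) (nat_lit 625) (nat_lit 4624) (.f (nat_lit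 656) (nat_lit 689) (nat_lit 4656) (.f (nat_lit 561) (nat_lit 529) (nat_lit 6672) (.f (nat_lit 593) (nat_lit 688) (nat_lit 6704) (.f (nat_lit 563) (nat_lit 564) (nat_lit 1584) (.f (nat_lit 595) (nat_lit 596) (nat_lit 560) (.f (nat_lit 594) (nat_lit 559) (nat_lit 559) (.f (nat_lit 627) (nat_lit 628) (nat_lit 592) (.d (nat_lit 530) (nat_lit 498) (nat_lit 4594) (nat_lit 659) (nat_lit 7698)))))))))) (.f (nat_lit 625) (nat_lit 657) (nat_lit 4624) (.f (nat_lit 593) (nat_lit 496) (nat_lit 4592) (.f (nat_lit 623) (nat_lit 655) (nat_lit 5647) (.d (nat_lit 594) (nat_lit 595) (nat_lit 1615) (nat_lit 622) (nat_lit 2638)))))))))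
noncomputable def s7310 : Cert := .r (nat_lit 18869812124986400861704490948459027756867024433892689860299374593630612134736493787905533600559981471712008058190913152356962472978375577626770901665172955839509703950336) (.p (nat_lit 561) (.a (.f (nat_lit 563) (nat_lit 527) (nat_lit 3599) (.f (nat_lit 564) (nat_lit 529) (nat_lit 3600) (.d (nat_lit 596) (nat_lit 595) (nat_lit 560) (nat_lit 597) (nat_lit 561)))) (.a (.p (nat_lit 591) (.a (.f (nat_lit 592) (nat_lit 563) (nat_lit 1583) (.d (nat_lit 590) (nat_lit 559) (nat_lit 1582) (nat_lit 589) (nat_lit 2605))) (.a (.f (nat_lit 559) (nat_lit 590) (nat_lit 1582) (.f (nat_lit 594) (nat_lit 595) (nat_lit 559) (.f (nat_lit 593) (nat_lit 558) (nat_lit 558) (.f (nat_lit 625) (nat_lit 657) (nat_lit 7696) (.f (nat_lit 529) (nat_lit 496) (nat_lit 7664) (.d (nat_lit 497) (nat_lit 465) (nat_lit 4561) (nat_lit 626) (nat_lit 4593))))))) (.a (.f (nat_lit 592) (nat_lit 563) (nat_lit 1583) (.d (nat_lit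 590) (nat_lit 589) (nat_lit 2605) (nat_lit 593) (nat_lit 2606))) (.f (nat_lit 592) (nat_lit 563) (nat_lit 1583) (.f (nat_lit 623) (nat_lit 496) (nat_lit 5615) (.d (nat_lit 655) (nat_lit 559) (nat_lit 6671) (nat_lit 624) (nat_lit 5647)))))))) (.a (.f (nat_lit 563) (nat_lit 527) (nat_lit 3599) (.f (nat_lit 592) (nat_lit 591) (nat_lit 1583) (.f (nat_lit 593) (nat_lit 564) (nat_lit 1584) (.d (nat_lit 625) (nat_lit 496) (nat_lit 4592) (nat_lit 657) (nat_lit 7696))))) (.p (nat_lit 559) (.a (.f (nat_lit 591) (nat_lit 590) (nat_lit 1582) (.f (nat_lit 623) (nat_lit 655) (nat_lit 6671) (.d (nat_lit 496) (nat_lit 527) (nat_lit 6639) (nat_lit 592) (nat_lit 5615)))) (.a (.f (nat_lit 594) (nat_lit 595) (nat_lit 559) (.f (nat_lit 558) (nat_lit 593) (nat_lit 558) (.d (nat_lit 590) (nat_lit 589) (nat_lit 1581) (nat_lit 591) (nat_lit 1582)))) (.a (.f (nat_lit 594) (nat_lit 595) (nat_lit 559) (.f (nat_lit 558) (nat_lit 593) (nat_lit 558) (.f (nat_lit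 557) (nat_lit 529) (nat_lit 2573) (.d (nat_lit 589) (nat_lit 588) (nat_lit 1580) (nat_lit 590) (nat_lit 1581))))) (.f (nat_lit 594) (nat_lit 595) (nat_lit 559) (.f (nat_lit 593) (nat_lit 558) (nat_lit 558) (.f (nat_lit 625) (nat_lit 657) (nat_lit 7696) (.d (nat_lit 496) (nat_lit 529) (nat_lit 7664) (nat_lit 592) (nat_lit 4592)))))))))))))
noncomputable def s7328 : Cert := .r (nat_lit 16209045209811190869175494079248089194601395851564043574500726304403487138212284581610349447855157796998254466287401765934644211245289720274808682447528572317755697259046850527232) (.p (nat_lit 624) (.a (.f (nat_lit 655) (nat_lit 623) (nat_lit 5647) (.f (nat_lit 656) (nat_lit 687) (nat_lit 5679) (.d (nat_lit 657) (nat_lit 625) (nat_lit 4624) (nat_lit 689) (nat_lit 4656)))) (.a (.f (nat_lit 623) (nat_lit 655) (nat_lit 5647) (.f (nat_lit 591) (nat_lit 496) (nat_lit 5615) (.f (nat_lit 561) (nat_lit 563) (nat_lit 1583) (.d (nat_lit 590) (nat_lit 559) (nat_lit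 1582) (nat_lit 589) (nat_lit 2605))))) (.a (.f (nat_lit 657) (nat_lit 625) (nat_lit 4624) (.f (nat_lit 656) (nat_lit 689) (nat_lit 4656) (.f (nat_lit 687) (nat_lit 655) (nat_lit 5679) (.f (nat_lit 688) (nat_lit 719) (nat_lit 5711) (.f (nat_lit 561) (nat_lit 593) (nat_lit 6704) (.d (nat_lit 591) (nat_lit 559) (nat_lit 7727) (nat_lit 563) (nat_lit 1583))))))) (.f (nat_lit 625) (nat_lit 657) (nat_lit 4624) (.f (nat_lit 496) (nat_lit 593) (nat_lit 4592) (.f (nat_lit 591) (nat_lit 623) (nat_lit 5615) (.f (nat_lit 561) (nat_lit 563) (nat_lit 1583) (.d (nat_lit 590) (nat_lit 559) (nat_lit 1582) (nat_lit 589) (nat_lit 2605))))))))))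
noncomputable def s7332 : Cert := .r (nat_lit 18869812124986400861704490948459027756867024433892689860299374593630612134736493787905533600559981471712008058190913152356962472978375577626770901665172955839509703950336) (.p (nat_lit 592) (.a s3034 (.a (.p (nat_lit 496) (.a (.f (nat_lit 591) (nat_lit 623) (nat_lit 5615) (.f (nat_lit 561) (nat_lit 563) (nat_lit 1583) (.d (nat_lit 590) (nat_lit 559) (nat_lit 1582) (nat_lit 589) (nat_lit 2605)))) (.f (nat_lit 497) (nat_lit 465) (nat_lit 6608) (.f (nat_lit 495) (nat_lit 463) (nat_lit 7631) (.f (nat_lit 529) (nat_lit 624) (nat_lit 6640) (.d (nat_lit 494) (nat_lit 493) (nat_lit 493) (nat_lit 530) (nat_lit 494))))))) (.a s3235 (.a s7328 (.a (.p (nat_lit 591) (.a (.f (nat_lit 561) (nat_lit 563) (nat_lit 1583) (.d (nat_lit 590) (nat_lit 559) (nat_lit 1582) (nat_lit 589) (nat_lit 2605))) (.a (.f (nat_lit 623) (nat_lit 496) (nat_lit 5615) (.d (nat_lit 655) (nat_lit 559) (nat_lit 6671) (nat_lit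 687) (nat_lit 6703))) (.f (nat_lit 496) (nat_lit 623) (nat_lit 5615) (.f (nat_lit 593) (nat_lit 625) (nat_lit 4592) (.f (nat_lit 590) (nat_lit 561) (nat_lit 2606) (.f (nat_lit 557) (nat_lit 558) (nat_lit 3629) (.f (nat_lit 589) (nat_lit 556) (nat_lit 3628) (.d (nat_lit 621) (nat_lit 620) (nat_lit 1612) (nat_lit 622) (nat_lit 1613)))))))))) (.a s7267 s7268)))))))
noncomputable def s7353 : Cert := .r (nat_lit 81045225973576705845931866949422482179170868230352120136932872080819937316538974369105772087653654582751346444588976596909568446798598709460541101730559254928086662937195436834816) (.p (nat_lit 496) (.a (.f (nat_lit 623) (nat_lit 591) (nat_lit 5615) (.f (nat_lit 624) (nat_lit 655) (nat_lit 5647) (.f (nat_lit 625) (nat_lit 657) (nat_lit 4624) (.f (nat_lit 626) (nat_lit 595) (nat_lit 2639) (.f (nat_lit 659) (nat_lit 658) (nat_lit 623) (.d (nat_lit 627) (nat_lit 530) (nat_lit 4626) (nat_lit 660) (nat_lit 624))))))) (.a (.f (nat_lit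 593) (nat_lit 625) (nat_lit 4592) (.f (nat_lit 495) (nat_lit 463) (nat_lit 7631) (.f (nat_lit 624) (nat_lit 527) (nat_lit 7663) (.d (nat_lit 623) (nat_lit 595) (nat_lit 1615) (nat_lit 655) (nat_lit 5647))))) (.a (.f (nat_lit 593) (nat_lit 625) (nat_lit 4592) (.f (nat_lit 591) (nat_lit 623) (nat_lit 5615) (.f (nat_lit 590) (nat_lit 561) (nat_lit 2606) (.f (nat_lit 557) (nat_lit 558) (nat_lit 3629) (.f (nat_lit 589) (nat_lit 556) (nat_lit 3628) (.d (nat_lit 621) (nat_lit 620) (nat_lit 1612) (nat_lit 622) (nat_lit 1613))))))) (.a (.f (nat_lit 623) (nat_lit 591) (nat_lit 5615) (.f (nat_lit 624) (nat_lit 655) (nat_lit 5647) (.d (nat_lit 495) (nat_lit 463) (nat_lit 7631) (nat_lit 527) (nat_lit 7663)))) (.f (nat_lit 593) (nat_lit 625) (nat_lit 4592) (.f (nat_lit 495) (nat_lit 463) (nat_lit 7631) (.f (nat_lit 497) (nat_lit 465) (nat_lit 6608) (.f (nat_lit 527) (nat_lit 624) (nat_lit 7663) (.f (nat_lit 498) (nat_lit 499) (nat_lit 1519) (.f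 (nat_lit 530) (nat_lit 531) (nat_lit 495) (.d (nat_lit 466) (nat_lit 467) (nat_lit 2511) (nat_lit 561) (nat_lit 5585)))))))))))))
noncomputable def s7360 : Cert := .r (nat_lit 18869812124986400861704490948459027756867024433892689860299374593630612134736493787905533600559981471712008058190913152356962472978375577626770901665172955839509703950336) (.p (nat_lit 594) (.a s3576 (.a s3816 (.a s3984 (.a (.p (nat_lit 592) (.a (.p (nat_lit 624) (.a (.f (nat_lit 655) (nat_lit 623) (nat_lit 5647) (.f (nat_lit 656) (nat_lit 687) (nat_lit 5679) (.d (nat_lit 657) (nat_lit 625) (nat_lit 4624) (nat_lit 689) (nat_lit 4656)))) (.a (.f (nat_lit 623) (nat_lit 655) (nat_lit 5647) (.f (nat_lit 593) (nat_lit 595) (nat_lit 1615) (.d (nat_lit 622) (nat_lit 591) (nat_lit 1614) (nat_lit 621) (nat_lit 2637)))) (.f (nat_lit 527) (nat_lit 495) (nat_lit 7663) (.f (nat_lit 559) (nat_lit 656) (nat_lit 7695) (.d (nat_lit 595) (nat_lit 561) (nat_lit 559) (nat_lit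 593) (nat_lit 3631))))))) (.a (.p (nat_lit 593) (.a (.f (nat_lit 595) (nat_lit 559) (nat_lit 3631) (.f (nat_lit 624) (nat_lit 623) (nat_lit 1615) (.d (nat_lit 596) (nat_lit 561) (nat_lit 3632) (nat_lit 625) (nat_lit 1616)))) (.a (.f (nat_lit 595) (nat_lit 559) (nat_lit 3631) (.f (nat_lit 624) (nat_lit 623) (nat_lit 1615) (.d (nat_lit 625) (nat_lit 596) (nat_lit 1616) (nat_lit 657) (nat_lit 4624)))) (.a (.f (nat_lit 559) (nat_lit 595) (nat_lit 3631) (.d (nat_lit 558) (nat_lit 557) (nat_lit 557) (nat_lit 561) (nat_lit 558))) (.f (nat_lit 625) (nat_lit 496) (nat_lit 4592) (.f (nat_lit 657) (nat_lit 689) (nat_lit 7728) (.d (nat_lit 530) (nat_lit 498) (nat_lit 5617) (nat_lit 626) (nat_lit 5649)))))))) (.a s4168 (.a s3916 (.a (.p (nat_lit 593) (.a (.f (nat_lit 559) (nat_lit 595) (nat_lit 3631) (.d (nat_lit 558) (nat_lit 557) (nat_lit 557) (nat_lit 561) (nat_lit 558))) (.a (.f (nat_lit 559) (nat_lit 595) (nat_lit 3631) (.d (nat_lit 558)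 (nat_lit 557) (nat_lit 557) (nat_lit 591) (nat_lit 3630))) (.f (nat_lit 625) (nat_lit 496) (nat_lit 4592) (.f (nat_lit 657) (nat_lit 689) (nat_lit 7728) (.d (nat_lit 530) (nat_lit 498) (nat_lit 5617) (nat_lit 626) (nat_lit 5649))))))) (.a s7353 (.a (.p (nat_lit 624) (.a (.f (nat_lit 623) (nat_lit 655) (nat_lit 5647) (.f (nat_lit 593) (nat_lit 595) (nat_lit 1615) (.d (nat_lit 622) (nat_lit 591) (nat_lit 1614) (nat_lit 621) (nat_lit 2637)))) (.a (.f (nat_lit 527) (nat_lit 495) (nat_lit 7663) (.f (nat_lit 656) (nat_lit 559) (nat_lit 7695) (.d (nat_lit 655) (nat_lit 623) (nat_lit 5647) (nat_lit 687) (nat_lit 5679)))) (.f (nat_lit 527) (nat_lit 495) (nat_lit 7663) (.f (nat_lit 559) (nat_lit 656) (nat_lit 7695) (.d (nat_lit 595) (nat_lit 561) (nat_lit 559) (nat_lit 593) (nat_lit 3631))))))) s4272)))))))) (.a s4379 (.a (.p (nat_lit 592) (.a (.p (nat_lit 624) (.a (.f (nat_lit 655) (nat_lit 623) (nat_lit 5647) (.f (nat_lit 656) (nat_lit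 687) (nat_lit 5679) (.d (nat_lit 657) (nat_lit 625) (nat_lit 4624) (nat_lit 689) (nat_lit 4656)))) (.a (.f (nat_lit 623) (nat_lit 655) (nat_lit 5647) (.f (nat_lit 593) (nat_lit 595) (nat_lit 1615) (.d (nat_lit 622) (nat_lit 591) (nat_lit 1614) (nat_lit 621) (nat_lit 2637)))) (.f (nat_lit 527) (nat_lit 495) (nat_lit 7663) (.f (nat_lit 559) (nat_lit 656) (nat_lit 7695) (.d (nat_lit 595) (nat_lit 561) (nat_lit 559) (nat_lit 593) (nat_lit 3631))))))) (.a (.p (nat_lit 624) (.a (.f (nat_lit 655) (nat_lit 623) (nat_lit 5647) (.f (nat_lit 656) (nat_lit 687) (nat_lit 5679) (.d (nat_lit 657) (nat_lit 625) (nat_lit 4624) (nat_lit 689) (nat_lit 4656)))) (.a (.f (nat_lit 623) (nat_lit 655) (nat_lit 5647) (.f (nat_lit 593) (nat_lit 595) (nat_lit 1615) (.d (nat_lit 622) (nat_lit 591) (nat_lit 1614) (nat_lit 621) (nat_lit 2637)))) (.f (nat_lit 529) (nat_lit 497) (nat_lit 6640) (.f (nat_lit 561) (nat_lit 656) (nat_lit 6672) (.f (nat_lit 559) (nat_lit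 595) (nat_lit 559) (.d (nat_lit 558) (nat_lit 530) (nat_lit 2574) (nat_lit 557) (nat_lit 2573)))))))) (.a s4168 (.a s3916 (.a (.p (nat_lit 593) (.a (.f (nat_lit 559) (nat_lit 595) (nat_lit 3631) (.d (nat_lit 558) (nat_lit 557) (nat_lit 557) (nat_lit 561) (nat_lit 558))) (.a (.f (nat_lit 559) (nat_lit 595) (nat_lit 3631) (.d (nat_lit 558) (nat_lit 557) (nat_lit 557) (nat_lit 591) (nat_lit 3630))) (.f (nat_lit 625) (nat_lit 496) (nat_lit 4592) (.f (nat_lit 657) (nat_lit 689) (nat_lit 7728) (.d (nat_lit 530) (nat_lit 498) (nat_lit 5617) (nat_lit 626) (nat_lit 5649))))))) (.a s4547 (.a (.p (nat_lit 624) (.a (.f (nat_lit 623) (nat_lit 655) (nat_lit 5647) (.f (nat_lit 593) (nat_lit 595) (nat_lit 1615) (.d (nat_lit 622) (nat_lit 591) (nat_lit 1614) (nat_lit 621) (nat_lit 2637)))) (.a (.f (nat_lit 527) (nat_lit 495) (nat_lit 7663) (.f (nat_lit 656) (nat_lit 559) (nat_lit 7695) (.d (nat_lit 655) (nat_lit 623) (nat_lit 5647) (nat_lit 687)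 (nat_lit 5679)))) (.f (nat_lit 527) (nat_lit 495) (nat_lit 7663) (.f (nat_lit 559) (nat_lit 656) (nat_lit 7695) (.d (nat_lit 595) (nat_lit 561) (nat_lit 559) (nat_lit 593) (nat_lit 3631))))))) (.a (.p (nat_lit 624) (.a (.f (nat_lit 655) (nat_lit 623) (nat_lit 5647) (.f (nat_lit 656) (nat_lit 687) (nat_lit 5679) (.d (nat_lit 657) (nat_lit 625) (nat_lit 4624) (nat_lit 689) (nat_lit 4656)))) (.a (.f (nat_lit 527) (nat_lit 495) (nat_lit 7663) (.f (nat_lit 559) (nat_lit 656) (nat_lit 7695) (.d (nat_lit 595) (nat_lit 561) (nat_lit 559) (nat_lit 593) (nat_lit 3631)))) (.f (nat_lit 625) (nat_lit 657) (nat_lit 4624) (.f (nat_lit 623) (nat_lit 655) (nat_lit 5647) (.d (nat_lit 593) (nat_lit 595) (nat_lit 1615) (nat_lit 622) (nat_lit 2638))))))) s4272))))))))) (.a (.p (nat_lit 592) (.a (.p (nat_lit 624) (.a (.f (nat_lit 655) (nat_lit 623) (nat_lit 5647) (.f (nat_lit 656) (nat_lit 687) (nat_lit 5679) (.d (nat_lit 657) (nat_lit 625) (nat_lit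 4624) (nat_lit 689) (nat_lit 4656)))) (.a (.f (nat_lit 623) (nat_lit 655) (nat_lit 5647) (.f (nat_lit 593) (nat_lit 595) (nat_lit 1615) (.d (nat_lit 622) (nat_lit 591) (nat_lit 1614) (nat_lit 621) (nat_lit 2637)))) (.f (nat_lit 527) (nat_lit 495) (nat_lit 7663) (.f (nat_lit 559) (nat_lit 656) (nat_lit 7695) (.d (nat_lit 595) (nat_lit 561) (nat_lit 559) (nat_lit 593) (nat_lit 3631))))))) (.a (.p (nat_lit 624) (.a (.f (nat_lit 655) (nat_lit 623) (nat_lit 5647) (.f (nat_lit 656) (nat_lit 687) (nat_lit 5679) (.d (nat_lit 657) (nat_lit 625) (nat_lit 4624) (nat_lit 689) (nat_lit 4656)))) (.a (.f (nat_lit 623) (nat_lit 655) (nat_lit 5647) (.f (nat_lit 593) (nat_lit 595) (nat_lit 1615) (.d (nat_lit 622) (nat_lit 591) (nat_lit 1614) (nat_lit 621) (nat_lit 2637)))) (.f (nat_lit 529) (nat_lit 497) (nat_lit 6640) (.f (nat_lit 561) (nat_lit 656) (nat_lit 6672) (.f (nat_lit 559) (nat_lit 595) (nat_lit 559) (.d (nat_lit 558) (nat_lit 557) (nat_lit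 2573) (nat_lit 593) (nat_lit 558)))))))) (.a s3916 (.a (.p (nat_lit 593) (.a (.f (nat_lit 559) (nat_lit 595) (nat_lit 3631) (.d (nat_lit 558) (nat_lit 557) (nat_lit 557) (nat_lit 561) (nat_lit 558))) (.a (.f (nat_lit 559) (nat_lit 595) (nat_lit 3631) (.d (nat_lit 558) (nat_lit 557) (nat_lit 557) (nat_lit 591) (nat_lit 3630))) (.f (nat_lit 625) (nat_lit 496) (nat_lit 4592) (.d (nat_lit 657) (nat_lit 561) (nat_lit 7696) (nat_lit 689) (nat_lit 7728)))))) (.a s4592 (.a (.p (nat_lit 624) (.a (.f (nat_lit 623) (nat_lit 655) (nat_lit 5647) (.f (nat_lit 593) (nat_lit 595) (nat_lit 1615) (.d (nat_lit 622) (nat_lit 591) (nat_lit 1614) (nat_lit 621) (nat_lit 2637)))) (.a (.f (nat_lit 527) (nat_lit 495) (nat_lit 7663) (.f (nat_lit 656) (nat_lit 559) (nat_lit 7695) (.d (nat_lit 655) (nat_lit 623) (nat_lit 5647) (nat_lit 687) (nat_lit 5679)))) (.f (nat_lit 527) (nat_lit 495) (nat_lit 7663) (.f (nat_lit 559) (nat_lit 656) (nat_lit 7695) (.d (nat_lit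 595) (nat_lit 561) (nat_lit 559) (nat_lit 593) (nat_lit 3631))))))) (.a (.p (nat_lit 624) (.a (.f (nat_lit 655) (nat_lit 623) (nat_lit 5647) (.f (nat_lit 656) (nat_lit 687) (nat_lit 5679) (.d (nat_lit 657) (nat_lit 625) (nat_lit 4624) (nat_lit 689) (nat_lit 4656)))) (.a (.f (nat_lit 527) (nat_lit 495) (nat_lit 7663) (.f (nat_lit 559) (nat_lit 656) (nat_lit 7695) (.d (nat_lit 595) (nat_lit 561) (nat_lit 559) (nat_lit 593) (nat_lit 3631)))) (.f (nat_lit 625) (nat_lit 657) (nat_lit 4624) (.f (nat_lit 623) (nat_lit 655) (nat_lit 5647) (.d (nat_lit 593) (nat_lit 595) (nat_lit 1615) (nat_lit 622) (nat_lit 2638))))))) s4272)))))))) (.a s4733 (.a s4782 (.a s4787 (.a s4793 (.a s4795 s4796)))))))))))))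
noncomputable def s7369 : Cert := .r (nat_lit 81045225973576705845931866949422482179170868230352120136932872080819937316538974369105772087653654582751346444588976596909568446798598709460541101730559254928086662937195436834816) (.p (nat_lit 496) (.a (.f (nat_lit 623) (nat_lit 591) (nat_lit 5615) (.f (nat_lit 624) (nat_lit 655) (nat_lit 5647) (.f (nat_lit 625) (nat_lit 657) (nat_lit 4624) (.f (nat_lit 626) (nat_lit 595) (nat_lit 2639) (.f (nat_lit 659) (nat_lit 658) (nat_lit 623) (.d (nat_lit 627) (nat_lit 530) (nat_lit 4626) (nat_lit 660) (nat_lit 624))))))) (.a (.f (nat_lit 593) (nat_lit 625) (nat_lit 4592) (.d (nat_lit 591) (nat_lit 563) (nat_lit 2607) (nat_lit 623) (nat_lit 5615))) (.a (.f (nat_lit 591) (nat_lit 623) (nat_lit 5615) (.d (nat_lit 563) (nat_lit 561) (nat_lit 1583) (nat_lit 593) (nat_lit 2607))) (.a (.f (nat_lit 593) (nat_lit 625) (nat_lit 4592) (.f (nat_lit 563) (nat_lit 591) (nat_lit 2607) (.d (nat_lit 564) (nat_lit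 561) (nat_lit 1584) (nat_lit 565) (nat_lit 1585)))) (.f (nat_lit 625) (nat_lit 593) (nat_lit 4592) (.f (nat_lit 624) (nat_lit 657) (nat_lit 4624) (.f (nat_lit 623) (nat_lit 655) (nat_lit 5647) (.f (nat_lit 626) (nat_lit 595) (nat_lit 2639) (.f (nat_lit 659) (nat_lit 658) (nat_lit 623) (.d (nat_lit 627) (nat_lit 530) (nat_lit 4626) (nat_lit 660) (nat_lit 624))))))))))))
noncomputable def s7392 : Cert := .r (nat_lit 81045225973576705845931866949422482179170868230352120136932872080819937316538974369105772087653654582751346444588976596909568446798598709460541101730559254928086662937195436834816) (.p (nat_lit 624) (.a (.f (nat_lit 655) (nat_lit 623) (nat_lit 5647) (.f (nat_lit 656) (nat_lit 687) (nat_lit 5679) (.d (nat_lit 657) (nat_lit 625) (nat_lit 4624) (nat_lit 689) (nat_lit 4656)))) (.a (.f (nat_lit 623) (nat_lit 655) (nat_lit 5647) (.f (nat_lit 496) (nat_lit 591) (nat_lit 5615) (.d (nat_lit 495) (nat_lit 463) (nat_lit 7631) (nat_lit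 527) (nat_lit 7663)))) (.a (.f (nat_lit 657) (nat_lit 625) (nat_lit 4624) (.f (nat_lit 656) (nat_lit 689) (nat_lit 4656) (.f (nat_lit 687) (nat_lit 655) (nat_lit 5679) (.f (nat_lit 688) (nat_lit 719) (nat_lit 5711) (.f (nat_lit 527) (nat_lit 495) (nat_lit 7663) (.f (nat_lit 563) (nat_lit 561) (nat_lit 3599) (.f (nat_lit 658) (nat_lit 659) (nat_lit 1679) (.f (nat_lit 626) (nat_lit 531) (nat_lit 6674) (.f (nat_lit 690) (nat_lit 595) (nat_lit 6706) (.f (nat_lit 723) (nat_lit 691) (nat_lit 4690) (.f (nat_lit 722) (nat_lit 755) (nat_lit 4722) (.d (nat_lit 721) (nat_lit 720) (nat_lit 3759) (nat_lit 753) (nat_lit 5745))))))))))))) (.f (nat_lit 625) (nat_lit 657) (nat_lit 4624) (.f (nat_lit 495) (nat_lit 527) (nat_lit 7663) (.f (nat_lit 496) (nat_lit 463) (nat_lit 7631) (.f (nat_lit 591) (nat_lit 623) (nat_lit 5615) (.f (nat_lit 626) (nat_lit 627) (nat_lit 3663) (.f (nat_lit 563) (nat_lit 561) (nat_lit 1583) (.f (nat_lit 531) (nat_lit 658)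 (nat_lit 6674) (.d (nat_lit 499) (nat_lit 467) (nat_lit 5586) (nat_lit 530) (nat_lit 6642)))))))))))))
noncomputable def s7393 : Cert := .r (nat_lit 81045225973576705845931866949422482179170868230352120136932872080819937316538974369105772087653654582751346444588976596909568446798598709460541101730559254928086662937195436834816) (.p (nat_lit 593) (.a (.f (nat_lit 591) (nat_lit 563) (nat_lit 2607) (.f (nat_lit 626) (nat_lit 627) (nat_lit 591) (.f (nat_lit 625) (nat_lit 590) (nat_lit 590) (.d (nat_lit 657) (nat_lit 530) (nat_lit 5649) (nat_lit 689) (nat_lit 7728))))) (.a (.f (nat_lit 591) (nat_lit 563) (nat_lit 2607) (.f (nat_lit 626) (nat_lit 627) (nat_lit 591) (.f (nat_lit 590) (nat_lit 625) (nat_lit 590) (.d (nat_lit 622) (nat_lit 621) (nat_lit 1613) (nat_lit 623) (nat_lit 1614))))) (.a (.f (nat_lit 625) (nat_lit 496) (nat_lit 4592) (.f (nat_lit 657) (nat_lit 689) (nat_lit 7728) (.d (nat_lit 530) (nat_lit 498) (nat_lit 5617) (nat_lit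 626) (nat_lit 5649)))) (.f (nat_lit 563) (nat_lit 591) (nat_lit 2607) (.d (nat_lit 564) (nat_lit 565) (nat_lit 1585) (nat_lit 595) (nat_lit 2608)))))))
noncomputable def s7415 : Cert := .r (nat_lit 81045225973576705845931866949422482179170868230352120136932872080819937316538974369105772087653654582751346444588976596909568446798598709460541101730559254928086662937195436834816) (.p (nat_lit 624) (.a (.f (nat_lit 655) (nat_lit 623) (nat_lit 5647) (.f (nat_lit 656) (nat_lit 687) (nat_lit 5679) (.d (nat_lit 657) (nat_lit 625) (nat_lit 4624) (nat_lit 689) (nat_lit 4656)))) (.a (.f (nat_lit 527) (nat_lit 495) (nat_lit 7663) (.f (nat_lit 561) (nat_lit 563) (nat_lit 3599) (.f (nat_lit 655) (nat_lit 623) (nat_lit 5647) (.f (nat_lit 656) (nat_lit 687) (nat_lit 5679) (.f (nat_lit 689) (nat_lit 657) (nat_lit 4656) (.d (nat_lit 688) (nat_lit 593) (nat_lit 6704) (nat_lit 721) (nat_lit 4688))))))) (.a (.f (nat_lit 657) (nat_lit 625) (nat_lit 4624)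 (.f (nat_lit 656) (nat_lit 689) (nat_lit 4656) (.f (nat_lit 687) (nat_lit 655) (nat_lit 5679) (.f (nat_lit 688) (nat_lit 719) (nat_lit 5711) (.f (nat_lit 561) (nat_lit 593) (nat_lit 6704) (.d (nat_lit 527) (nat_lit 495) (nat_lit 7663) (nat_lit 563) (nat_lit 3599))))))) (.a (.f (nat_lit 625) (nat_lit 657) (nat_lit 4624) (.f (nat_lit 623) (nat_lit 655) (nat_lit 5647) (.d (nat_lit 593) (nat_lit 595) (nat_lit 1615) (nat_lit 622) (nat_lit 2638)))) (.a (.f (nat_lit 623) (nat_lit 655) (nat_lit 5647) (.f (nat_lit 593) (nat_lit 595) (nat_lit 1615) (.d (nat_lit 622) (nat_lit 621) (nat_lit 2637) (nat_lit 625) (nat_lit 2638)))) (.f (nat_lit 625) (nat_lit 657) (nat_lit 4624) (.f (nat_lit 593) (nat_lit 496) (nat_lit 4592) (.d (nat_lit 595) (nat_lit 596) (nat_lit 1616) (nat_lit 623) (nat_lit 1615))))))))))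
noncomputable def s7421 : Cert := .r (nat_lit 81045225973576705845931866949422482179170868230352120136932872080819937316538974369105772087653654582751346444588976596909568446798598709460541101730559254928086662937195436834816) (.p (nat_lit 496) (.a (.f (nat_lit 623) (nat_lit 591) (nat_lit 5615) (.f (nat_lit 624) (nat_lit 655) (nat_lit 5647) (.f (nat_lit 625) (nat_lit 657) (nat_lit 4624) (.f (nat_lit 626) (nat_lit 595) (nat_lit 2639) (.f (nat_lit 659) (nat_lit 658) (nat_lit 623) (.d (nat_lit 627) (nat_lit 530) (nat_lit 4626) (nat_lit 660) (nat_lit 624))))))) (.a (.f (nat_lit 593) (nat_lit 625) (nat_lit 4592) (.f (nat_lit 495) (nat_lit 463) (nat_lit 7631) (.f (nat_lit 624) (nat_lit 527) (nat_lit 7663) (.d (nat_lit 623) (nat_lit 595) (nat_lit 1615) (nat_lit 655) (nat_lit 5647))))) (.a (.f (nat_lit 593) (nat_lit 625) (nat_lit 4592) (.f (nat_lit 591) (nat_lit 623) (nat_lit 5615) (.f (nat_lit 590) (nat_lit 561) (nat_lit 2606) (.f (nat_lit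 557) (nat_lit 558) (nat_lit 3629) (.f (nat_lit 589) (nat_lit 556) (nat_lit 3628) (.d (nat_lit 621) (nat_lit 620) (nat_lit 1612) (nat_lit 622) (nat_lit 1613))))))) (.a (.f (nat_lit 623) (nat_lit 591) (nat_lit 5615) (.f (nat_lit 624) (nat_lit 655) (nat_lit 5647) (.d (nat_lit 495) (nat_lit 463) (nat_lit 7631) (nat_lit 527) (nat_lit 7663)))) (.f (nat_lit 625) (nat_lit 593) (nat_lit 4592) (.f (nat_lit 624) (nat_lit 657) (nat_lit 4624) (.d (nat_lit 495) (nat_lit 463) (nat_lit 7631) (nat_lit 527) (nat_lit 7663)))))))))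
noncomputable def s7422 : Cert := .r (nat_lit 81045225973576705845931866949422482179170868230352120136932872080819937316538974369105772087653654582751346444588976596909568446798598709460541101730559254928086662937195436834816) (.p (nat_lit 496) (.a (.f (nat_lit 593) (nat_lit 625) (nat_lit 4592) (.d (nat_lit 591) (nat_lit 563) (nat_lit 2607) (nat_lit 623) (nat_lit 5615))) (.a (.f (nat_lit 623) (nat_lit 591) (nat_lit 5615) (.f (nat_lit 624) (nat_lit 655) (nat_lit 5647) (.d (nat_lit 495) (nat_lit 463) (nat_lit 7631) (nat_lit 527) (nat_lit 7663)))) (.a (.f (nat_lit 593) (nat_lit 625) (nat_lit 4592) (.f (nat_lit 563) (nat_lit 591) (nat_lit 2607) (.d (nat_lit 564) (nat_lit 561) (nat_lit 1584) (nat_lit 565) (nat_lit 1585)))) (.f (nat_lit 625) (nat_lit 593) (nat_lit 4592) (.f (nat_lit 624) (nat_lit 657) (nat_lit 4624) (.d (nat_lit 495) (nat_lit 463) (nat_lit 7631) (nat_lit 527) (nat_lit 7663))))))))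
noncomputable def s7476 : Cert := .r (nat_lit 18869812124986400861704490948459027756867024433892689860299374593630612134736493787905533600559981471712008058190913152356962472978375577626770901665172955839509703950336) (.p (nat_lit 592) (.a s3034 (.a (.p (nat_lit 496) (.a (.f (nat_lit 591) (nat_lit 623) (nat_lit 5615) (.f (nat_lit 561) (nat_lit 563) (nat_lit 1583) (.d (nat_lit 590) (nat_lit 559) (nat_lit 1582) (nat_lit 589) (nat_lit 2605)))) (.f (nat_lit 497) (nat_lit 465) (nat_lit 6608) (.f (nat_lit 495) (nat_lit 463) (nat_lit 7631) (.f (nat_lit 529) (nat_lit 624) (nat_lit 6640) (.d (nat_lit 494) (nat_lit 493) (nat_lit 493) (nat_lit 530) (nat_lit 494))))))) (.a (.p (nat_lit 496) (.a (.f (nat_lit 495) (nat_lit 463) (nat_lit 7631) (.f (nat_lit 624) (nat_lit 527) (nat_lit 7663) (.d (nat_lit 497) (nat_lit 465) (nat_lit 6608) (nat_lit 529) (nat_lit 6640)))) (.a (.f (nat_lit 497) (nat_lit 465) (nat_lit 6608) (.f (nat_lit 495) (nat_lit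 463) (nat_lit 7631) (.f (nat_lit 529) (nat_lit 624) (nat_lit 6640) (.d (nat_lit 494) (nat_lit 493) (nat_lit 493) (nat_lit 530) (nat_lit 494))))) (.a (.f (nat_lit 495) (nat_lit 463) (nat_lit 7631) (.f (nat_lit 624) (nat_lit 527) (nat_lit 7663) (.d (nat_lit 623) (nat_lit 591) (nat_lit 5615) (nat_lit 655) (nat_lit 5647)))) (.a (.f (nat_lit 495) (nat_lit 463) (nat_lit 7631) (.f (nat_lit 591) (nat_lit 623) (nat_lit 5615) (.f (nat_lit 593) (nat_lit 625) (nat_lit 4592) (.f (nat_lit 594) (nat_lit 563) (nat_lit 2607) (.f (nat_lit 627) (nat_lit 626) (nat_lit 591) (.f (nat_lit 595) (nat_lit 628) (nat_lit 592) (.f (nat_lit 530) (nat_lit 498) (nat_lit 4594) (.f (nat_lit 529) (nat_lit 531) (nat_lit 3567) (.d (nat_lit 494) (nat_lit 493) (nat_lit 493) (nat_lit 527) (nat_lit 3566)))))))))) (.f (nat_lit 497) (nat_lit 465) (nat_lit 6608) (.f (nat_lit 624) (nat_lit 529) (nat_lit 6640) (.d (nat_lit 623) (nat_lit 591) (nat_lit 5615) (nat_lit 655) (nat_lit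 5647))))))))) (.a s7328 (.a (.p (nat_lit 591) (.a (.f (nat_lit 561) (nat_lit 563) (nat_lit 1583) (.d (nat_lit 590) (nat_lit 559) (nat_lit 1582) (nat_lit 589) (nat_lit 2605))) (.a (.f (nat_lit 623) (nat_lit 496) (nat_lit 5615) (.d (nat_lit 655) (nat_lit 559) (nat_lit 6671) (nat_lit 687) (nat_lit 6703))) (.f (nat_lit 561) (nat_lit 563) (nat_lit 1583) (.d (nat_lit 590) (nat_lit 589) (nat_lit 2605) (nat_lit 593) (nat_lit 2606)))))) (.a (.p (nat_lit 624) (.a (.f (nat_lit 527) (nat_lit 495) (nat_lit 7663) (.f (nat_lit 656) (nat_lit 559) (nat_lit 7695) (.d (nat_lit 655) (nat_lit 623) (nat_lit 5647) (nat_lit 687) (nat_lit 5679)))) (.a (.f (nat_lit 623) (nat_lit 655) (nat_lit 5647) (.f (nat_lit 496) (nat_lit 591) (nat_lit 5615) (.d (nat_lit 497) (nat_lit 465) (nat_lit 6608) (nat_lit 529) (nat_lit 6640)))) (.f (nat_lit 529) (nat_lit 497) (nat_lit 6640) (.f (nat_lit 656) (nat_lit 561) (nat_lit 6672) (.d (nat_lit 527) (nat_lit 495) (nat_lit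 7663) (nat_lit 559) (nat_lit 7695))))))) (.a s7268 s7291))))))))
noncomputable def s7483 : Cert := .r (nat_lit 18869812124986400861704490948459027756867024433892689860299374593630612134736493787905533600559981471712008058190913152356962472978375577626770901665172955839509703950336) (.p (nat_lit 592) (.a s3235 (.a (.p (nat_lit 496) (.a (.f (nat_lit 591) (nat_lit 623) (nat_lit 5615) (.f (nat_lit 561) (nat_lit 563) (nat_lit 1583) (.d (nat_lit 590) (nat_lit 559) (nat_lit 1582) (nat_lit 589) (nat_lit 2605)))) (.f (nat_lit 497) (nat_lit 465) (nat_lit 6608) (.f (nat_lit 495) (nat_lit 463) (nat_lit 7631) (.f (nat_lit 529) (nat_lit 624) (nat_lit 6640) (.d (nat_lit 494) (nat_lit 493) (nat_lit 493) (nat_lit 530) (nat_lit 494))))))) (.a (.p (nat_lit 496) (.a (.f (nat_lit 495) (nat_lit 463) (nat_lit 7631) (.f (nat_lit 624) (nat_lit 527) (nat_lit 7663) (.d (nat_lit 623) (nat_lit 591) (nat_lit 5615) (nat_lit 655) (nat_lit 5647)))) (.a (.f (nat_lit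 591) (nat_lit 623) (nat_lit 5615) (.f (nat_lit 593) (nat_lit 625) (nat_lit 4592) (.f (nat_lit 594) (nat_lit 563) (nat_lit 2607) (.d (nat_lit 559) (nat_lit 558) (nat_lit 3630) (nat_lit 595) (nat_lit 3631))))) (.f (nat_lit 495) (nat_lit 463) (nat_lit 7631) (.f (nat_lit 624) (nat_lit 527) (nat_lit 7663) (.d (nat_lit 625) (nat_lit 593) (nat_lit 4592) (nat_lit 657) (nat_lit 4624))))))) (.a s7266 (.a s7267 (.p (nat_lit 624) (.a (.f (nat_lit 527) (nat_lit 495) (nat_lit 7663) (.f (nat_lit 561) (nat_lit 563) (nat_lit 3599) (.d (nat_lit 529) (nat_lit 497) (nat_lit 6640) (nat_lit 656) (nat_lit 6672)))) (.a (.f (nat_lit 657) (nat_lit 625) (nat_lit 4624) (.f (nat_lit 656) (nat_lit 689) (nat_lit 4656) (.f (nat_lit 561) (nat_lit 529) (nat_lit 6672) (.f (nat_lit 591) (nat_lit 563) (nat_lit 1583) (.d (nat_lit 559) (nat_lit 590) (nat_lit 1582) (nat_lit 688) (nat_lit 7727)))))) (.a (.f (nat_lit 527) (nat_lit 495) (nat_lit 7663) (.f (nat_lit 656) (nat_lit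 559) (nat_lit 7695) (.d (nat_lit 657) (nat_lit 625) (nat_lit 4624) (nat_lit 689) (nat_lit 4656)))) (.f (nat_lit 527) (nat_lit 495) (nat_lit 7663) (.f (nat_lit 529) (nat_lit 497) (nat_lit 6640) (.d (nat_lit 563) (nat_lit 530) (nat_lit 527) (nat_lit 561) (nat_lit 3599))))))))))))))
noncomputable def s7484 : Cert := .r (nat_lit 3773962425700235452738272624505952193199339552226928146794549392648115485167898379561026699849346401546134558067857772757880134458676407096525164659442171664912122642432) (.p (nat_lit 562) (.a s3192 (.a s7182 (.a (.p (nat_lit 594) (.a s3508 (.a s3707 (.a s7207 (.a s7216 (.a s3968 (.a s4002 (.a s7221 (.a s3975 (.a s3984 (.a s3985 (.a s4005 (.a s4028 (.a s4029 s4033)))))))))))))) (.a s7244 (.a (.p (nat_lit 561) (.a (.f (nat_lit 563) (nat_lit 527) (nat_lit 3599) (.f (nat_lit 529) (nat_lit 564) (nat_lit 3600) (.f (nat_lit 531) (nat_lit 532) (nat_lit 2576) (.f (nat_lit 530) (nat_lit 559) (nat_lit 1551) (.f (nat_lit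 499) (nat_lit 500) (nat_lit 2544) (.d (nat_lit 467) (nat_lit 435) (nat_lit 5554) (nat_lit 594) (nat_lit 5586))))))) (.a s7249 (.a (.f (nat_lit 563) (nat_lit 527) (nat_lit 3599) (.f (nat_lit 595) (nat_lit 596) (nat_lit 560) (.f (nat_lit 531) (nat_lit 532) (nat_lit 2576) (.d (nat_lit 559) (nat_lit 530) (nat_lit 2575) (nat_lit 594) (nat_lit 559))))) (.a (.f (nat_lit 563) (nat_lit 527) (nat_lit 3599) (.f (nat_lit 564) (nat_lit 529) (nat_lit 3600) (.d (nat_lit 596) (nat_lit 595) (nat_lit 560) (nat_lit 597) (nat_lit 561)))) (.p (nat_lit 559) (.a (.f (nat_lit 530) (nat_lit 531) (nat_lit 2575) (.f (nat_lit 529) (nat_lit 558) (nat_lit 2574) (.f (nat_lit 594) (nat_lit 595) (nat_lit 559) (.d (nat_lit 497) (nat_lit 465) (nat_lit 4561) (nat_lit 626) (nat_lit 7665))))) (.a (.f (nat_lit 594) (nat_lit 595) (nat_lit 559) (.f (nat_lit 530) (nat_lit 531) (nat_lit 2575) (.f (nat_lit 593) (nat_lit 558) (nat_lit 558) (.d (nat_lit 498) (nat_lit 466) (nat_lit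 5585) (nat_lit 625) (nat_lit 5617))))) (.a (.f (nat_lit 594) (nat_lit 595) (nat_lit 559) (.f (nat_lit 558) (nat_lit 593) (nat_lit 558) (.d (nat_lit 529) (nat_lit 530) (nat_lit 2574) (nat_lit 557) (nat_lit 2573)))) (.a (.f (nat_lit 594) (nat_lit 595) (nat_lit 559) (.f (nat_lit 558) (nat_lit 593) (nat_lit 558) (.d (nat_lit 590) (nat_lit 589) (nat_lit 1581) (nat_lit 591) (nat_lit 1582)))) (.a (.f (nat_lit 530) (nat_lit 531) (nat_lit 2575) (.f (nat_lit 558) (nat_lit 529) (nat_lit 2574) (.d (nat_lit 590) (nat_lit 589) (nat_lit 1581) (nat_lit 591) (nat_lit 1582)))) (.f (nat_lit 530) (nat_lit 531) (nat_lit 2575) (.f (nat_lit 594) (nat_lit 595) (nat_lit 559) (.f (nat_lit 591) (nat_lit 590) (nat_lit 1582) (.f (nat_lit 623) (nat_lit 655) (nat_lit 6671) (.f (nat_lit 527) (nat_lit 496) (nat_lit 6639) (.f (nat_lit 622) (nat_lit 654) (nat_lit 5646) (.f (nat_lit 624) (nat_lit 656) (nat_lit 4623) (.f (nat_lit 625) (nat_lit 593) (nat_lit 2638) (.d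 (nat_lit 657) (nat_lit 626) (nat_lit 5649) (nat_lit 658) (nat_lit 622))))))))))))))))))))) (.a (.p (nat_lit 592) (.a s3034 (.a (.p (nat_lit 496) (.a (.f (nat_lit 591) (nat_lit 623) (nat_lit 5615) (.f (nat_lit 561) (nat_lit 563) (nat_lit 1583) (.d (nat_lit 590) (nat_lit 559) (nat_lit 1582) (nat_lit 589) (nat_lit 2605)))) (.f (nat_lit 497) (nat_lit 465) (nat_lit 6608) (.f (nat_lit 495) (nat_lit 463) (nat_lit 7631) (.f (nat_lit 529) (nat_lit 624) (nat_lit 6640) (.d (nat_lit 494) (nat_lit 493) (nat_lit 493) (nat_lit 530) (nat_lit 494))))))) (.a (.p (nat_lit 496) (.a (.f (nat_lit 497) (nat_lit 465) (nat_lit 6608) (.f (nat_lit 495) (nat_lit 463) (nat_lit 7631) (.f (nat_lit 529) (nat_lit 624) (nat_lit 6640) (.d (nat_lit 494) (nat_lit 493) (nat_lit 493) (nat_lit 530) (nat_lit 494))))) (.f (nat_lit 591) (nat_lit 623) (nat_lit 5615) (.f (nat_lit 593) (nat_lit 625) (nat_lit 4592) (.f (nat_lit 594) (nat_lit 563) (nat_lit 2607) (.d (nat_lit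 559) (nat_lit 558) (nat_lit 3630) (nat_lit 595) (nat_lit 3631))))))) (.a (.p (nat_lit 496) (.a (.f (nat_lit 495) (nat_lit 463) (nat_lit 7631) (.f (nat_lit 624) (nat_lit 527) (nat_lit 7663) (.d (nat_lit 623) (nat_lit 591) (nat_lit 5615) (nat_lit 655) (nat_lit 5647)))) (.a (.f (nat_lit 591) (nat_lit 623) (nat_lit 5615) (.f (nat_lit 593) (nat_lit 625) (nat_lit 4592) (.f (nat_lit 594) (nat_lit 563) (nat_lit 2607) (.d (nat_lit 559) (nat_lit 558) (nat_lit 3630) (nat_lit 595) (nat_lit 3631))))) (.f (nat_lit 495) (nat_lit 463) (nat_lit 7631) (.f (nat_lit 624) (nat_lit 527) (nat_lit 7663) (.d (nat_lit 625) (nat_lit 593) (nat_lit 4592) (nat_lit 657) (nat_lit 4624))))))) (.a s7266 (.a s7267 (.a s7268 s7291)))))))) (.a (.p (nat_lit 594) (.a (.p (nat_lit 561) (.a (.f (nat_lit 563) (nat_lit 527) (nat_lit 3599) (.d (nat_lit 595) (nat_lit 559) (nat_lit 559) (nat_lit 596) (nat_lit 560))) (.a (.f (nat_lit 559) (nat_lit 595) (nat_lit 559) (.f (nat_lit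 530) (nat_lit 531) (nat_lit 2575) (.d (nat_lit 558) (nat_lit 529) (nat_lit 2574) (nat_lit 593) (nat_lit 558)))) (.f (nat_lit 563) (nat_lit 527) (nat_lit 3599) (.f (nat_lit 564) (nat_lit 529) (nat_lit 3600) (.d (nat_lit 532) (nat_lit 531) (nat_lit 2576) (nat_lit 533) (nat_lit 2577))))))) (.a s3797 (.a s4002 (.a s4062 (.a s3517 (.a (.p (nat_lit 561) (.a (.f (nat_lit 563) (nat_lit 527) (nat_lit 3599) (.d (nat_lit 595) (nat_lit 559) (nat_lit 559) (nat_lit 596) (nat_lit 560))) (.a (.f (nat_lit 559) (nat_lit 595) (nat_lit 559) (.f (nat_lit 530) (nat_lit 531) (nat_lit 2575) (.f (nat_lit 529) (nat_lit 558) (nat_lit 2574) (.d (nat_lit 497) (nat_lit 465) (nat_lit 4561) (nat_lit 626) (nat_lit 7665))))) (.f (nat_lit 563) (nat_lit 527) (nat_lit 3599) (.f (nat_lit 564) (nat_lit 529) (nat_lit 3600) (.d (nat_lit 532) (nat_lit 531) (nat_lit 2576) (nat_lit 533) (nat_lit 2577))))))) (.a s3576 (.a s4552 s4553))))))))) (.a s7310 (.a (.p (nat_lit 594)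 (.a (.p (nat_lit 561) (.a (.f (nat_lit 563) (nat_lit 527) (nat_lit 3599) (.d (nat_lit 595) (nat_lit 559) (nat_lit 559) (nat_lit 596) (nat_lit 560))) (.a (.f (nat_lit 559) (nat_lit 595) (nat_lit 559) (.f (nat_lit 530) (nat_lit 531) (nat_lit 2575) (.f (nat_lit 529) (nat_lit 558) (nat_lit 2574) (.d (nat_lit 497) (nat_lit 465) (nat_lit 4561) (nat_lit 626) (nat_lit 7665))))) (.f (nat_lit 563) (nat_lit 527) (nat_lit 3599) (.f (nat_lit 564) (nat_lit 529) (nat_lit 3600) (.d (nat_lit 532) (nat_lit 531) (nat_lit 2576) (nat_lit 533) (nat_lit 2577))))))) (.a s3739 (.a s3975 (.a s4116 (.a s4664 (.a s4563 (.a s4733 (.a s4425 s4742))))))))) (.a (.p (nat_lit 561) (.a (.f (nat_lit 563) (nat_lit 527) (nat_lit 3599) (.f (nat_lit 529) (nat_lit 564) (nat_lit 3600) (.f (nat_lit 531) (nat_lit 532) (nat_lit 2576) (.f (nat_lit 530) (nat_lit 559) (nat_lit 1551) (.f (nat_lit 499) (nat_lit 500) (nat_lit 2544) (.d (nat_lit 467) (nat_lit 435) (nat_lit 5554)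 (nat_lit 594) (nat_lit 5586))))))) (.a s7249 (.a (.f (nat_lit 563) (nat_lit 527) (nat_lit 3599) (.f (nat_lit 595) (nat_lit 596) (nat_lit 560) (.f (nat_lit 531) (nat_lit 532) (nat_lit 2576) (.d (nat_lit 559) (nat_lit 530) (nat_lit 2575) (nat_lit 594) (nat_lit 559))))) (.a (.f (nat_lit 563) (nat_lit 527) (nat_lit 3599) (.f (nat_lit 564) (nat_lit 529) (nat_lit 3600) (.d (nat_lit 596) (nat_lit 595) (nat_lit 560) (nat_lit 597) (nat_lit 561)))) (.p (nat_lit 559) (.a (.f (nat_lit 594) (nat_lit 595) (nat_lit 559) (.f (nat_lit 530) (nat_lit 531) (nat_lit 2575) (.f (nat_lit 593) (nat_lit 558) (nat_lit 558) (.d (nat_lit 498) (nat_lit 466) (nat_lit 5585) (nat_lit 625) (nat_lit 5617))))) (.f (nat_lit 591) (nat_lit 590) (nat_lit 1582) (.f (nat_lit 623) (nat_lit 655) (nat_lit 6671) (.d (nat_lit 496) (nat_lit 527) (nat_lit 6639) (nat_lit 592) (nat_lit 5615))))))))))) (.a s7332 (.a s7360 (.a (.p (nat_lit 594) (.a s3586 (.a s3830 (.a s3985 (.a (.p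 (nat_lit 592) (.a s4535 (.a s7369 (.a s7206 (.a s7392 (.a s7393 (.a s7353 (.a (.p (nat_lit 496) (.a (.f (nat_lit 591) (nat_lit 623) (nat_lit 5615) (.f (nat_lit 593) (nat_lit 563) (nat_lit 2607) (.f (nat_lit 627) (nat_lit 626) (nat_lit 591) (.f (nat_lit 595) (nat_lit 628) (nat_lit 592) (.f (nat_lit 495) (nat_lit 463) (nat_lit 7631) (.f (nat_lit 497) (nat_lit 465) (nat_lit 6608) (.f (nat_lit 498) (nat_lit 530) (nat_lit 4594) (.d (nat_lit 527) (nat_lit 499) (nat_lit 1519) (nat_lit 624) (nat_lit 7663))))))))) (.a (.f (nat_lit 591) (nat_lit 623) (nat_lit 5615) (.d (nat_lit 563) (nat_lit 561) (nat_lit 1583) (nat_lit 593) (nat_lit 2607))) (.a (.f (nat_lit 623) (nat_lit 591) (nat_lit 5615) (.f (nat_lit 624) (nat_lit 655) (nat_lit 5647) (.d (nat_lit 495) (nat_lit 463) (nat_lit 7631) (nat_lit 527) (nat_lit 7663)))) (.f (nat_lit 495) (nat_lit 463) (nat_lit 7631) (.f (nat_lit 497) (nat_lit 465) (nat_lit 6608) (.f (nat_lit 527) (nat_lit 624)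 (nat_lit 7663) (.f (nat_lit 563) (nat_lit 561) (nat_lit 3599) (.f (nat_lit 498) (nat_lit 499) (nat_lit 1519) (.f (nat_lit 530) (nat_lit 531) (nat_lit 495) (.d (nat_lit 466) (nat_lit 467) (nat_lit 2511) (nat_lit 595) (nat_lit 4562)))))))))))) (.a (.p (nat_lit 496) (.a (.f (nat_lit 593) (nat_lit 625) (nat_lit 4592) (.f (nat_lit 563) (nat_lit 591) (nat_lit 2607) (.d (nat_lit 564) (nat_lit 561) (nat_lit 1584) (nat_lit 565) (nat_lit 1585)))) (.a (.f (nat_lit 593) (nat_lit 625) (nat_lit 4592) (.f (nat_lit 563) (nat_lit 591) (nat_lit 2607) (.d (nat_lit 564) (nat_lit 565) (nat_lit 1585) (nat_lit 595) (nat_lit 2608)))) (.a (.f (nat_lit 495) (nat_lit 463) (nat_lit 7631) (.f (nat_lit 497) (nat_lit 465) (nat_lit 6608) (.f (nat_lit 527) (nat_lit 624) (nat_lit 7663) (.f (nat_lit 563) (nat_lit 561) (nat_lit 3599) (.f (nat_lit 498) (nat_lit 499) (nat_lit 1519) (.f (nat_lit 530) (nat_lit 531) (nat_lit 495) (.d (nat_lit 466) (nat_lit 467) (nat_lit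 2511) (nat_lit 595) (nat_lit 4562)))))))) (.f (nat_lit 593) (nat_lit 625) (nat_lit 4592) (.f (nat_lit 495) (nat_lit 463) (nat_lit 7631) (.f (nat_lit 497) (nat_lit 465) (nat_lit 6608) (.f (nat_lit 527) (nat_lit 624) (nat_lit 7663) (.f (nat_lit 498) (nat_lit 499) (nat_lit 1519) (.f (nat_lit 530) (nat_lit 531) (nat_lit 495) (.d (nat_lit 466) (nat_lit 467) (nat_lit 2511) (nat_lit 561) (nat_lit 5585)))))))))))) (.a s7415 (.p (nat_lit 496) (.a (.f (nat_lit 593) (nat_lit 625) (nat_lit 4592) (.d (nat_lit 591) (nat_lit 563) (nat_lit 2607) (nat_lit 623) (nat_lit 5615))) (.a (.f (nat_lit 623) (nat_lit 591) (nat_lit 5615) (.f (nat_lit 624) (nat_lit 655) (nat_lit 5647) (.d (nat_lit 495) (nat_lit 463) (nat_lit 7631) (nat_lit 527) (nat_lit 7663)))) (.a (.f (nat_lit 593) (nat_lit 625) (nat_lit 4592) (.f (nat_lit 563) (nat_lit 591) (nat_lit 2607) (.d (nat_lit 564) (nat_lit 561) (nat_lit 1584) (nat_lit 565) (nat_lit 1585)))) (.f (nat_lit 593) (nat_lit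 625) (nat_lit 4592) (.f (nat_lit 495) (nat_lit 463) (nat_lit 7631) (.f (nat_lit 497) (nat_lit 465) (nat_lit 6608) (.f (nat_lit 527) (nat_lit 624) (nat_lit 7663) (.f (nat_lit 498) (nat_lit 499) (nat_lit 1519) (.f (nat_lit 530) (nat_lit 531) (nat_lit 495) (.d (nat_lit 466) (nat_lit 467) (nat_lit 2511) (nat_lit 561) (nat_lit 5585)))))))))))))))))))))) (.a (.p (nat_lit 592) (.a s4535 (.a s7369 (.a s7393 (.a s7392 (.a s7421 (.a (.p (nat_lit 563) (.a (.d (nat_lit 561) (nat_lit 527) (nat_lit 3599) (nat_lit 591) (nat_lit 1583)) (.a (.d (nat_lit 591) (nat_lit 561) (nat_lit 1583) (nat_lit 593) (nat_lit 2607)) (.a (.f (nat_lit 593) (nat_lit 591) (nat_lit 2607) (.d (nat_lit 564) (nat_lit 565) (nat_lit 1585) (nat_lit 595) (nat_lit 2608))) (.f (nat_lit 561) (nat_lit 527) (nat_lit 3599) (.d (nat_lit 564) (nat_lit 529) (nat_lit 3600) (nat_lit 593) (nat_lit 1584))))))) (.a s7415 s7422)))))))) (.a s4425 (.a s4552 (.a (.p (nat_lit 592) (.a (.p (nat_lit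 624) (.a (.f (nat_lit 655) (nat_lit 623) (nat_lit 5647) (.f (nat_lit 656) (nat_lit 687) (nat_lit 5679) (.d (nat_lit 657) (nat_lit 625) (nat_lit 4624) (nat_lit 689) (nat_lit 4656)))) (.a (.f (nat_lit 623) (nat_lit 655) (nat_lit 5647) (.f (nat_lit 593) (nat_lit 595) (nat_lit 1615) (.d (nat_lit 622) (nat_lit 591) (nat_lit 1614) (nat_lit 621) (nat_lit 2637)))) (.f (nat_lit 529) (nat_lit 497) (nat_lit 6640) (.f (nat_lit 561) (nat_lit 656) (nat_lit 6672) (.d (nat_lit 563) (nat_lit 564) (nat_lit 3600) (nat_lit 591) (nat_lit 1583))))))) (.a (.p (nat_lit 496) (.a (.f (nat_lit 593) (nat_lit 625) (nat_lit 4592) (.d (nat_lit 591) (nat_lit 563) (nat_lit 2607) (nat_lit 623) (nat_lit 5615))) (.f (nat_lit 495) (nat_lit 463) (nat_lit 7631) (.f (nat_lit 624) (nat_lit 527) (nat_lit 7663) (.d (nat_lit 497) (nat_lit 465) (nat_lit 6608) (nat_lit 529) (nat_lit 6640)))))) (.a s4535 (.a (.p (nat_lit 624) (.a (.f (nat_lit 655) (nat_lit 623) (nat_lit 5647)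 (.f (nat_lit 656) (nat_lit 687) (nat_lit 5679) (.d (nat_lit 657) (nat_lit 625) (nat_lit 4624) (nat_lit 689) (nat_lit 4656)))) (.a (.f (nat_lit 529) (nat_lit 497) (nat_lit 6640) (.f (nat_lit 561) (nat_lit 656) (nat_lit 6672) (.d (nat_lit 563) (nat_lit 564) (nat_lit 3600) (nat_lit 591) (nat_lit 1583)))) (.f (nat_lit 625) (nat_lit 657) (nat_lit 4624) (.f (nat_lit 623) (nat_lit 655) (nat_lit 5647) (.f (nat_lit 626) (nat_lit 595) (nat_lit 2639) (.d (nat_lit 591) (nat_lit 590) (nat_lit 3662) (nat_lit 627) (nat_lit 3663)))))))) (.a (.p (nat_lit 563) (.a (.d (nat_lit 561) (nat_lit 527) (nat_lit 3599) (nat_lit 591) (nat_lit 1583)) (.a (.d (nat_lit 591) (nat_lit 561) (nat_lit 1583) (nat_lit 593) (nat_lit 2607)) (.a (.f (nat_lit 593) (nat_lit 591) (nat_lit 2607) (.d (nat_lit 564) (nat_lit 565) (nat_lit 1585) (nat_lit 595) (nat_lit 2608))) (.f (nat_lit 561) (nat_lit 527) (nat_lit 3599) (.d (nat_lit 564) (nat_lit 529) (nat_lit 3600) (nat_lit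 593) (nat_lit 1584))))))) (.a s4592 (.p (nat_lit 624) (.a (.f (nat_lit 655) (nat_lit 623) (nat_lit 5647) (.f (nat_lit 656) (nat_lit 687) (nat_lit 5679) (.d (nat_lit 657) (nat_lit 625) (nat_lit 4624) (nat_lit 689) (nat_lit 4656)))) (.a (.f (nat_lit 529) (nat_lit 497) (nat_lit 6640) (.f (nat_lit 561) (nat_lit 656) (nat_lit 6672) (.d (nat_lit 527) (nat_lit 495) (nat_lit 7663) (nat_lit 563) (nat_lit 3599)))) (.f (nat_lit 625) (nat_lit 657) (nat_lit 4624) (.f (nat_lit 623) (nat_lit 655) (nat_lit 5647) (.d (nat_lit 593) (nat_lit 595) (nat_lit 1615) (nat_lit 622) (nat_lit 2638)))))))))))))) (.a s4782 (.a s4799 (.a s4804 (.a s4806 s4812))))))))))))) (.a (.p (nat_lit 592) (.a s3034 (.a (.p (nat_lit 496) (.a (.f (nat_lit 591) (nat_lit 623) (nat_lit 5615) (.f (nat_lit 561) (nat_lit 563) (nat_lit 1583) (.d (nat_lit 590) (nat_lit 559) (nat_lit 1582) (nat_lit 589) (nat_lit 2605)))) (.f (nat_lit 497) (nat_lit 465) (nat_lit 6608) (.f (nat_lit 495)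 (nat_lit 463) (nat_lit 7631) (.f (nat_lit 529) (nat_lit 624) (nat_lit 6640) (.d (nat_lit 494) (nat_lit 493) (nat_lit 493) (nat_lit 530) (nat_lit 494))))))) (.a (.p (nat_lit 624) (.a (.f (nat_lit 527) (nat_lit 495) (nat_lit 7663) (.f (nat_lit 656) (nat_lit 559) (nat_lit 7695) (.d (nat_lit 655) (nat_lit 623) (nat_lit 5647) (nat_lit 687) (nat_lit 5679)))) (.a (.f (nat_lit 623) (nat_lit 655) (nat_lit 5647) (.f (nat_lit 496) (nat_lit 591) (nat_lit 5615) (.d (nat_lit 497) (nat_lit 465) (nat_lit 6608) (nat_lit 529) (nat_lit 6640)))) (.f (nat_lit 527) (nat_lit 495) (nat_lit 7663) (.f (nat_lit 529) (nat_lit 497) (nat_lit 6640) (.f (nat_lit 530) (nat_lit 563) (nat_lit 527) (.d (nat_lit 559) (nat_lit 531) (nat_lit 1551) (nat_lit 558) (nat_lit 1550)))))))) (.a (.p (nat_lit 496) (.a (.f (nat_lit 591) (nat_lit 623) (nat_lit 5615) (.f (nat_lit 561) (nat_lit 563) (nat_lit 1583) (.d (nat_lit 590) (nat_lit 559) (nat_lit 1582) (nat_lit 589) (nat_lit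 2605)))) (.a (.f (nat_lit 495) (nat_lit 463) (nat_lit 7631) (.f (nat_lit 624) (nat_lit 527) (nat_lit 7663) (.d (nat_lit 623) (nat_lit 591) (nat_lit 5615) (nat_lit 655) (nat_lit 5647)))) (.f (nat_lit 495) (nat_lit 463) (nat_lit 7631) (.f (nat_lit 527) (nat_lit 624) (nat_lit 7663) (.f (nat_lit 561) (nat_lit 563) (nat_lit 3599) (.f (nat_lit 497) (nat_lit 465) (nat_lit 6608) (.f (nat_lit 498) (nat_lit 499) (nat_lit 1519) (.f (nat_lit 530) (nat_lit 531) (nat_lit 495) (.d (nat_lit 466) (nat_lit 467) (nat_lit 2511) (nat_lit 593) (nat_lit 5585))))))))))) (.a (.p (nat_lit 624) (.a (.f (nat_lit 527) (nat_lit 495) (nat_lit 7663) (.f (nat_lit 656) (nat_lit 559) (nat_lit 7695) (.d (nat_lit 655) (nat_lit 623) (nat_lit 5647) (nat_lit 687) (nat_lit 5679)))) (.a (.f (nat_lit 623) (nat_lit 655) (nat_lit 5647) (.f (nat_lit 591) (nat_lit 496) (nat_lit 5615) (.f (nat_lit 561) (nat_lit 563) (nat_lit 1583) (.d (nat_lit 590) (nat_lit 559) (nat_lit 1582)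 (nat_lit 589) (nat_lit 2605))))) (.a (.f (nat_lit 623) (nat_lit 655) (nat_lit 5647) (.f (nat_lit 591) (nat_lit 496) (nat_lit 5615) (.f (nat_lit 561) (nat_lit 563) (nat_lit 1583) (.d (nat_lit 590) (nat_lit 589) (nat_lit 2605) (nat_lit 593) (nat_lit 2606))))) (.f (nat_lit 527) (nat_lit 495) (nat_lit 7663) (.f (nat_lit 561) (nat_lit 563) (nat_lit 3599) (.d (nat_lit 656) (nat_lit 529) (nat_lit 6672) (nat_lit 559) (nat_lit 7695)))))))) (.a (.p (nat_lit 591) (.a (.f (nat_lit 561) (nat_lit 563) (nat_lit 1583) (.d (nat_lit 590) (nat_lit 559) (nat_lit 1582) (nat_lit 589) (nat_lit 2605))) (.a (.f (nat_lit 623) (nat_lit 496) (nat_lit 5615) (.d (nat_lit 655) (nat_lit 559) (nat_lit 6671) (nat_lit 687) (nat_lit 6703))) (.f (nat_lit 561) (nat_lit 563) (nat_lit 1583) (.d (nat_lit 590) (nat_lit 589) (nat_lit 2605) (nat_lit 593) (nat_lit 2606)))))) (.a (.p (nat_lit 624) (.a (.f (nat_lit 527) (nat_lit 495) (nat_lit 7663) (.f (nat_lit 656) (nat_lit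 559) (nat_lit 7695) (.d (nat_lit 655) (nat_lit 623) (nat_lit 5647) (nat_lit 687) (nat_lit 5679)))) (.a (.f (nat_lit 623) (nat_lit 655) (nat_lit 5647) (.f (nat_lit 496) (nat_lit 591) (nat_lit 5615) (.d (nat_lit 497) (nat_lit 465) (nat_lit 6608) (nat_lit 529) (nat_lit 6640)))) (.f (nat_lit 529) (nat_lit 497) (nat_lit 6640) (.f (nat_lit 656) (nat_lit 561) (nat_lit 6672) (.d (nat_lit 527) (nat_lit 495) (nat_lit 7663) (nat_lit 559) (nat_lit 7695))))))) (.a (.p (nat_lit 496) (.a (.f (nat_lit 495) (nat_lit 463) (nat_lit 7631) (.f (nat_lit 624) (nat_lit 527) (nat_lit 7663) (.d (nat_lit 497) (nat_lit 465) (nat_lit 6608) (nat_lit 529) (nat_lit 6640)))) (.a (.f (nat_lit 497) (nat_lit 465) (nat_lit 6608) (.f (nat_lit 495) (nat_lit 463) (nat_lit 7631) (.f (nat_lit 529) (nat_lit 624) (nat_lit 6640) (.d (nat_lit 494) (nat_lit 493) (nat_lit 493) (nat_lit 530) (nat_lit 494))))) (.a (.f (nat_lit 495) (nat_lit 463) (nat_lit 7631) (.f (nat_lit 624)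 (nat_lit 527) (nat_lit 7663) (.d (nat_lit 623) (nat_lit 591) (nat_lit 5615) (nat_lit 655) (nat_lit 5647)))) (.f (nat_lit 591) (nat_lit 623) (nat_lit 5615) (.f (nat_lit 561) (nat_lit 563) (nat_lit 1583) (.d (nat_lit 590) (nat_lit 589) (nat_lit 2605) (nat_lit 593) (nat_lit 2606)))))))) (.a (.p (nat_lit 624) (.a (.f (nat_lit 527) (nat_lit 495) (nat_lit 7663) (.f (nat_lit 561) (nat_lit 563) (nat_lit 3599) (.d (nat_lit 529) (nat_lit 497) (nat_lit 6640) (nat_lit 656) (nat_lit 6672)))) (.a (.f (nat_lit 529) (nat_lit 497) (nat_lit 6640) (.f (nat_lit 561) (nat_lit 656) (nat_lit 6672) (.d (nat_lit 563) (nat_lit 564) (nat_lit 3600) (nat_lit 591) (nat_lit 1583)))) (.a (.f (nat_lit 527) (nat_lit 495) (nat_lit 7663) (.f (nat_lit 529) (nat_lit 497) (nat_lit 6640) (.f (nat_lit 530) (nat_lit 563) (nat_lit 527) (.d (nat_lit 559) (nat_lit 531) (nat_lit 1551) (nat_lit 558) (nat_lit 1550))))) (.a (.f (nat_lit 527) (nat_lit 495) (nat_lit 7663) (.f (nat_lit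 561) (nat_lit 563) (nat_lit 3599) (.f (nat_lit 559) (nat_lit 656) (nat_lit 7695) (.f (nat_lit 590) (nat_lit 591) (nat_lit 1582) (.f (nat_lit 558) (nat_lit 589) (nat_lit 1581) (.d (nat_lit 557) (nat_lit 556) (nat_lit 2572) (nat_lit 593) (nat_lit 557))))))) (.f (nat_lit 529) (nat_lit 497) (nat_lit 6640) (.f (nat_lit 656) (nat_lit 561) (nat_lit 6672) (.d (nat_lit 527) (nat_lit 495) (nat_lit 7663) (nat_lit 559) (nat_lit 7695))))))))) (.p (nat_lit 624) (.a (.f (nat_lit 527) (nat_lit 495) (nat_lit 7663) (.f (nat_lit 561) (nat_lit 563) (nat_lit 3599) (.d (nat_lit 529) (nat_lit 497) (nat_lit 6640) (nat_lit 656) (nat_lit 6672)))) (.a (.f (nat_lit 655) (nat_lit 623) (nat_lit 5647) (.f (nat_lit 656) (nat_lit 687) (nat_lit 5679) (.f (nat_lit 561) (nat_lit 529) (nat_lit 6672) (.f (nat_lit 593) (nat_lit 688) (nat_lit 6704) (.f (nat_lit 563) (nat_lit 564) (nat_lit 1584) (.f (nat_lit 595) (nat_lit 596) (nat_lit 560) (.f (nat_lit 594) (nat_lit 559)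 (nat_lit 559) (.f (nat_lit 627) (nat_lit 628) (nat_lit 592) (.d (nat_lit 530) (nat_lit 498) (nat_lit 4594) (nat_lit 659) (nat_lit 7698)))))))))) (.a (.f (nat_lit 527) (nat_lit 495) (nat_lit 7663) (.f (nat_lit 656) (nat_lit 559) (nat_lit 7695) (.d (nat_lit 655) (nat_lit 623) (nat_lit 5647) (nat_lit 687) (nat_lit 5679)))) (.f (nat_lit 527) (nat_lit 495) (nat_lit 7663) (.f (nat_lit 529) (nat_lit 497) (nat_lit 6640) (.d (nat_lit 563) (nat_lit 530) (nat_lit 527) (nat_lit 561) (nat_lit 3599)))))))))))))))))) (.a (.p (nat_lit 594) (.a (.p (nat_lit 561) (.a (.f (nat_lit 563) (nat_lit 527) (nat_lit 3599) (.d (nat_lit 595) (nat_lit 559) (nat_lit 559) (nat_lit 596) (nat_lit 560))) (.a (.f (nat_lit 559) (nat_lit 595) (nat_lit 559) (.f (nat_lit 530) (nat_lit 531) (nat_lit 2575) (.d (nat_lit 558) (nat_lit 529) (nat_lit 2574) (nat_lit 593) (nat_lit 558)))) (.f (nat_lit 563) (nat_lit 527) (nat_lit 3599) (.f (nat_lit 564) (nat_lit 529) (nat_lit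 3600) (.d (nat_lit 532) (nat_lit 531) (nat_lit 2576) (nat_lit 533) (nat_lit 2577))))))) (.a s3461 (.a s3975 (.a s3586 (.a (.p (nat_lit 561) (.a (.f (nat_lit 563) (nat_lit 527) (nat_lit 3599) (.d (nat_lit 595) (nat_lit 559) (nat_lit 559) (nat_lit 596) (nat_lit 560))) (.a (.f (nat_lit 595) (nat_lit 559) (nat_lit 559) (.d (nat_lit 596) (nat_lit 563) (nat_lit 560) (nat_lit 597) (nat_lit 3633))) (.a (.f (nat_lit 595) (nat_lit 559) (nat_lit 559) (.d (nat_lit 596) (nat_lit 593) (nat_lit 3632) (nat_lit 597) (nat_lit 3633))) (.f (nat_lit 563) (nat_lit 527) (nat_lit 3599) (.f (nat_lit 564) (nat_lit 529) (nat_lit 3600) (.d (nat_lit 532) (nat_lit 531) (nat_lit 2576) (nat_lit 533) (nat_lit 2577)))))))) (.a s3816 s4795))))))) (.a s7476 s7483)))))))))))))))))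
noncomputable def s7519 : Cert := .r (nat_lit 16209045194715341169889328670486457783641829154772183048886689537912202065107479481384459750016659258562911555801732646581957841468137799513082016355358913846142750150282302193664) (.f (nat_lit 497) (nat_lit 465) (nat_lit 6608) (.p (nat_lit 498) (.a (.f (nat_lit 495) (nat_lit 463) (nat_lit 7631) (.f (nat_lit 499) (nat_lit 527) (nat_lit 1519) (.d (nat_lit 467) (nat_lit 466) (nat_lit 2511) (nat_lit 468) (nat_lit 2512)))) (.a (.f (nat_lit 495) (nat_lit 463) (nat_lit 7631) (.f (nat_lit 530) (nat_lit 531) (nat_lit 495) (.f (nat_lit 529) (nat_lit 494) (nat_lit 494) (.f (nat_lit 466) (nat_lit 467) (nat_lit 2511) (.d (nat_lit 434) (nat_lit 402) (nat_lit 5521) (nat_lit 561) (nat_lit 5553)))))) (.a (.f (nat_lit 499) (nat_lit 527) (nat_lit 1519) (.f (nat_lit 500) (nat_lit 529) (nat_lit 1520) (.d (nat_lit 468) (nat_lit 467) (nat_lit 2512) (nat_lit 469) (nat_lit 2513)))) (.f (nat_lit 495) (nat_lit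 463) (nat_lit 7631) (.f (nat_lit 530) (nat_lit 531) (nat_lit 495) (.f (nat_lit 529) (nat_lit 494) (nat_lit 494) (.d (nat_lit 499) (nat_lit 500) (nat_lit 1520) (nat_lit 527) (nat_lit 1519))))))))))
noncomputable def s7520 : Cert := .r (nat_lit 16209045194715341169889328670281870870648320287896358692834964590898661937229787932041754039510650896287619396121528265811588831646207381755109511917282835312024913084449269219328) (.p (nat_lit 496) (.a (.f (nat_lit 465) (nat_lit 497) (nat_lit 6608) (.f (nat_lit 464) (nat_lit 433) (nat_lit 6576) (.d (nat_lit 463) (nat_lit 431) (nat_lit 7599) (nat_lit 495) (nat_lit 7631)))) (.a (.f (nat_lit 591) (nat_lit 623) (nat_lit 5615) (.f (nat_lit 464) (nat_lit 559) (nat_lit 5583) (.d (nat_lit 463) (nat_lit 431) (nat_lit 7599) (nat_lit 495) (nat_lit 7631)))) (.a s7519 (.f (nat_lit 591) (nat_lit 623) (nat_lit 5615) (.f (nat_lit 464) (nat_lit 559) (nat_lit 5583) (.d (nat_lit 465) (nat_lit 433) (nat_lit 6576)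 (nat_lit 497) (nat_lit 6608))))))))
noncomputable def s7543 : Cert := .r (nat_lit 16209045194715341169889328670281870870648320287896358692834964590898661937229787932041754039510650896287619396121528265811588831646207381755109511917282835312024913084449269219328) (.p (nat_lit 496) (.a (.f (nat_lit 591) (nat_lit 623) (nat_lit 5615) (.f (nat_lit 464) (nat_lit 559) (nat_lit 5583) (.d (nat_lit 465) (nat_lit 433) (nat_lit 6576) (nat_lit 497) (nat_lit 6608)))) (.a (.f (nat_lit 591) (nat_lit 623) (nat_lit 5615) (.f (nat_lit 464) (nat_lit 559) (nat_lit 5583) (.f (nat_lit 431) (nat_lit 463) (nat_lit 7599) (.f (nat_lit 432) (nat_lit 399) (nat_lit 7567) (.d (nat_lit 433) (nat_lit 401) (nat_lit 6544) (nat_lit 465) (nat_lit 6576)))))) (.a (.f (nat_lit 497) (nat_lit 465) (nat_lit 6608) (.f (nat_lit 624) (nat_lit 529) (nat_lit 6640) (.d (nat_lit 623) (nat_lit 591) (nat_lit 5615) (nat_lit 655) (nat_lit 5647)))) (.a (.f (nat_lit 591) (nat_lit 623)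 (nat_lit 5615) (.f (nat_lit 464) (nat_lit 559) (nat_lit 5583) (.f (nat_lit 431) (nat_lit 463) (nat_lit 7599) (.f (nat_lit 432) (nat_lit 399) (nat_lit 7567) (.f (nat_lit 401) (nat_lit 433) (nat_lit 6544) (.f (nat_lit 400) (nat_lit 369) (nat_lit 6512) (.d (nat_lit 529) (nat_lit 497) (nat_lit 4496) (nat_lit 561) (nat_lit 4528)))))))) (.a (.f (nat_lit 497) (nat_lit 465) (nat_lit 6608) (.f (nat_lit 624) (nat_lit 529) (nat_lit 6640) (.f (nat_lit 657) (nat_lit 625) (nat_lit 4624) (.f (nat_lit 656) (nat_lit 689) (nat_lit 4656) (.f (nat_lit 559) (nat_lit 527) (nat_lit 7695) (.d (nat_lit 591) (nat_lit 464) (nat_lit 5583) (nat_lit 688) (nat_lit 7727))))))) (.f (nat_lit 497) (nat_lit 465) (nat_lit 6608) (.f (nat_lit 624) (nat_lit 529) (nat_lit 6640) (.f (nat_lit 655) (nat_lit 623) (nat_lit 5647) (.f (nat_lit 656) (nat_lit 687) (nat_lit 5679) (.d (nat_lit 657) (nat_lit 625) (nat_lit 4624) (nat_lit 689) (nat_lit 4656))))))))))))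
noncomputable def s7550 : Cert := .r (nat_lit 16209045194715341169889328670281870870648320287896358692834964590898661937229787932041754039510650896287619396121528265811588831646207381755109511917282835312024913084449269219328) (.p (nat_lit 496) (.a (.f (nat_lit 465) (nat_lit 497) (nat_lit 6608) (.f (nat_lit 464) (nat_lit 433) (nat_lit 6576) (.d (nat_lit 463) (nat_lit 431) (nat_lit 7599) (nat_lit 495) (nat_lit 7631)))) (.a (.f (nat_lit 495) (nat_lit 463) (nat_lit 7631) (.f (nat_lit 624) (nat_lit 527) (nat_lit 7663) (.f (nat_lit 655) (nat_lit 623) (nat_lit 5647) (.f (nat_lit 656) (nat_lit 687) (nat_lit 5679) (.d (nat_lit 657) (nat_lit 625) (nat_lit 4624) (nat_lit 689) (nat_lit 4656)))))) (.f (nat_lit 497) (nat_lit 465) (nat_lit 6608) (.f (nat_lit 624) (nat_lit 529) (nat_lit 6640) (.f (nat_lit 655) (nat_lit 623) (nat_lit 5647) (.f (nat_lit 656) (nat_lit 687) (nat_lit 5679) (.d (nat_lit 657) (nat_lit 625) (nat_lit 4624) (nat_lit 689)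 (nat_lit 4656)))))))))
noncomputable def s7580 : Cert := .r (nat_lit 16209045194715341169889328670281870870648320287896358692834964590898661937229787932041754039510650896287619396121528265811588831646207381755109511917282835312024913084449269219328) (.p (nat_lit 496) (.a (.f (nat_lit 465) (nat_lit 497) (nat_lit 6608) (.f (nat_lit 464) (nat_lit 433) (nat_lit 6576) (.d (nat_lit 463) (nat_lit 431) (nat_lit 7599) (nat_lit 495) (nat_lit 7631)))) (.a (.f (nat_lit 593) (nat_lit 625) (nat_lit 4592) (.f (nat_lit 464) (nat_lit 561) (nat_lit 4560) (.d (nat_lit 463) (nat_lit 431) (nat_lit 7599) (nat_lit 495) (nat_lit 7631)))) (.a s7519 (.f (nat_lit 593) (nat_lit 625) (nat_lit 4592) (.f (nat_lit 464) (nat_lit 561) (nat_lit 4560) (.d (nat_lit 465) (nat_lit 433) (nat_lit 6576) (nat_lit 497) (nat_lit 6608))))))))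
noncomputable def s7582 : Cert := .r (nat_lit 48627135591693948357553680514335285686886132040958081855716799192611712227375629475358060767754406189874800455438189181422106329021944214867674892089043913622921180098121143681024) (.p (nat_lit 594) (.a (.f (nat_lit 595) (nat_lit 559) (nat_lit 3631) (.f (nat_lit 624) (nat_lit 623) (nat_lit 1615) (.d (nat_lit 625) (nat_lit 596) (nat_lit 1616) (nat_lit 657) (nat_lit 4624)))) (.a (.f (nat_lit 559) (nat_lit 595) (nat_lit 3631) (.d (nat_lit 558) (nat_lit 557) (nat_lit 557) (nat_lit 591) (nat_lit 3630))) (.a (.f (nat_lit 591) (nat_lit 563) (nat_lit 2607) (.f (nat_lit 623) (nat_lit 622) (nat_lit 1614) (.d (nat_lit 624) (nat_lit 595) (nat_lit 1615) (nat_lit 655) (nat_lit 5647)))) (.f (nat_lit 591) (nat_lit 563) (nat_lit 2607) (.f (nat_lit 559) (nat_lit 558) (nat_lit 3630) (.d (nat_lit 623) (nat_lit 622) (nat_lit 1614) (nat_lit 655) (nat_lit 6671))))))))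
noncomputable def s7634 : Cert := .r (nat_lit 16209045209811190869175494079248089194601395851564043574500726304403487138212284581610349447855157796998254466287401765934644211245289720274808682447528572317755697259046850527232) (.p (nat_lit 593) (.a s7582 (.a (.p (nat_lit 594) (.a (.f (nat_lit 559) (nat_lit 595) (nat_lit 3631) (.d (nat_lit 558) (nat_lit 557) (nat_lit 557) (nat_lit 591) (nat_lit 3630))) (.a (.f (nat_lit 591) (nat_lit 563) (nat_lit 2607) (.f (nat_lit 626) (nat_lit 627) (nat_lit 591) (.f (nat_lit 625) (nat_lit 590) (nat_lit 590) (.d (nat_lit 657) (nat_lit 530) (nat_lit 5649) (nat_lit 689) (nat_lit 7728))))) (.f (nat_lit 595) (nat_lit 559) (nat_lit 3631) (.f (nat_lit 563) (nat_lit 564) (nat_lit 2608) (.f (nat_lit 627) (nat_lit 628) (nat_lit 592) (.d (nat_lit 659) (nat_lit 530) (nat_lit 7698) (nat_lit 691) (nat_lit 7730)))))))) (.a (.f (nat_lit 625) (nat_lit 496) (nat_lit 4592) (.d (nat_lit 657) (nat_lit 624) (nat_lit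 4624) (nat_lit 689) (nat_lit 7728))) (.p (nat_lit 594) (.a (.f (nat_lit 559) (nat_lit 595) (nat_lit 3631) (.d (nat_lit 558) (nat_lit 557) (nat_lit 557) (nat_lit 591) (nat_lit 3630))) (.a (.f (nat_lit 591) (nat_lit 563) (nat_lit 2607) (.f (nat_lit 623) (nat_lit 622) (nat_lit 1614) (.d (nat_lit 624) (nat_lit 595) (nat_lit 1615) (nat_lit 655) (nat_lit 5647)))) (.a (.f (nat_lit 595) (nat_lit 559) (nat_lit 3631) (.f (nat_lit 563) (nat_lit 564) (nat_lit 2608) (.f (nat_lit 627) (nat_lit 628) (nat_lit 592) (.d (nat_lit 659) (nat_lit 530) (nat_lit 7698) (nat_lit 691) (nat_lit 7730))))) (.f (nat_lit 591) (nat_lit 563) (nat_lit 2607) (.f (nat_lit 559) (nat_lit 558) (nat_lit 3630) (.d (nat_lit 623) (nat_lit 622) (nat_lit 1614) (nat_lit 655) (nat_lit 6671))))))))))))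
noncomputable def s7635 : Cert := .r (nat_lit 16209045209811190869175494079248089194601395851564043574500726304403487138212284581610349447855157796998254466287401765934644211245289720274808682447528572317755697259046850527232) (.p (nat_lit 624) (.a (.f (nat_lit 655) (nat_lit 623) (nat_lit 5647) (.f (nat_lit 656) (nat_lit 687) (nat_lit 5679) (.d (nat_lit 657) (nat_lit 625) (nat_lit 4624) (nat_lit 689) (nat_lit 4656)))) (.a (.f (nat_lit 623) (nat_lit 655) (nat_lit 5647) (.f (nat_lit 591) (nat_lit 496) (nat_lit 5615) (.f (nat_lit 561) (nat_lit 563) (nat_lit 1583) (.d (nat_lit 590) (nat_lit 559) (nat_lit 1582) (nat_lit 589) (nat_lit 2605))))) (.f (nat_lit 657) (nat_lit 625) (nat_lit 4624) (.f (nat_lit 656) (nat_lit 689) (nat_lit 4656) (.f (nat_lit 561) (nat_lit 529) (nat_lit 6672) (.f (nat_lit 591) (nat_lit 563) (nat_lit 1583) (.d (nat_lit 559) (nat_lit 590) (nat_lit 1582) (nat_lit 688) (nat_lit 7727)))))))))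
noncomputable def s7669 : Cert := .r (nat_lit 16209045209811190869175494079248089194601395851564043574500726304403487138212284581610349447855157796998254466287401765934644211245289720274808682447528572317755697259046850527232) (.p (nat_lit 625) (.a (.f (nat_lit 593) (nat_lit 496) (nat_lit 4592) (.d (nat_lit 657) (nat_lit 624) (nat_lit 4624) (nat_lit 689) (nat_lit 7728))) (.a (.f (nat_lit 624) (nat_lit 657) (nat_lit 4624) (.f (nat_lit 529) (nat_lit 497) (nat_lit 6640) (.f (nat_lit 561) (nat_lit 656) (nat_lit 6672) (.d (nat_lit 563) (nat_lit 564) (nat_lit 3600) (nat_lit 591) (nat_lit 1583))))) (.a (.f (nat_lit 593) (nat_lit 496) (nat_lit 4592) (.d (nat_lit 657) (nat_lit 561) (nat_lit 7696) (nat_lit 689) (nat_lit 7728))) (.f (nat_lit 496) (nat_lit 593) (nat_lit 4592) (.f (nat_lit 463) (nat_lit 495) (nat_lit 7631) (.f (nat_lit 464) (nat_lit 431) (nat_lit 7599) (.f (nat_lit 591) (nat_lit 559) (nat_lit 5583) (.f (nat_lit 561) (nat_lit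 563) (nat_lit 1583) (.f (nat_lit 529) (nat_lit 432) (nat_lit 4528) (.d (nat_lit 624) (nat_lit 497) (nat_lit 6640) (nat_lit 656) (nat_lit 6672))))))))))))
noncomputable def s7670 : Cert := .r (nat_lit 18869812124986400861704490948459027756867024433892689860299374593630612134736493787905533600559981471712008058190913152356962472978375577626770901665172955839509703950336) (.p (nat_lit 592) (.a s3368 (.a (.p (nat_lit 593) (.a s7582 (.a (.p (nat_lit 594) (.a (.f (nat_lit 559) (nat_lit 595) (nat_lit 3631) (.d (nat_lit 558) (nat_lit 557) (nat_lit 557) (nat_lit 591) (nat_lit 3630))) (.a (.f (nat_lit 591) (nat_lit 563) (nat_lit 2607) (.f (nat_lit 626) (nat_lit 627) (nat_lit 591) (.f (nat_lit 625) (nat_lit 590) (nat_lit 590) (.d (nat_lit 657) (nat_lit 530) (nat_lit 5649) (nat_lit 689) (nat_lit 7728))))) (.f (nat_lit 595) (nat_lit 559) (nat_lit 3631) (.f (nat_lit 563) (nat_lit 564) (nat_lit 2608) (.f (nat_lit 627) (nat_lit 628) (nat_lit 592)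 (.d (nat_lit 659) (nat_lit 530) (nat_lit 7698) (nat_lit 691) (nat_lit 7730)))))))) (.a (.p (nat_lit 624) (.a (.f (nat_lit 625) (nat_lit 657) (nat_lit 4624) (.f (nat_lit 623) (nat_lit 655) (nat_lit 5647) (.d (nat_lit 594) (nat_lit 595) (nat_lit 1615) (nat_lit 622) (nat_lit 2638)))) (.a (.f (nat_lit 625) (nat_lit 657) (nat_lit 4624) (.f (nat_lit 623) (nat_lit 655) (nat_lit 5647) (.f (nat_lit 622) (nat_lit 621) (nat_lit 2637) (.f (nat_lit 590) (nat_lit 589) (nat_lit 3661) (.d (nat_lit 591) (nat_lit 561) (nat_lit 2606) (nat_lit 626) (nat_lit 590)))))) (.a (.f (nat_lit 623) (nat_lit 655) (nat_lit 5647) (.f (nat_lit 594) (nat_lit 595) (nat_lit 1615) (.d (nat_lit 622) (nat_lit 591) (nat_lit 1614) (nat_lit 621) (nat_lit 2637)))) (.a (.f (nat_lit 657) (nat_lit 625) (nat_lit 4624) (.f (nat_lit 656) (nat_lit 689) (nat_lit 4656) (.f (nat_lit 688) (nat_lit 561) (nat_lit 6704) (.d (nat_lit 687) (nat_lit 655) (nat_lit 5679) (nat_lit 719) (nat_lit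 5711))))) (.f (nat_lit 657) (nat_lit 625) (nat_lit 4624) (.f (nat_lit 656) (nat_lit 689) (nat_lit 4656) (.f (nat_lit 688) (nat_lit 561) (nat_lit 6704) (.f (nat_lit 591) (nat_lit 559) (nat_lit 7727) (.f (nat_lit 623) (nat_lit 720) (nat_lit 7759) (.d (nat_lit 594) (nat_lit 595) (nat_lit 1615) (nat_lit 622) (nat_lit 1614)))))))))))) (.a (.p (nat_lit 624) (.a (.f (nat_lit 625) (nat_lit 657) (nat_lit 4624) (.f (nat_lit 623) (nat_lit 655) (nat_lit 5647) (.f (nat_lit 622) (nat_lit 621) (nat_lit 2637) (.f (nat_lit 590) (nat_lit 589) (nat_lit 3661) (.d (nat_lit 591) (nat_lit 561) (nat_lit 2606) (nat_lit 626) (nat_lit 590)))))) (.a (.f (nat_lit 625) (nat_lit 657) (nat_lit 4624) (.f (nat_lit 623) (nat_lit 655) (nat_lit 5647) (.f (nat_lit 622) (nat_lit 621) (nat_lit 2637) (.f (nat_lit 590) (nat_lit 589) (nat_lit 3661) (.f (nat_lit 626) (nat_lit 591) (nat_lit 590) (.f (nat_lit 627) (nat_lit 628) (nat_lit 3664) (.d (nat_lit 659) (nat_lit 658)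 (nat_lit 623) (nat_lit 660) (nat_lit 624)))))))) (.a (.f (nat_lit 655) (nat_lit 623) (nat_lit 5647) (.f (nat_lit 656) (nat_lit 687) (nat_lit 5679) (.f (nat_lit 561) (nat_lit 688) (nat_lit 6704) (.d (nat_lit 563) (nat_lit 564) (nat_lit 1584) (nat_lit 591) (nat_lit 1583))))) (.a (.f (nat_lit 657) (nat_lit 625) (nat_lit 4624) (.f (nat_lit 656) (nat_lit 689) (nat_lit 4656) (.f (nat_lit 688) (nat_lit 561) (nat_lit 6704) (.d (nat_lit 687) (nat_lit 655) (nat_lit 5679) (nat_lit 719) (nat_lit 5711))))) (.f (nat_lit 657) (nat_lit 625) (nat_lit 4624) (.f (nat_lit 656) (nat_lit 689) (nat_lit 4656) (.f (nat_lit 561) (nat_lit 688) (nat_lit 6704) (.d (nat_lit 563) (nat_lit 564) (nat_lit 1584) (nat_lit 591) (nat_lit 1583)))))))))) (.a (.p (nat_lit 594) (.a (.f (nat_lit 559) (nat_lit 595) (nat_lit 3631) (.d (nat_lit 558) (nat_lit 557) (nat_lit 557) (nat_lit 561) (nat_lit 558))) (.a (.f (nat_lit 559) (nat_lit 595) (nat_lit 3631) (.d (nat_lit 558)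 (nat_lit 557) (nat_lit 557) (nat_lit 591) (nat_lit 3630))) (.a (.f (nat_lit 591) (nat_lit 563) (nat_lit 2607) (.f (nat_lit 623) (nat_lit 622) (nat_lit 1614) (.d (nat_lit 624) (nat_lit 595) (nat_lit 1615) (nat_lit 655) (nat_lit 5647)))) (.f (nat_lit 591) (nat_lit 563) (nat_lit 2607) (.f (nat_lit 559) (nat_lit 558) (nat_lit 3630) (.d (nat_lit 623) (nat_lit 622) (nat_lit 1614) (nat_lit 655) (nat_lit 6671)))))))) (.p (nat_lit 624) (.a (.f (nat_lit 625) (nat_lit 657) (nat_lit 4624) (.f (nat_lit 623) (nat_lit 655) (nat_lit 5647) (.d (nat_lit 594) (nat_lit 595) (nat_lit 1615) (nat_lit 622) (nat_lit 2638)))) (.a (.f (nat_lit 657) (nat_lit 625) (nat_lit 4624) (.f (nat_lit 656) (nat_lit 689) (nat_lit 4656) (.f (nat_lit 688) (nat_lit 561) (nat_lit 6704) (.d (nat_lit 687) (nat_lit 655) (nat_lit 5679) (nat_lit 719) (nat_lit 5711))))) (.a (.f (nat_lit 655) (nat_lit 623) (nat_lit 5647) (.f (nat_lit 656) (nat_lit 687) (nat_lit 5679) (.f (nat_lit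 561) (nat_lit 688) (nat_lit 6704) (.f (nat_lit 563) (nat_lit 564) (nat_lit 1584) (.f (nat_lit 595) (nat_lit 596) (nat_lit 560) (.f (nat_lit 594) (nat_lit 559) (nat_lit 559) (.f (nat_lit 627) (nat_lit 628) (nat_lit 592) (.d (nat_lit 530) (nat_lit 498) (nat_lit 4594) (nat_lit 659) (nat_lit 7698))))))))) (.f (nat_lit 657) (nat_lit 625) (nat_lit 4624) (.f (nat_lit 656) (nat_lit 689) (nat_lit 4656) (.f (nat_lit 561) (nat_lit 688) (nat_lit 6704) (.f (nat_lit 563) (nat_lit 564) (nat_lit 1584) (.f (nat_lit 595) (nat_lit 596) (nat_lit 560) (.d (nat_lit 594) (nat_lit 559) (nat_lit 3631) (nat_lit 623) (nat_lit 1615))))))))))))))))) (.a s7634 (.a s7635 (.a (.p (nat_lit 496) (.a (.f (nat_lit 591) (nat_lit 623) (nat_lit 5615) (.f (nat_lit 593) (nat_lit 625) (nat_lit 4592) (.f (nat_lit 559) (nat_lit 464) (nat_lit 5583) (.d (nat_lit 558) (nat_lit 557) (nat_lit 557) (nat_lit 594) (nat_lit 3630))))) (.a (.f (nat_lit 591) (nat_lit 623) (nat_lit 5615)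 (.f (nat_lit 593) (nat_lit 625) (nat_lit 4592) (.f (nat_lit 590) (nat_lit 561) (nat_lit 2606) (.f (nat_lit 557) (nat_lit 558) (nat_lit 3629) (.f (nat_lit 589) (nat_lit 556) (nat_lit 3628) (.d (nat_lit 621) (nat_lit 620) (nat_lit 1612) (nat_lit 622) (nat_lit 1613))))))) (.a (.f (nat_lit 591) (nat_lit 623) (nat_lit 5615) (.f (nat_lit 464) (nat_lit 559) (nat_lit 5583) (.d (nat_lit 463) (nat_lit 431) (nat_lit 7599) (nat_lit 495) (nat_lit 7631)))) (.f (nat_lit 593) (nat_lit 625) (nat_lit 4592) (.f (nat_lit 464) (nat_lit 561) (nat_lit 4560) (.d (nat_lit 463) (nat_lit 431) (nat_lit 7599) (nat_lit 495) (nat_lit 7631)))))))) (.a (.p (nat_lit 624) (.a (.f (nat_lit 529) (nat_lit 497) (nat_lit 6640) (.f (nat_lit 561) (nat_lit 656) (nat_lit 6672) (.d (nat_lit 563) (nat_lit 564) (nat_lit 3600) (nat_lit 591) (nat_lit 1583)))) (.a (.f (nat_lit 655) (nat_lit 623) (nat_lit 5647) (.f (nat_lit 656) (nat_lit 687) (nat_lit 5679) (.d (nat_lit 657) (nat_lit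 625) (nat_lit 4624) (nat_lit 689) (nat_lit 4656)))) (.p (nat_lit 591) (.a (.f (nat_lit 623) (nat_lit 655) (nat_lit 5647) (.f (nat_lit 625) (nat_lit 657) (nat_lit 4624) (.d (nat_lit 590) (nat_lit 589) (nat_lit 589) (nat_lit 626) (nat_lit 3662)))) (.a (.f (nat_lit 561) (nat_lit 563) (nat_lit 1583) (.d (nat_lit 590) (nat_lit 589) (nat_lit 2605) (nat_lit 593) (nat_lit 2606))) (.f (nat_lit 623) (nat_lit 655) (nat_lit 5647) (.f (nat_lit 625) (nat_lit 657) (nat_lit 4624) (.f (nat_lit 626) (nat_lit 627) (nat_lit 3663) (.f (nat_lit 594) (nat_lit 595) (nat_lit 2639) (.d (nat_lit 563) (nat_lit 561) (nat_lit 1583) (nat_lit 593) (nat_lit 2607)))))))))))) (.a (.p (nat_lit 591) (.a (.f (nat_lit 561) (nat_lit 563) (nat_lit 1583) (.d (nat_lit 590) (nat_lit 559) (nat_lit 1582) (nat_lit 589) (nat_lit 2605))) (.a (.f (nat_lit 623) (nat_lit 496) (nat_lit 5615) (.d (nat_lit 655) (nat_lit 559) (nat_lit 6671) (nat_lit 687) (nat_lit 6703))) (.f (nat_lit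 561) (nat_lit 563) (nat_lit 1583) (.d (nat_lit 590) (nat_lit 589) (nat_lit 2605) (nat_lit 593) (nat_lit 2606)))))) (.a s7669 s7291)))))))))
noncomputable def s7671 : Cert := .r (nat_lit 18869812124986400861704490948459027756867024433892689860299374593630612134736493787905533600559981471712008058190913152356962472978375577626770901665172955839509703950336) (.p (nat_lit 594) (.a (.p (nat_lit 561) (.a (.f (nat_lit 563) (nat_lit 527) (nat_lit 3599) (.d (nat_lit 595) (nat_lit 559) (nat_lit 559) (nat_lit 596) (nat_lit 560))) (.a (.f (nat_lit 559) (nat_lit 595) (nat_lit 559) (.f (nat_lit 530) (nat_lit 531) (nat_lit 2575) (.d (nat_lit 558) (nat_lit 529) (nat_lit 2574) (nat_lit 593) (nat_lit 558)))) (.f (nat_lit 563) (nat_lit 527) (nat_lit 3599) (.f (nat_lit 564) (nat_lit 529) (nat_lit 3600) (.d (nat_lit 532) (nat_lit 531) (nat_lit 2576) (nat_lit 533) (nat_lit 2577))))))) (.a s3810 (.a s4002 (.a s4046 (.a s4116 (.a s4379 (.a s4552 s4553))))))))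
noncomputable def s7751 : Cert := .r (nat_lit 16209045209811190870932882280241525281636762456128880238121701741240173323017267227161848502804957746341629734296734132008832066961508819932311911375456033133774648501572305158144) (.p (nat_lit 530) (.a (.f (nat_lit 531) (nat_lit 559) (nat_lit 1551) (.f (nat_lit 563) (nat_lit 564) (nat_lit 528) (.f (nat_lit 499) (nat_lit 500) (nat_lit 2544) (.d (nat_lit 467) (nat_lit 435) (nat_lit 5554) (nat_lit 594) (nat_lit 5586))))) (.a (.f (nat_lit 527) (nat_lit 563) (nat_lit 527) (.f (nat_lit 559) (nat_lit 558) (nat_lit 1550) (.d (nat_lit 495) (nat_lit 463) (nat_lit 4559) (nat_lit 494) (nat_lit 3566)))) (.a (.f (nat_lit 559) (nat_lit 531) (nat_lit 1551) (.d (nat_lit 558) (nat_lit 527) (nat_lit 1550) (nat_lit 557) (nat_lit 2573))) (.f (nat_lit 563) (nat_lit 527) (nat_lit 527) (.d (nat_lit 564) (nat_lit 531) (nat_lit 528) (nat_lit 565) (nat_lit 3601)))))))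
noncomputable def s7875 : Cert := .r (nat_lit 16209045209811190869175494079248089194601395851564043574500726304403487138212284581610349447855157796998254466287401765934644211245289720274808682447528572317755697259046850527232) (.p (nat_lit 496) (.a (.f (nat_lit 591) (nat_lit 623) (nat_lit 5615) (.f (nat_lit 593) (nat_lit 625) (nat_lit 4592) (.f (nat_lit 559) (nat_lit 464) (nat_lit 5583) (.d (nat_lit 558) (nat_lit 557) (nat_lit 557) (nat_lit 594) (nat_lit 3630))))) (.a (.f (nat_lit 495) (nat_lit 463) (nat_lit 7631) (.f (nat_lit 624) (nat_lit 527) (nat_lit 7663) (.d (nat_lit 623) (nat_lit 591) (nat_lit 5615) (nat_lit 655) (nat_lit 5647)))) (.a (.p (nat_lit 464) (.a (.d (nat_lit 463) (nat_lit 431) (nat_lit 7599) (nat_lit 495) (nat_lit 7631)) (.a (.f (nat_lit 559) (nat_lit 591) (nat_lit 5583) (.f (nat_lit 432) (nat_lit 527) (nat_lit 5551) (.d (nat_lit 431) (nat_lit 399) (nat_lit 7567) (nat_lit 463) (nat_lit 7599)))) (.a (.f (nat_lit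 559) (nat_lit 591) (nat_lit 5583) (.f (nat_lit 432) (nat_lit 527) (nat_lit 5551) (.f (nat_lit 399) (nat_lit 431) (nat_lit 7567) (.f (nat_lit 400) (nat_lit 367) (nat_lit 7535) (.d (nat_lit 401) (nat_lit 369) (nat_lit 6512) (nat_lit 433) (nat_lit 6544)))))) (.f (nat_lit 495) (nat_lit 463) (nat_lit 7631) (.f (nat_lit 591) (nat_lit 559) (nat_lit 5583) (.f (nat_lit 593) (nat_lit 625) (nat_lit 4592) (.f (nat_lit 594) (nat_lit 563) (nat_lit 2607) (.f (nat_lit 627) (nat_lit 626) (nat_lit 591) (.f (nat_lit 595) (nat_lit 628) (nat_lit 592) (.f (nat_lit 530) (nat_lit 498) (nat_lit 4594) (.f (nat_lit 529) (nat_lit 531) (nat_lit 3567) (.d (nat_lit 494) (nat_lit 493) (nat_lit 493) (nat_lit 497) (nat_lit 494)))))))))))))) (.p (nat_lit 529) (.a (.f (nat_lit 495) (nat_lit 463) (nat_lit 7631) (.f (nat_lit 530) (nat_lit 531) (nat_lit 3567) (.d (nat_lit 494) (nat_lit 493) (nat_lit 493) (nat_lit 527) (nat_lit 3566)))) (.a (.f (nat_lit 495) (nat_lit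 463) (nat_lit 7631) (.f (nat_lit 530) (nat_lit 531) (nat_lit 3567) (.d (nat_lit 494) (nat_lit 493) (nat_lit 493) (nat_lit 497) (nat_lit 494)))) (.a (.f (nat_lit 495) (nat_lit 463) (nat_lit 7631) (.f (nat_lit 494) (nat_lit 493) (nat_lit 493) (.d (nat_lit 530) (nat_lit 497) (nat_lit 494) (nat_lit 527) (nat_lit 3566)))) (.a (.f (nat_lit 495) (nat_lit 463) (nat_lit 7631) (.d (nat_lit 624) (nat_lit 497) (nat_lit 6640) (nat_lit 527) (nat_lit 7663))) (.f (nat_lit 624) (nat_lit 497) (nat_lit 6640) (.f (nat_lit 655) (nat_lit 623) (nat_lit 5647) (.f (nat_lit 656) (nat_lit 687) (nat_lit 5679) (.f (nat_lit 625) (nat_lit 593) (nat_lit 4592) (.f (nat_lit 527) (nat_lit 559) (nat_lit 7695) (.f (nat_lit 530) (nat_lit 563) (nat_lit 527) (.f (nat_lit 499) (nat_lit 498) (nat_lit 2543) (.f (nat_lit 531) (nat_lit 500) (nat_lit 2544) (.d (nat_lit 626) (nat_lit 594) (nat_lit 6642) (nat_lit 627) (nat_lit 1647)))))))))))))))))))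
noncomputable def s7916 : Cert := .r (nat_lit 26417736974629483566187600110435565538700866874725570717051787194121860459520791492077787050915299006794944808252440842156503642238225162891893770168038347926808494604288) (.p (nat_lit 559) (.a (.f (nat_lit 530) (nat_lit 531) (nat_lit 2575) (.f (nat_lit 558) (nat_lit 529) (nat_lit 2574) (.d (nat_lit 590) (nat_lit 589) (nat_lit 1581) (nat_lit 591) (nat_lit 1582)))) (.a (.f (nat_lit 591) (nat_lit 590) (nat_lit 1582) (.f (nat_lit 496) (nat_lit 464) (nat_lit 5583) (.d (nat_lit 623) (nat_lit 527) (nat_lit 6639) (nat_lit 655) (nat_lit 6671)))) (.a (.f (nat_lit 530) (nat_lit 531) (nat_lit 2575) (.f (nat_lit 558) (nat_lit 529) (nat_lit 2574) (.f (nat_lit 589) (nat_lit 590) (nat_lit 1581) (.f (nat_lit 557) (nat_lit 588) (nat_lit 1580) (.f (nat_lit 524) (nat_lit 525) (nat_lit 3596) (.d (nat_lit 556) (nat_lit 523) (nat_lit 3595) (nat_lit 527) (nat_lit 2572))))))) (.f (nat_lit 530) (nat_lit 531)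 (nat_lit 2575) (.f (nat_lit 529) (nat_lit 558) (nat_lit 2574) (.f (nat_lit 594) (nat_lit 595) (nat_lit 559) (.d (nat_lit 626) (nat_lit 497) (nat_lit 7665) (nat_lit 658) (nat_lit 7697)))))))))
noncomputable def s7917 : Cert := .r (nat_lit 18869812124986400861704490948459027756867024433892689860299374593630612134736493787905533600559981471712008058190913152356962472978375577626770901665172955839509703950336) (.p (nat_lit 561) (.a (.f (nat_lit 563) (nat_lit 527) (nat_lit 3599) (.f (nat_lit 529) (nat_lit 564) (nat_lit 3600) (.f (nat_lit 531) (nat_lit 532) (nat_lit 2576) (.f (nat_lit 530) (nat_lit 559) (nat_lit 1551) (.f (nat_lit 499) (nat_lit 500) (nat_lit 2544) (.d (nat_lit 467) (nat_lit 435) (nat_lit 5554) (nat_lit 594) (nat_lit 5586))))))) (.a (.p (nat_lit 591) (.a (.f (nat_lit 559) (nat_lit 590) (nat_lit 1582) (.f (nat_lit 531) (nat_lit 530) (nat_lit 2575) (.f (nat_lit 563) (nat_lit 532) (nat_lit 2576) (.f (nat_lit 564) (nat_lit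 529) (nat_lit 3600) (.d (nat_lit 596) (nat_lit 595) (nat_lit 560) (nat_lit 597) (nat_lit 561)))))) (.a (.f (nat_lit 592) (nat_lit 563) (nat_lit 1583) (.d (nat_lit 590) (nat_lit 559) (nat_lit 1582) (nat_lit 589) (nat_lit 2605))) (.a (.f (nat_lit 559) (nat_lit 590) (nat_lit 1582) (.f (nat_lit 530) (nat_lit 531) (nat_lit 2575) (.f (nat_lit 529) (nat_lit 558) (nat_lit 2574) (.f (nat_lit 594) (nat_lit 595) (nat_lit 559) (.d (nat_lit 626) (nat_lit 497) (nat_lit 7665) (nat_lit 658) (nat_lit 7697)))))) (.f (nat_lit 592) (nat_lit 563) (nat_lit 1583) (.f (nat_lit 623) (nat_lit 496) (nat_lit 5615) (.d (nat_lit 655) (nat_lit 624) (nat_lit 5647) (nat_lit 687) (nat_lit 6703)))))))) (.a (.f (nat_lit 563) (nat_lit 527) (nat_lit 3599) (.f (nat_lit 595) (nat_lit 596) (nat_lit 560) (.f (nat_lit 531) (nat_lit 532) (nat_lit 2576) (.d (nat_lit 559) (nat_lit 530) (nat_lit 2575) (nat_lit 594) (nat_lit 559))))) (.a (.f (nat_lit 563) (nat_lit 527) (nat_lit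 3599) (.f (nat_lit 564) (nat_lit 529) (nat_lit 3600) (.d (nat_lit 596) (nat_lit 595) (nat_lit 560) (nat_lit 597) (nat_lit 561)))) s7916)))))
noncomputable def s7918 : Cert := .r (nat_lit 18869812124986400861909077861452536623742848789944414807312914721508303684079199498411541962835273631392212438961282162178892890736348082064846980199290792905342736924672) (.p (nat_lit 592) (.a (.f (nat_lit 591) (nat_lit 623) (nat_lit 5615) (.f (nat_lit 593) (nat_lit 625) (nat_lit 4592) (.f (nat_lit 559) (nat_lit 464) (nat_lit 5583) (.d (nat_lit 558) (nat_lit 557) (nat_lit 557) (nat_lit 594) (nat_lit 3630))))) (.a (.f (nat_lit 591) (nat_lit 623) (nat_lit 5615) (.f (nat_lit 593) (nat_lit 625) (nat_lit 4592) (.f (nat_lit 590) (nat_lit 561) (nat_lit 2606) (.f (nat_lit 557) (nat_lit 558) (nat_lit 3629) (.f (nat_lit 589) (nat_lit 556) (nat_lit 3628) (.d (nat_lit 621) (nat_lit 620) (nat_lit 1612) (nat_lit 622) (nat_lit 1613))))))) (.a (.f (nat_lit 591)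 (nat_lit 623) (nat_lit 5615) (.f (nat_lit 464) (nat_lit 559) (nat_lit 5583) (.d (nat_lit 463) (nat_lit 431) (nat_lit 7599) (nat_lit 495) (nat_lit 7631)))) (.f (nat_lit 593) (nat_lit 625) (nat_lit 4592) (.f (nat_lit 464) (nat_lit 561) (nat_lit 4560) (.d (nat_lit 463) (nat_lit 431) (nat_lit 7599) (nat_lit 495) (nat_lit 7631))))))))
noncomputable def s7948 : Cert := .r (nat_lit 18869812124986400861909077861452536623742848789944414807312914721508303684079199498411541962835273631392212438961282162178892890736348082064846980199290792905342736924672) (.p (nat_lit 592) (.a (.f (nat_lit 495) (nat_lit 463) (nat_lit 7631) (.f (nat_lit 624) (nat_lit 527) (nat_lit 7663) (.d (nat_lit 623) (nat_lit 591) (nat_lit 5615) (nat_lit 655) (nat_lit 5647)))) (.a (.f (nat_lit 591) (nat_lit 623) (nat_lit 5615) (.f (nat_lit 464) (nat_lit 559) (nat_lit 5583) (.d (nat_lit 463) (nat_lit 431) (nat_lit 7599) (nat_lit 495) (nat_lit 7631)))) (.a (.f (nat_lit 591)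 (nat_lit 623) (nat_lit 5615) (.f (nat_lit 559) (nat_lit 464) (nat_lit 5583) (.f (nat_lit 561) (nat_lit 590) (nat_lit 1582) (.f (nat_lit 530) (nat_lit 531) (nat_lit 2575) (.f (nat_lit 529) (nat_lit 558) (nat_lit 2574) (.d (nat_lit 624) (nat_lit 497) (nat_lit 6640) (nat_lit 656) (nat_lit 6672))))))) (.a (.f (nat_lit 495) (nat_lit 463) (nat_lit 7631) (.f (nat_lit 624) (nat_lit 527) (nat_lit 7663) (.f (nat_lit 529) (nat_lit 497) (nat_lit 6640) (.f (nat_lit 561) (nat_lit 656) (nat_lit 6672) (.f (nat_lit 530) (nat_lit 531) (nat_lit 3567) (.f (nat_lit 559) (nat_lit 558) (nat_lit 2574) (.d (nat_lit 464) (nat_lit 432) (nat_lit 4528) (nat_lit 591) (nat_lit 5583)))))))) (.f (nat_lit 495) (nat_lit 463) (nat_lit 7631) (.f (nat_lit 624) (nat_lit 527) (nat_lit 7663) (.f (nat_lit 655) (nat_lit 623) (nat_lit 5647) (.f (nat_lit 656) (nat_lit 687) (nat_lit 5679) (.d (nat_lit 657) (nat_lit 625) (nat_lit 4624) (nat_lit 689) (nat_lit 4656)))))))))))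
noncomputable def s7959 : Cert := .r (nat_lit 18869812124986400861909077861452536623742848789944414807312914721508303684079199498411541962835273631392212438961282162178892890736348082064846980199290792905342736924672) (.p (nat_lit 592) (.a (.f (nat_lit 495) (nat_lit 463) (nat_lit 7631) (.f (nat_lit 624) (nat_lit 527) (nat_lit 7663) (.d (nat_lit 625) (nat_lit 593) (nat_lit 4592) (nat_lit 657) (nat_lit 4624)))) (.a (.f (nat_lit 593) (nat_lit 625) (nat_lit 4592) (.f (nat_lit 464) (nat_lit 561) (nat_lit 4560) (.d (nat_lit 463) (nat_lit 431) (nat_lit 7599) (nat_lit 495) (nat_lit 7631)))) (.a (.f (nat_lit 495) (nat_lit 463) (nat_lit 7631) (.f (nat_lit 624) (nat_lit 527) (nat_lit 7663) (.f (nat_lit 655) (nat_lit 623) (nat_lit 5647) (.f (nat_lit 656) (nat_lit 687) (nat_lit 5679) (.d (nat_lit 657) (nat_lit 625) (nat_lit 4624) (nat_lit 689) (nat_lit 4656)))))) (.a (.f (nat_lit 625) (nat_lit 593) (nat_lit 4592) (.f (nat_lit 624) (nat_lit 657)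 (nat_lit 4624) (.f (nat_lit 655) (nat_lit 623) (nat_lit 5647) (.f (nat_lit 656) (nat_lit 687) (nat_lit 5679) (.d (nat_lit 529) (nat_lit 497) (nat_lit 6640) (nat_lit 561) (nat_lit 6672)))))) (.f (nat_lit 495) (nat_lit 463) (nat_lit 7631) (.f (nat_lit 624) (nat_lit 527) (nat_lit 7663) (.f (nat_lit 529) (nat_lit 497) (nat_lit 6640) (.f (nat_lit 561) (nat_lit 656) (nat_lit 6672) (.d (nat_lit 464) (nat_lit 432) (nat_lit 4528) (nat_lit 593) (nat_lit 4560)))))))))))
noncomputable def s7967 : Cert := .r (nat_lit 18869812124986400861909077861452536623742848789944414807312914721508303684079199498411541962835273631392212438961282162178892890736348082064846980199290792905342736924672) (.p (nat_lit 592) (.a (.f (nat_lit 591) (nat_lit 623) (nat_lit 5615) (.f (nat_lit 593) (nat_lit 625) (nat_lit 4592) (.f (nat_lit 559) (nat_lit 464) (nat_lit 5583) (.d (nat_lit 558) (nat_lit 557) (nat_lit 557) (nat_lit 594) (nat_lit 3630))))) (.a (.f (nat_lit 591)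 (nat_lit 623) (nat_lit 5615) (.f (nat_lit 593) (nat_lit 625) (nat_lit 4592) (.f (nat_lit 590) (nat_lit 561) (nat_lit 2606) (.f (nat_lit 557) (nat_lit 558) (nat_lit 3629) (.f (nat_lit 589) (nat_lit 556) (nat_lit 3628) (.d (nat_lit 621) (nat_lit 620) (nat_lit 1612) (nat_lit 622) (nat_lit 1613))))))) (.a (.f (nat_lit 591) (nat_lit 623) (nat_lit 5615) (.f (nat_lit 559) (nat_lit 464) (nat_lit 5583) (.f (nat_lit 561) (nat_lit 590) (nat_lit 1582) (.f (nat_lit 530) (nat_lit 531) (nat_lit 2575) (.f (nat_lit 529) (nat_lit 558) (nat_lit 2574) (.d (nat_lit 624) (nat_lit 497) (nat_lit 6640) (nat_lit 656) (nat_lit 6672))))))) (.a (.f (nat_lit 593) (nat_lit 625) (nat_lit 4592) (.f (nat_lit 464) (nat_lit 561) (nat_lit 4560) (.f (nat_lit 559) (nat_lit 591) (nat_lit 5583) (.f (nat_lit 432) (nat_lit 527) (nat_lit 5551) (.f (nat_lit 399) (nat_lit 431) (nat_lit 7567) (.f (nat_lit 400) (nat_lit 367) (nat_lit 7535) (.d (nat_lit 401) (nat_lit 369) (nat_lit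 6512) (nat_lit 433) (nat_lit 6544)))))))) (.f (nat_lit 625) (nat_lit 593) (nat_lit 4592) (.f (nat_lit 624) (nat_lit 657) (nat_lit 4624) (.f (nat_lit 655) (nat_lit 623) (nat_lit 5647) (.f (nat_lit 656) (nat_lit 687) (nat_lit 5679) (.d (nat_lit 529) (nat_lit 497) (nat_lit 6640) (nat_lit 561) (nat_lit 6672)))))))))))
noncomputable def s7999 : Cert := .r (nat_lit 64836180782635327105257550133865756107099233344784774323566786510389197141567267213334914537603630284999823986032247621314213099342709661479114454765656505907541824002709199519744) (.p (nat_lit 498) (.a (.f (nat_lit 499) (nat_lit 467) (nat_lit 6610) (.f (nat_lit 531) (nat_lit 626) (nat_lit 6642) (.f (nat_lit 595) (nat_lit 627) (nat_lit 4594) (.f (nat_lit 563) (nat_lit 466) (nat_lit 4562) (.d (nat_lit 500) (nat_lit 468) (nat_lit 6611) (nat_lit 529) (nat_lit 2544)))))) (.a (.f (nat_lit 467) (nat_lit 499) (nat_lit 6610) (.f (nat_lit 466) (nat_lit 435) (nat_lit 6578) (.d (nat_lit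 595) (nat_lit 563) (nat_lit 4562) (nat_lit 627) (nat_lit 4594)))) (.a (.f (nat_lit 499) (nat_lit 467) (nat_lit 6610) (.f (nat_lit 626) (nat_lit 531) (nat_lit 6642) (.d (nat_lit 627) (nat_lit 595) (nat_lit 4594) (nat_lit 659) (nat_lit 4626)))) (.a (.f (nat_lit 595) (nat_lit 627) (nat_lit 4594) (.f (nat_lit 563) (nat_lit 466) (nat_lit 4562) (.f (nat_lit 561) (nat_lit 596) (nat_lit 560) (.f (nat_lit 564) (nat_lit 529) (nat_lit 3600) (.d (nat_lit 532) (nat_lit 531) (nat_lit 2576) (nat_lit 533) (nat_lit 2577)))))) (.f (nat_lit 499) (nat_lit 467) (nat_lit 6610) (.f (nat_lit 531) (nat_lit 626) (nat_lit 6642) (.f (nat_lit 529) (nat_lit 500) (nat_lit 2544) (.f (nat_lit 532) (nat_lit 561) (nat_lit 1552) (.d (nat_lit 564) (nat_lit 563) (nat_lit 528) (nat_lit 565) (nat_lit 529)))))))))))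
noncomputable def s8006 : Cert := .r (nat_lit 64836180782635327105257550133865756107099233344784774323566786510389197141567267213334914537603630284999823986032247621314213099342709661479114454765656505907541824002709199519744) (.p (nat_lit 498) (.a (.f (nat_lit 625) (nat_lit 593) (nat_lit 5617) (.f (nat_lit 626) (nat_lit 657) (nat_lit 5649) (.d (nat_lit 499) (nat_lit 467) (nat_lit 6610) (nat_lit 531) (nat_lit 6642)))) (.a (.f (nat_lit 593) (nat_lit 625) (nat_lit 5617) (.f (nat_lit 466) (nat_lit 561) (nat_lit 5585) (.d (nat_lit 467) (nat_lit 435) (nat_lit 6578) (nat_lit 499) (nat_lit 6610)))) (.a (.f (nat_lit 499) (nat_lit 467) (nat_lit 6610) (.f (nat_lit 531) (nat_lit 626) (nat_lit 6642) (.f (nat_lit 529) (nat_lit 500) (nat_lit 2544) (.f (nat_lit 532) (nat_lit 561) (nat_lit 1552) (.d (nat_lit 564) (nat_lit 563) (nat_lit 528) (nat_lit 565) (nat_lit 529)))))) (.f (nat_lit 593) (nat_lit 625) (nat_lit 5617) (.f (nat_lit 466) (nat_lit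 561) (nat_lit 5585) (.f (nat_lit 563) (nat_lit 595) (nat_lit 4562) (.f (nat_lit 531) (nat_lit 434) (nat_lit 4530) (.d (nat_lit 564) (nat_lit 529) (nat_lit 528) (nat_lit 565) (nat_lit 1585))))))))))
noncomputable def s8013 : Cert := .r (nat_lit 64836180782635327105257550133865756107099233344784774323566786510389197141567267213334914537603630284999823986032247621314213099342709661479114454765656505907541824002709199519744) (.p (nat_lit 498) (.a (.f (nat_lit 499) (nat_lit 467) (nat_lit 6610) (.f (nat_lit 529) (nat_lit 527) (nat_lit 2543) (.d (nat_lit 500) (nat_lit 501) (nat_lit 1521) (nat_lit 531) (nat_lit 2544)))) (.a (.f (nat_lit 499) (nat_lit 467) (nat_lit 6610) (.f (nat_lit 531) (nat_lit 626) (nat_lit 6642) (.f (nat_lit 595) (nat_lit 627) (nat_lit 4594) (.f (nat_lit 563) (nat_lit 466) (nat_lit 4562) (.d (nat_lit 500) (nat_lit 468) (nat_lit 6611) (nat_lit 529) (nat_lit 2544)))))) (.a (.f (nat_lit 467) (nat_lit 499) (nat_lit 6610)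 (.f (nat_lit 466) (nat_lit 435) (nat_lit 6578) (.d (nat_lit 595) (nat_lit 563) (nat_lit 4562) (nat_lit 627) (nat_lit 4594)))) (.f (nat_lit 595) (nat_lit 627) (nat_lit 4594) (.f (nat_lit 563) (nat_lit 466) (nat_lit 4562) (.f (nat_lit 529) (nat_lit 527) (nat_lit 527) (.d (nat_lit 564) (nat_lit 531) (nat_lit 528) (nat_lit 565) (nat_lit 3601)))))))))
noncomputable def s8019 : Cert := .r (nat_lit 64836180782635327105257550133865756107099233344784774323566786510389197141567267213334914537603630284999823986032247621314213099342709661479114454765656505907541824002709199519744) (.p (nat_lit 498) (.a (.f (nat_lit 499) (nat_lit 467) (nat_lit 6610) (.f (nat_lit 529) (nat_lit 527) (nat_lit 2543) (.d (nat_lit 500) (nat_lit 501) (nat_lit 1521) (nat_lit 531) (nat_lit 2544)))) (.a (.f (nat_lit 625) (nat_lit 593) (nat_lit 5617) (.f (nat_lit 626) (nat_lit 657) (nat_lit 5649) (.d (nat_lit 499) (nat_lit 467) (nat_lit 6610) (nat_lit 531) (nat_lit 6642))))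 (.a (.f (nat_lit 499) (nat_lit 467) (nat_lit 6610) (.f (nat_lit 529) (nat_lit 527) (nat_lit 2543) (.d (nat_lit 497) (nat_lit 500) (nat_lit 1520) (nat_lit 626) (nat_lit 7665)))) (.f (nat_lit 625) (nat_lit 593) (nat_lit 5617) (.f (nat_lit 626) (nat_lit 657) (nat_lit 5649) (.f (nat_lit 529) (nat_lit 497) (nat_lit 7665) (.f (nat_lit 563) (nat_lit 527) (nat_lit 527) (.d (nat_lit 531) (nat_lit 564) (nat_lit 528) (nat_lit 658) (nat_lit 6674))))))))))
noncomputable def s8020 : Cert := .r (nat_lit 64836180782635327101742773731878883933028500135655100996324835636715824771957301922231916427704030386313073450013582889165837387910271462164107996909801584275503921517658290257920) (.p (nat_lit 530) (.a (.p (nat_lit 498) (.a (.f (nat_lit 595) (nat_lit 627) (nat_lit 4594) (.f (nat_lit 563) (nat_lit 466) (nat_lit 4562) (.f (nat_lit 593) (nat_lit 625) (nat_lit 5617) (.d (nat_lit 564) (nat_lit 565) (nat_lit 1585) (nat_lit 592) (nat_lit 2608))))) (.a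 (.f (nat_lit 625) (nat_lit 593) (nat_lit 5617) (.f (nat_lit 626) (nat_lit 657) (nat_lit 5649) (.d (nat_lit 499) (nat_lit 467) (nat_lit 6610) (nat_lit 531) (nat_lit 6642)))) (.f (nat_lit 467) (nat_lit 499) (nat_lit 6610) (.f (nat_lit 466) (nat_lit 435) (nat_lit 6578) (.d (nat_lit 595) (nat_lit 563) (nat_lit 4562) (nat_lit 627) (nat_lit 4594))))))) (.a (.p (nat_lit 498) (.a (.f (nat_lit 499) (nat_lit 467) (nat_lit 6610) (.f (nat_lit 529) (nat_lit 527) (nat_lit 2543) (.d (nat_lit 500) (nat_lit 501) (nat_lit 1521) (nat_lit 531) (nat_lit 2544)))) (.a (.f (nat_lit 625) (nat_lit 593) (nat_lit 5617) (.f (nat_lit 626) (nat_lit 657) (nat_lit 5649) (.d (nat_lit 499) (nat_lit 467) (nat_lit 6610) (nat_lit 531) (nat_lit 6642)))) (.f (nat_lit 625) (nat_lit 593) (nat_lit 5617) (.f (nat_lit 626) (nat_lit 657) (nat_lit 5649) (.d (nat_lit 627) (nat_lit 595) (nat_lit 4594) (nat_lit 659) (nat_lit 4626))))))) (.a (.p (nat_lit 498) (.a (.f (nat_lit 595)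 (nat_lit 627) (nat_lit 4594) (.f (nat_lit 563) (nat_lit 466) (nat_lit 4562) (.f (nat_lit 593) (nat_lit 625) (nat_lit 5617) (.d (nat_lit 564) (nat_lit 565) (nat_lit 1585) (nat_lit 592) (nat_lit 2608))))) (.a (.f (nat_lit 467) (nat_lit 499) (nat_lit 6610) (.f (nat_lit 466) (nat_lit 435) (nat_lit 6578) (.d (nat_lit 595) (nat_lit 563) (nat_lit 4562) (nat_lit 627) (nat_lit 4594)))) (.a (.f (nat_lit 625) (nat_lit 593) (nat_lit 5617) (.f (nat_lit 626) (nat_lit 657) (nat_lit 5649) (.d (nat_lit 627) (nat_lit 595) (nat_lit 4594) (nat_lit 659) (nat_lit 4626)))) (.f (nat_lit 499) (nat_lit 467) (nat_lit 6610) (.f (nat_lit 529) (nat_lit 527) (nat_lit 2543) (.d (nat_lit 497) (nat_lit 500) (nat_lit 1520) (nat_lit 626) (nat_lit 7665)))))))) (.a (.p (nat_lit 529) (.a (.f (nat_lit 626) (nat_lit 497) (nat_lit 7665) (.f (nat_lit 657) (nat_lit 625) (nat_lit 5649) (.f (nat_lit 658) (nat_lit 689) (nat_lit 5681) (.d (nat_lit 659) (nat_lit 627) (nat_lit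 4626) (nat_lit 691) (nat_lit 4658))))) (.f (nat_lit 563) (nat_lit 527) (nat_lit 527) (.d (nat_lit 564) (nat_lit 531) (nat_lit 528) (nat_lit 565) (nat_lit 3601))))) (.a s8013 (.a (.p (nat_lit 498) (.a (.f (nat_lit 595) (nat_lit 627) (nat_lit 4594) (.f (nat_lit 563) (nat_lit 466) (nat_lit 4562) (.f (nat_lit 593) (nat_lit 625) (nat_lit 5617) (.d (nat_lit 564) (nat_lit 565) (nat_lit 1585) (nat_lit 592) (nat_lit 2608))))) (.f (nat_lit 499) (nat_lit 467) (nat_lit 6610) (.f (nat_lit 529) (nat_lit 527) (nat_lit 2543) (.d (nat_lit 500) (nat_lit 501) (nat_lit 1521) (nat_lit 531) (nat_lit 2544)))))) s8019)))))))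
noncomputable def s8085 : Cert := .r (nat_lit 64836180782635327105257550134684103759073268812288071747773686298443357653078033410705737379627663734100992624753065144395689138630431332511004472517960820044013172266041331417088) (.f (nat_lit 625) (nat_lit 593) (nat_lit 5617) (.f (nat_lit 626) (nat_lit 657) (nat_lit 5649) (.f (nat_lit 529) (nat_lit 497) (nat_lit 7665) (.f (nat_lit 561) (nat_lit 658) (nat_lit 7697) (.f (nat_lit 531) (nat_lit 532) (nat_lit 1552) (.f (nat_lit 495) (nat_lit 496) (nat_lit 3567) (.f (nat_lit 527) (nat_lit 494) (nat_lit 3566) (.f (nat_lit 624) (nat_lit 592) (nat_lit 7663) (.f (nat_lit 623) (nat_lit 595) (nat_lit 2639) (.f (nat_lit 654) (nat_lit 655) (nat_lit 1646) (.f (nat_lit 622) (nat_lit 653) (nat_lit 1645) (.d (nat_lit 590) (nat_lit 589) (nat_lit 3661) (nat_lit 591) (nat_lit 3662)))))))))))))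
noncomputable def s8086 : Cert := .r (nat_lit 64836180782635327105257550133865756107099233344784774323566786510389197141567267213334914537603630284999823986032247621314213099342709661479114454765656505907541824002709199519744) (.p (nat_lit 498) (.a (.f (nat_lit 593) (nat_lit 625) (nat_lit 5617) (.f (nat_lit 561) (nat_lit 466) (nat_lit 5585) (.d (nat_lit 595) (nat_lit 596) (nat_lit 3632) (nat_lit 627) (nat_lit 4594)))) (.a (.f (nat_lit 625) (nat_lit 593) (nat_lit 5617) (.f (nat_lit 626) (nat_lit 657) (nat_lit 5649) (.d (nat_lit 627) (nat_lit 595) (nat_lit 4594) (nat_lit 659) (nat_lit 4626)))) (.a (.f (nat_lit 627) (nat_lit 595) (nat_lit 4594) (.f (nat_lit 626) (nat_lit 659) (nat_lit 4626) (.f (nat_lit 529) (nat_lit 497) (nat_lit 7665) (.f (nat_lit 657) (nat_lit 625) (nat_lit 5649) (.d (nat_lit 658) (nat_lit 561) (nat_lit 7697) (nat_lit 689) (nat_lit 5681)))))) (.a (.f (nat_lit 627) (nat_lit 595) (nat_lit 4594) (.f (nat_lit 626) (nat_lit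 659) (nat_lit 4626) (.f (nat_lit 529) (nat_lit 497) (nat_lit 7665) (.f (nat_lit 561) (nat_lit 658) (nat_lit 7697) (.d (nat_lit 466) (nat_lit 434) (nat_lit 5553) (nat_lit 593) (nat_lit 5585)))))) (.a (.f (nat_lit 625) (nat_lit 593) (nat_lit 5617) (.f (nat_lit 626) (nat_lit 657) (nat_lit 5649) (.f (nat_lit 529) (nat_lit 497) (nat_lit 7665) (.f (nat_lit 658) (nat_lit 561) (nat_lit 7697) (.d (nat_lit 659) (nat_lit 627) (nat_lit 4626) (nat_lit 691) (nat_lit 4658)))))) s8085))))))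
noncomputable def s8087 : Cert := .r (nat_lit 64836180782635327105257550133865756107099233344784774323566786510389197141567267213334914537603630284999823986032247621314213099342709661479114454765656505907541824002709199519744) (.p (nat_lit 498) (.a (.f (nat_lit 499) (nat_lit 467) (nat_lit 6610) (.f (nat_lit 529) (nat_lit 527) (nat_lit 2543) (.d (nat_lit 500) (nat_lit 501) (nat_lit 1521) (nat_lit 531) (nat_lit 2544)))) (.a (.f (nat_lit 499) (nat_lit 467) (nat_lit 6610) (.f (nat_lit 626) (nat_lit 531) (nat_lit 6642) (.d (nat_lit 627) (nat_lit 595) (nat_lit 4594) (nat_lit 659) (nat_lit 4626)))) (.a (.f (nat_lit 499) (nat_lit 467) (nat_lit 6610) (.f (nat_lit 529) (nat_lit 527) (nat_lit 2543) (.d (nat_lit 497) (nat_lit 500) (nat_lit 1520) (nat_lit 626) (nat_lit 7665)))) (.f (nat_lit 627) (nat_lit 595) (nat_lit 4594) (.f (nat_lit 626) (nat_lit 659) (nat_lit 4626) (.f (nat_lit 529) (nat_lit 497) (nat_lit 7665) (.f (nat_lit 561) (nat_lit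 658) (nat_lit 7697) (.d (nat_lit 466) (nat_lit 434) (nat_lit 5553) (nat_lit 593) (nat_lit 5585))))))))))
noncomputable def s8088 : Cert := .r (nat_lit 64836180782635327105257550133865756107099233344784774323566786510389197141567267213334914537603630284999823986032247621314213099342709661479114454765656505907541824002709199519744) (.p (nat_lit 498) (.a (.f (nat_lit 499) (nat_lit 467) (nat_lit 6610) (.f (nat_lit 529) (nat_lit 527) (nat_lit 2543) (.d (nat_lit 500) (nat_lit 501) (nat_lit 1521) (nat_lit 531) (nat_lit 2544)))) (.a (.f (nat_lit 625) (nat_lit 593) (nat_lit 5617) (.f (nat_lit 626) (nat_lit 657) (nat_lit 5649) (.d (nat_lit 499) (nat_lit 467) (nat_lit 6610) (nat_lit 531) (nat_lit 6642)))) (.a (.f (nat_lit 499) (nat_lit 467) (nat_lit 6610) (.f (nat_lit 529) (nat_lit 527) (nat_lit 2543) (.d (nat_lit 497) (nat_lit 500) (nat_lit 1520) (nat_lit 626) (nat_lit 7665)))) s8085))))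
noncomputable def s8112 : Cert := .r (nat_lit 18869812124986400861704490948459027756867024433892689860299374593630612134736493787905533600559981471712008058190913152356962472978375577626770901665172955839509703950336) (.p (nat_lit 594) (.a s4552 (.a (.p (nat_lit 530) (.a (.p (nat_lit 498) (.a (.f (nat_lit 595) (nat_lit 627) (nat_lit 4594) (.f (nat_lit 563) (nat_lit 466) (nat_lit 4562) (.f (nat_lit 593) (nat_lit 625) (nat_lit 5617) (.d (nat_lit 564) (nat_lit 565) (nat_lit 1585) (nat_lit 592) (nat_lit 2608))))) (.a (.f (nat_lit 625) (nat_lit 593) (nat_lit 5617) (.f (nat_lit 626) (nat_lit 657) (nat_lit 5649) (.d (nat_lit 499) (nat_lit 467) (nat_lit 6610) (nat_lit 531) (nat_lit 6642)))) (.f (nat_lit 467) (nat_lit 499) (nat_lit 6610) (.f (nat_lit 466) (nat_lit 435) (nat_lit 6578) (.d (nat_lit 595) (nat_lit 563) (nat_lit 4562) (nat_lit 627) (nat_lit 4594))))))) (.a s4780 (.a (.p (nat_lit 498) (.a (.f (nat_lit 595) (nat_lit 627) (nat_lit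 4594) (.f (nat_lit 563) (nat_lit 466) (nat_lit 4562) (.f (nat_lit 593) (nat_lit 625) (nat_lit 5617) (.d (nat_lit 564) (nat_lit 565) (nat_lit 1585) (nat_lit 592) (nat_lit 2608))))) (.a (.f (nat_lit 593) (nat_lit 625) (nat_lit 5617) (.f (nat_lit 561) (nat_lit 466) (nat_lit 5585) (.d (nat_lit 595) (nat_lit 596) (nat_lit 3632) (nat_lit 627) (nat_lit 4594)))) (.a (.f (nat_lit 467) (nat_lit 499) (nat_lit 6610) (.f (nat_lit 466) (nat_lit 435) (nat_lit 6578) (.d (nat_lit 595) (nat_lit 563) (nat_lit 4562) (nat_lit 627) (nat_lit 4594)))) (.a (.f (nat_lit 625) (nat_lit 593) (nat_lit 5617) (.f (nat_lit 626) (nat_lit 657) (nat_lit 5649) (.d (nat_lit 627) (nat_lit 595) (nat_lit 4594) (nat_lit 659) (nat_lit 4626)))) (.f (nat_lit 593) (nat_lit 625) (nat_lit 5617) (.f (nat_lit 466) (nat_lit 561) (nat_lit 5585) (.d (nat_lit 467) (nat_lit 435) (nat_lit 6578) (nat_lit 499) (nat_lit 6610))))))))) (.a (.p (nat_lit 626) (.a (.f (nat_lit 657) (nat_lit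 625) (nat_lit 5649) (.f (nat_lit 658) (nat_lit 689) (nat_lit 5681) (.d (nat_lit 659) (nat_lit 627) (nat_lit 4626) (nat_lit 691) (nat_lit 4658)))) (.a (.f (nat_lit 659) (nat_lit 627) (nat_lit 4626) (.f (nat_lit 658) (nat_lit 691) (nat_lit 4658) (.f (nat_lit 563) (nat_lit 531) (nat_lit 6674) (.f (nat_lit 689) (nat_lit 657) (nat_lit 5681) (.d (nat_lit 690) (nat_lit 595) (nat_lit 6706) (nat_lit 721) (nat_lit 5713)))))) (.a (.f (nat_lit 659) (nat_lit 627) (nat_lit 4626) (.f (nat_lit 658) (nat_lit 691) (nat_lit 4658) (.f (nat_lit 563) (nat_lit 531) (nat_lit 6674) (.f (nat_lit 595) (nat_lit 690) (nat_lit 6706) (.f (nat_lit 498) (nat_lit 466) (nat_lit 4562) (.f (nat_lit 593) (nat_lit 625) (nat_lit 5617) (.d (nat_lit 564) (nat_lit 565) (nat_lit 1585) (nat_lit 592) (nat_lit 2608)))))))) (.a (.f (nat_lit 625) (nat_lit 657) (nat_lit 5649) (.f (nat_lit 627) (nat_lit 659) (nat_lit 4626) (.f (nat_lit 593) (nat_lit 498) (nat_lit 5617) (.d (nat_lit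 592) (nat_lit 591) (nat_lit 591) (nat_lit 628) (nat_lit 3664))))) (.f (nat_lit 625) (nat_lit 657) (nat_lit 5649) (.f (nat_lit 593) (nat_lit 498) (nat_lit 5617) (.f (nat_lit 592) (nat_lit 496) (nat_lit 4592) (.d (nat_lit 591) (nat_lit 563) (nat_lit 2607) (nat_lit 590) (nat_lit 590)))))))))) (.a s7999 (.a (.p (nat_lit 498) (.a (.f (nat_lit 595) (nat_lit 627) (nat_lit 4594) (.f (nat_lit 563) (nat_lit 466) (nat_lit 4562) (.f (nat_lit 593) (nat_lit 625) (nat_lit 5617) (.d (nat_lit 564) (nat_lit 565) (nat_lit 1585) (nat_lit 592) (nat_lit 2608))))) (.a (.f (nat_lit 593) (nat_lit 625) (nat_lit 5617) (.f (nat_lit 561) (nat_lit 466) (nat_lit 5585) (.d (nat_lit 595) (nat_lit 596) (nat_lit 3632) (nat_lit 627) (nat_lit 4594)))) (.a (.f (nat_lit 467) (nat_lit 499) (nat_lit 6610) (.f (nat_lit 466) (nat_lit 435) (nat_lit 6578) (.d (nat_lit 595) (nat_lit 563) (nat_lit 4562) (nat_lit 627) (nat_lit 4594)))) (.a (.f (nat_lit 593) (nat_lit 625) (nat_lit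 5617) (.f (nat_lit 595) (nat_lit 627) (nat_lit 4594) (.f (nat_lit 596) (nat_lit 561) (nat_lit 3632) (.f (nat_lit 564) (nat_lit 565) (nat_lit 2609) (.f (nat_lit 563) (nat_lit 592) (nat_lit 2608) (.f (nat_lit 628) (nat_lit 629) (nat_lit 593) (.d (nat_lit 499) (nat_lit 467) (nat_lit 6610) (nat_lit 531) (nat_lit 4595)))))))) (.f (nat_lit 593) (nat_lit 625) (nat_lit 5617) (.f (nat_lit 466) (nat_lit 561) (nat_lit 5585) (.d (nat_lit 467) (nat_lit 435) (nat_lit 6578) (nat_lit 499) (nat_lit 6610))))))))) (.a s3908 s8006)))))))) (.a s8020 (.a (.p (nat_lit 592) (.a s4535 (.a s7369 (.a s7393 (.a s7392 (.a s7421 (.a (.p (nat_lit 496) (.a (.f (nat_lit 623) (nat_lit 591) (nat_lit 5615) (.f (nat_lit 624) (nat_lit 655) (nat_lit 5647) (.d (nat_lit 495) (nat_lit 463) (nat_lit 7631) (nat_lit 527) (nat_lit 7663)))) (.a (.f (nat_lit 591) (nat_lit 623) (nat_lit 5615) (.d (nat_lit 563) (nat_lit 561) (nat_lit 1583) (nat_lit 593) (nat_lit 2607))) (.a (.f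 (nat_lit 463) (nat_lit 495) (nat_lit 7631) (.f (nat_lit 464) (nat_lit 431) (nat_lit 7599) (.f (nat_lit 561) (nat_lit 593) (nat_lit 4560) (.d (nat_lit 563) (nat_lit 527) (nat_lit 3599) (nat_lit 591) (nat_lit 1583))))) (.f (nat_lit 463) (nat_lit 495) (nat_lit 7631) (.f (nat_lit 464) (nat_lit 431) (nat_lit 7599) (.f (nat_lit 561) (nat_lit 593) (nat_lit 4560) (.f (nat_lit 563) (nat_lit 527) (nat_lit 3599) (.f (nat_lit 595) (nat_lit 596) (nat_lit 560) (.f (nat_lit 531) (nat_lit 532) (nat_lit 2576) (.d (nat_lit 499) (nat_lit 467) (nat_lit 5586) (nat_lit 626) (nat_lit 5618)))))))))))) (.a (.p (nat_lit 593) (.a (.f (nat_lit 591) (nat_lit 563) (nat_lit 2607) (.f (nat_lit 626) (nat_lit 627) (nat_lit 591) (.f (nat_lit 625) (nat_lit 590) (nat_lit 590) (.d (nat_lit 657) (nat_lit 530) (nat_lit 5649) (nat_lit 689) (nat_lit 7728))))) (.a (.f (nat_lit 563) (nat_lit 591) (nat_lit 2607) (.d (nat_lit 564) (nat_lit 565) (nat_lit 1585) (nat_lit 595)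 (nat_lit 2608))) (.f (nat_lit 625) (nat_lit 496) (nat_lit 4592) (.f (nat_lit 657) (nat_lit 689) (nat_lit 7728) (.d (nat_lit 530) (nat_lit 498) (nat_lit 5617) (nat_lit 626) (nat_lit 5649))))))) (.a s7415 s7422))))))))) (.a (.p (nat_lit 530) (.a (.p (nat_lit 498) (.a (.f (nat_lit 499) (nat_lit 467) (nat_lit 6610) (.f (nat_lit 529) (nat_lit 527) (nat_lit 2543) (.d (nat_lit 500) (nat_lit 501) (nat_lit 1521) (nat_lit 531) (nat_lit 2544)))) (.a (.f (nat_lit 625) (nat_lit 593) (nat_lit 5617) (.f (nat_lit 626) (nat_lit 657) (nat_lit 5649) (.d (nat_lit 499) (nat_lit 467) (nat_lit 6610) (nat_lit 531) (nat_lit 6642)))) (.f (nat_lit 625) (nat_lit 593) (nat_lit 5617) (.f (nat_lit 626) (nat_lit 657) (nat_lit 5649) (.d (nat_lit 627) (nat_lit 595) (nat_lit 4594) (nat_lit 659) (nat_lit 4626))))))) (.a s4780 (.a (.p (nat_lit 498) (.a (.f (nat_lit 625) (nat_lit 593) (nat_lit 5617) (.f (nat_lit 626) (nat_lit 657) (nat_lit 5649) (.d (nat_lit 499) (nat_lit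 467) (nat_lit 6610) (nat_lit 531) (nat_lit 6642)))) (.a (.f (nat_lit 467) (nat_lit 499) (nat_lit 6610) (.f (nat_lit 466) (nat_lit 435) (nat_lit 6578) (.d (nat_lit 595) (nat_lit 563) (nat_lit 4562) (nat_lit 627) (nat_lit 4594)))) (.f (nat_lit 625) (nat_lit 593) (nat_lit 5617) (.f (nat_lit 626) (nat_lit 657) (nat_lit 5649) (.d (nat_lit 627) (nat_lit 595) (nat_lit 4594) (nat_lit 659) (nat_lit 4626))))))) (.a (.p (nat_lit 529) (.a (.f (nat_lit 626) (nat_lit 497) (nat_lit 7665) (.f (nat_lit 657) (nat_lit 625) (nat_lit 5649) (.f (nat_lit 658) (nat_lit 689) (nat_lit 5681) (.d (nat_lit 659) (nat_lit 627) (nat_lit 4626) (nat_lit 691) (nat_lit 4658))))) (.f (nat_lit 563) (nat_lit 527) (nat_lit 527) (.d (nat_lit 564) (nat_lit 561) (nat_lit 3600) (nat_lit 565) (nat_lit 3601))))) (.a s4383 (.a (.p (nat_lit 498) (.a (.f (nat_lit 499) (nat_lit 467) (nat_lit 6610) (.f (nat_lit 529) (nat_lit 527) (nat_lit 2543) (.d (nat_lit 500) (nat_lit 501) (nat_lit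 1521) (nat_lit 531) (nat_lit 2544)))) (.f (nat_lit 593) (nat_lit 625) (nat_lit 5617) (.f (nat_lit 561) (nat_lit 466) (nat_lit 5585) (.d (nat_lit 595) (nat_lit 596) (nat_lit 3632) (nat_lit 627) (nat_lit 4594)))))) s8006))))))) (.a (.p (nat_lit 592) (.a (.p (nat_lit 624) (.a (.f (nat_lit 655) (nat_lit 623) (nat_lit 5647) (.f (nat_lit 656) (nat_lit 687) (nat_lit 5679) (.d (nat_lit 657) (nat_lit 625) (nat_lit 4624) (nat_lit 689) (nat_lit 4656)))) (.a (.f (nat_lit 623) (nat_lit 655) (nat_lit 5647) (.f (nat_lit 593) (nat_lit 595) (nat_lit 1615) (.d (nat_lit 622) (nat_lit 591) (nat_lit 1614) (nat_lit 621) (nat_lit 2637)))) (.f (nat_lit 529) (nat_lit 497) (nat_lit 6640) (.f (nat_lit 561) (nat_lit 656) (nat_lit 6672) (.d (nat_lit 563) (nat_lit 564) (nat_lit 3600) (nat_lit 591) (nat_lit 1583))))))) (.a (.p (nat_lit 496) (.a (.f (nat_lit 593) (nat_lit 625) (nat_lit 4592) (.d (nat_lit 591) (nat_lit 563) (nat_lit 2607) (nat_lit 623) (nat_lit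 5615))) (.a (.f (nat_lit 623) (nat_lit 591) (nat_lit 5615) (.f (nat_lit 624) (nat_lit 655) (nat_lit 5647) (.d (nat_lit 495) (nat_lit 463) (nat_lit 7631) (nat_lit 527) (nat_lit 7663)))) (.a (.f (nat_lit 593) (nat_lit 625) (nat_lit 4592) (.f (nat_lit 563) (nat_lit 591) (nat_lit 2607) (.d (nat_lit 564) (nat_lit 565) (nat_lit 1585) (nat_lit 595) (nat_lit 2608)))) (.f (nat_lit 593) (nat_lit 625) (nat_lit 4592) (.f (nat_lit 495) (nat_lit 463) (nat_lit 7631) (.f (nat_lit 624) (nat_lit 527) (nat_lit 7663) (.d (nat_lit 623) (nat_lit 595) (nat_lit 1615) (nat_lit 655) (nat_lit 5647))))))))) (.a (.p (nat_lit 624) (.a (.f (nat_lit 655) (nat_lit 623) (nat_lit 5647) (.f (nat_lit 656) (nat_lit 687) (nat_lit 5679) (.d (nat_lit 657) (nat_lit 625) (nat_lit 4624) (nat_lit 689) (nat_lit 4656)))) (.a (.f (nat_lit 529) (nat_lit 497) (nat_lit 6640) (.f (nat_lit 561) (nat_lit 656) (nat_lit 6672) (.d (nat_lit 563) (nat_lit 564) (nat_lit 3600) (nat_lit 591)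 (nat_lit 1583)))) (.f (nat_lit 625) (nat_lit 657) (nat_lit 4624) (.f (nat_lit 623) (nat_lit 655) (nat_lit 5647) (.f (nat_lit 626) (nat_lit 595) (nat_lit 2639) (.d (nat_lit 591) (nat_lit 590) (nat_lit 3662) (nat_lit 627) (nat_lit 3663)))))))) (.a (.p (nat_lit 563) (.a (.d (nat_lit 561) (nat_lit 527) (nat_lit 3599) (nat_lit 591) (nat_lit 1583)) (.a (.d (nat_lit 591) (nat_lit 561) (nat_lit 1583) (nat_lit 593) (nat_lit 2607)) (.a (.f (nat_lit 593) (nat_lit 591) (nat_lit 2607) (.d (nat_lit 564) (nat_lit 565) (nat_lit 1585) (nat_lit 595) (nat_lit 2608))) (.f (nat_lit 561) (nat_lit 527) (nat_lit 3599) (.d (nat_lit 564) (nat_lit 529) (nat_lit 3600) (nat_lit 593) (nat_lit 1584))))))) (.a s4592 (.a (.p (nat_lit 624) (.a (.f (nat_lit 655) (nat_lit 623) (nat_lit 5647) (.f (nat_lit 656) (nat_lit 687) (nat_lit 5679) (.d (nat_lit 657) (nat_lit 625) (nat_lit 4624) (nat_lit 689) (nat_lit 4656)))) (.a (.f (nat_lit 529) (nat_lit 497) (nat_lit 6640)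 (.f (nat_lit 561) (nat_lit 656) (nat_lit 6672) (.d (nat_lit 527) (nat_lit 495) (nat_lit 7663) (nat_lit 563) (nat_lit 3599)))) (.f (nat_lit 625) (nat_lit 657) (nat_lit 4624) (.f (nat_lit 623) (nat_lit 655) (nat_lit 5647) (.d (nat_lit 593) (nat_lit 595) (nat_lit 1615) (nat_lit 622) (nat_lit 2638))))))) s3796))))))) (.a (.p (nat_lit 530) (.a (.p (nat_lit 529) (.a (.f (nat_lit 626) (nat_lit 497) (nat_lit 7665) (.f (nat_lit 657) (nat_lit 625) (nat_lit 5649) (.f (nat_lit 658) (nat_lit 689) (nat_lit 5681) (.d (nat_lit 659) (nat_lit 627) (nat_lit 4626) (nat_lit 691) (nat_lit 4658))))) (.f (nat_lit 563) (nat_lit 527) (nat_lit 527) (.d (nat_lit 564) (nat_lit 531) (nat_lit 528) (nat_lit 561) (nat_lit 3600))))) (.a s4780 (.a (.p (nat_lit 529) (.a (.f (nat_lit 626) (nat_lit 497) (nat_lit 7665) (.f (nat_lit 657) (nat_lit 625) (nat_lit 5649) (.f (nat_lit 658) (nat_lit 689) (nat_lit 5681) (.d (nat_lit 659) (nat_lit 627) (nat_lit 4626) (nat_lit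 691) (nat_lit 4658))))) (.f (nat_lit 563) (nat_lit 527) (nat_lit 527) (.d (nat_lit 564) (nat_lit 531) (nat_lit 528) (nat_lit 565) (nat_lit 3601))))) (.a (.p (nat_lit 498) (.a (.f (nat_lit 467) (nat_lit 499) (nat_lit 6610) (.f (nat_lit 466) (nat_lit 435) (nat_lit 6578) (.d (nat_lit 595) (nat_lit 563) (nat_lit 4562) (nat_lit 627) (nat_lit 4594)))) (.a (.f (nat_lit 499) (nat_lit 467) (nat_lit 6610) (.f (nat_lit 626) (nat_lit 531) (nat_lit 6642) (.d (nat_lit 627) (nat_lit 595) (nat_lit 4594) (nat_lit 659) (nat_lit 4626)))) (.a (.f (nat_lit 595) (nat_lit 627) (nat_lit 4594) (.f (nat_lit 563) (nat_lit 466) (nat_lit 4562) (.d (nat_lit 561) (nat_lit 527) (nat_lit 3599) (nat_lit 596) (nat_lit 560)))) (.a (.f (nat_lit 499) (nat_lit 467) (nat_lit 6610) (.f (nat_lit 626) (nat_lit 531) (nat_lit 6642) (.f (nat_lit 657) (nat_lit 625) (nat_lit 5649) (.f (nat_lit 658) (nat_lit 689) (nat_lit 5681) (.d (nat_lit 659) (nat_lit 627) (nat_lit 4626) (nat_lit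 691) (nat_lit 4658)))))) (.f (nat_lit 467) (nat_lit 499) (nat_lit 6610) (.f (nat_lit 466) (nat_lit 435) (nat_lit 6578) (.f (nat_lit 563) (nat_lit 595) (nat_lit 4562) (.f (nat_lit 531) (nat_lit 434) (nat_lit 4530) (.d (nat_lit 561) (nat_lit 527) (nat_lit 3599) (nat_lit 532) (nat_lit 2576))))))))))) (.a (.p (nat_lit 529) (.a (.f (nat_lit 626) (nat_lit 497) (nat_lit 7665) (.f (nat_lit 657) (nat_lit 625) (nat_lit 5649) (.f (nat_lit 658) (nat_lit 689) (nat_lit 5681) (.d (nat_lit 659) (nat_lit 627) (nat_lit 4626) (nat_lit 691) (nat_lit 4658))))) (.f (nat_lit 563) (nat_lit 527) (nat_lit 527) (.d (nat_lit 564) (nat_lit 561) (nat_lit 3600) (nat_lit 565) (nat_lit 3601))))) (.a s4383 (.a (.p (nat_lit 498) (.a (.f (nat_lit 499) (nat_lit 467) (nat_lit 6610) (.f (nat_lit 529) (nat_lit 527) (nat_lit 2543) (.d (nat_lit 500) (nat_lit 501) (nat_lit 1521) (nat_lit 531) (nat_lit 2544)))) (.a (.f (nat_lit 467) (nat_lit 499) (nat_lit 6610) (.f (nat_lit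 466) (nat_lit 435) (nat_lit 6578) (.d (nat_lit 595) (nat_lit 563) (nat_lit 4562) (nat_lit 627) (nat_lit 4594)))) (.f (nat_lit 595) (nat_lit 627) (nat_lit 4594) (.f (nat_lit 563) (nat_lit 466) (nat_lit 4562) (.d (nat_lit 527) (nat_lit 529) (nat_lit 527) (nat_lit 561) (nat_lit 3599))))))) (.p (nat_lit 529) (.a (.f (nat_lit 563) (nat_lit 527) (nat_lit 527) (.d (nat_lit 564) (nat_lit 531) (nat_lit 528) (nat_lit 561) (nat_lit 3600))) (.a (.f (nat_lit 626) (nat_lit 497) (nat_lit 7665) (.f (nat_lit 531) (nat_lit 499) (nat_lit 6642) (.d (nat_lit 561) (nat_lit 532) (nat_lit 1552) (nat_lit 658) (nat_lit 7697)))) (.a (.f (nat_lit 563) (nat_lit 527) (nat_lit 527) (.d (nat_lit 564) (nat_lit 531) (nat_lit 528) (nat_lit 565) (nat_lit 3601))) (.f (nat_lit 563) (nat_lit 527) (nat_lit 527) (.d (nat_lit 564) (nat_lit 561) (nat_lit 3600) (nat_lit 565) (nat_lit 3601))))))))))))))) (.a (.p (nat_lit 530) (.a (.p (nat_lit 498) (.a (.f (nat_lit 499) (nat_lit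 467) (nat_lit 6610) (.f (nat_lit 529) (nat_lit 527) (nat_lit 2543) (.d (nat_lit 500) (nat_lit 501) (nat_lit 1521) (nat_lit 531) (nat_lit 2544)))) (.a (.f (nat_lit 625) (nat_lit 593) (nat_lit 5617) (.f (nat_lit 626) (nat_lit 657) (nat_lit 5649) (.d (nat_lit 499) (nat_lit 467) (nat_lit 6610) (nat_lit 531) (nat_lit 6642)))) (.f (nat_lit 625) (nat_lit 593) (nat_lit 5617) (.f (nat_lit 626) (nat_lit 657) (nat_lit 5649) (.d (nat_lit 627) (nat_lit 595) (nat_lit 4594) (nat_lit 659) (nat_lit 4626))))))) (.a s4780 (.a (.p (nat_lit 498) (.a (.f (nat_lit 593) (nat_lit 625) (nat_lit 5617) (.f (nat_lit 561) (nat_lit 466) (nat_lit 5585) (.d (nat_lit 595) (nat_lit 596) (nat_lit 3632) (nat_lit 627) (nat_lit 4594)))) (.a (.f (nat_lit 625) (nat_lit 593) (nat_lit 5617) (.f (nat_lit 626) (nat_lit 657) (nat_lit 5649) (.d (nat_lit 499) (nat_lit 467) (nat_lit 6610) (nat_lit 531) (nat_lit 6642)))) (.f (nat_lit 499) (nat_lit 467) (nat_lit 6610) (.f (nat_lit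 626) (nat_lit 531) (nat_lit 6642) (.d (nat_lit 627) (nat_lit 595) (nat_lit 4594) (nat_lit 659) (nat_lit 4626))))))) (.a (.p (nat_lit 498) (.a (.f (nat_lit 593) (nat_lit 625) (nat_lit 5617) (.f (nat_lit 561) (nat_lit 466) (nat_lit 5585) (.d (nat_lit 595) (nat_lit 596) (nat_lit 3632) (nat_lit 627) (nat_lit 4594)))) (.a (.f (nat_lit 625) (nat_lit 593) (nat_lit 5617) (.f (nat_lit 626) (nat_lit 657) (nat_lit 5649) (.d (nat_lit 627) (nat_lit 595) (nat_lit 4594) (nat_lit 659) (nat_lit 4626)))) (.f (nat_lit 499) (nat_lit 467) (nat_lit 6610) (.f (nat_lit 529) (nat_lit 527) (nat_lit 2543) (.d (nat_lit 497) (nat_lit 500) (nat_lit 1520) (nat_lit 626) (nat_lit 7665))))))) (.a s8086 (.a s8087 (.a (.p (nat_lit 498) (.a (.f (nat_lit 499) (nat_lit 467) (nat_lit 6610) (.f (nat_lit 529) (nat_lit 527) (nat_lit 2543) (.d (nat_lit 500) (nat_lit 501) (nat_lit 1521) (nat_lit 531) (nat_lit 2544)))) (.f (nat_lit 593) (nat_lit 625) (nat_lit 5617) (.f (nat_lit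 561) (nat_lit 466) (nat_lit 5585) (.d (nat_lit 595) (nat_lit 596) (nat_lit 3632) (nat_lit 627) (nat_lit 4594)))))) s8088)))))))) (.a (.p (nat_lit 530) (.a s4383 (.a s7999 (.a s8013 (.a (.p (nat_lit 498) (.a (.f (nat_lit 467) (nat_lit 499) (nat_lit 6610) (.f (nat_lit 466) (nat_lit 435) (nat_lit 6578) (.d (nat_lit 595) (nat_lit 563) (nat_lit 4562) (nat_lit 627) (nat_lit 4594)))) (.a (.f (nat_lit 499) (nat_lit 467) (nat_lit 6610) (.f (nat_lit 626) (nat_lit 531) (nat_lit 6642) (.d (nat_lit 627) (nat_lit 595) (nat_lit 4594) (nat_lit 659) (nat_lit 4626)))) (.a (.f (nat_lit 595) (nat_lit 627) (nat_lit 4594) (.f (nat_lit 563) (nat_lit 466) (nat_lit 4562) (.d (nat_lit 561) (nat_lit 527) (nat_lit 3599) (nat_lit 596) (nat_lit 560)))) (.f (nat_lit 467) (nat_lit 499) (nat_lit 6610) (.f (nat_lit 466) (nat_lit 435) (nat_lit 6578) (.f (nat_lit 561) (nat_lit 593) (nat_lit 5585) (.f (nat_lit 563) (nat_lit 527) (nat_lit 3599) (.d (nat_lit 531) (nat_lit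 434) (nat_lit 4530) (nat_lit 532) (nat_lit 2576)))))))))) (.a (.p (nat_lit 498) (.a (.f (nat_lit 467) (nat_lit 499) (nat_lit 6610) (.f (nat_lit 466) (nat_lit 435) (nat_lit 6578) (.d (nat_lit 595) (nat_lit 563) (nat_lit 4562) (nat_lit 627) (nat_lit 4594)))) (.a (.f (nat_lit 499) (nat_lit 467) (nat_lit 6610) (.f (nat_lit 529) (nat_lit 527) (nat_lit 2543) (.d (nat_lit 497) (nat_lit 500) (nat_lit 1520) (nat_lit 626) (nat_lit 7665)))) (.f (nat_lit 595) (nat_lit 627) (nat_lit 4594) (.f (nat_lit 563) (nat_lit 466) (nat_lit 4562) (.d (nat_lit 527) (nat_lit 529) (nat_lit 527) (nat_lit 561) (nat_lit 3599))))))) (.a (.p (nat_lit 529) (.a (.f (nat_lit 563) (nat_lit 527) (nat_lit 527) (.d (nat_lit 564) (nat_lit 531) (nat_lit 528) (nat_lit 561) (nat_lit 3600))) (.a (.f (nat_lit 626) (nat_lit 497) (nat_lit 7665) (.f (nat_lit 531) (nat_lit 499) (nat_lit 6642) (.d (nat_lit 561) (nat_lit 532) (nat_lit 1552) (nat_lit 658) (nat_lit 7697)))) (.a (.f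 (nat_lit 563) (nat_lit 527) (nat_lit 527) (.d (nat_lit 564) (nat_lit 531) (nat_lit 528) (nat_lit 565) (nat_lit 3601))) (.f (nat_lit 563) (nat_lit 527) (nat_lit 527) (.d (nat_lit 564) (nat_lit 561) (nat_lit 3600) (nat_lit 565) (nat_lit 3601))))))) (.a s8087 (.a (.p (nat_lit 529) (.a (.f (nat_lit 563) (nat_lit 527) (nat_lit 527) (.d (nat_lit 564) (nat_lit 531) (nat_lit 528) (nat_lit 561) (nat_lit 3600))) (.a (.f (nat_lit 626) (nat_lit 497) (nat_lit 7665) (.f (nat_lit 561) (nat_lit 658) (nat_lit 7697) (.f (nat_lit 563) (nat_lit 564) (nat_lit 3600) (.f (nat_lit 595) (nat_lit 596) (nat_lit 560) (.d (nat_lit 498) (nat_lit 466) (nat_lit 4562) (nat_lit 627) (nat_lit 4594)))))) (.a (.f (nat_lit 563) (nat_lit 527) (nat_lit 527) (.d (nat_lit 564) (nat_lit 531) (nat_lit 528) (nat_lit 565) (nat_lit 3601))) (.f (nat_lit 626) (nat_lit 497) (nat_lit 7665) (.f (nat_lit 561) (nat_lit 658) (nat_lit 7697) (.f (nat_lit 531) (nat_lit 532) (nat_lit 1552)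 (.f (nat_lit 496) (nat_lit 495) (nat_lit 3567) (.d (nat_lit 464) (nat_lit 432) (nat_lit 4528) (nat_lit 593) (nat_lit 4560)))))))))) (.p (nat_lit 498) (.a (.f (nat_lit 499) (nat_lit 467) (nat_lit 6610) (.f (nat_lit 529) (nat_lit 527) (nat_lit 2543) (.d (nat_lit 500) (nat_lit 501) (nat_lit 1521) (nat_lit 531) (nat_lit 2544)))) (.a (.f (nat_lit 467) (nat_lit 499) (nat_lit 6610) (.f (nat_lit 466) (nat_lit 435) (nat_lit 6578) (.d (nat_lit 595) (nat_lit 563) (nat_lit 4562) (nat_lit 627) (nat_lit 4594)))) (.f (nat_lit 595) (nat_lit 627) (nat_lit 4594) (.f (nat_lit 563) (nat_lit 466) (nat_lit 4562) (.d (nat_lit 527) (nat_lit 529) (nat_lit 527) (nat_lit 561) (nat_lit 3599)))))))))))))))) (.a s4804 (.a (.p (nat_lit 530) (.a s3908 (.a (.p (nat_lit 529) (.a (.f (nat_lit 626) (nat_lit 497) (nat_lit 7665) (.f (nat_lit 657) (nat_lit 625) (nat_lit 5649) (.f (nat_lit 658) (nat_lit 689) (nat_lit 5681) (.d (nat_lit 659) (nat_lit 627) (nat_lit 4626)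 (nat_lit 691) (nat_lit 4658))))) (.f (nat_lit 563) (nat_lit 527) (nat_lit 527) (.d (nat_lit 564) (nat_lit 531) (nat_lit 528) (nat_lit 561) (nat_lit 3600))))) (.a (.p (nat_lit 529) (.a (.f (nat_lit 626) (nat_lit 497) (nat_lit 7665) (.f (nat_lit 657) (nat_lit 625) (nat_lit 5649) (.f (nat_lit 658) (nat_lit 689) (nat_lit 5681) (.d (nat_lit 659) (nat_lit 627) (nat_lit 4626) (nat_lit 691) (nat_lit 4658))))) (.f (nat_lit 563) (nat_lit 527) (nat_lit 527) (.d (nat_lit 564) (nat_lit 561) (nat_lit 3600) (nat_lit 565) (nat_lit 3601))))) (.a s4780 (.a (.p (nat_lit 529) (.a (.f (nat_lit 563) (nat_lit 527) (nat_lit 527) (.d (nat_lit 564) (nat_lit 531) (nat_lit 528) (nat_lit 561) (nat_lit 3600))) (.a (.f (nat_lit 626) (nat_lit 497) (nat_lit 7665) (.f (nat_lit 531) (nat_lit 499) (nat_lit 6642) (.d (nat_lit 561) (nat_lit 532) (nat_lit 1552) (nat_lit 658) (nat_lit 7697)))) (.a (.f (nat_lit 563) (nat_lit 527) (nat_lit 527) (.d (nat_lit 564) (nat_lit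 531) (nat_lit 528) (nat_lit 565) (nat_lit 3601))) (.f (nat_lit 563) (nat_lit 527) (nat_lit 527) (.d (nat_lit 564) (nat_lit 561) (nat_lit 3600) (nat_lit 565) (nat_lit 3601))))))) (.p (nat_lit 498) (.a (.f (nat_lit 593) (nat_lit 625) (nat_lit 5617) (.f (nat_lit 561) (nat_lit 466) (nat_lit 5585) (.f (nat_lit 563) (nat_lit 527) (nat_lit 3599) (.d (nat_lit 564) (nat_lit 565) (nat_lit 1585) (nat_lit 592) (nat_lit 1584))))) (.a (.f (nat_lit 593) (nat_lit 625) (nat_lit 5617) (.f (nat_lit 466) (nat_lit 561) (nat_lit 5585) (.d (nat_lit 467) (nat_lit 435) (nat_lit 6578) (nat_lit 499) (nat_lit 6610)))) (.f (nat_lit 499) (nat_lit 467) (nat_lit 6610) (.f (nat_lit 529) (nat_lit 527) (nat_lit 2543) (.d (nat_lit 500) (nat_lit 501) (nat_lit 1521) (nat_lit 531) (nat_lit 2544))))))))))))) (.p (nat_lit 530) (.a s3908 (.a (.p (nat_lit 498) (.a (.f (nat_lit 499) (nat_lit 467) (nat_lit 6610) (.f (nat_lit 529) (nat_lit 527) (nat_lit 2543) (.d (nat_lit 500)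 (nat_lit 501) (nat_lit 1521) (nat_lit 531) (nat_lit 2544)))) (.a (.f (nat_lit 625) (nat_lit 593) (nat_lit 5617) (.f (nat_lit 626) (nat_lit 657) (nat_lit 5649) (.d (nat_lit 499) (nat_lit 467) (nat_lit 6610) (nat_lit 531) (nat_lit 6642)))) (.f (nat_lit 625) (nat_lit 593) (nat_lit 5617) (.f (nat_lit 626) (nat_lit 657) (nat_lit 5649) (.d (nat_lit 627) (nat_lit 595) (nat_lit 4594) (nat_lit 659) (nat_lit 4626))))))) (.a (.p (nat_lit 498) (.a (.f (nat_lit 593) (nat_lit 625) (nat_lit 5617) (.f (nat_lit 561) (nat_lit 466) (nat_lit 5585) (.d (nat_lit 595) (nat_lit 596) (nat_lit 3632) (nat_lit 627) (nat_lit 4594)))) (.a (.f (nat_lit 625) (nat_lit 593) (nat_lit 5617) (.f (nat_lit 626) (nat_lit 657) (nat_lit 5649) (.d (nat_lit 627) (nat_lit 595) (nat_lit 4594) (nat_lit 659) (nat_lit 4626)))) (.f (nat_lit 499) (nat_lit 467) (nat_lit 6610) (.f (nat_lit 529) (nat_lit 527) (nat_lit 2543) (.d (nat_lit 497) (nat_lit 500) (nat_lit 1520) (nat_lit 626)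 (nat_lit 7665))))))) (.a s4811 (.a s4383 (.a s8086 (.a (.p (nat_lit 498) (.a (.f (nat_lit 499) (nat_lit 467) (nat_lit 6610) (.f (nat_lit 529) (nat_lit 527) (nat_lit 2543) (.d (nat_lit 500) (nat_lit 501) (nat_lit 1521) (nat_lit 531) (nat_lit 2544)))) (.f (nat_lit 593) (nat_lit 625) (nat_lit 5617) (.f (nat_lit 561) (nat_lit 466) (nat_lit 5585) (.d (nat_lit 595) (nat_lit 596) (nat_lit 3632) (nat_lit 627) (nat_lit 4594)))))) s8088))))))))))))))))))))
noncomputable def s8120 : Cert := .r (nat_lit 64836180782635327101742773731878883933028500135655100996324835636715824771957301922231916427704030386313073450013582889165837387910271462164107996909801584275503921517658290257920) (.p (nat_lit 530) (.a (.p (nat_lit 626) (.a (.f (nat_lit 531) (nat_lit 499) (nat_lit 6642) (.f (nat_lit 561) (nat_lit 559) (nat_lit 2575) (.d (nat_lit 532) (nat_lit 533) (nat_lit 1553) (nat_lit 563) (nat_lit 2576)))) (.a (.f (nat_lit 531) (nat_lit 499) (nat_lit 6642)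 (.f (nat_lit 658) (nat_lit 563) (nat_lit 6674) (.d (nat_lit 657) (nat_lit 625) (nat_lit 5649) (nat_lit 689) (nat_lit 5681)))) (.f (nat_lit 657) (nat_lit 625) (nat_lit 5649) (.f (nat_lit 658) (nat_lit 689) (nat_lit 5681) (.d (nat_lit 659) (nat_lit 627) (nat_lit 4626) (nat_lit 691) (nat_lit 4658))))))) (.a (.p (nat_lit 498) (.a (.f (nat_lit 625) (nat_lit 593) (nat_lit 5617) (.f (nat_lit 626) (nat_lit 657) (nat_lit 5649) (.d (nat_lit 499) (nat_lit 467) (nat_lit 6610) (nat_lit 531) (nat_lit 6642)))) (.a (.f (nat_lit 467) (nat_lit 499) (nat_lit 6610) (.f (nat_lit 466) (nat_lit 435) (nat_lit 6578) (.d (nat_lit 595) (nat_lit 563) (nat_lit 4562) (nat_lit 627) (nat_lit 4594)))) (.f (nat_lit 625) (nat_lit 593) (nat_lit 5617) (.f (nat_lit 626) (nat_lit 657) (nat_lit 5649) (.d (nat_lit 627) (nat_lit 595) (nat_lit 4594) (nat_lit 659) (nat_lit 4626))))))) (.a (.p (nat_lit 595) (.a (.f (nat_lit 561) (nat_lit 559) (nat_lit 559) (.d (nat_lit 596)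 (nat_lit 593) (nat_lit 3632) (nat_lit 597) (nat_lit 3633))) (.f (nat_lit 627) (nat_lit 498) (nat_lit 4594) (.d (nat_lit 659) (nat_lit 626) (nat_lit 4626) (nat_lit 691) (nat_lit 7730))))) (.a (.p (nat_lit 498) (.a (.f (nat_lit 595) (nat_lit 627) (nat_lit 4594) (.f (nat_lit 561) (nat_lit 559) (nat_lit 559) (.d (nat_lit 466) (nat_lit 563) (nat_lit 4562) (nat_lit 593) (nat_lit 5585)))) (.a (.f (nat_lit 467) (nat_lit 499) (nat_lit 6610) (.f (nat_lit 466) (nat_lit 435) (nat_lit 6578) (.d (nat_lit 595) (nat_lit 563) (nat_lit 4562) (nat_lit 627) (nat_lit 4594)))) (.a (.f (nat_lit 593) (nat_lit 625) (nat_lit 5617) (.f (nat_lit 561) (nat_lit 466) (nat_lit 5585) (.d (nat_lit 559) (nat_lit 531) (nat_lit 2575) (nat_lit 558) (nat_lit 558)))) (.f (nat_lit 595) (nat_lit 627) (nat_lit 4594) (.f (nat_lit 561) (nat_lit 559) (nat_lit 559) (.d (nat_lit 593) (nat_lit 596) (nat_lit 3632) (nat_lit 625) (nat_lit 5617)))))))) (.p (nat_lit 498) (.a (.f (nat_lit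 593) (nat_lit 625) (nat_lit 5617) (.f (nat_lit 561) (nat_lit 466) (nat_lit 5585) (.d (nat_lit 559) (nat_lit 531) (nat_lit 2575) (nat_lit 558) (nat_lit 558)))) (.a (.f (nat_lit 625) (nat_lit 593) (nat_lit 5617) (.f (nat_lit 626) (nat_lit 657) (nat_lit 5649) (.d (nat_lit 499) (nat_lit 467) (nat_lit 6610) (nat_lit 531) (nat_lit 6642)))) (.a (.f (nat_lit 593) (nat_lit 625) (nat_lit 5617) (.f (nat_lit 561) (nat_lit 466) (nat_lit 5585) (.d (nat_lit 559) (nat_lit 558) (nat_lit 558) (nat_lit 595) (nat_lit 559)))) (.f (nat_lit 499) (nat_lit 467) (nat_lit 6610) (.f (nat_lit 531) (nat_lit 626) (nat_lit 6642) (.d (nat_lit 529) (nat_lit 500) (nat_lit 2544) (nat_lit 559) (nat_lit 1551)))))))))))))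
noncomputable def s8126 : Cert := .r (nat_lit 64836180782635327101742773731878883933028500135655100996324835636715824771957301922231916427704030386313073450013582889165837387910271462164107996909801584275503921517658290257920) (.p (nat_lit 530) (.a s3715 (.a (.p (nat_lit 498) (.a (.f (nat_lit 499) (nat_lit 467) (nat_lit 6610) (.f (nat_lit 529) (nat_lit 527) (nat_lit 2543) (.d (nat_lit 500) (nat_lit 501) (nat_lit 1521) (nat_lit 531) (nat_lit 2544)))) (.a (.f (nat_lit 625) (nat_lit 593) (nat_lit 5617) (.f (nat_lit 626) (nat_lit 657) (nat_lit 5649) (.d (nat_lit 499) (nat_lit 467) (nat_lit 6610) (nat_lit 531) (nat_lit 6642)))) (.f (nat_lit 625) (nat_lit 593) (nat_lit 5617) (.f (nat_lit 626) (nat_lit 657) (nat_lit 5649) (.d (nat_lit 627) (nat_lit 595) (nat_lit 4594) (nat_lit 659) (nat_lit 4626))))))) (.a (.p (nat_lit 595) (.a (.f (nat_lit 561) (nat_lit 559) (nat_lit 559) (.d (nat_lit 596) (nat_lit 593) (nat_lit 3632) (nat_lit 597) (nat_lit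 3633))) (.f (nat_lit 627) (nat_lit 498) (nat_lit 4594) (.d (nat_lit 659) (nat_lit 626) (nat_lit 4626) (nat_lit 691) (nat_lit 7730))))) (.a s3813 (.a (.p (nat_lit 529) (.a (.f (nat_lit 531) (nat_lit 559) (nat_lit 1551) (.d (nat_lit 499) (nat_lit 500) (nat_lit 2544) (nat_lit 626) (nat_lit 6642))) (.a (.f (nat_lit 626) (nat_lit 497) (nat_lit 7665) (.f (nat_lit 657) (nat_lit 625) (nat_lit 5649) (.f (nat_lit 658) (nat_lit 689) (nat_lit 5681) (.d (nat_lit 659) (nat_lit 627) (nat_lit 4626) (nat_lit 691) (nat_lit 4658))))) (.f (nat_lit 559) (nat_lit 531) (nat_lit 1551) (.d (nat_lit 558) (nat_lit 527) (nat_lit 1550) (nat_lit 557) (nat_lit 2573)))))) (.a (.p (nat_lit 498) (.a (.f (nat_lit 593) (nat_lit 625) (nat_lit 5617) (.f (nat_lit 561) (nat_lit 466) (nat_lit 5585) (.d (nat_lit 559) (nat_lit 531) (nat_lit 2575) (nat_lit 558) (nat_lit 558)))) (.a (.f (nat_lit 499) (nat_lit 467) (nat_lit 6610) (.f (nat_lit 529) (nat_lit 527) (nat_lit 2543)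 (.d (nat_lit 500) (nat_lit 501) (nat_lit 1521) (nat_lit 531) (nat_lit 2544)))) (.f (nat_lit 595) (nat_lit 627) (nat_lit 4594) (.f (nat_lit 561) (nat_lit 559) (nat_lit 559) (.d (nat_lit 593) (nat_lit 596) (nat_lit 3632) (nat_lit 625) (nat_lit 5617))))))) (.p (nat_lit 498) (.a (.f (nat_lit 593) (nat_lit 625) (nat_lit 5617) (.f (nat_lit 561) (nat_lit 466) (nat_lit 5585) (.d (nat_lit 559) (nat_lit 531) (nat_lit 2575) (nat_lit 558) (nat_lit 558)))) (.a (.f (nat_lit 499) (nat_lit 467) (nat_lit 6610) (.f (nat_lit 529) (nat_lit 527) (nat_lit 2543) (.d (nat_lit 500) (nat_lit 501) (nat_lit 1521) (nat_lit 531) (nat_lit 2544)))) (.f (nat_lit 593) (nat_lit 625) (nat_lit 5617) (.f (nat_lit 561) (nat_lit 466) (nat_lit 5585) (.d (nat_lit 559) (nat_lit 558) (nat_lit 558) (nat_lit 595) (nat_lit 559))))))))))))))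
noncomputable def s8127 : Cert := .r (nat_lit 18869812124986400861704490948459027756867024433892689860299374593630612134736493787905533600559981471712008058190913152356962472978375577626770901665172955839509703950336) (.p (nat_lit 594) (.a (.p (nat_lit 561) (.a (.f (nat_lit 563) (nat_lit 527) (nat_lit 3599) (.d (nat_lit 595) (nat_lit 559) (nat_lit 559) (nat_lit 596) (nat_lit 560))) (.a (.f (nat_lit 559) (nat_lit 595) (nat_lit 559) (.f (nat_lit 593) (nat_lit 558) (nat_lit 558) (.f (nat_lit 625) (nat_lit 657) (nat_lit 7696) (.d (nat_lit 496) (nat_lit 464) (nat_lit 4560) (nat_lit 529) (nat_lit 7664))))) (.f (nat_lit 563) (nat_lit 527) (nat_lit 3599) (.f (nat_lit 564) (nat_lit 529) (nat_lit 3600) (.d (nat_lit 532) (nat_lit 531) (nat_lit 2576) (nat_lit 533) (nat_lit 2577))))))) (.a s8120 (.a s8020 (.a s4047 (.a (.p (nat_lit 561) (.a (.f (nat_lit 563) (nat_lit 527) (nat_lit 3599) (.d (nat_lit 595) (nat_lit 559) (nat_lit 559) (nat_lit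 596) (nat_lit 560))) (.a (.f (nat_lit 559) (nat_lit 595) (nat_lit 559) (.f (nat_lit 593) (nat_lit 558) (nat_lit 558) (.f (nat_lit 625) (nat_lit 657) (nat_lit 7696) (.d (nat_lit 496) (nat_lit 464) (nat_lit 4560) (nat_lit 529) (nat_lit 7664))))) (.f (nat_lit 563) (nat_lit 527) (nat_lit 3599) (.f (nat_lit 592) (nat_lit 591) (nat_lit 1583) (.f (nat_lit 593) (nat_lit 564) (nat_lit 1584) (.d (nat_lit 496) (nat_lit 464) (nat_lit 4560) (nat_lit 625) (nat_lit 4592)))))))) (.a s4563 (.a s8126 s4553))))))))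
noncomputable def s8133 : Cert := .r (nat_lit 18869812124986400861704490948459027756867024433892689860299374593630612134736493787905533600559981471712008058190913152356962472978375577626770901665172955839509703950336) (.p (nat_lit 594) (.a (.p (nat_lit 561) (.a (.f (nat_lit 563) (nat_lit 527) (nat_lit 3599) (.d (nat_lit 595) (nat_lit 559) (nat_lit 559) (nat_lit 596) (nat_lit 560))) (.a (.f (nat_lit 559) (nat_lit 595) (nat_lit 559) (.f (nat_lit 593) (nat_lit 558) (nat_lit 558) (.f (nat_lit 625) (nat_lit 657) (nat_lit 7696) (.d (nat_lit 496) (nat_lit 464) (nat_lit 4560) (nat_lit 529) (nat_lit 7664))))) (.f (nat_lit 563) (nat_lit 527) (nat_lit 3599) (.f (nat_lit 564) (nat_lit 529) (nat_lit 3600) (.d (nat_lit 532) (nat_lit 531) (nat_lit 2576) (nat_lit 533) (nat_lit 2577))))))) (.a s8120 (.a s8020 (.a s4047 (.a (.p (nat_lit 561) (.a (.f (nat_lit 563) (nat_lit 527) (nat_lit 3599) (.d (nat_lit 595) (nat_lit 559) (nat_lit 559) (nat_lit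 596) (nat_lit 560))) (.a (.f (nat_lit 559) (nat_lit 595) (nat_lit 559) (.f (nat_lit 593) (nat_lit 558) (nat_lit 558) (.f (nat_lit 625) (nat_lit 657) (nat_lit 7696) (.d (nat_lit 496) (nat_lit 464) (nat_lit 4560) (nat_lit 529) (nat_lit 7664))))) (.a (.f (nat_lit 563) (nat_lit 527) (nat_lit 3599) (.f (nat_lit 564) (nat_lit 529) (nat_lit 3600) (.d (nat_lit 596) (nat_lit 595) (nat_lit 560) (nat_lit 597) (nat_lit 561)))) (.f (nat_lit 563) (nat_lit 527) (nat_lit 3599) (.f (nat_lit 564) (nat_lit 529) (nat_lit 3600) (.d (nat_lit 593) (nat_lit 565) (nat_lit 1585) (nat_lit 592) (nat_lit 1584)))))))) (.a s4116 (.a s8126 (.a (.p (nat_lit 561) (.a (.f (nat_lit 563) (nat_lit 527) (nat_lit 3599) (.d (nat_lit 595) (nat_lit 559) (nat_lit 559) (nat_lit 596) (nat_lit 560))) (.a (.f (nat_lit 559) (nat_lit 595) (nat_lit 559) (.f (nat_lit 530) (nat_lit 531) (nat_lit 2575) (.d (nat_lit 558) (nat_lit 529) (nat_lit 2574) (nat_lit 593) (nat_lit 558)))) (.f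 (nat_lit 563) (nat_lit 527) (nat_lit 3599) (.f (nat_lit 564) (nat_lit 529) (nat_lit 3600) (.d (nat_lit 532) (nat_lit 531) (nat_lit 2576) (nat_lit 533) (nat_lit 2577))))))) (.p (nat_lit 530) (.a (.p (nat_lit 529) (.a (.f (nat_lit 531) (nat_lit 559) (nat_lit 1551) (.d (nat_lit 499) (nat_lit 500) (nat_lit 2544) (nat_lit 626) (nat_lit 6642))) (.a (.f (nat_lit 626) (nat_lit 497) (nat_lit 7665) (.f (nat_lit 657) (nat_lit 625) (nat_lit 5649) (.f (nat_lit 658) (nat_lit 689) (nat_lit 5681) (.d (nat_lit 659) (nat_lit 627) (nat_lit 4626) (nat_lit 691) (nat_lit 4658))))) (.f (nat_lit 531) (nat_lit 559) (nat_lit 1551) (.f (nat_lit 563) (nat_lit 564) (nat_lit 528) (.d (nat_lit 499) (nat_lit 467) (nat_lit 5586) (nat_lit 500) (nat_lit 2544))))))) (.a (.p (nat_lit 626) (.a (.f (nat_lit 531) (nat_lit 499) (nat_lit 6642) (.f (nat_lit 561) (nat_lit 559) (nat_lit 2575) (.d (nat_lit 532) (nat_lit 533) (nat_lit 1553) (nat_lit 563) (nat_lit 2576)))) (.a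 (.f (nat_lit 531) (nat_lit 499) (nat_lit 6642) (.f (nat_lit 658) (nat_lit 563) (nat_lit 6674) (.d (nat_lit 657) (nat_lit 625) (nat_lit 5649) (nat_lit 689) (nat_lit 5681)))) (.f (nat_lit 657) (nat_lit 625) (nat_lit 5649) (.f (nat_lit 658) (nat_lit 689) (nat_lit 5681) (.d (nat_lit 659) (nat_lit 627) (nat_lit 4626) (nat_lit 691) (nat_lit 4658))))))) (.a (.p (nat_lit 529) (.a (.f (nat_lit 626) (nat_lit 497) (nat_lit 7665) (.f (nat_lit 657) (nat_lit 625) (nat_lit 5649) (.f (nat_lit 658) (nat_lit 689) (nat_lit 5681) (.d (nat_lit 659) (nat_lit 627) (nat_lit 4626) (nat_lit 691) (nat_lit 4658))))) (.f (nat_lit 527) (nat_lit 563) (nat_lit 527) (.f (nat_lit 495) (nat_lit 494) (nat_lit 3566) (.f (nat_lit 559) (nat_lit 558) (nat_lit 1550) (.d (nat_lit 463) (nat_lit 431) (nat_lit 4527) (nat_lit 592) (nat_lit 4559))))))) (.a s3813 (.a (.p (nat_lit 529) (.a (.f (nat_lit 626) (nat_lit 497) (nat_lit 7665) (.f (nat_lit 657) (nat_lit 625) (nat_lit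 5649) (.f (nat_lit 658) (nat_lit 689) (nat_lit 5681) (.d (nat_lit 659) (nat_lit 627) (nat_lit 4626) (nat_lit 691) (nat_lit 4658))))) (.f (nat_lit 563) (nat_lit 527) (nat_lit 527) (.d (nat_lit 564) (nat_lit 531) (nat_lit 528) (nat_lit 561) (nat_lit 3600))))) (.a (.p (nat_lit 529) (.a (.f (nat_lit 531) (nat_lit 559) (nat_lit 1551) (.d (nat_lit 499) (nat_lit 500) (nat_lit 2544) (nat_lit 626) (nat_lit 6642))) (.a (.f (nat_lit 527) (nat_lit 563) (nat_lit 527) (.f (nat_lit 495) (nat_lit 494) (nat_lit 3566) (.f (nat_lit 559) (nat_lit 558) (nat_lit 1550) (.d (nat_lit 463) (nat_lit 431) (nat_lit 4527) (nat_lit 592) (nat_lit 4559))))) (.f (nat_lit 563) (nat_lit 527) (nat_lit 527) (.d (nat_lit 564) (nat_lit 531) (nat_lit 528) (nat_lit 565) (nat_lit 3601)))))) s4007))))))))))))))))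
noncomputable def s8136 : Cert := .r (nat_lit 3773962425700235452738272624505952193199339552226928146794549392648115485167898379561026699849346401546134558067857772757880134458676407096525164659442171664912122642432) (.p (nat_lit 562) (.a s3375 (.a s7670 (.a s7671 (.a (.p (nat_lit 592) (.a s3235 (.a s7634 (.a (.p (nat_lit 496) (.a (.f (nat_lit 591) (nat_lit 623) (nat_lit 5615) (.f (nat_lit 593) (nat_lit 625) (nat_lit 4592) (.f (nat_lit 559) (nat_lit 464) (nat_lit 5583) (.d (nat_lit 558) (nat_lit 557) (nat_lit 557) (nat_lit 594) (nat_lit 3630))))) (.a (.f (nat_lit 495) (nat_lit 463) (nat_lit 7631) (.f (nat_lit 624) (nat_lit 527) (nat_lit 7663) (.d (nat_lit 623) (nat_lit 591) (nat_lit 5615) (nat_lit 655) (nat_lit 5647)))) (.f (nat_lit 495) (nat_lit 463) (nat_lit 7631) (.f (nat_lit 624) (nat_lit 527) (nat_lit 7663) (.d (nat_lit 625) (nat_lit 593) (nat_lit 4592) (nat_lit 657) (nat_lit 4624))))))) (.a (.p (nat_lit 593) (.a (.p (nat_lit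 594) (.a (.f (nat_lit 559) (nat_lit 595) (nat_lit 3631) (.d (nat_lit 558) (nat_lit 557) (nat_lit 557) (nat_lit 591) (nat_lit 3630))) (.a (.f (nat_lit 591) (nat_lit 563) (nat_lit 2607) (.f (nat_lit 626) (nat_lit 627) (nat_lit 591) (.f (nat_lit 625) (nat_lit 590) (nat_lit 590) (.d (nat_lit 657) (nat_lit 530) (nat_lit 5649) (nat_lit 689) (nat_lit 7728))))) (.f (nat_lit 595) (nat_lit 559) (nat_lit 3631) (.f (nat_lit 563) (nat_lit 564) (nat_lit 2608) (.f (nat_lit 627) (nat_lit 628) (nat_lit 592) (.d (nat_lit 659) (nat_lit 530) (nat_lit 7698) (nat_lit 691) (nat_lit 7730)))))))) (.a (.f (nat_lit 496) (nat_lit 625) (nat_lit 4592) (.f (nat_lit 591) (nat_lit 623) (nat_lit 5615) (.f (nat_lit 559) (nat_lit 464) (nat_lit 5583) (.d (nat_lit 558) (nat_lit 557) (nat_lit 557) (nat_lit 594) (nat_lit 3630))))) (.a (.f (nat_lit 496) (nat_lit 625) (nat_lit 4592) (.f (nat_lit 591) (nat_lit 623) (nat_lit 5615) (.f (nat_lit 464) (nat_lit 559) (nat_lit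 5583) (.d (nat_lit 463) (nat_lit 431) (nat_lit 7599) (nat_lit 495) (nat_lit 7631))))) (.a (.f (nat_lit 496) (nat_lit 625) (nat_lit 4592) (.f (nat_lit 591) (nat_lit 623) (nat_lit 5615) (.f (nat_lit 594) (nat_lit 563) (nat_lit 2607) (.f (nat_lit 627) (nat_lit 626) (nat_lit 591) (.f (nat_lit 595) (nat_lit 628) (nat_lit 592) (.f (nat_lit 495) (nat_lit 463) (nat_lit 7631) (.f (nat_lit 530) (nat_lit 498) (nat_lit 4594) (.f (nat_lit 529) (nat_lit 531) (nat_lit 3567) (.d (nat_lit 494) (nat_lit 493) (nat_lit 493) (nat_lit 497) (nat_lit 494)))))))))) (.a (.p (nat_lit 594) (.a (.f (nat_lit 559) (nat_lit 595) (nat_lit 3631) (.d (nat_lit 558) (nat_lit 557) (nat_lit 557) (nat_lit 591) (nat_lit 3630))) (.a (.f (nat_lit 563) (nat_lit 591) (nat_lit 2607) (.d (nat_lit 564) (nat_lit 565) (nat_lit 1585) (nat_lit 595) (nat_lit 2608))) (.a (.f (nat_lit 595) (nat_lit 559) (nat_lit 3631) (.f (nat_lit 563) (nat_lit 564) (nat_lit 2608) (.f (nat_lit 627)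 (nat_lit 628) (nat_lit 592) (.d (nat_lit 659) (nat_lit 530) (nat_lit 7698) (nat_lit 691) (nat_lit 7730))))) (.f (nat_lit 591) (nat_lit 563) (nat_lit 2607) (.f (nat_lit 559) (nat_lit 558) (nat_lit 3630) (.d (nat_lit 623) (nat_lit 622) (nat_lit 1614) (nat_lit 655) (nat_lit 6671)))))))) (.p (nat_lit 594) (.a (.f (nat_lit 595) (nat_lit 559) (nat_lit 3631) (.f (nat_lit 563) (nat_lit 564) (nat_lit 2608) (.f (nat_lit 627) (nat_lit 628) (nat_lit 592) (.d (nat_lit 659) (nat_lit 530) (nat_lit 7698) (nat_lit 691) (nat_lit 7730))))) (.a (.f (nat_lit 595) (nat_lit 559) (nat_lit 3631) (.f (nat_lit 563) (nat_lit 564) (nat_lit 2608) (.f (nat_lit 627) (nat_lit 628) (nat_lit 592) (.f (nat_lit 659) (nat_lit 691) (nat_lit 7730) (.f (nat_lit 658) (nat_lit 690) (nat_lit 5682) (.f (nat_lit 531) (nat_lit 626) (nat_lit 6674) (.f (nat_lit 499) (nat_lit 467) (nat_lit 5586) (.d (nat_lit 500) (nat_lit 468) (nat_lit 6611) (nat_lit 532) (nat_lit 6643)))))))))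 (.f (nat_lit 625) (nat_lit 496) (nat_lit 4592) (.f (nat_lit 657) (nat_lit 689) (nat_lit 7728) (.d (nat_lit 530) (nat_lit 498) (nat_lit 5617) (nat_lit 626) (nat_lit 5649))))))))))))) (.a (.p (nat_lit 624) (.a (.f (nat_lit 655) (nat_lit 623) (nat_lit 5647) (.f (nat_lit 656) (nat_lit 687) (nat_lit 5679) (.d (nat_lit 657) (nat_lit 625) (nat_lit 4624) (nat_lit 689) (nat_lit 4656)))) (.a (.f (nat_lit 623) (nat_lit 655) (nat_lit 5647) (.f (nat_lit 527) (nat_lit 495) (nat_lit 7663) (.f (nat_lit 529) (nat_lit 497) (nat_lit 6640) (.f (nat_lit 530) (nat_lit 563) (nat_lit 527) (.f (nat_lit 499) (nat_lit 498) (nat_lit 2543) (.f (nat_lit 531) (nat_lit 500) (nat_lit 2544) (.f (nat_lit 594) (nat_lit 626) (nat_lit 6642) (.f (nat_lit 593) (nat_lit 595) (nat_lit 1615) (.d (nat_lit 622) (nat_lit 591) (nat_lit 1614) (nat_lit 621) (nat_lit 2637)))))))))) (.f (nat_lit 625) (nat_lit 657) (nat_lit 4624) (.f (nat_lit 527) (nat_lit 495) (nat_lit 7663) (.f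 (nat_lit 529) (nat_lit 497) (nat_lit 6640) (.f (nat_lit 530) (nat_lit 563) (nat_lit 527) (.f (nat_lit 498) (nat_lit 499) (nat_lit 2543) (.f (nat_lit 594) (nat_lit 593) (nat_lit 5617) (.f (nat_lit 627) (nat_lit 595) (nat_lit 4594) (.d (nat_lit 626) (nat_lit 591) (nat_lit 3663) (nat_lit 659) (nat_lit 4626)))))))))))) (.a (.p (nat_lit 529) (.a (.f (nat_lit 624) (nat_lit 497) (nat_lit 6640) (.f (nat_lit 527) (nat_lit 495) (nat_lit 7663) (.f (nat_lit 559) (nat_lit 656) (nat_lit 7695) (.d (nat_lit 530) (nat_lit 531) (nat_lit 1551) (nat_lit 558) (nat_lit 1550))))) (.a (.p (nat_lit 496) (.a (.f (nat_lit 495) (nat_lit 463) (nat_lit 7631) (.f (nat_lit 530) (nat_lit 531) (nat_lit 3567) (.d (nat_lit 494) (nat_lit 493) (nat_lit 493) (nat_lit 497) (nat_lit 494)))) (.a (.f (nat_lit 591) (nat_lit 623) (nat_lit 5615) (.f (nat_lit 464) (nat_lit 559) (nat_lit 5583) (.d (nat_lit 463) (nat_lit 431) (nat_lit 7599) (nat_lit 495) (nat_lit 7631)))) (.f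 (nat_lit 591) (nat_lit 623) (nat_lit 5615) (.f (nat_lit 559) (nat_lit 464) (nat_lit 5583) (.f (nat_lit 558) (nat_lit 557) (nat_lit 2573) (.f (nat_lit 594) (nat_lit 593) (nat_lit 3630) (.f (nat_lit 530) (nat_lit 531) (nat_lit 1551) (.d (nat_lit 497) (nat_lit 624) (nat_lit 6640) (nat_lit 626) (nat_lit 7665)))))))))) (.a (.p (nat_lit 530) (.a (.f (nat_lit 531) (nat_lit 559) (nat_lit 1551) (.f (nat_lit 563) (nat_lit 564) (nat_lit 528) (.f (nat_lit 499) (nat_lit 500) (nat_lit 2544) (.d (nat_lit 467) (nat_lit 435) (nat_lit 5554) (nat_lit 594) (nat_lit 5586))))) (.a (.f (nat_lit 527) (nat_lit 563) (nat_lit 527) (.d (nat_lit 495) (nat_lit 494) (nat_lit 3566) (nat_lit 624) (nat_lit 7663))) (.f (nat_lit 559) (nat_lit 531) (nat_lit 1551) (.d (nat_lit 558) (nat_lit 527) (nat_lit 1550) (nat_lit 557) (nat_lit 2573)))))) (.a (.f (nat_lit 624) (nat_lit 497) (nat_lit 6640) (.f (nat_lit 527) (nat_lit 495) (nat_lit 7663) (.f (nat_lit 559) (nat_lit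 656) (nat_lit 7695) (.d (nat_lit 530) (nat_lit 558) (nat_lit 1550) (nat_lit 563) (nat_lit 527))))) (.a (.f (nat_lit 624) (nat_lit 497) (nat_lit 6640) (.f (nat_lit 623) (nat_lit 655) (nat_lit 5647) (.f (nat_lit 591) (nat_lit 496) (nat_lit 5615) (.f (nat_lit 527) (nat_lit 495) (nat_lit 7663) (.f (nat_lit 559) (nat_lit 656) (nat_lit 7695) (.f (nat_lit 558) (nat_lit 557) (nat_lit 2573) (.f (nat_lit 593) (nat_lit 594) (nat_lit 3630) (.d (nat_lit 622) (nat_lit 621) (nat_lit 2637) (nat_lit 654) (nat_lit 5646))))))))) (.a s7751 (.a (.f (nat_lit 624) (nat_lit 497) (nat_lit 6640) (.f (nat_lit 495) (nat_lit 527) (nat_lit 7663) (.f (nat_lit 496) (nat_lit 463) (nat_lit 7631) (.d (nat_lit 623) (nat_lit 591) (nat_lit 5615) (nat_lit 655) (nat_lit 5647))))) (.f (nat_lit 624) (nat_lit 497) (nat_lit 6640) (.f (nat_lit 655) (nat_lit 623) (nat_lit 5647) (.f (nat_lit 656) (nat_lit 687) (nat_lit 5679) (.f (nat_lit 559) (nat_lit 527) (nat_lit 7695) (.f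 (nat_lit 688) (nat_lit 591) (nat_lit 7727) (.d (nat_lit 689) (nat_lit 657) (nat_lit 4656) (nat_lit 721) (nat_lit 4688))))))))))))))) (.a (.p (nat_lit 594) (.a (.p (nat_lit 593) (.a (.f (nat_lit 559) (nat_lit 595) (nat_lit 3631) (.d (nat_lit 558) (nat_lit 557) (nat_lit 557) (nat_lit 591) (nat_lit 3630))) (.a (.f (nat_lit 591) (nat_lit 563) (nat_lit 2607) (.f (nat_lit 626) (nat_lit 627) (nat_lit 591) (.f (nat_lit 625) (nat_lit 590) (nat_lit 590) (.d (nat_lit 657) (nat_lit 530) (nat_lit 5649) (nat_lit 689) (nat_lit 7728))))) (.f (nat_lit 595) (nat_lit 559) (nat_lit 3631) (.f (nat_lit 563) (nat_lit 564) (nat_lit 2608) (.f (nat_lit 627) (nat_lit 628) (nat_lit 592) (.d (nat_lit 659) (nat_lit 530) (nat_lit 7698) (nat_lit 691) (nat_lit 7730)))))))) (.a s3954 (.a (.p (nat_lit 624) (.a (.f (nat_lit 527) (nat_lit 495) (nat_lit 7663) (.f (nat_lit 656) (nat_lit 559) (nat_lit 7695) (.d (nat_lit 657) (nat_lit 625) (nat_lit 4624) (nat_lit 689)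 (nat_lit 4656)))) (.a (.f (nat_lit 657) (nat_lit 625) (nat_lit 4624) (.f (nat_lit 656) (nat_lit 689) (nat_lit 4656) (.f (nat_lit 687) (nat_lit 655) (nat_lit 5679) (.f (nat_lit 688) (nat_lit 719) (nat_lit 5711) (.f (nat_lit 659) (nat_lit 658) (nat_lit 1679) (.f (nat_lit 529) (nat_lit 497) (nat_lit 6640) (.f (nat_lit 559) (nat_lit 591) (nat_lit 7727) (.f (nat_lit 530) (nat_lit 531) (nat_lit 1551) (.f (nat_lit 627) (nat_lit 626) (nat_lit 4626) (.d (nat_lit 595) (nat_lit 498) (nat_lit 4594) (nat_lit 563) (nat_lit 7698))))))))))) (.a (.f (nat_lit 657) (nat_lit 625) (nat_lit 4624) (.f (nat_lit 656) (nat_lit 689) (nat_lit 4656) (.f (nat_lit 687) (nat_lit 655) (nat_lit 5679) (.f (nat_lit 688) (nat_lit 719) (nat_lit 5711) (.f (nat_lit 659) (nat_lit 658) (nat_lit 1679) (.f (nat_lit 495) (nat_lit 527) (nat_lit 7663) (.f (nat_lit 496) (nat_lit 463) (nat_lit 7631) (.f (nat_lit 529) (nat_lit 497) (nat_lit 6640) (.f (nat_lit 530) (nat_lit 531)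 (nat_lit 3567) (.f (nat_lit 627) (nat_lit 626) (nat_lit 4626) (.d (nat_lit 595) (nat_lit 498) (nat_lit 4594) (nat_lit 563) (nat_lit 7698)))))))))))) (.f (nat_lit 527) (nat_lit 495) (nat_lit 7663) (.f (nat_lit 529) (nat_lit 497) (nat_lit 6640) (.f (nat_lit 530) (nat_lit 563) (nat_lit 527) (.f (nat_lit 499) (nat_lit 498) (nat_lit 2543) (.d (nat_lit 531) (nat_lit 500) (nat_lit 2544) (nat_lit 626) (nat_lit 6642)))))))))) (.a (.p (nat_lit 496) (.a (.f (nat_lit 593) (nat_lit 625) (nat_lit 4592) (.f (nat_lit 559) (nat_lit 595) (nat_lit 3631) (.d (nat_lit 558) (nat_lit 557) (nat_lit 557) (nat_lit 591) (nat_lit 3630)))) (.a (.f (nat_lit 495) (nat_lit 463) (nat_lit 7631) (.f (nat_lit 624) (nat_lit 527) (nat_lit 7663) (.f (nat_lit 529) (nat_lit 497) (nat_lit 6640) (.f (nat_lit 530) (nat_lit 531) (nat_lit 3567) (.f (nat_lit 657) (nat_lit 625) (nat_lit 4624) (.f (nat_lit 656) (nat_lit 689) (nat_lit 4656) (.f (nat_lit 687) (nat_lit 655) (nat_lit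 5679) (.f (nat_lit 688) (nat_lit 719) (nat_lit 5711) (.f (nat_lit 659) (nat_lit 658) (nat_lit 1679) (.f (nat_lit 627) (nat_lit 626) (nat_lit 4626) (.d (nat_lit 595) (nat_lit 498) (nat_lit 4594) (nat_lit 691) (nat_lit 7730)))))))))))) (.a (.f (nat_lit 463) (nat_lit 495) (nat_lit 7631) (.f (nat_lit 464) (nat_lit 431) (nat_lit 7599) (.f (nat_lit 559) (nat_lit 591) (nat_lit 5583) (.f (nat_lit 432) (nat_lit 527) (nat_lit 5551) (.f (nat_lit 401) (nat_lit 433) (nat_lit 6544) (.f (nat_lit 400) (nat_lit 369) (nat_lit 6512) (.f (nat_lit 529) (nat_lit 497) (nat_lit 4496) (.f (nat_lit 530) (nat_lit 531) (nat_lit 1551) (.f (nat_lit 595) (nat_lit 593) (nat_lit 3631) (.f (nat_lit 627) (nat_lit 498) (nat_lit 4594) (.d (nat_lit 659) (nat_lit 626) (nat_lit 4626) (nat_lit 691) (nat_lit 7730)))))))))))) (.f (nat_lit 625) (nat_lit 593) (nat_lit 4592) (.f (nat_lit 624) (nat_lit 657) (nat_lit 4624) (.d (nat_lit 495) (nat_lit 463) (nat_lit 7631) (nat_lit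 527) (nat_lit 7663)))))))) (.a (.p (nat_lit 593) (.a (.f (nat_lit 591) (nat_lit 563) (nat_lit 2607) (.f (nat_lit 626) (nat_lit 627) (nat_lit 591) (.f (nat_lit 625) (nat_lit 590) (nat_lit 590) (.d (nat_lit 657) (nat_lit 530) (nat_lit 5649) (nat_lit 689) (nat_lit 7728))))) (.a (.f (nat_lit 563) (nat_lit 591) (nat_lit 2607) (.d (nat_lit 564) (nat_lit 565) (nat_lit 1585) (nat_lit 595) (nat_lit 2608))) (.f (nat_lit 625) (nat_lit 496) (nat_lit 4592) (.f (nat_lit 657) (nat_lit 689) (nat_lit 7728) (.d (nat_lit 530) (nat_lit 498) (nat_lit 5617) (nat_lit 626) (nat_lit 5649))))))) (.a (.p (nat_lit 593) (.a (.f (nat_lit 559) (nat_lit 595) (nat_lit 3631) (.d (nat_lit 558) (nat_lit 557) (nat_lit 557) (nat_lit 591) (nat_lit 3630))) (.a (.f (nat_lit 563) (nat_lit 591) (nat_lit 2607) (.d (nat_lit 564) (nat_lit 565) (nat_lit 1585) (nat_lit 595) (nat_lit 2608))) (.a (.f (nat_lit 595) (nat_lit 559) (nat_lit 3631) (.f (nat_lit 563) (nat_lit 564) (nat_lit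 2608) (.f (nat_lit 627) (nat_lit 628) (nat_lit 592) (.d (nat_lit 659) (nat_lit 530) (nat_lit 7698) (nat_lit 691) (nat_lit 7730))))) (.f (nat_lit 591) (nat_lit 563) (nat_lit 2607) (.f (nat_lit 559) (nat_lit 558) (nat_lit 3630) (.f (nat_lit 496) (nat_lit 464) (nat_lit 5583) (.f (nat_lit 495) (nat_lit 463) (nat_lit 7631) (.f (nat_lit 527) (nat_lit 624) (nat_lit 7663) (.f (nat_lit 494) (nat_lit 462) (nat_lit 7630) (.d (nat_lit 493) (nat_lit 492) (nat_lit 492) (nat_lit 529) (nat_lit 493)))))))))))) (.a (.p (nat_lit 593) (.a (.f (nat_lit 595) (nat_lit 559) (nat_lit 3631) (.f (nat_lit 563) (nat_lit 564) (nat_lit 2608) (.f (nat_lit 627) (nat_lit 628) (nat_lit 592) (.d (nat_lit 659) (nat_lit 530) (nat_lit 7698) (nat_lit 691) (nat_lit 7730))))) (.a (.f (nat_lit 595) (nat_lit 559) (nat_lit 3631) (.f (nat_lit 563) (nat_lit 564) (nat_lit 2608) (.f (nat_lit 627) (nat_lit 628) (nat_lit 592) (.f (nat_lit 659) (nat_lit 691) (nat_lit 7730) (.f (nat_lit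 658) (nat_lit 690) (nat_lit 5682) (.f (nat_lit 531) (nat_lit 626) (nat_lit 6674) (.f (nat_lit 499) (nat_lit 467) (nat_lit 5586) (.d (nat_lit 500) (nat_lit 468) (nat_lit 6611) (nat_lit 532) (nat_lit 6643))))))))) (.f (nat_lit 625) (nat_lit 496) (nat_lit 4592) (.f (nat_lit 657) (nat_lit 689) (nat_lit 7728) (.d (nat_lit 530) (nat_lit 498) (nat_lit 5617) (nat_lit 626) (nat_lit 5649))))))) (.p (nat_lit 496) (.a (.f (nat_lit 593) (nat_lit 625) (nat_lit 4592) (.f (nat_lit 591) (nat_lit 563) (nat_lit 2607) (.d (nat_lit 559) (nat_lit 464) (nat_lit 5583) (nat_lit 558) (nat_lit 3630)))) (.a (.f (nat_lit 625) (nat_lit 593) (nat_lit 4592) (.f (nat_lit 624) (nat_lit 657) (nat_lit 4624) (.d (nat_lit 495) (nat_lit 463) (nat_lit 7631) (nat_lit 527) (nat_lit 7663)))) (.f (nat_lit 463) (nat_lit 495) (nat_lit 7631) (.f (nat_lit 464) (nat_lit 431) (nat_lit 7599) (.f (nat_lit 559) (nat_lit 591) (nat_lit 5583) (.f (nat_lit 527) (nat_lit 432) (nat_lit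 5551) (.f (nat_lit 624) (nat_lit 656) (nat_lit 7695) (.f (nat_lit 529) (nat_lit 497) (nat_lit 6640) (.d (nat_lit 530) (nat_lit 531) (nat_lit 1551) (nat_lit 558) (nat_lit 1550))))))))))))))))))) (.a s7875 (.p (nat_lit 496) (.a (.f (nat_lit 591) (nat_lit 623) (nat_lit 5615) (.f (nat_lit 593) (nat_lit 625) (nat_lit 4592) (.f (nat_lit 559) (nat_lit 464) (nat_lit 5583) (.d (nat_lit 558) (nat_lit 557) (nat_lit 557) (nat_lit 594) (nat_lit 3630))))) (.a (.f (nat_lit 495) (nat_lit 463) (nat_lit 7631) (.f (nat_lit 624) (nat_lit 527) (nat_lit 7663) (.d (nat_lit 625) (nat_lit 593) (nat_lit 4592) (nat_lit 657) (nat_lit 4624)))) (.f (nat_lit 591) (nat_lit 623) (nat_lit 5615) (.f (nat_lit 464) (nat_lit 559) (nat_lit 5583) (.d (nat_lit 463) (nat_lit 431) (nat_lit 7599) (nat_lit 495) (nat_lit 7631)))))))))))))))) (.a s7244 (.a (.p (nat_lit 561) (.a (.f (nat_lit 563) (nat_lit 527) (nat_lit 3599) (.f (nat_lit 529) (nat_lit 564) (nat_lit 3600) (.f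 (nat_lit 531) (nat_lit 532) (nat_lit 2576) (.f (nat_lit 530) (nat_lit 559) (nat_lit 1551) (.f (nat_lit 499) (nat_lit 500) (nat_lit 2544) (.d (nat_lit 467) (nat_lit 435) (nat_lit 5554) (nat_lit 594) (nat_lit 5586))))))) (.a (.p (nat_lit 559) (.a (.f (nat_lit 594) (nat_lit 595) (nat_lit 559) (.f (nat_lit 530) (nat_lit 531) (nat_lit 2575) (.f (nat_lit 593) (nat_lit 558) (nat_lit 558) (.d (nat_lit 498) (nat_lit 466) (nat_lit 5585) (nat_lit 625) (nat_lit 5617))))) (.a (.f (nat_lit 591) (nat_lit 590) (nat_lit 1582) (.f (nat_lit 496) (nat_lit 464) (nat_lit 5583) (.f (nat_lit 594) (nat_lit 595) (nat_lit 559) (.f (nat_lit 593) (nat_lit 558) (nat_lit 558) (.d (nat_lit 625) (nat_lit 529) (nat_lit 7664) (nat_lit 657) (nat_lit 7696)))))) (.a (.f (nat_lit 530) (nat_lit 531) (nat_lit 2575) (.f (nat_lit 558) (nat_lit 529) (nat_lit 2574) (.d (nat_lit 590) (nat_lit 589) (nat_lit 1581) (nat_lit 591) (nat_lit 1582)))) (.f (nat_lit 531) (nat_lit 530)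 (nat_lit 2575) (.f (nat_lit 563) (nat_lit 532) (nat_lit 2576) (.d (nat_lit 595) (nat_lit 594) (nat_lit 559) (nat_lit 596) (nat_lit 560)))))))) (.a (.f (nat_lit 563) (nat_lit 527) (nat_lit 3599) (.f (nat_lit 595) (nat_lit 596) (nat_lit 560) (.f (nat_lit 531) (nat_lit 532) (nat_lit 2576) (.d (nat_lit 559) (nat_lit 530) (nat_lit 2575) (nat_lit 594) (nat_lit 559))))) (.a (.f (nat_lit 563) (nat_lit 527) (nat_lit 3599) (.f (nat_lit 564) (nat_lit 529) (nat_lit 3600) (.d (nat_lit 596) (nat_lit 595) (nat_lit 560) (nat_lit 597) (nat_lit 561)))) (.p (nat_lit 559) (.a (.f (nat_lit 594) (nat_lit 595) (nat_lit 559) (.f (nat_lit 530) (nat_lit 531) (nat_lit 2575) (.f (nat_lit 593) (nat_lit 558) (nat_lit 558) (.d (nat_lit 498) (nat_lit 466) (nat_lit 5585) (nat_lit 625) (nat_lit 5617))))) (.a (.f (nat_lit 591) (nat_lit 590) (nat_lit 1582) (.f (nat_lit 496) (nat_lit 464) (nat_lit 5583) (.f (nat_lit 594) (nat_lit 595) (nat_lit 559) (.f (nat_lit 593)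 (nat_lit 558) (nat_lit 558) (.d (nat_lit 625) (nat_lit 529) (nat_lit 7664) (nat_lit 657) (nat_lit 7696)))))) (.a (.f (nat_lit 530) (nat_lit 531) (nat_lit 2575) (.f (nat_lit 558) (nat_lit 529) (nat_lit 2574) (.d (nat_lit 590) (nat_lit 589) (nat_lit 1581) (nat_lit 591) (nat_lit 1582)))) (.f (nat_lit 591) (nat_lit 590) (nat_lit 1582) (.f (nat_lit 496) (nat_lit 464) (nat_lit 5583) (.d (nat_lit 623) (nat_lit 527) (nat_lit 6639) (nat_lit 655) (nat_lit 6671))))))))))))) (.a (.p (nat_lit 592) (.a s3034 (.a s7635 (.a (.p (nat_lit 496) (.a (.f (nat_lit 591) (nat_lit 623) (nat_lit 5615) (.f (nat_lit 593) (nat_lit 625) (nat_lit 4592) (.f (nat_lit 559) (nat_lit 464) (nat_lit 5583) (.d (nat_lit 558) (nat_lit 557) (nat_lit 557) (nat_lit 594) (nat_lit 3630))))) (.a (.f (nat_lit 495) (nat_lit 463) (nat_lit 7631) (.f (nat_lit 624) (nat_lit 527) (nat_lit 7663) (.d (nat_lit 623) (nat_lit 591) (nat_lit 5615) (nat_lit 655) (nat_lit 5647)))) (.f (nat_lit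 495) (nat_lit 463) (nat_lit 7631) (.f (nat_lit 624) (nat_lit 527) (nat_lit 7663) (.d (nat_lit 625) (nat_lit 593) (nat_lit 4592) (nat_lit 657) (nat_lit 4624))))))) (.a s3056 (.a s3362 (.a s3374 s7291))))))) (.a (.p (nat_lit 496) (.a s3206 (.a (.p (nat_lit 592) (.a (.f (nat_lit 591) (nat_lit 623) (nat_lit 5615) (.f (nat_lit 593) (nat_lit 625) (nat_lit 4592) (.f (nat_lit 559) (nat_lit 464) (nat_lit 5583) (.d (nat_lit 558) (nat_lit 557) (nat_lit 557) (nat_lit 594) (nat_lit 3630))))) (.a (.f (nat_lit 495) (nat_lit 463) (nat_lit 7631) (.f (nat_lit 624) (nat_lit 527) (nat_lit 7663) (.d (nat_lit 623) (nat_lit 591) (nat_lit 5615) (nat_lit 655) (nat_lit 5647)))) (.f (nat_lit 495) (nat_lit 463) (nat_lit 7631) (.f (nat_lit 624) (nat_lit 527) (nat_lit 7663) (.d (nat_lit 625) (nat_lit 593) (nat_lit 4592) (nat_lit 657) (nat_lit 4624))))))) (.a (.p (nat_lit 561) (.a (.f (nat_lit 563) (nat_lit 527) (nat_lit 3599) (.f (nat_lit 564) (nat_lit 529)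 (nat_lit 3600) (.d (nat_lit 532) (nat_lit 531) (nat_lit 2576) (nat_lit 533) (nat_lit 2577)))) (.a (.f (nat_lit 464) (nat_lit 593) (nat_lit 4560) (.f (nat_lit 432) (nat_lit 529) (nat_lit 4528) (.d (nat_lit 431) (nat_lit 399) (nat_lit 7567) (nat_lit 463) (nat_lit 7599)))) (.f (nat_lit 464) (nat_lit 593) (nat_lit 4560) (.f (nat_lit 559) (nat_lit 591) (nat_lit 5583) (.f (nat_lit 432) (nat_lit 527) (nat_lit 5551) (.d (nat_lit 431) (nat_lit 399) (nat_lit 7567) (nat_lit 463) (nat_lit 7599)))))))) (.a (.p (nat_lit 592) (.a (.f (nat_lit 591) (nat_lit 623) (nat_lit 5615) (.f (nat_lit 561) (nat_lit 563) (nat_lit 1583) (.d (nat_lit 590) (nat_lit 559) (nat_lit 1582) (nat_lit 589) (nat_lit 2605)))) (.a (.f (nat_lit 495) (nat_lit 463) (nat_lit 7631) (.f (nat_lit 624) (nat_lit 527) (nat_lit 7663) (.d (nat_lit 623) (nat_lit 591) (nat_lit 5615) (nat_lit 655) (nat_lit 5647)))) (.f (nat_lit 495) (nat_lit 463) (nat_lit 7631) (.f (nat_lit 624) (nat_lit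 527) (nat_lit 7663) (.d (nat_lit 625) (nat_lit 593) (nat_lit 4592) (nat_lit 657) (nat_lit 4624))))))) (.a s3290 (.a (.p (nat_lit 592) (.a (.f (nat_lit 593) (nat_lit 625) (nat_lit 4592) (.f (nat_lit 561) (nat_lit 464) (nat_lit 4560) (.d (nat_lit 563) (nat_lit 564) (nat_lit 1584) (nat_lit 591) (nat_lit 1583)))) (.a (.f (nat_lit 495) (nat_lit 463) (nat_lit 7631) (.f (nat_lit 624) (nat_lit 527) (nat_lit 7663) (.d (nat_lit 623) (nat_lit 591) (nat_lit 5615) (nat_lit 655) (nat_lit 5647)))) (.f (nat_lit 593) (nat_lit 625) (nat_lit 4592) (.f (nat_lit 561) (nat_lit 464) (nat_lit 4560) (.d (nat_lit 563) (nat_lit 527) (nat_lit 3599) (nat_lit 564) (nat_lit 1584))))))) (.p (nat_lit 592) (.a (.f (nat_lit 593) (nat_lit 625) (nat_lit 4592) (.f (nat_lit 561) (nat_lit 464) (nat_lit 4560) (.d (nat_lit 563) (nat_lit 527) (nat_lit 3599) (nat_lit 564) (nat_lit 1584)))) (.a (.f (nat_lit 593) (nat_lit 625) (nat_lit 4592) (.f (nat_lit 561) (nat_lit 464)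 (nat_lit 4560) (.f (nat_lit 563) (nat_lit 564) (nat_lit 1584) (.f (nat_lit 595) (nat_lit 596) (nat_lit 560) (.f (nat_lit 594) (nat_lit 559) (nat_lit 559) (.f (nat_lit 531) (nat_lit 532) (nat_lit 2576) (.d (nat_lit 499) (nat_lit 467) (nat_lit 5586) (nat_lit 626) (nat_lit 5618)))))))) (.a (.f (nat_lit 495) (nat_lit 463) (nat_lit 7631) (.f (nat_lit 624) (nat_lit 527) (nat_lit 7663) (.d (nat_lit 625) (nat_lit 593) (nat_lit 4592) (nat_lit 657) (nat_lit 4624)))) (.a (.f (nat_lit 495) (nat_lit 463) (nat_lit 7631) (.f (nat_lit 624) (nat_lit 527) (nat_lit 7663) (.f (nat_lit 655) (nat_lit 623) (nat_lit 5647) (.f (nat_lit 656) (nat_lit 687) (nat_lit 5679) (.d (nat_lit 657) (nat_lit 625) (nat_lit 4624) (nat_lit 689) (nat_lit 4656)))))) (.f (nat_lit 495) (nat_lit 463) (nat_lit 7631) (.f (nat_lit 527) (nat_lit 624) (nat_lit 7663) (.f (nat_lit 561) (nat_lit 563) (nat_lit 3599) (.f (nat_lit 464) (nat_lit 593) (nat_lit 4560) (.d (nat_lit 432) (nat_lit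 400) (nat_lit 5519) (nat_lit 529) (nat_lit 4528)))))))))))))))))) (.a s7917 (.a (.p (nat_lit 496) (.a (.p (nat_lit 592) (.a (.f (nat_lit 591) (nat_lit 623) (nat_lit 5615) (.f (nat_lit 593) (nat_lit 625) (nat_lit 4592) (.f (nat_lit 559) (nat_lit 464) (nat_lit 5583) (.d (nat_lit 558) (nat_lit 557) (nat_lit 557) (nat_lit 594) (nat_lit 3630))))) (.a (.f (nat_lit 495) (nat_lit 463) (nat_lit 7631) (.f (nat_lit 624) (nat_lit 527) (nat_lit 7663) (.d (nat_lit 623) (nat_lit 591) (nat_lit 5615) (nat_lit 655) (nat_lit 5647)))) (.f (nat_lit 495) (nat_lit 463) (nat_lit 7631) (.f (nat_lit 624) (nat_lit 527) (nat_lit 7663) (.d (nat_lit 625) (nat_lit 593) (nat_lit 4592) (nat_lit 657) (nat_lit 4624))))))) (.a s7918 (.a (.p (nat_lit 464) (.a (.f (nat_lit 561) (nat_lit 593) (nat_lit 4560) (.f (nat_lit 529) (nat_lit 432) (nat_lit 4528) (.f (nat_lit 559) (nat_lit 591) (nat_lit 5583) (.d (nat_lit 530) (nat_lit 531) (nat_lit 2575) (nat_lit 558) (nat_lit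 2574))))) (.a (.f (nat_lit 559) (nat_lit 591) (nat_lit 5583) (.f (nat_lit 432) (nat_lit 527) (nat_lit 5551) (.d (nat_lit 431) (nat_lit 399) (nat_lit 7567) (nat_lit 463) (nat_lit 7599)))) (.a (.f (nat_lit 431) (nat_lit 463) (nat_lit 7599) (.f (nat_lit 432) (nat_lit 399) (nat_lit 7567) (.f (nat_lit 529) (nat_lit 561) (nat_lit 4528) (.f (nat_lit 400) (nat_lit 497) (nat_lit 4496) (.d (nat_lit 401) (nat_lit 369) (nat_lit 6512) (nat_lit 433) (nat_lit 6544)))))) (.f (nat_lit 559) (nat_lit 591) (nat_lit 5583) (.f (nat_lit 561) (nat_lit 593) (nat_lit 4560) (.f (nat_lit 530) (nat_lit 531) (nat_lit 2575) (.f (nat_lit 529) (nat_lit 558) (nat_lit 2574) (.f (nat_lit 594) (nat_lit 595) (nat_lit 559) (.d (nat_lit 626) (nat_lit 497) (nat_lit 7665) (nat_lit 658) (nat_lit 7697))))))))))) (.a (.p (nat_lit 592) (.a (.f (nat_lit 495) (nat_lit 463) (nat_lit 7631) (.f (nat_lit 624) (nat_lit 527) (nat_lit 7663) (.d (nat_lit 623) (nat_lit 591) (nat_lit 5615)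 (nat_lit 655) (nat_lit 5647)))) (.a (.f (nat_lit 591) (nat_lit 623) (nat_lit 5615) (.f (nat_lit 593) (nat_lit 625) (nat_lit 4592) (.f (nat_lit 590) (nat_lit 561) (nat_lit 2606) (.f (nat_lit 557) (nat_lit 558) (nat_lit 3629) (.f (nat_lit 589) (nat_lit 556) (nat_lit 3628) (.d (nat_lit 621) (nat_lit 620) (nat_lit 1612) (nat_lit 622) (nat_lit 1613))))))) (.f (nat_lit 495) (nat_lit 463) (nat_lit 7631) (.f (nat_lit 624) (nat_lit 527) (nat_lit 7663) (.d (nat_lit 625) (nat_lit 593) (nat_lit 4592) (nat_lit 657) (nat_lit 4624))))))) (.a s7948 (.a s7959 s7967))))))) (.a (.p (nat_lit 592) (.a s3034 (.a s7635 (.a s3235 (.a (.p (nat_lit 496) (.a (.f (nat_lit 593) (nat_lit 625) (nat_lit 4592) (.f (nat_lit 561) (nat_lit 464) (nat_lit 4560) (.d (nat_lit 563) (nat_lit 564) (nat_lit 1584) (nat_lit 591) (nat_lit 1583)))) (.a (.f (nat_lit 495) (nat_lit 463) (nat_lit 7631) (.f (nat_lit 624) (nat_lit 527) (nat_lit 7663) (.d (nat_lit 623) (nat_lit 591)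 (nat_lit 5615) (nat_lit 655) (nat_lit 5647)))) (.f (nat_lit 593) (nat_lit 625) (nat_lit 4592) (.f (nat_lit 561) (nat_lit 464) (nat_lit 4560) (.d (nat_lit 563) (nat_lit 527) (nat_lit 3599) (nat_lit 564) (nat_lit 1584))))))) (.a (.p (nat_lit 591) (.a (.f (nat_lit 561) (nat_lit 563) (nat_lit 1583) (.d (nat_lit 590) (nat_lit 559) (nat_lit 1582) (nat_lit 589) (nat_lit 2605))) (.a (.f (nat_lit 623) (nat_lit 496) (nat_lit 5615) (.d (nat_lit 655) (nat_lit 559) (nat_lit 6671) (nat_lit 687) (nat_lit 6703))) (.f (nat_lit 496) (nat_lit 623) (nat_lit 5615) (.f (nat_lit 593) (nat_lit 625) (nat_lit 4592) (.f (nat_lit 590) (nat_lit 561) (nat_lit 2606) (.f (nat_lit 557) (nat_lit 558) (nat_lit 3629) (.f (nat_lit 589) (nat_lit 556) (nat_lit 3628) (.d (nat_lit 621) (nat_lit 620) (nat_lit 1612) (nat_lit 622) (nat_lit 1613)))))))))) (.a (.p (nat_lit 496) (.a (.f (nat_lit 495) (nat_lit 463) (nat_lit 7631) (.f (nat_lit 624) (nat_lit 527) (nat_lit 7663)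 (.d (nat_lit 623) (nat_lit 591) (nat_lit 5615) (nat_lit 655) (nat_lit 5647)))) (.a (.f (nat_lit 591) (nat_lit 623) (nat_lit 5615) (.f (nat_lit 593) (nat_lit 625) (nat_lit 4592) (.f (nat_lit 590) (nat_lit 561) (nat_lit 2606) (.f (nat_lit 557) (nat_lit 558) (nat_lit 3629) (.f (nat_lit 589) (nat_lit 556) (nat_lit 3628) (.d (nat_lit 621) (nat_lit 620) (nat_lit 1612) (nat_lit 622) (nat_lit 1613))))))) (.f (nat_lit 495) (nat_lit 463) (nat_lit 7631) (.f (nat_lit 624) (nat_lit 527) (nat_lit 7663) (.d (nat_lit 625) (nat_lit 593) (nat_lit 4592) (nat_lit 657) (nat_lit 4624))))))) s3374))))))) (.a s8112 (.a s8127 (.a s8133 (.p (nat_lit 592) (.a s3034 (.a s7635 (.a (.p (nat_lit 624) (.a (.f (nat_lit 527) (nat_lit 495) (nat_lit 7663) (.f (nat_lit 656) (nat_lit 559) (nat_lit 7695) (.d (nat_lit 655) (nat_lit 623) (nat_lit 5647) (nat_lit 687) (nat_lit 5679)))) (.a (.f (nat_lit 655) (nat_lit 623) (nat_lit 5647) (.f (nat_lit 656) (nat_lit 687) (nat_lit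 5679) (.d (nat_lit 657) (nat_lit 625) (nat_lit 4624) (nat_lit 689) (nat_lit 4656)))) (.a (.f (nat_lit 527) (nat_lit 495) (nat_lit 7663) (.f (nat_lit 656) (nat_lit 559) (nat_lit 7695) (.d (nat_lit 657) (nat_lit 625) (nat_lit 4624) (nat_lit 689) (nat_lit 4656)))) (.f (nat_lit 625) (nat_lit 657) (nat_lit 4624) (.f (nat_lit 593) (nat_lit 496) (nat_lit 4592) (.f (nat_lit 623) (nat_lit 655) (nat_lit 5647) (.d (nat_lit 594) (nat_lit 595) (nat_lit 1615) (nat_lit 622) (nat_lit 2638))))))))) (.a (.p (nat_lit 591) (.a (.f (nat_lit 561) (nat_lit 563) (nat_lit 1583) (.d (nat_lit 590) (nat_lit 559) (nat_lit 1582) (nat_lit 589) (nat_lit 2605))) (.a (.f (nat_lit 623) (nat_lit 496) (nat_lit 5615) (.d (nat_lit 655) (nat_lit 559) (nat_lit 6671) (nat_lit 687) (nat_lit 6703))) (.f (nat_lit 561) (nat_lit 563) (nat_lit 1583) (.d (nat_lit 590) (nat_lit 589) (nat_lit 2605) (nat_lit 593) (nat_lit 2606)))))) (.a s3362 s3374)))))))))))))))))))))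
noncomputable def s8163 : Cert := .r (nat_lit 81045225958480856146645701540456263855217792666684435255267110367315112115556477719537176679309147682040711374423103096786513067199516370940841931200313517922355878762597855526912) (.p (nat_lit 624) (.a (.f (nat_lit 623) (nat_lit 655) (nat_lit 5647) (.f (nat_lit 593) (nat_lit 595) (nat_lit 1615) (.d (nat_lit 622) (nat_lit 591) (nat_lit 1614) (nat_lit 621) (nat_lit 2637)))) (.a (.f (nat_lit 623) (nat_lit 655) (nat_lit 5647) (.f (nat_lit 625) (nat_lit 657) (nat_lit 4624) (.f (nat_lit 626) (nat_lit 595) (nat_lit 2639) (.d (nat_lit 591) (nat_lit 590) (nat_lit 3662) (nat_lit 627) (nat_lit 3663))))) (.a (.f (nat_lit 657) (nat_lit 625) (nat_lit 4624) (.f (nat_lit 656) (nat_lit 689) (nat_lit 4656) (.f (nat_lit 559) (nat_lit 527) (nat_lit 7695) (.f (nat_lit 593) (nat_lit 595) (nat_lit 3631) (.d (nat_lit 558) (nat_lit 557) (nat_lit 557) (nat_lit 591) (nat_lit 3630)))))) (.a (.f (nat_lit 623) (nat_lit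 655) (nat_lit 5647) (.f (nat_lit 593) (nat_lit 595) (nat_lit 1615) (.d (nat_lit 622) (nat_lit 621) (nat_lit 2637) (nat_lit 625) (nat_lit 2638)))) (.f (nat_lit 623) (nat_lit 655) (nat_lit 5647) (.f (nat_lit 625) (nat_lit 657) (nat_lit 4624) (.f (nat_lit 622) (nat_lit 593) (nat_lit 2638) (.f (nat_lit 589) (nat_lit 590) (nat_lit 3661) (.f (nat_lit 621) (nat_lit 588) (nat_lit 3660) (.d (nat_lit 653) (nat_lit 652) (nat_lit 1644) (nat_lit 654) (nat_lit 1645))))))))))))
noncomputable def s8196 : Cert := .r (nat_lit 81045225958480856146645701540456263855217792666684435255267110367315112115556477719537176679309147682040711374423103096786513067199516370940841931200313517922355878762597855526912) (.p (nat_lit 624) (.a (.f (nat_lit 623) (nat_lit 655) (nat_lit 5647) (.f (nat_lit 593) (nat_lit 595) (nat_lit 1615) (.d (nat_lit 622) (nat_lit 591) (nat_lit 1614) (nat_lit 621) (nat_lit 2637)))) (.a (.f (nat_lit 623) (nat_lit 655) (nat_lit 5647) (.f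 (nat_lit 625) (nat_lit 657) (nat_lit 4624) (.f (nat_lit 626) (nat_lit 595) (nat_lit 2639) (.d (nat_lit 591) (nat_lit 590) (nat_lit 3662) (nat_lit 627) (nat_lit 3663))))) (.a (.f (nat_lit 625) (nat_lit 657) (nat_lit 4624) (.f (nat_lit 593) (nat_lit 496) (nat_lit 4592) (.f (nat_lit 595) (nat_lit 596) (nat_lit 1616) (.f (nat_lit 627) (nat_lit 628) (nat_lit 592) (.f (nat_lit 626) (nat_lit 591) (nat_lit 591) (.f (nat_lit 563) (nat_lit 564) (nat_lit 2608) (.d (nat_lit 531) (nat_lit 499) (nat_lit 5618) (nat_lit 658) (nat_lit 5650)))))))) (.a (.f (nat_lit 623) (nat_lit 655) (nat_lit 5647) (.f (nat_lit 593) (nat_lit 595) (nat_lit 1615) (.d (nat_lit 622) (nat_lit 621) (nat_lit 2637) (nat_lit 625) (nat_lit 2638)))) (.f (nat_lit 623) (nat_lit 655) (nat_lit 5647) (.f (nat_lit 625) (nat_lit 657) (nat_lit 4624) (.f (nat_lit 622) (nat_lit 593) (nat_lit 2638) (.f (nat_lit 589) (nat_lit 590) (nat_lit 3661) (.f (nat_lit 621) (nat_lit 588) (nat_lit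 3660) (.d (nat_lit 653) (nat_lit 652) (nat_lit 1644) (nat_lit 654) (nat_lit 1645))))))))))))
noncomputable def s8222 : Cert := .r (nat_lit 81045225958480856146645701540456263855217792666684435255267110367315112115556477719537176679309147682040711374423103096786513067199516370940841931200313517922355878762597855526912) (.p (nat_lit 496) (.a (.f (nat_lit 593) (nat_lit 625) (nat_lit 4592) (.f (nat_lit 559) (nat_lit 595) (nat_lit 3631) (.d (nat_lit 558) (nat_lit 557) (nat_lit 557) (nat_lit 591) (nat_lit 3630)))) (.a (.f (nat_lit 497) (nat_lit 465) (nat_lit 6608) (.f (nat_lit 624) (nat_lit 529) (nat_lit 6640) (.f (nat_lit 657) (nat_lit 625) (nat_lit 4624) (.f (nat_lit 656) (nat_lit 689) (nat_lit 4656) (.f (nat_lit 559) (nat_lit 527) (nat_lit 7695) (.d (nat_lit 591) (nat_lit 464) (nat_lit 5583) (nat_lit 688) (nat_lit 7727))))))) (.a (.f (nat_lit 497) (nat_lit 465) (nat_lit 6608) (.f (nat_lit 624) (nat_lit 529) (nat_lit 6640) (.d (nat_lit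 625) (nat_lit 593) (nat_lit 4592) (nat_lit 657) (nat_lit 4624)))) (.f (nat_lit 465) (nat_lit 497) (nat_lit 6608) (.f (nat_lit 464) (nat_lit 433) (nat_lit 6576) (.f (nat_lit 559) (nat_lit 591) (nat_lit 5583) (.f (nat_lit 431) (nat_lit 463) (nat_lit 7599) (.d (nat_lit 432) (nat_lit 399) (nat_lit 7567) (nat_lit 527) (nat_lit 5551))))))))))
noncomputable def s8230 : Cert := .r (nat_lit 81045225958480856146645701540456263855217792666684435255267110367315112115556477719537176679309147682040711374423103096786513067199516370940841931200313517922355878762597855526912) (.p (nat_lit 496) (.a (.f (nat_lit 593) (nat_lit 625) (nat_lit 4592) (.f (nat_lit 591) (nat_lit 623) (nat_lit 5615) (.d (nat_lit 559) (nat_lit 464) (nat_lit 5583) (nat_lit 558) (nat_lit 3630)))) (.a (.f (nat_lit 497) (nat_lit 465) (nat_lit 6608) (.f (nat_lit 624) (nat_lit 529) (nat_lit 6640) (.d (nat_lit 623) (nat_lit 591) (nat_lit 5615) (nat_lit 655) (nat_lit 5647)))) (.a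 (.f (nat_lit 497) (nat_lit 465) (nat_lit 6608) (.f (nat_lit 624) (nat_lit 529) (nat_lit 6640) (.f (nat_lit 657) (nat_lit 625) (nat_lit 4624) (.f (nat_lit 656) (nat_lit 689) (nat_lit 4656) (.f (nat_lit 559) (nat_lit 527) (nat_lit 7695) (.d (nat_lit 591) (nat_lit 464) (nat_lit 5583) (nat_lit 688) (nat_lit 7727))))))) (.f (nat_lit 497) (nat_lit 465) (nat_lit 6608) (.f (nat_lit 624) (nat_lit 529) (nat_lit 6640) (.f (nat_lit 655) (nat_lit 623) (nat_lit 5647) (.f (nat_lit 656) (nat_lit 687) (nat_lit 5679) (.d (nat_lit 657) (nat_lit 625) (nat_lit 4624) (nat_lit 689) (nat_lit 4656))))))))))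
noncomputable def s8326 : Cert := .r (nat_lit 81045225958480856146645701540456263855217792666684435255267110367315112115556477719537176679309147682040711374423103096786513067199516370940841931200313517922355878762597855526912) (.p (nat_lit 496) (.a (.f (nat_lit 593) (nat_lit 625) (nat_lit 4592) (.f (nat_lit 591) (nat_lit 623) (nat_lit 5615) (.d (nat_lit 559) (nat_lit 464) (nat_lit 5583) (nat_lit 558) (nat_lit 3630)))) (.a (.f (nat_lit 593) (nat_lit 625) (nat_lit 4592) (.f (nat_lit 591) (nat_lit 623) (nat_lit 5615) (.d (nat_lit 559) (nat_lit 558) (nat_lit 3630) (nat_lit 595) (nat_lit 3631)))) (.a (.f (nat_lit 465) (nat_lit 497) (nat_lit 6608) (.f (nat_lit 464) (nat_lit 433) (nat_lit 6576) (.d (nat_lit 591) (nat_lit 559) (nat_lit 5583) (nat_lit 623) (nat_lit 5615)))) (.a (.f (nat_lit 593) (nat_lit 625) (nat_lit 4592) (.f (nat_lit 623) (nat_lit 591) (nat_lit 5615) (.d (nat_lit 624) (nat_lit 595) (nat_lit 1615) (nat_lit 655) (nat_lit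 5647)))) (.a (.f (nat_lit 593) (nat_lit 625) (nat_lit 4592) (.f (nat_lit 559) (nat_lit 595) (nat_lit 3631) (.d (nat_lit 558) (nat_lit 557) (nat_lit 557) (nat_lit 591) (nat_lit 3630)))) (.f (nat_lit 593) (nat_lit 625) (nat_lit 4592) (.f (nat_lit 595) (nat_lit 559) (nat_lit 3631) (.f (nat_lit 564) (nat_lit 563) (nat_lit 2608) (.f (nat_lit 596) (nat_lit 565) (nat_lit 2609) (.d (nat_lit 628) (nat_lit 627) (nat_lit 592) (nat_lit 629) (nat_lit 593))))))))))))
noncomputable def s8332 : Cert := .r (nat_lit 81045225958480856146645701540456263855217792666684435255267110367315112115556477719537176679309147682040711374423103096786513067199516370940841931200313517922355878762597855526912) (.p (nat_lit 496) (.a (.f (nat_lit 593) (nat_lit 625) (nat_lit 4592) (.f (nat_lit 559) (nat_lit 595) (nat_lit 3631) (.d (nat_lit 558) (nat_lit 557) (nat_lit 557) (nat_lit 591) (nat_lit 3630)))) (.a (.f (nat_lit 465) (nat_lit 497) (nat_lit 6608) (.f (nat_lit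 464) (nat_lit 433) (nat_lit 6576) (.f (nat_lit 559) (nat_lit 591) (nat_lit 5583) (.f (nat_lit 431) (nat_lit 463) (nat_lit 7599) (.d (nat_lit 432) (nat_lit 399) (nat_lit 7567) (nat_lit 527) (nat_lit 5551)))))) (.a (.f (nat_lit 593) (nat_lit 625) (nat_lit 4592) (.f (nat_lit 561) (nat_lit 464) (nat_lit 4560) (.f (nat_lit 595) (nat_lit 596) (nat_lit 3632) (.f (nat_lit 563) (nat_lit 564) (nat_lit 2608) (.d (nat_lit 562) (nat_lit 527) (nat_lit 3599) (nat_lit 591) (nat_lit 1583)))))) (.f (nat_lit 593) (nat_lit 625) (nat_lit 4592) (.f (nat_lit 595) (nat_lit 559) (nat_lit 3631) (.f (nat_lit 564) (nat_lit 563) (nat_lit 2608) (.f (nat_lit 596) (nat_lit 565) (nat_lit 2609) (.d (nat_lit 628) (nat_lit 627) (nat_lit 592) (nat_lit 629) (nat_lit 593))))))))))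
noncomputable def s8347 : Cert := .r (nat_lit 81045225958480856146645701540456263855217792666684435255267110367315112115556477719537176679309147682040711374423103096786513067199516370940841931200313517922355878762597855526912) (.p (nat_lit 496) (.a (.f (nat_lit 593) (nat_lit 625) (nat_lit 4592) (.f (nat_lit 591) (nat_lit 623) (nat_lit 5615) (.d (nat_lit 559) (nat_lit 464) (nat_lit 5583) (nat_lit 558) (nat_lit 3630)))) (.a (.f (nat_lit 591) (nat_lit 623) (nat_lit 5615) (.f (nat_lit 593) (nat_lit 625) (nat_lit 4592) (.f (nat_lit 559) (nat_lit 558) (nat_lit 3630) (.f (nat_lit 562) (nat_lit 563) (nat_lit 2607) (.f (nat_lit 590) (nat_lit 561) (nat_lit 1582) (.f (nat_lit 589) (nat_lit 588) (nat_lit 2604) (.d (nat_lit 621) (nat_lit 620) (nat_lit 1612) (nat_lit 622) (nat_lit 1613)))))))) (.a (.f (nat_lit 465) (nat_lit 497) (nat_lit 6608) (.f (nat_lit 464) (nat_lit 433) (nat_lit 6576) (.d (nat_lit 591) (nat_lit 559) (nat_lit 5583) (nat_lit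 623) (nat_lit 5615)))) (.a (.f (nat_lit 593) (nat_lit 625) (nat_lit 4592) (.f (nat_lit 591) (nat_lit 623) (nat_lit 5615) (.f (nat_lit 561) (nat_lit 464) (nat_lit 4560) (.d (nat_lit 562) (nat_lit 563) (nat_lit 2607) (nat_lit 590) (nat_lit 2606))))) (.a (.f (nat_lit 465) (nat_lit 497) (nat_lit 6608) (.f (nat_lit 464) (nat_lit 433) (nat_lit 6576) (.f (nat_lit 559) (nat_lit 591) (nat_lit 5583) (.f (nat_lit 431) (nat_lit 463) (nat_lit 7599) (.d (nat_lit 432) (nat_lit 399) (nat_lit 7567) (nat_lit 527) (nat_lit 5551)))))) (.f (nat_lit 593) (nat_lit 625) (nat_lit 4592) (.f (nat_lit 464) (nat_lit 561) (nat_lit 4560) (.d (nat_lit 465) (nat_lit 433) (nat_lit 6576) (nat_lit 497) (nat_lit 6608))))))))))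
noncomputable def s8383 : Cert := .r (nat_lit 81045225958480856146645701540456263855217792666684435255267110367315112115556477719537176679309147682040711374423103096786513067199516370940841931200313517922355878762597855526912) (.p (nat_lit 496) (.a (.f (nat_lit 593) (nat_lit 625) (nat_lit 4592) (.f (nat_lit 591) (nat_lit 623) (nat_lit 5615) (.d (nat_lit 559) (nat_lit 464) (nat_lit 5583) (nat_lit 558) (nat_lit 3630)))) (.a (.f (nat_lit 593) (nat_lit 625) (nat_lit 4592) (.f (nat_lit 591) (nat_lit 623) (nat_lit 5615) (.d (nat_lit 559) (nat_lit 558) (nat_lit 3630) (nat_lit 595) (nat_lit 3631)))) (.a (.f (nat_lit 465) (nat_lit 497) (nat_lit 6608) (.f (nat_lit 464) (nat_lit 433) (nat_lit 6576) (.d (nat_lit 591) (nat_lit 559) (nat_lit 5583) (nat_lit 623) (nat_lit 5615)))) (.a (.f (nat_lit 497) (nat_lit 465) (nat_lit 6608) (.f (nat_lit 624) (nat_lit 529) (nat_lit 6640) (.d (nat_lit 623) (nat_lit 591) (nat_lit 5615) (nat_lit 655) (nat_lit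 5647)))) (.a (.f (nat_lit 593) (nat_lit 625) (nat_lit 4592) (.f (nat_lit 559) (nat_lit 595) (nat_lit 3631) (.d (nat_lit 558) (nat_lit 557) (nat_lit 557) (nat_lit 591) (nat_lit 3630)))) (.f (nat_lit 593) (nat_lit 625) (nat_lit 4592) (.f (nat_lit 595) (nat_lit 559) (nat_lit 3631) (.f (nat_lit 564) (nat_lit 563) (nat_lit 2608) (.f (nat_lit 596) (nat_lit 565) (nat_lit 2609) (.d (nat_lit 628) (nat_lit 627) (nat_lit 592) (nat_lit 629) (nat_lit 593))))))))))))
noncomputable def s8390 : Cert := .r (nat_lit 81045225958480856146645701540456263855217792666684435255267110367315112115556477719537176679309147682040711374423103096786513067199516370940841931200313517922355878762597855526912) (.p (nat_lit 496) (.a (.f (nat_lit 593) (nat_lit 625) (nat_lit 4592) (.f (nat_lit 591) (nat_lit 623) (nat_lit 5615) (.d (nat_lit 559) (nat_lit 464) (nat_lit 5583) (nat_lit 558) (nat_lit 3630)))) (.a (.f (nat_lit 593) (nat_lit 625) (nat_lit 4592) (.f (nat_lit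 591) (nat_lit 623) (nat_lit 5615) (.d (nat_lit 559) (nat_lit 558) (nat_lit 3630) (nat_lit 595) (nat_lit 3631)))) (.a (.f (nat_lit 465) (nat_lit 497) (nat_lit 6608) (.f (nat_lit 464) (nat_lit 433) (nat_lit 6576) (.d (nat_lit 591) (nat_lit 559) (nat_lit 5583) (nat_lit 623) (nat_lit 5615)))) (.f (nat_lit 593) (nat_lit 625) (nat_lit 4592) (.f (nat_lit 464) (nat_lit 561) (nat_lit 4560) (.d (nat_lit 465) (nat_lit 433) (nat_lit 6576) (nat_lit 497) (nat_lit 6608))))))))
noncomputable def s8440 : Cert := .r (nat_lit 81045225958480856146645701540456263855217792666684435255267110367315112115556477719537176679309147682040711374423103096786513067199516370940841931200313517922355878762597855526912) (.p (nat_lit 624) (.a (.f (nat_lit 529) (nat_lit 497) (nat_lit 6640) (.f (nat_lit 656) (nat_lit 561) (nat_lit 6672) (.d (nat_lit 657) (nat_lit 625) (nat_lit 4624) (nat_lit 689) (nat_lit 4656)))) (.a (.f (nat_lit 625) (nat_lit 657) (nat_lit 4624) (.f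 (nat_lit 593) (nat_lit 496) (nat_lit 4592) (.f (nat_lit 595) (nat_lit 596) (nat_lit 1616) (.f (nat_lit 627) (nat_lit 628) (nat_lit 592) (.f (nat_lit 626) (nat_lit 591) (nat_lit 591) (.f (nat_lit 563) (nat_lit 564) (nat_lit 2608) (.d (nat_lit 531) (nat_lit 499) (nat_lit 5618) (nat_lit 658) (nat_lit 5650)))))))) (.a (.f (nat_lit 529) (nat_lit 497) (nat_lit 6640) (.f (nat_lit 656) (nat_lit 561) (nat_lit 6672) (.f (nat_lit 687) (nat_lit 655) (nat_lit 5679) (.f (nat_lit 688) (nat_lit 719) (nat_lit 5711) (.d (nat_lit 689) (nat_lit 657) (nat_lit 4656) (nat_lit 721) (nat_lit 4688)))))) (.f (nat_lit 497) (nat_lit 529) (nat_lit 6640) (.f (nat_lit 496) (nat_lit 465) (nat_lit 6608) (.f (nat_lit 593) (nat_lit 625) (nat_lit 4592) (.f (nat_lit 561) (nat_lit 464) (nat_lit 4560) (.f (nat_lit 595) (nat_lit 596) (nat_lit 3632) (.f (nat_lit 563) (nat_lit 564) (nat_lit 2608) (.d (nat_lit 562) (nat_lit 527) (nat_lit 3599) (nat_lit 591) (nat_lit 1583))))))))))))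
noncomputable def s8456 : Cert := .r (nat_lit 64836180782635327101742773731878883933028500135655100996324835636715824771957301922231916427704030386313073450013582889165837387910271462164107996909801584275503921517658290257920) (.p (nat_lit 530) (.a s3706 (.a s3449 (.a s3973 (.a s3499 (.a (.p (nat_lit 529) (.a (.f (nat_lit 531) (nat_lit 559) (nat_lit 1551) (.d (nat_lit 499) (nat_lit 500) (nat_lit 2544) (nat_lit 626) (nat_lit 6642))) (.a (.f (nat_lit 497) (nat_lit 626) (nat_lit 7665) (.f (nat_lit 465) (nat_lit 433) (nat_lit 5552) (.d (nat_lit 592) (nat_lit 496) (nat_lit 6608) (nat_lit 624) (nat_lit 6640)))) (.f (nat_lit 531) (nat_lit 559) (nat_lit 1551) (.f (nat_lit 563) (nat_lit 564) (nat_lit 528) (.d (nat_lit 499) (nat_lit 467) (nat_lit 5586) (nat_lit 500) (nat_lit 2544))))))) (.a s3982 (.a s4004 (.p (nat_lit 498) (.a (.f (nat_lit 467) (nat_lit 499) (nat_lit 6610) (.f (nat_lit 466) (nat_lit 435) (nat_lit 6578) (.d (nat_lit 465)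 (nat_lit 433) (nat_lit 7601) (nat_lit 497) (nat_lit 7633)))) (.a (.f (nat_lit 499) (nat_lit 467) (nat_lit 6610) (.f (nat_lit 529) (nat_lit 527) (nat_lit 2543) (.d (nat_lit 500) (nat_lit 501) (nat_lit 1521) (nat_lit 531) (nat_lit 2544)))) (.f (nat_lit 595) (nat_lit 627) (nat_lit 4594) (.f (nat_lit 466) (nat_lit 563) (nat_lit 4562) (.d (nat_lit 465) (nat_lit 433) (nat_lit 7601) (nat_lit 497) (nat_lit 7633)))))))))))))))
noncomputable def s8464 : Cert := .r (nat_lit 81045225958480856146645701540456263855217792666684435255267110367315112115556477719537176679309147682040711374423103096786513067199516370940841931200313517922355878762597855526912) (.p (nat_lit 496) (.a (.f (nat_lit 465) (nat_lit 497) (nat_lit 6608) (.f (nat_lit 464) (nat_lit 433) (nat_lit 6576) (.d (nat_lit 591) (nat_lit 559) (nat_lit 5583) (nat_lit 623) (nat_lit 5615)))) (.a (.f (nat_lit 591) (nat_lit 623) (nat_lit 5615) (.f (nat_lit 464) (nat_lit 559) (nat_lit 5583)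 (.f (nat_lit 431) (nat_lit 463) (nat_lit 7599) (.f (nat_lit 432) (nat_lit 399) (nat_lit 7567) (.d (nat_lit 433) (nat_lit 401) (nat_lit 6544) (nat_lit 465) (nat_lit 6576)))))) (.a (.f (nat_lit 497) (nat_lit 465) (nat_lit 6608) (.f (nat_lit 624) (nat_lit 529) (nat_lit 6640) (.d (nat_lit 623) (nat_lit 591) (nat_lit 5615) (nat_lit 655) (nat_lit 5647)))) (.a (.f (nat_lit 591) (nat_lit 623) (nat_lit 5615) (.f (nat_lit 464) (nat_lit 559) (nat_lit 5583) (.f (nat_lit 431) (nat_lit 463) (nat_lit 7599) (.f (nat_lit 432) (nat_lit 399) (nat_lit 7567) (.f (nat_lit 401) (nat_lit 433) (nat_lit 6544) (.f (nat_lit 400) (nat_lit 369) (nat_lit 6512) (.d (nat_lit 529) (nat_lit 497) (nat_lit 4496) (nat_lit 561) (nat_lit 4528)))))))) (.a (.f (nat_lit 497) (nat_lit 465) (nat_lit 6608) (.f (nat_lit 624) (nat_lit 529) (nat_lit 6640) (.f (nat_lit 657) (nat_lit 625) (nat_lit 4624) (.f (nat_lit 656) (nat_lit 689) (nat_lit 4656) (.f (nat_lit 559) (nat_lit 527)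 (nat_lit 7695) (.d (nat_lit 591) (nat_lit 464) (nat_lit 5583) (nat_lit 688) (nat_lit 7727))))))) (.f (nat_lit 497) (nat_lit 465) (nat_lit 6608) (.f (nat_lit 624) (nat_lit 529) (nat_lit 6640) (.f (nat_lit 655) (nat_lit 623) (nat_lit 5647) (.f (nat_lit 656) (nat_lit 687) (nat_lit 5679) (.d (nat_lit 657) (nat_lit 625) (nat_lit 4624) (nat_lit 689) (nat_lit 4656))))))))))))
noncomputable def s8542 : Cert := .r (nat_lit 3773962425700235452738272624505952193199339552226928146794549392648115485167898379561026699849346401546134558067857772757880134458676407096525164659442171664912122642432) (.p (nat_lit 594) (.a s3838 (.a (.p (nat_lit 592) (.a (.p (nat_lit 496) (.a (.f (nat_lit 593) (nat_lit 625) (nat_lit 4592) (.f (nat_lit 591) (nat_lit 623) (nat_lit 5615) (.d (nat_lit 559) (nat_lit 464) (nat_lit 5583) (nat_lit 558) (nat_lit 3630)))) (.a (.f (nat_lit 593) (nat_lit 625) (nat_lit 4592) (.f (nat_lit 591) (nat_lit 623) (nat_lit 5615) (.d (nat_lit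 559) (nat_lit 558) (nat_lit 3630) (nat_lit 595) (nat_lit 3631)))) (.a (.f (nat_lit 465) (nat_lit 497) (nat_lit 6608) (.f (nat_lit 464) (nat_lit 433) (nat_lit 6576) (.d (nat_lit 591) (nat_lit 559) (nat_lit 5583) (nat_lit 623) (nat_lit 5615)))) (.a (.f (nat_lit 593) (nat_lit 625) (nat_lit 4592) (.f (nat_lit 591) (nat_lit 623) (nat_lit 5615) (.f (nat_lit 563) (nat_lit 562) (nat_lit 2607) (.f (nat_lit 595) (nat_lit 564) (nat_lit 2608) (.d (nat_lit 627) (nat_lit 626) (nat_lit 591) (nat_lit 628) (nat_lit 592)))))) (.a (.f (nat_lit 593) (nat_lit 625) (nat_lit 4592) (.f (nat_lit 559) (nat_lit 595) (nat_lit 3631) (.d (nat_lit 558) (nat_lit 557) (nat_lit 557) (nat_lit 591) (nat_lit 3630)))) (.f (nat_lit 593) (nat_lit 625) (nat_lit 4592) (.f (nat_lit 595) (nat_lit 559) (nat_lit 3631) (.f (nat_lit 564) (nat_lit 563) (nat_lit 2608) (.f (nat_lit 596) (nat_lit 565) (nat_lit 2609) (.d (nat_lit 628) (nat_lit 627) (nat_lit 592) (nat_lit 629) (nat_lit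 593)))))))))))) (.a s8163 (.a (.p (nat_lit 496) (.a (.f (nat_lit 465) (nat_lit 497) (nat_lit 6608) (.f (nat_lit 464) (nat_lit 433) (nat_lit 6576) (.d (nat_lit 591) (nat_lit 559) (nat_lit 5583) (nat_lit 623) (nat_lit 5615)))) (.a (.f (nat_lit 591) (nat_lit 623) (nat_lit 5615) (.f (nat_lit 464) (nat_lit 559) (nat_lit 5583) (.f (nat_lit 431) (nat_lit 463) (nat_lit 7599) (.f (nat_lit 432) (nat_lit 399) (nat_lit 7567) (.d (nat_lit 433) (nat_lit 401) (nat_lit 6544) (nat_lit 465) (nat_lit 6576)))))) (.a (.f (nat_lit 497) (nat_lit 465) (nat_lit 6608) (.f (nat_lit 624) (nat_lit 529) (nat_lit 6640) (.d (nat_lit 623) (nat_lit 591) (nat_lit 5615) (nat_lit 655) (nat_lit 5647)))) (.a (.f (nat_lit 623) (nat_lit 591) (nat_lit 5615) (.f (nat_lit 624) (nat_lit 655) (nat_lit 5647) (.f (nat_lit 625) (nat_lit 657) (nat_lit 4624) (.f (nat_lit 626) (nat_lit 595) (nat_lit 2639) (.f (nat_lit 659) (nat_lit 658) (nat_lit 623) (.f (nat_lit 627) (nat_lit 660)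 (nat_lit 624) (.f (nat_lit 529) (nat_lit 497) (nat_lit 6640) (.f (nat_lit 530) (nat_lit 562) (nat_lit 4626) (.f (nat_lit 559) (nat_lit 531) (nat_lit 1551) (.d (nat_lit 527) (nat_lit 558) (nat_lit 1550) (nat_lit 656) (nat_lit 7695))))))))))) (.a (.f (nat_lit 497) (nat_lit 465) (nat_lit 6608) (.f (nat_lit 624) (nat_lit 529) (nat_lit 6640) (.f (nat_lit 657) (nat_lit 625) (nat_lit 4624) (.f (nat_lit 656) (nat_lit 689) (nat_lit 4656) (.f (nat_lit 559) (nat_lit 527) (nat_lit 7695) (.d (nat_lit 591) (nat_lit 464) (nat_lit 5583) (nat_lit 688) (nat_lit 7727))))))) (.f (nat_lit 497) (nat_lit 465) (nat_lit 6608) (.f (nat_lit 624) (nat_lit 529) (nat_lit 6640) (.f (nat_lit 655) (nat_lit 623) (nat_lit 5647) (.f (nat_lit 656) (nat_lit 687) (nat_lit 5679) (.d (nat_lit 657) (nat_lit 625) (nat_lit 4624) (nat_lit 689) (nat_lit 4656)))))))))))) (.a s8196 (.a (.p (nat_lit 497) (.a (.f (nat_lit 496) (nat_lit 465) (nat_lit 6608) (.f (nat_lit 591) (nat_lit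 623) (nat_lit 5615) (.f (nat_lit 559) (nat_lit 464) (nat_lit 5583) (.d (nat_lit 593) (nat_lit 558) (nat_lit 3630) (nat_lit 595) (nat_lit 3631))))) (.a (.f (nat_lit 624) (nat_lit 529) (nat_lit 6640) (.f (nat_lit 623) (nat_lit 655) (nat_lit 5647) (.f (nat_lit 593) (nat_lit 595) (nat_lit 1615) (.d (nat_lit 622) (nat_lit 591) (nat_lit 1614) (nat_lit 621) (nat_lit 2637))))) (.a (.f (nat_lit 496) (nat_lit 465) (nat_lit 6608) (.f (nat_lit 529) (nat_lit 624) (nat_lit 6640) (.f (nat_lit 591) (nat_lit 623) (nat_lit 5615) (.f (nat_lit 464) (nat_lit 559) (nat_lit 5583) (.f (nat_lit 432) (nat_lit 400) (nat_lit 4496) (.d (nat_lit 431) (nat_lit 399) (nat_lit 7567) (nat_lit 463) (nat_lit 7599))))))) (.f (nat_lit 529) (nat_lit 624) (nat_lit 6640) (.d (nat_lit 465) (nat_lit 433) (nat_lit 5552) (nat_lit 496) (nat_lit 6608))))))) (.a s8222 (.a (.p (nat_lit 593) (.a (.f (nat_lit 595) (nat_lit 559) (nat_lit 3631) (.f (nat_lit 624) (nat_lit 623) (nat_lit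 1615) (.d (nat_lit 625) (nat_lit 596) (nat_lit 1616) (nat_lit 657) (nat_lit 4624)))) (.a (.f (nat_lit 595) (nat_lit 559) (nat_lit 3631) (.f (nat_lit 628) (nat_lit 627) (nat_lit 592) (.f (nat_lit 596) (nat_lit 629) (nat_lit 593) (.d (nat_lit 564) (nat_lit 563) (nat_lit 2608) (nat_lit 565) (nat_lit 2609))))) (.f (nat_lit 625) (nat_lit 496) (nat_lit 4592) (.d (nat_lit 657) (nat_lit 624) (nat_lit 4624) (nat_lit 689) (nat_lit 7728)))))) s8230)))))))) (.a (.p (nat_lit 592) (.a s4486 (.a s4948 (.a (.p (nat_lit 624) (.a (.f (nat_lit 623) (nat_lit 655) (nat_lit 5647) (.f (nat_lit 625) (nat_lit 657) (nat_lit 4624) (.f (nat_lit 626) (nat_lit 595) (nat_lit 2639) (.d (nat_lit 591) (nat_lit 590) (nat_lit 3662) (nat_lit 627) (nat_lit 3663))))) (.a (.f (nat_lit 655) (nat_lit 623) (nat_lit 5647) (.f (nat_lit 656) (nat_lit 687) (nat_lit 5679) (.f (nat_lit 689) (nat_lit 657) (nat_lit 4656) (.f (nat_lit 688) (nat_lit 721) (nat_lit 4688) (.d (nat_lit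 559) (nat_lit 527) (nat_lit 7695) (nat_lit 591) (nat_lit 7727)))))) (.a (.f (nat_lit 657) (nat_lit 625) (nat_lit 4624) (.f (nat_lit 656) (nat_lit 689) (nat_lit 4656) (.f (nat_lit 687) (nat_lit 655) (nat_lit 5679) (.f (nat_lit 688) (nat_lit 719) (nat_lit 5711) (.d (nat_lit 559) (nat_lit 527) (nat_lit 7695) (nat_lit 591) (nat_lit 7727)))))) (.a (.f (nat_lit 655) (nat_lit 623) (nat_lit 5647) (.f (nat_lit 656) (nat_lit 687) (nat_lit 5679) (.d (nat_lit 657) (nat_lit 625) (nat_lit 4624) (nat_lit 689) (nat_lit 4656)))) (.a (.p (nat_lit 656) (.a (.d (nat_lit 655) (nat_lit 623) (nat_lit 5647) (nat_lit 687) (nat_lit 5679)) (.a (.f (nat_lit 559) (nat_lit 527) (nat_lit 7695) (.f (nat_lit 688) (nat_lit 591) (nat_lit 7727) (.d (nat_lit 687) (nat_lit 655) (nat_lit 5679) (nat_lit 719) (nat_lit 5711)))) (.f (nat_lit 559) (nat_lit 527) (nat_lit 7695) (.f (nat_lit 591) (nat_lit 688) (nat_lit 7727) (.d (nat_lit 496) (nat_lit 464) (nat_lit 5583) (nat_lit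 623) (nat_lit 5615))))))) (.f (nat_lit 657) (nat_lit 625) (nat_lit 4624) (.f (nat_lit 656) (nat_lit 689) (nat_lit 4656) (.f (nat_lit 559) (nat_lit 527) (nat_lit 7695) (.f (nat_lit 591) (nat_lit 688) (nat_lit 7727) (.d (nat_lit 496) (nat_lit 464) (nat_lit 5583) (nat_lit 623) (nat_lit 5615)))))))))))) (.a s8196 (.a (.p (nat_lit 562) (.a s4001 (.a s3949 (.a (.p (nat_lit 561) (.a (.f (nat_lit 563) (nat_lit 591) (nat_lit 1583) (.d (nat_lit 595) (nat_lit 559) (nat_lit 559) (nat_lit 596) (nat_lit 560))) (.a (.f (nat_lit 559) (nat_lit 595) (nat_lit 559) (.f (nat_lit 591) (nat_lit 590) (nat_lit 1582) (.d (nat_lit 496) (nat_lit 464) (nat_lit 5583) (nat_lit 623) (nat_lit 5615)))) (.a (.f (nat_lit 563) (nat_lit 591) (nat_lit 1583) (.f (nat_lit 595) (nat_lit 596) (nat_lit 560) (.f (nat_lit 531) (nat_lit 532) (nat_lit 2576) (.d (nat_lit 499) (nat_lit 467) (nat_lit 5586) (nat_lit 626) (nat_lit 5618))))) (.a (.f (nat_lit 595) (nat_lit 559) (nat_lit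 559) (.d (nat_lit 596) (nat_lit 563) (nat_lit 560) (nat_lit 597) (nat_lit 3633))) (.f (nat_lit 591) (nat_lit 563) (nat_lit 1583) (.d (nat_lit 590) (nat_lit 559) (nat_lit 1582) (nat_lit 589) (nat_lit 2605)))))))) (.a (.p (nat_lit 496) (.a (.f (nat_lit 591) (nat_lit 623) (nat_lit 5615) (.f (nat_lit 559) (nat_lit 464) (nat_lit 5583) (.d (nat_lit 561) (nat_lit 590) (nat_lit 1582) (nat_lit 595) (nat_lit 559)))) (.a (.f (nat_lit 591) (nat_lit 623) (nat_lit 5615) (.f (nat_lit 559) (nat_lit 464) (nat_lit 5583) (.d (nat_lit 593) (nat_lit 558) (nat_lit 3630) (nat_lit 595) (nat_lit 3631)))) (.a (.f (nat_lit 623) (nat_lit 591) (nat_lit 5615) (.f (nat_lit 624) (nat_lit 655) (nat_lit 5647) (.f (nat_lit 595) (nat_lit 593) (nat_lit 1615) (.f (nat_lit 559) (nat_lit 561) (nat_lit 559) (.f (nat_lit 656) (nat_lit 527) (nat_lit 7695) (.f (nat_lit 657) (nat_lit 689) (nat_lit 4656) (.f (nat_lit 659) (nat_lit 658) (nat_lit 3695) (.f (nat_lit 627) (nat_lit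 691) (nat_lit 7730) (.d (nat_lit 530) (nat_lit 498) (nat_lit 4594) (nat_lit 626) (nat_lit 4626)))))))))) (.a (.f (nat_lit 623) (nat_lit 591) (nat_lit 5615) (.f (nat_lit 624) (nat_lit 655) (nat_lit 5647) (.f (nat_lit 593) (nat_lit 595) (nat_lit 1615) (.f (nat_lit 464) (nat_lit 561) (nat_lit 4560) (.d (nat_lit 465) (nat_lit 433) (nat_lit 6576) (nat_lit 497) (nat_lit 6608)))))) (.a (.f (nat_lit 465) (nat_lit 497) (nat_lit 6608) (.f (nat_lit 464) (nat_lit 433) (nat_lit 6576) (.f (nat_lit 559) (nat_lit 591) (nat_lit 5583) (.d (nat_lit 561) (nat_lit 593) (nat_lit 4560) (nat_lit 595) (nat_lit 559))))) (.a (.f (nat_lit 465) (nat_lit 497) (nat_lit 6608) (.f (nat_lit 464) (nat_lit 433) (nat_lit 6576) (.f (nat_lit 593) (nat_lit 561) (nat_lit 4560) (.f (nat_lit 595) (nat_lit 559) (nat_lit 3631) (.f (nat_lit 627) (nat_lit 628) (nat_lit 592) (.f (nat_lit 659) (nat_lit 691) (nat_lit 7730) (.d (nat_lit 530) (nat_lit 498) (nat_lit 4594) (nat_lit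 626) (nat_lit 4626)))))))) (.f (nat_lit 591) (nat_lit 623) (nat_lit 5615) (.f (nat_lit 559) (nat_lit 464) (nat_lit 5583) (.f (nat_lit 590) (nat_lit 561) (nat_lit 1582) (.f (nat_lit 558) (nat_lit 593) (nat_lit 3630) (.f (nat_lit 557) (nat_lit 556) (nat_lit 556) (.f (nat_lit 589) (nat_lit 588) (nat_lit 1580) (.f (nat_lit 525) (nat_lit 524) (nat_lit 3596) (.d (nat_lit 493) (nat_lit 461) (nat_lit 4557) (nat_lit 622) (nat_lit 4589)))))))))))))))) (.a (.p (nat_lit 591) (.a (.d (nat_lit 563) (nat_lit 561) (nat_lit 1583) (nat_lit 593) (nat_lit 2607)) (.a (.f (nat_lit 593) (nat_lit 563) (nat_lit 2607) (.d (nat_lit 623) (nat_lit 496) (nat_lit 5615) (nat_lit 622) (nat_lit 1614))) (.f (nat_lit 623) (nat_lit 496) (nat_lit 5615) (.d (nat_lit 655) (nat_lit 624) (nat_lit 5647) (nat_lit 687) (nat_lit 6703)))))) (.a (.p (nat_lit 561) (.a (.d (nat_lit 563) (nat_lit 527) (nat_lit 3599) (nat_lit 591) (nat_lit 1583)) (.a (.f (nat_lit 563) (nat_lit 591)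 (nat_lit 1583) (.d (nat_lit 595) (nat_lit 559) (nat_lit 559) (nat_lit 596) (nat_lit 560))) (.f (nat_lit 595) (nat_lit 559) (nat_lit 559) (.d (nat_lit 596) (nat_lit 593) (nat_lit 3632) (nat_lit 597) (nat_lit 3633)))))) (.p (nat_lit 561) (.a (.f (nat_lit 595) (nat_lit 559) (nat_lit 559) (.d (nat_lit 596) (nat_lit 593) (nat_lit 3632) (nat_lit 597) (nat_lit 3633))) (.a (.f (nat_lit 595) (nat_lit 559) (nat_lit 559) (.d (nat_lit 596) (nat_lit 563) (nat_lit 560) (nat_lit 597) (nat_lit 3633))) (.a (.f (nat_lit 563) (nat_lit 527) (nat_lit 3599) (.f (nat_lit 531) (nat_lit 532) (nat_lit 2576) (.f (nat_lit 595) (nat_lit 596) (nat_lit 560) (.d (nat_lit 499) (nat_lit 467) (nat_lit 5586) (nat_lit 626) (nat_lit 5618))))) (.f (nat_lit 563) (nat_lit 527) (nat_lit 3599) (.f (nat_lit 531) (nat_lit 532) (nat_lit 2576) (.f (nat_lit 530) (nat_lit 559) (nat_lit 2575) (.d (nat_lit 499) (nat_lit 467) (nat_lit 5586) (nat_lit 626) (nat_lit 6642))))))))))))))))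 (.a s8326 (.a s8332 (.a (.p (nat_lit 593) (.a (.f (nat_lit 595) (nat_lit 559) (nat_lit 3631) (.f (nat_lit 624) (nat_lit 623) (nat_lit 1615) (.d (nat_lit 625) (nat_lit 596) (nat_lit 1616) (nat_lit 657) (nat_lit 4624)))) (.a (.f (nat_lit 595) (nat_lit 559) (nat_lit 3631) (.f (nat_lit 628) (nat_lit 627) (nat_lit 592) (.f (nat_lit 596) (nat_lit 629) (nat_lit 593) (.d (nat_lit 564) (nat_lit 563) (nat_lit 2608) (nat_lit 565) (nat_lit 2609))))) (.f (nat_lit 625) (nat_lit 496) (nat_lit 4592) (.d (nat_lit 657) (nat_lit 624) (nat_lit 4624) (nat_lit 689) (nat_lit 7728)))))) s8347))))))))) (.a (.p (nat_lit 593) (.a (.p (nat_lit 592) (.a (.f (nat_lit 595) (nat_lit 559) (nat_lit 3631) (.f (nat_lit 624) (nat_lit 623) (nat_lit 1615) (.d (nat_lit 596) (nat_lit 561) (nat_lit 3632) (nat_lit 625) (nat_lit 1616)))) (.a (.f (nat_lit 595) (nat_lit 559) (nat_lit 3631) (.f (nat_lit 624) (nat_lit 623) (nat_lit 1615) (.d (nat_lit 625) (nat_lit 596) (nat_lit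 1616) (nat_lit 657) (nat_lit 4624)))) (.a (.f (nat_lit 559) (nat_lit 595) (nat_lit 3631) (.d (nat_lit 558) (nat_lit 557) (nat_lit 557) (nat_lit 561) (nat_lit 558))) (.f (nat_lit 625) (nat_lit 496) (nat_lit 4592) (.d (nat_lit 657) (nat_lit 561) (nat_lit 7696) (nat_lit 624) (nat_lit 4624))))))) (.a (.p (nat_lit 559) (.a (.f (nat_lit 592) (nat_lit 595) (nat_lit 3631) (.d (nat_lit 558) (nat_lit 557) (nat_lit 557) (nat_lit 561) (nat_lit 558))) (.a (.f (nat_lit 592) (nat_lit 595) (nat_lit 3631) (.d (nat_lit 558) (nat_lit 557) (nat_lit 557) (nat_lit 591) (nat_lit 3630))) (.a (.f (nat_lit 561) (nat_lit 558) (nat_lit 558) (.d (nat_lit 595) (nat_lit 562) (nat_lit 559) (nat_lit 596) (nat_lit 3632))) (.a (.f (nat_lit 558) (nat_lit 561) (nat_lit 558) (.d (nat_lit 557) (nat_lit 529) (nat_lit 2573) (nat_lit 592) (nat_lit 557))) (.f (nat_lit 595) (nat_lit 592) (nat_lit 3631) (.d (nat_lit 561) (nat_lit 562) (nat_lit 559) (nat_lit 596) (nat_lit 3632))))))))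 (.a (.p (nat_lit 592) (.a (.f (nat_lit 595) (nat_lit 559) (nat_lit 3631) (.f (nat_lit 624) (nat_lit 623) (nat_lit 1615) (.d (nat_lit 625) (nat_lit 596) (nat_lit 1616) (nat_lit 657) (nat_lit 4624)))) (.a (.f (nat_lit 559) (nat_lit 595) (nat_lit 3631) (.d (nat_lit 558) (nat_lit 557) (nat_lit 557) (nat_lit 591) (nat_lit 3630))) (.f (nat_lit 625) (nat_lit 496) (nat_lit 4592) (.d (nat_lit 657) (nat_lit 624) (nat_lit 4624) (nat_lit 689) (nat_lit 7728)))))) (.a (.p (nat_lit 561) (.a (.f (nat_lit 625) (nat_lit 657) (nat_lit 7696) (.d (nat_lit 496) (nat_lit 464) (nat_lit 4560) (nat_lit 529) (nat_lit 7664))) (.f (nat_lit 559) (nat_lit 558) (nat_lit 558) (.d (nat_lit 595) (nat_lit 562) (nat_lit 559) (nat_lit 596) (nat_lit 3632))))) (.a (.p (nat_lit 496) (.a (.f (nat_lit 561) (nat_lit 464) (nat_lit 4560) (.d (nat_lit 625) (nat_lit 529) (nat_lit 7664) (nat_lit 657) (nat_lit 7696))) (.a (.f (nat_lit 592) (nat_lit 625) (nat_lit 4592) (.f (nat_lit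 591) (nat_lit 623) (nat_lit 5615) (.f (nat_lit 563) (nat_lit 562) (nat_lit 2607) (.f (nat_lit 595) (nat_lit 564) (nat_lit 2608) (.d (nat_lit 627) (nat_lit 626) (nat_lit 591) (nat_lit 628) (nat_lit 592)))))) (.f (nat_lit 464) (nat_lit 561) (nat_lit 4560) (.f (nat_lit 431) (nat_lit 463) (nat_lit 7599) (.f (nat_lit 432) (nat_lit 399) (nat_lit 7567) (.d (nat_lit 433) (nat_lit 401) (nat_lit 6544) (nat_lit 465) (nat_lit 6576)))))))) (.p (nat_lit 496) (.a (.f (nat_lit 561) (nat_lit 464) (nat_lit 4560) (.d (nat_lit 625) (nat_lit 529) (nat_lit 7664) (nat_lit 657) (nat_lit 7696))) (.a (.f (nat_lit 592) (nat_lit 625) (nat_lit 4592) (.f (nat_lit 591) (nat_lit 623) (nat_lit 5615) (.d (nat_lit 559) (nat_lit 464) (nat_lit 5583) (nat_lit 558) (nat_lit 3630)))) (.a (.f (nat_lit 592) (nat_lit 625) (nat_lit 4592) (.f (nat_lit 591) (nat_lit 623) (nat_lit 5615) (.f (nat_lit 559) (nat_lit 558) (nat_lit 3630) (.f (nat_lit 562) (nat_lit 563) (nat_lit 2607)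 (.f (nat_lit 590) (nat_lit 561) (nat_lit 1582) (.f (nat_lit 589) (nat_lit 588) (nat_lit 2604) (.d (nat_lit 621) (nat_lit 620) (nat_lit 1612) (nat_lit 622) (nat_lit 1613)))))))) (.f (nat_lit 464) (nat_lit 561) (nat_lit 4560) (.f (nat_lit 431) (nat_lit 463) (nat_lit 7599) (.f (nat_lit 432) (nat_lit 399) (nat_lit 7567) (.d (nat_lit 433) (nat_lit 401) (nat_lit 6544) (nat_lit 465) (nat_lit 6576))))))))))))))) (.a (.p (nat_lit 562) (.a (.p (nat_lit 561) (.a (.f (nat_lit 563) (nat_lit 527) (nat_lit 3599) (.d (nat_lit 595) (nat_lit 559) (nat_lit 559) (nat_lit 596) (nat_lit 560))) (.a (.f (nat_lit 559) (nat_lit 595) (nat_lit 559) (.f (nat_lit 593) (nat_lit 558) (nat_lit 558) (.f (nat_lit 625) (nat_lit 657) (nat_lit 7696) (.d (nat_lit 496) (nat_lit 464) (nat_lit 4560) (nat_lit 529) (nat_lit 7664))))) (.f (nat_lit 563) (nat_lit 527) (nat_lit 3599) (.f (nat_lit 564) (nat_lit 529) (nat_lit 3600) (.d (nat_lit 532) (nat_lit 531) (nat_lit 2576)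 (nat_lit 533) (nat_lit 2577))))))) (.a s3739 (.a s3968 (.a s4047 (.a s4412 (.a s3816 (.a s4782 s4427)))))))) (.a (.p (nat_lit 592) (.a (.p (nat_lit 624) (.a (.f (nat_lit 623) (nat_lit 655) (nat_lit 5647) (.f (nat_lit 593) (nat_lit 595) (nat_lit 1615) (.d (nat_lit 622) (nat_lit 591) (nat_lit 1614) (nat_lit 621) (nat_lit 2637)))) (.a (.f (nat_lit 529) (nat_lit 497) (nat_lit 6640) (.f (nat_lit 656) (nat_lit 561) (nat_lit 6672) (.d (nat_lit 655) (nat_lit 623) (nat_lit 5647) (nat_lit 687) (nat_lit 5679)))) (.f (nat_lit 529) (nat_lit 497) (nat_lit 6640) (.f (nat_lit 656) (nat_lit 561) (nat_lit 6672) (.d (nat_lit 657) (nat_lit 625) (nat_lit 4624) (nat_lit 689) (nat_lit 4656))))))) (.a s8383 (.a s8326 (.a (.p (nat_lit 624) (.a (.f (nat_lit 623) (nat_lit 655) (nat_lit 5647) (.f (nat_lit 593) (nat_lit 595) (nat_lit 1615) (.d (nat_lit 622) (nat_lit 591) (nat_lit 1614) (nat_lit 621) (nat_lit 2637)))) (.a (.f (nat_lit 623) (nat_lit 655) (nat_lit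 5647) (.f (nat_lit 625) (nat_lit 657) (nat_lit 4624) (.f (nat_lit 626) (nat_lit 595) (nat_lit 2639) (.d (nat_lit 591) (nat_lit 590) (nat_lit 3662) (nat_lit 627) (nat_lit 3663))))) (.a (.f (nat_lit 657) (nat_lit 625) (nat_lit 4624) (.f (nat_lit 656) (nat_lit 689) (nat_lit 4656) (.f (nat_lit 561) (nat_lit 529) (nat_lit 6672) (.f (nat_lit 593) (nat_lit 688) (nat_lit 6704) (.d (nat_lit 559) (nat_lit 558) (nat_lit 558) (nat_lit 595) (nat_lit 3631)))))) (.f (nat_lit 623) (nat_lit 655) (nat_lit 5647) (.f (nat_lit 625) (nat_lit 657) (nat_lit 4624) (.f (nat_lit 622) (nat_lit 593) (nat_lit 2638) (.f (nat_lit 589) (nat_lit 590) (nat_lit 3661) (.f (nat_lit 621) (nat_lit 588) (nat_lit 3660) (.d (nat_lit 653) (nat_lit 652) (nat_lit 1644) (nat_lit 654) (nat_lit 1645))))))))))) (.a (.p (nat_lit 624) (.a (.f (nat_lit 529) (nat_lit 497) (nat_lit 6640) (.f (nat_lit 656) (nat_lit 561) (nat_lit 6672) (.d (nat_lit 655) (nat_lit 623) (nat_lit 5647) (nat_lit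 687) (nat_lit 5679)))) (.a (.f (nat_lit 623) (nat_lit 655) (nat_lit 5647) (.f (nat_lit 625) (nat_lit 657) (nat_lit 4624) (.f (nat_lit 626) (nat_lit 595) (nat_lit 2639) (.d (nat_lit 591) (nat_lit 590) (nat_lit 3662) (nat_lit 627) (nat_lit 3663))))) (.f (nat_lit 529) (nat_lit 497) (nat_lit 6640) (.f (nat_lit 656) (nat_lit 561) (nat_lit 6672) (.d (nat_lit 657) (nat_lit 625) (nat_lit 4624) (nat_lit 689) (nat_lit 4656))))))) (.a s8390 (.a s4962 (.a s8222 (.a (.p (nat_lit 624) (.a (.f (nat_lit 529) (nat_lit 497) (nat_lit 6640) (.f (nat_lit 656) (nat_lit 561) (nat_lit 6672) (.d (nat_lit 655) (nat_lit 623) (nat_lit 5647) (nat_lit 687) (nat_lit 5679)))) (.a (.f (nat_lit 623) (nat_lit 655) (nat_lit 5647) (.f (nat_lit 593) (nat_lit 595) (nat_lit 1615) (.d (nat_lit 622) (nat_lit 621) (nat_lit 2637) (nat_lit 625) (nat_lit 2638)))) (.f (nat_lit 529) (nat_lit 497) (nat_lit 6640) (.f (nat_lit 656) (nat_lit 561) (nat_lit 6672) (.d (nat_lit 657)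 (nat_lit 625) (nat_lit 4624) (nat_lit 689) (nat_lit 4656))))))) s4985)))))))))) (.a (.p (nat_lit 562) (.a (.p (nat_lit 561) (.a (.f (nat_lit 563) (nat_lit 527) (nat_lit 3599) (.d (nat_lit 595) (nat_lit 559) (nat_lit 559) (nat_lit 596) (nat_lit 560))) (.a (.f (nat_lit 559) (nat_lit 595) (nat_lit 559) (.f (nat_lit 591) (nat_lit 590) (nat_lit 1582) (.f (nat_lit 592) (nat_lit 563) (nat_lit 1583) (.d (nat_lit 496) (nat_lit 464) (nat_lit 5583) (nat_lit 623) (nat_lit 5615))))) (.a (.f (nat_lit 559) (nat_lit 595) (nat_lit 559) (.f (nat_lit 530) (nat_lit 531) (nat_lit 2575) (.f (nat_lit 529) (nat_lit 558) (nat_lit 2574) (.d (nat_lit 497) (nat_lit 465) (nat_lit 4561) (nat_lit 626) (nat_lit 7665))))) (.f (nat_lit 563) (nat_lit 527) (nat_lit 3599) (.f (nat_lit 564) (nat_lit 529) (nat_lit 3600) (.d (nat_lit 532) (nat_lit 531) (nat_lit 2576) (nat_lit 533) (nat_lit 2577)))))))) (.a s3739 (.a (.p (nat_lit 530) (.a (.p (nat_lit 529) (.a (.f (nat_lit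 531) (nat_lit 559) (nat_lit 1551) (.d (nat_lit 499) (nat_lit 500) (nat_lit 2544) (nat_lit 626) (nat_lit 6642))) (.a (.f (nat_lit 626) (nat_lit 497) (nat_lit 7665) (.f (nat_lit 657) (nat_lit 625) (nat_lit 5649) (.f (nat_lit 658) (nat_lit 689) (nat_lit 5681) (.d (nat_lit 659) (nat_lit 627) (nat_lit 4626) (nat_lit 691) (nat_lit 4658))))) (.f (nat_lit 531) (nat_lit 559) (nat_lit 1551) (.f (nat_lit 563) (nat_lit 564) (nat_lit 528) (.d (nat_lit 499) (nat_lit 467) (nat_lit 5586) (nat_lit 500) (nat_lit 2544))))))) (.a s3449 (.a s3973 (.a s3499 (.a (.p (nat_lit 529) (.a (.f (nat_lit 531) (nat_lit 559) (nat_lit 1551) (.d (nat_lit 499) (nat_lit 500) (nat_lit 2544) (nat_lit 626) (nat_lit 6642))) (.a (.f (nat_lit 626) (nat_lit 497) (nat_lit 7665) (.f (nat_lit 657) (nat_lit 625) (nat_lit 5649) (.f (nat_lit 658) (nat_lit 689) (nat_lit 5681) (.d (nat_lit 659) (nat_lit 627) (nat_lit 4626) (nat_lit 691) (nat_lit 4658))))) (.f (nat_lit 559) (nat_lit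 531) (nat_lit 1551) (.d (nat_lit 558) (nat_lit 527) (nat_lit 1550) (nat_lit 557) (nat_lit 2573)))))) (.a (.p (nat_lit 529) (.a (.f (nat_lit 626) (nat_lit 497) (nat_lit 7665) (.f (nat_lit 657) (nat_lit 625) (nat_lit 5649) (.f (nat_lit 658) (nat_lit 689) (nat_lit 5681) (.d (nat_lit 659) (nat_lit 627) (nat_lit 4626) (nat_lit 691) (nat_lit 4658))))) (.f (nat_lit 563) (nat_lit 527) (nat_lit 527) (.d (nat_lit 564) (nat_lit 531) (nat_lit 528) (nat_lit 565) (nat_lit 3601))))) (.a (.p (nat_lit 498) (.a (.f (nat_lit 467) (nat_lit 499) (nat_lit 6610) (.f (nat_lit 466) (nat_lit 435) (nat_lit 6578) (.d (nat_lit 465) (nat_lit 433) (nat_lit 7601) (nat_lit 497) (nat_lit 7633)))) (.a (.f (nat_lit 499) (nat_lit 467) (nat_lit 6610) (.f (nat_lit 529) (nat_lit 527) (nat_lit 2543) (.d (nat_lit 500) (nat_lit 501) (nat_lit 1521) (nat_lit 531) (nat_lit 2544)))) (.f (nat_lit 595) (nat_lit 627) (nat_lit 4594) (.f (nat_lit 466) (nat_lit 563) (nat_lit 4562)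 (.d (nat_lit 465) (nat_lit 433) (nat_lit 7601) (nat_lit 497) (nat_lit 7633))))))) s3706)))))))) (.a s4116 (.a s4664 (.a s4563 (.a s4733 (.a s4799 (.p (nat_lit 530) (.a (.p (nat_lit 529) (.a (.f (nat_lit 531) (nat_lit 559) (nat_lit 1551) (.d (nat_lit 499) (nat_lit 500) (nat_lit 2544) (nat_lit 626) (nat_lit 6642))) (.a (.f (nat_lit 626) (nat_lit 497) (nat_lit 7665) (.f (nat_lit 657) (nat_lit 625) (nat_lit 5649) (.f (nat_lit 658) (nat_lit 689) (nat_lit 5681) (.d (nat_lit 659) (nat_lit 627) (nat_lit 4626) (nat_lit 691) (nat_lit 4658))))) (.f (nat_lit 531) (nat_lit 559) (nat_lit 1551) (.f (nat_lit 563) (nat_lit 564) (nat_lit 528) (.d (nat_lit 499) (nat_lit 467) (nat_lit 5586) (nat_lit 500) (nat_lit 2544))))))) (.a (.p (nat_lit 626) (.a (.f (nat_lit 531) (nat_lit 499) (nat_lit 6642) (.f (nat_lit 561) (nat_lit 559) (nat_lit 2575) (.d (nat_lit 532) (nat_lit 533) (nat_lit 1553) (nat_lit 563) (nat_lit 2576)))) (.a (.f (nat_lit 531) (nat_lit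 499) (nat_lit 6642) (.f (nat_lit 658) (nat_lit 563) (nat_lit 6674) (.d (nat_lit 657) (nat_lit 625) (nat_lit 5649) (nat_lit 689) (nat_lit 5681)))) (.f (nat_lit 657) (nat_lit 625) (nat_lit 5649) (.f (nat_lit 658) (nat_lit 689) (nat_lit 5681) (.d (nat_lit 659) (nat_lit 627) (nat_lit 4626) (nat_lit 691) (nat_lit 4658))))))) (.a (.p (nat_lit 529) (.a (.f (nat_lit 626) (nat_lit 497) (nat_lit 7665) (.f (nat_lit 657) (nat_lit 625) (nat_lit 5649) (.f (nat_lit 658) (nat_lit 689) (nat_lit 5681) (.d (nat_lit 659) (nat_lit 627) (nat_lit 4626) (nat_lit 691) (nat_lit 4658))))) (.f (nat_lit 563) (nat_lit 527) (nat_lit 527) (.d (nat_lit 564) (nat_lit 561) (nat_lit 3600) (nat_lit 565) (nat_lit 3601))))) (.a s3730 (.p (nat_lit 561) (.a (.f (nat_lit 531) (nat_lit 559) (nat_lit 2575) (.d (nat_lit 532) (nat_lit 533) (nat_lit 1553) (nat_lit 563) (nat_lit 2576))) (.a (.f (nat_lit 563) (nat_lit 527) (nat_lit 3599) (.f (nat_lit 529) (nat_lit 564) (nat_lit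 3600) (.f (nat_lit 497) (nat_lit 465) (nat_lit 4561) (.d (nat_lit 592) (nat_lit 591) (nat_lit 1583) (nat_lit 624) (nat_lit 6640))))) (.f (nat_lit 559) (nat_lit 531) (nat_lit 2575) (.f (nat_lit 558) (nat_lit 529) (nat_lit 2574) (.d (nat_lit 590) (nat_lit 589) (nat_lit 1581) (nat_lit 591) (nat_lit 1582))))))))))))))))))))) (.a (.p (nat_lit 592) (.a (.p (nat_lit 624) (.a (.f (nat_lit 623) (nat_lit 655) (nat_lit 5647) (.f (nat_lit 593) (nat_lit 595) (nat_lit 1615) (.d (nat_lit 622) (nat_lit 591) (nat_lit 1614) (nat_lit 621) (nat_lit 2637)))) (.a (.f (nat_lit 529) (nat_lit 497) (nat_lit 6640) (.f (nat_lit 656) (nat_lit 561) (nat_lit 6672) (.d (nat_lit 655) (nat_lit 623) (nat_lit 5647) (nat_lit 687) (nat_lit 5679)))) (.f (nat_lit 529) (nat_lit 497) (nat_lit 6640) (.f (nat_lit 656) (nat_lit 561) (nat_lit 6672) (.d (nat_lit 657) (nat_lit 625) (nat_lit 4624) (nat_lit 689) (nat_lit 4656))))))) (.a s8163 (.a (.p (nat_lit 624) (.a (.f (nat_lit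 529) (nat_lit 497) (nat_lit 6640) (.f (nat_lit 656) (nat_lit 561) (nat_lit 6672) (.d (nat_lit 655) (nat_lit 623) (nat_lit 5647) (nat_lit 687) (nat_lit 5679)))) (.a (.f (nat_lit 623) (nat_lit 655) (nat_lit 5647) (.f (nat_lit 625) (nat_lit 657) (nat_lit 4624) (.f (nat_lit 626) (nat_lit 595) (nat_lit 2639) (.d (nat_lit 591) (nat_lit 590) (nat_lit 3662) (nat_lit 627) (nat_lit 3663))))) (.f (nat_lit 529) (nat_lit 497) (nat_lit 6640) (.f (nat_lit 656) (nat_lit 561) (nat_lit 6672) (.d (nat_lit 657) (nat_lit 625) (nat_lit 4624) (nat_lit 689) (nat_lit 4656))))))) (.a s8390 (.a s4962 (.a s8222 (.a (.p (nat_lit 624) (.a (.f (nat_lit 529) (nat_lit 497) (nat_lit 6640) (.f (nat_lit 656) (nat_lit 561) (nat_lit 6672) (.d (nat_lit 655) (nat_lit 623) (nat_lit 5647) (nat_lit 687) (nat_lit 5679)))) (.a (.f (nat_lit 623) (nat_lit 655) (nat_lit 5647) (.f (nat_lit 593) (nat_lit 595) (nat_lit 1615) (.d (nat_lit 622) (nat_lit 621) (nat_lit 2637) (nat_lit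 625) (nat_lit 2638)))) (.f (nat_lit 529) (nat_lit 497) (nat_lit 6640) (.f (nat_lit 656) (nat_lit 561) (nat_lit 6672) (.d (nat_lit 657) (nat_lit 625) (nat_lit 4624) (nat_lit 689) (nat_lit 4656))))))) s4985)))))))) (.a (.p (nat_lit 592) (.a (.p (nat_lit 624) (.a (.f (nat_lit 623) (nat_lit 655) (nat_lit 5647) (.f (nat_lit 593) (nat_lit 595) (nat_lit 1615) (.d (nat_lit 622) (nat_lit 591) (nat_lit 1614) (nat_lit 621) (nat_lit 2637)))) (.a (.f (nat_lit 529) (nat_lit 497) (nat_lit 6640) (.f (nat_lit 656) (nat_lit 561) (nat_lit 6672) (.d (nat_lit 655) (nat_lit 623) (nat_lit 5647) (nat_lit 687) (nat_lit 5679)))) (.f (nat_lit 529) (nat_lit 497) (nat_lit 6640) (.f (nat_lit 656) (nat_lit 561) (nat_lit 6672) (.d (nat_lit 657) (nat_lit 625) (nat_lit 4624) (nat_lit 689) (nat_lit 4656))))))) (.a s8196 (.a (.p (nat_lit 624) (.a (.f (nat_lit 529) (nat_lit 497) (nat_lit 6640) (.f (nat_lit 656) (nat_lit 561) (nat_lit 6672) (.d (nat_lit 655) (nat_lit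 623) (nat_lit 5647) (nat_lit 687) (nat_lit 5679)))) (.a (.f (nat_lit 623) (nat_lit 655) (nat_lit 5647) (.f (nat_lit 625) (nat_lit 657) (nat_lit 4624) (.f (nat_lit 626) (nat_lit 595) (nat_lit 2639) (.d (nat_lit 591) (nat_lit 590) (nat_lit 3662) (nat_lit 627) (nat_lit 3663))))) (.f (nat_lit 529) (nat_lit 497) (nat_lit 6640) (.f (nat_lit 656) (nat_lit 561) (nat_lit 6672) (.d (nat_lit 657) (nat_lit 625) (nat_lit 4624) (nat_lit 689) (nat_lit 4656))))))) (.a (.p (nat_lit 496) (.a (.f (nat_lit 593) (nat_lit 625) (nat_lit 4592) (.f (nat_lit 591) (nat_lit 623) (nat_lit 5615) (.f (nat_lit 563) (nat_lit 562) (nat_lit 2607) (.f (nat_lit 595) (nat_lit 564) (nat_lit 2608) (.d (nat_lit 627) (nat_lit 626) (nat_lit 591) (nat_lit 628) (nat_lit 592)))))) (.a (.f (nat_lit 593) (nat_lit 625) (nat_lit 4592) (.f (nat_lit 464) (nat_lit 561) (nat_lit 4560) (.d (nat_lit 465) (nat_lit 433) (nat_lit 6576) (nat_lit 497) (nat_lit 6608)))) (.p (nat_lit 464) (.a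 (.d (nat_lit 465) (nat_lit 433) (nat_lit 6576) (nat_lit 497) (nat_lit 6608)) (.a (.f (nat_lit 431) (nat_lit 463) (nat_lit 7599) (.f (nat_lit 432) (nat_lit 399) (nat_lit 7567) (.d (nat_lit 433) (nat_lit 401) (nat_lit 6544) (nat_lit 465) (nat_lit 6576)))) (.a (.f (nat_lit 431) (nat_lit 463) (nat_lit 7599) (.f (nat_lit 432) (nat_lit 399) (nat_lit 7567) (.f (nat_lit 401) (nat_lit 433) (nat_lit 6544) (.f (nat_lit 400) (nat_lit 369) (nat_lit 6512) (.d (nat_lit 529) (nat_lit 497) (nat_lit 4496) (nat_lit 561) (nat_lit 4528)))))) (.f (nat_lit 497) (nat_lit 465) (nat_lit 6608) (.f (nat_lit 431) (nat_lit 463) (nat_lit 7599) (.f (nat_lit 432) (nat_lit 399) (nat_lit 7567) (.d (nat_lit 529) (nat_lit 400) (nat_lit 4496) (nat_lit 561) (nat_lit 4528)))))))))))) (.a (.p (nat_lit 496) (.a (.f (nat_lit 497) (nat_lit 465) (nat_lit 6608) (.f (nat_lit 624) (nat_lit 529) (nat_lit 6640) (.d (nat_lit 623) (nat_lit 591) (nat_lit 5615) (nat_lit 655) (nat_lit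 5647)))) (.a (.f (nat_lit 591) (nat_lit 623) (nat_lit 5615) (.f (nat_lit 465) (nat_lit 497) (nat_lit 6608) (.f (nat_lit 464) (nat_lit 433) (nat_lit 6576) (.f (nat_lit 593) (nat_lit 561) (nat_lit 4560) (.f (nat_lit 563) (nat_lit 562) (nat_lit 2607) (.f (nat_lit 595) (nat_lit 564) (nat_lit 2608) (.d (nat_lit 627) (nat_lit 626) (nat_lit 591) (nat_lit 628) (nat_lit 592)))))))) (.a (.f (nat_lit 623) (nat_lit 591) (nat_lit 5615) (.f (nat_lit 624) (nat_lit 655) (nat_lit 5647) (.f (nat_lit 593) (nat_lit 595) (nat_lit 1615) (.f (nat_lit 561) (nat_lit 464) (nat_lit 4560) (.d (nat_lit 656) (nat_lit 529) (nat_lit 6672) (nat_lit 688) (nat_lit 6704)))))) (.f (nat_lit 465) (nat_lit 497) (nat_lit 6608) (.f (nat_lit 464) (nat_lit 433) (nat_lit 6576) (.f (nat_lit 561) (nat_lit 593) (nat_lit 4560) (.f (nat_lit 431) (nat_lit 463) (nat_lit 7599) (.d (nat_lit 432) (nat_lit 399) (nat_lit 7567) (nat_lit 529) (nat_lit 4528)))))))))) (.a s8440 (.a (.p (nat_lit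 624) (.a (.f (nat_lit 529) (nat_lit 497) (nat_lit 6640) (.f (nat_lit 656) (nat_lit 561) (nat_lit 6672) (.d (nat_lit 655) (nat_lit 623) (nat_lit 5647) (nat_lit 687) (nat_lit 5679)))) (.a (.f (nat_lit 623) (nat_lit 655) (nat_lit 5647) (.f (nat_lit 593) (nat_lit 595) (nat_lit 1615) (.d (nat_lit 622) (nat_lit 621) (nat_lit 2637) (nat_lit 625) (nat_lit 2638)))) (.f (nat_lit 529) (nat_lit 497) (nat_lit 6640) (.f (nat_lit 656) (nat_lit 561) (nat_lit 6672) (.d (nat_lit 657) (nat_lit 625) (nat_lit 4624) (nat_lit 689) (nat_lit 4656))))))) s4985)))))))) (.a (.p (nat_lit 592) (.a (.p (nat_lit 624) (.a (.f (nat_lit 623) (nat_lit 655) (nat_lit 5647) (.f (nat_lit 593) (nat_lit 595) (nat_lit 1615) (.d (nat_lit 622) (nat_lit 591) (nat_lit 1614) (nat_lit 621) (nat_lit 2637)))) (.a (.f (nat_lit 529) (nat_lit 497) (nat_lit 6640) (.f (nat_lit 656) (nat_lit 561) (nat_lit 6672) (.d (nat_lit 655) (nat_lit 623) (nat_lit 5647) (nat_lit 687) (nat_lit 5679))))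 (.f (nat_lit 529) (nat_lit 497) (nat_lit 6640) (.f (nat_lit 656) (nat_lit 561) (nat_lit 6672) (.d (nat_lit 657) (nat_lit 625) (nat_lit 4624) (nat_lit 689) (nat_lit 4656))))))) (.a s8196 (.a (.p (nat_lit 624) (.a (.f (nat_lit 529) (nat_lit 497) (nat_lit 6640) (.f (nat_lit 656) (nat_lit 561) (nat_lit 6672) (.d (nat_lit 655) (nat_lit 623) (nat_lit 5647) (nat_lit 687) (nat_lit 5679)))) (.a (.f (nat_lit 623) (nat_lit 655) (nat_lit 5647) (.f (nat_lit 625) (nat_lit 657) (nat_lit 4624) (.f (nat_lit 626) (nat_lit 595) (nat_lit 2639) (.d (nat_lit 591) (nat_lit 590) (nat_lit 3662) (nat_lit 627) (nat_lit 3663))))) (.f (nat_lit 529) (nat_lit 497) (nat_lit 6640) (.f (nat_lit 656) (nat_lit 561) (nat_lit 6672) (.d (nat_lit 657) (nat_lit 625) (nat_lit 4624) (nat_lit 689) (nat_lit 4656))))))) (.a (.p (nat_lit 496) (.a (.f (nat_lit 593) (nat_lit 625) (nat_lit 4592) (.f (nat_lit 591) (nat_lit 623) (nat_lit 5615) (.d (nat_lit 559) (nat_lit 464) (nat_lit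 5583) (nat_lit 558) (nat_lit 3630)))) (.a (.f (nat_lit 593) (nat_lit 625) (nat_lit 4592) (.f (nat_lit 591) (nat_lit 623) (nat_lit 5615) (.d (nat_lit 559) (nat_lit 558) (nat_lit 3630) (nat_lit 595) (nat_lit 3631)))) (.a (.f (nat_lit 591) (nat_lit 623) (nat_lit 5615) (.f (nat_lit 464) (nat_lit 559) (nat_lit 5583) (.f (nat_lit 431) (nat_lit 463) (nat_lit 7599) (.f (nat_lit 432) (nat_lit 399) (nat_lit 7567) (.f (nat_lit 401) (nat_lit 433) (nat_lit 6544) (.f (nat_lit 400) (nat_lit 369) (nat_lit 6512) (.d (nat_lit 529) (nat_lit 497) (nat_lit 4496) (nat_lit 561) (nat_lit 4528)))))))) (.a (.f (nat_lit 593) (nat_lit 625) (nat_lit 4592) (.f (nat_lit 591) (nat_lit 623) (nat_lit 5615) (.f (nat_lit 563) (nat_lit 562) (nat_lit 2607) (.f (nat_lit 595) (nat_lit 564) (nat_lit 2608) (.d (nat_lit 627) (nat_lit 626) (nat_lit 591) (nat_lit 628) (nat_lit 592)))))) (.a (.f (nat_lit 593) (nat_lit 625) (nat_lit 4592) (.f (nat_lit 559) (nat_lit 595) (nat_lit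 3631) (.d (nat_lit 558) (nat_lit 557) (nat_lit 557) (nat_lit 591) (nat_lit 3630)))) (.f (nat_lit 593) (nat_lit 625) (nat_lit 4592) (.f (nat_lit 595) (nat_lit 559) (nat_lit 3631) (.f (nat_lit 564) (nat_lit 563) (nat_lit 2608) (.f (nat_lit 596) (nat_lit 565) (nat_lit 2609) (.d (nat_lit 628) (nat_lit 627) (nat_lit 592) (nat_lit 629) (nat_lit 593)))))))))))) (.a s4962 (.a (.p (nat_lit 593) (.a (.f (nat_lit 559) (nat_lit 595) (nat_lit 3631) (.d (nat_lit 558) (nat_lit 557) (nat_lit 557) (nat_lit 561) (nat_lit 558))) (.a (.f (nat_lit 559) (nat_lit 595) (nat_lit 3631) (.d (nat_lit 558) (nat_lit 557) (nat_lit 557) (nat_lit 591) (nat_lit 3630))) (.f (nat_lit 625) (nat_lit 496) (nat_lit 4592) (.d (nat_lit 657) (nat_lit 561) (nat_lit 7696) (nat_lit 624) (nat_lit 4624)))))) (.a (.p (nat_lit 624) (.a (.f (nat_lit 529) (nat_lit 497) (nat_lit 6640) (.f (nat_lit 656) (nat_lit 561) (nat_lit 6672) (.d (nat_lit 655) (nat_lit 623) (nat_lit 5647) (nat_lit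 687) (nat_lit 5679)))) (.a (.f (nat_lit 623) (nat_lit 655) (nat_lit 5647) (.f (nat_lit 593) (nat_lit 595) (nat_lit 1615) (.d (nat_lit 622) (nat_lit 621) (nat_lit 2637) (nat_lit 625) (nat_lit 2638)))) (.f (nat_lit 529) (nat_lit 497) (nat_lit 6640) (.f (nat_lit 656) (nat_lit 561) (nat_lit 6672) (.d (nat_lit 657) (nat_lit 625) (nat_lit 4624) (nat_lit 689) (nat_lit 4656))))))) s4985)))))))) (.a (.p (nat_lit 562) (.a (.p (nat_lit 561) (.a (.f (nat_lit 563) (nat_lit 527) (nat_lit 3599) (.d (nat_lit 595) (nat_lit 559) (nat_lit 559) (nat_lit 596) (nat_lit 560))) (.a (.f (nat_lit 559) (nat_lit 595) (nat_lit 559) (.f (nat_lit 530) (nat_lit 531) (nat_lit 2575) (.d (nat_lit 558) (nat_lit 529) (nat_lit 2574) (nat_lit 593) (nat_lit 558)))) (.f (nat_lit 563) (nat_lit 527) (nat_lit 3599) (.f (nat_lit 564) (nat_lit 529) (nat_lit 3600) (.d (nat_lit 532) (nat_lit 531) (nat_lit 2576) (nat_lit 533) (nat_lit 2577))))))) (.a s3834 (.a s8456 (.a s4062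 (.a s4412 (.a s3517 (.a s4787 (.a s4799 (.p (nat_lit 530) (.a s3730 (.a (.p (nat_lit 529) (.a (.f (nat_lit 531) (nat_lit 559) (nat_lit 1551) (.d (nat_lit 499) (nat_lit 500) (nat_lit 2544) (nat_lit 626) (nat_lit 6642))) (.a (.f (nat_lit 497) (nat_lit 626) (nat_lit 7665) (.f (nat_lit 465) (nat_lit 433) (nat_lit 5552) (.d (nat_lit 592) (nat_lit 496) (nat_lit 6608) (nat_lit 624) (nat_lit 6640)))) (.f (nat_lit 531) (nat_lit 559) (nat_lit 1551) (.f (nat_lit 563) (nat_lit 564) (nat_lit 528) (.d (nat_lit 499) (nat_lit 467) (nat_lit 5586) (nat_lit 500) (nat_lit 2544))))))) (.a s4838 (.a (.p (nat_lit 561) (.a (.f (nat_lit 531) (nat_lit 559) (nat_lit 2575) (.d (nat_lit 532) (nat_lit 533) (nat_lit 1553) (nat_lit 563) (nat_lit 2576))) (.a (.f (nat_lit 563) (nat_lit 527) (nat_lit 3599) (.f (nat_lit 564) (nat_lit 529) (nat_lit 3600) (.d (nat_lit 592) (nat_lit 591) (nat_lit 1583) (nat_lit 593) (nat_lit 1584)))) (.f (nat_lit 559) (nat_lit 531) (nat_lit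 2575) (.d (nat_lit 558) (nat_lit 529) (nat_lit 2574) (nat_lit 593) (nat_lit 558)))))) (.a (.p (nat_lit 498) (.a (.f (nat_lit 497) (nat_lit 465) (nat_lit 7633) (.f (nat_lit 529) (nat_lit 626) (nat_lit 7665) (.d (nat_lit 499) (nat_lit 467) (nat_lit 6610) (nat_lit 500) (nat_lit 1520)))) (.a (.f (nat_lit 467) (nat_lit 499) (nat_lit 6610) (.f (nat_lit 466) (nat_lit 435) (nat_lit 6578) (.d (nat_lit 465) (nat_lit 433) (nat_lit 7601) (nat_lit 497) (nat_lit 7633)))) (.a (.f (nat_lit 499) (nat_lit 467) (nat_lit 6610) (.f (nat_lit 527) (nat_lit 529) (nat_lit 2543) (.f (nat_lit 561) (nat_lit 563) (nat_lit 3599) (.f (nat_lit 593) (nat_lit 466) (nat_lit 5585) (.f (nat_lit 559) (nat_lit 558) (nat_lit 558) (.f (nat_lit 591) (nat_lit 590) (nat_lit 1582) (.d (nat_lit 496) (nat_lit 464) (nat_lit 5583) (nat_lit 623) (nat_lit 6639)))))))) (.f (nat_lit 497) (nat_lit 465) (nat_lit 7633) (.f (nat_lit 529) (nat_lit 626) (nat_lit 7665) (.f (nat_lit 563)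 (nat_lit 527) (nat_lit 527) (.d (nat_lit 564) (nat_lit 561) (nat_lit 3600) (nat_lit 565) (nat_lit 3601))))))))) (.p (nat_lit 529) (.a (.f (nat_lit 563) (nat_lit 527) (nat_lit 527) (.d (nat_lit 564) (nat_lit 531) (nat_lit 528) (nat_lit 561) (nat_lit 3600))) (.a (.f (nat_lit 497) (nat_lit 626) (nat_lit 7665) (.d (nat_lit 465) (nat_lit 433) (nat_lit 4529) (nat_lit 561) (nat_lit 4561))) (.f (nat_lit 563) (nat_lit 527) (nat_lit 527) (.d (nat_lit 564) (nat_lit 531) (nat_lit 528) (nat_lit 565) (nat_lit 3601))))))))))))))))))))) (.a (.p (nat_lit 592) (.a (.p (nat_lit 624) (.a (.f (nat_lit 623) (nat_lit 655) (nat_lit 5647) (.f (nat_lit 593) (nat_lit 595) (nat_lit 1615) (.d (nat_lit 622) (nat_lit 591) (nat_lit 1614) (nat_lit 621) (nat_lit 2637)))) (.a (.f (nat_lit 529) (nat_lit 497) (nat_lit 6640) (.f (nat_lit 656) (nat_lit 561) (nat_lit 6672) (.d (nat_lit 655) (nat_lit 623) (nat_lit 5647) (nat_lit 687) (nat_lit 5679)))) (.f (nat_lit 529)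 (nat_lit 497) (nat_lit 6640) (.f (nat_lit 656) (nat_lit 561) (nat_lit 6672) (.d (nat_lit 657) (nat_lit 625) (nat_lit 4624) (nat_lit 689) (nat_lit 4656))))))) (.a s8383 (.a s8326 (.a (.p (nat_lit 593) (.a (.f (nat_lit 595) (nat_lit 559) (nat_lit 3631) (.f (nat_lit 624) (nat_lit 623) (nat_lit 1615) (.d (nat_lit 625) (nat_lit 596) (nat_lit 1616) (nat_lit 657) (nat_lit 4624)))) (.a (.f (nat_lit 595) (nat_lit 559) (nat_lit 3631) (.f (nat_lit 628) (nat_lit 627) (nat_lit 592) (.f (nat_lit 596) (nat_lit 629) (nat_lit 593) (.d (nat_lit 564) (nat_lit 563) (nat_lit 2608) (nat_lit 565) (nat_lit 2609))))) (.f (nat_lit 625) (nat_lit 496) (nat_lit 4592) (.d (nat_lit 657) (nat_lit 624) (nat_lit 4624) (nat_lit 689) (nat_lit 7728)))))) (.a s8464 (.a s8332 s4962))))))) (.a (.p (nat_lit 592) (.a (.p (nat_lit 624) (.a (.f (nat_lit 623) (nat_lit 655) (nat_lit 5647) (.f (nat_lit 593) (nat_lit 595) (nat_lit 1615) (.d (nat_lit 622) (nat_lit 591) (nat_lit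 1614) (nat_lit 621) (nat_lit 2637)))) (.a (.f (nat_lit 529) (nat_lit 497) (nat_lit 6640) (.f (nat_lit 656) (nat_lit 561) (nat_lit 6672) (.d (nat_lit 655) (nat_lit 623) (nat_lit 5647) (nat_lit 687) (nat_lit 5679)))) (.f (nat_lit 529) (nat_lit 497) (nat_lit 6640) (.f (nat_lit 656) (nat_lit 561) (nat_lit 6672) (.d (nat_lit 657) (nat_lit 625) (nat_lit 4624) (nat_lit 689) (nat_lit 4656))))))) (.a s8196 (.a (.p (nat_lit 624) (.a (.f (nat_lit 529) (nat_lit 497) (nat_lit 6640) (.f (nat_lit 656) (nat_lit 561) (nat_lit 6672) (.d (nat_lit 655) (nat_lit 623) (nat_lit 5647) (nat_lit 687) (nat_lit 5679)))) (.a (.f (nat_lit 623) (nat_lit 655) (nat_lit 5647) (.f (nat_lit 625) (nat_lit 657) (nat_lit 4624) (.f (nat_lit 626) (nat_lit 595) (nat_lit 2639) (.d (nat_lit 591) (nat_lit 590) (nat_lit 3662) (nat_lit 627) (nat_lit 3663))))) (.f (nat_lit 529) (nat_lit 497) (nat_lit 6640) (.f (nat_lit 656) (nat_lit 561) (nat_lit 6672) (.d (nat_lit 657) (nat_lit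 625) (nat_lit 4624) (nat_lit 689) (nat_lit 4656))))))) (.a (.p (nat_lit 496) (.a (.f (nat_lit 593) (nat_lit 625) (nat_lit 4592) (.f (nat_lit 591) (nat_lit 623) (nat_lit 5615) (.d (nat_lit 559) (nat_lit 464) (nat_lit 5583) (nat_lit 558) (nat_lit 3630)))) (.a (.f (nat_lit 593) (nat_lit 625) (nat_lit 4592) (.f (nat_lit 591) (nat_lit 623) (nat_lit 5615) (.d (nat_lit 559) (nat_lit 558) (nat_lit 3630) (nat_lit 595) (nat_lit 3631)))) (.a (.f (nat_lit 591) (nat_lit 623) (nat_lit 5615) (.f (nat_lit 464) (nat_lit 559) (nat_lit 5583) (.f (nat_lit 497) (nat_lit 465) (nat_lit 6608) (.f (nat_lit 431) (nat_lit 463) (nat_lit 7599) (.f (nat_lit 432) (nat_lit 399) (nat_lit 7567) (.d (nat_lit 529) (nat_lit 400) (nat_lit 4496) (nat_lit 561) (nat_lit 4528))))))) (.a (.f (nat_lit 593) (nat_lit 625) (nat_lit 4592) (.f (nat_lit 591) (nat_lit 623) (nat_lit 5615) (.f (nat_lit 563) (nat_lit 562) (nat_lit 2607) (.f (nat_lit 595) (nat_lit 564) (nat_lit 2608)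 (.d (nat_lit 627) (nat_lit 626) (nat_lit 591) (nat_lit 628) (nat_lit 592)))))) (.a (.f (nat_lit 593) (nat_lit 625) (nat_lit 4592) (.f (nat_lit 559) (nat_lit 595) (nat_lit 3631) (.d (nat_lit 558) (nat_lit 557) (nat_lit 557) (nat_lit 591) (nat_lit 3630)))) (.f (nat_lit 593) (nat_lit 625) (nat_lit 4592) (.f (nat_lit 595) (nat_lit 559) (nat_lit 3631) (.f (nat_lit 564) (nat_lit 563) (nat_lit 2608) (.f (nat_lit 596) (nat_lit 565) (nat_lit 2609) (.d (nat_lit 628) (nat_lit 627) (nat_lit 592) (nat_lit 629) (nat_lit 593)))))))))))) (.a s4962 (.a s8440 (.a (.p (nat_lit 624) (.a (.f (nat_lit 529) (nat_lit 497) (nat_lit 6640) (.f (nat_lit 656) (nat_lit 561) (nat_lit 6672) (.d (nat_lit 655) (nat_lit 623) (nat_lit 5647) (nat_lit 687) (nat_lit 5679)))) (.a (.f (nat_lit 623) (nat_lit 655) (nat_lit 5647) (.f (nat_lit 593) (nat_lit 595) (nat_lit 1615) (.d (nat_lit 622) (nat_lit 621) (nat_lit 2637) (nat_lit 625) (nat_lit 2638)))) (.f (nat_lit 529)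 (nat_lit 497) (nat_lit 6640) (.f (nat_lit 656) (nat_lit 561) (nat_lit 6672) (.d (nat_lit 657) (nat_lit 625) (nat_lit 4624) (nat_lit 689) (nat_lit 4656))))))) s4985)))))))) (.a (.p (nat_lit 593) (.a (.p (nat_lit 592) (.a (.f (nat_lit 595) (nat_lit 559) (nat_lit 3631) (.f (nat_lit 624) (nat_lit 623) (nat_lit 1615) (.d (nat_lit 596) (nat_lit 561) (nat_lit 3632) (nat_lit 625) (nat_lit 1616)))) (.a (.f (nat_lit 595) (nat_lit 559) (nat_lit 3631) (.f (nat_lit 624) (nat_lit 623) (nat_lit 1615) (.d (nat_lit 625) (nat_lit 596) (nat_lit 1616) (nat_lit 657) (nat_lit 4624)))) (.a (.f (nat_lit 559) (nat_lit 595) (nat_lit 3631) (.d (nat_lit 558) (nat_lit 557) (nat_lit 557) (nat_lit 561) (nat_lit 558))) (.f (nat_lit 625) (nat_lit 496) (nat_lit 4592) (.d (nat_lit 657) (nat_lit 561) (nat_lit 7696) (nat_lit 624) (nat_lit 4624))))))) (.a (.p (nat_lit 595) (.a (.f (nat_lit 561) (nat_lit 596) (nat_lit 3632) (.d (nat_lit 559) (nat_lit 558) (nat_lit 558)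 (nat_lit 562) (nat_lit 559))) (.a (.f (nat_lit 592) (nat_lit 559) (nat_lit 3631) (.f (nat_lit 624) (nat_lit 623) (nat_lit 1615) (.d (nat_lit 625) (nat_lit 596) (nat_lit 1616) (nat_lit 657) (nat_lit 4624)))) (.a (.f (nat_lit 596) (nat_lit 561) (nat_lit 3632) (.f (nat_lit 625) (nat_lit 624) (nat_lit 1616) (.f (nat_lit 597) (nat_lit 626) (nat_lit 1617) (.d (nat_lit 565) (nat_lit 564) (nat_lit 2609) (nat_lit 566) (nat_lit 2610))))) (.f (nat_lit 592) (nat_lit 559) (nat_lit 3631) (.f (nat_lit 624) (nat_lit 623) (nat_lit 1615) (.f (nat_lit 625) (nat_lit 657) (nat_lit 4624) (.f (nat_lit 529) (nat_lit 497) (nat_lit 6640) (.f (nat_lit 561) (nat_lit 656) (nat_lit 6672) (.f (nat_lit 563) (nat_lit 564) (nat_lit 2608) (.f (nat_lit 626) (nat_lit 658) (nat_lit 4625) (.f (nat_lit 530) (nat_lit 498) (nat_lit 6641) (.d (nat_lit 531) (nat_lit 499) (nat_lit 5618) (nat_lit 532) (nat_lit 1552)))))))))))))) (.a (.p (nat_lit 592) (.a (.f (nat_lit 595) (nat_lit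 559) (nat_lit 3631) (.f (nat_lit 624) (nat_lit 623) (nat_lit 1615) (.d (nat_lit 625) (nat_lit 596) (nat_lit 1616) (nat_lit 657) (nat_lit 4624)))) (.a (.f (nat_lit 595) (nat_lit 559) (nat_lit 3631) (.f (nat_lit 628) (nat_lit 627) (nat_lit 592) (.f (nat_lit 596) (nat_lit 629) (nat_lit 593) (.d (nat_lit 564) (nat_lit 563) (nat_lit 2608) (nat_lit 565) (nat_lit 2609))))) (.f (nat_lit 625) (nat_lit 496) (nat_lit 4592) (.d (nat_lit 657) (nat_lit 624) (nat_lit 4624) (nat_lit 689) (nat_lit 7728)))))) (.a (.p (nat_lit 561) (.a (.f (nat_lit 625) (nat_lit 657) (nat_lit 7696) (.d (nat_lit 496) (nat_lit 464) (nat_lit 4560) (nat_lit 529) (nat_lit 7664))) (.f (nat_lit 559) (nat_lit 558) (nat_lit 558) (.d (nat_lit 595) (nat_lit 562) (nat_lit 559) (nat_lit 596) (nat_lit 3632))))) (.a (.p (nat_lit 496) (.a (.f (nat_lit 561) (nat_lit 464) (nat_lit 4560) (.d (nat_lit 625) (nat_lit 529) (nat_lit 7664) (nat_lit 657) (nat_lit 7696))) (.a (.f (nat_lit 592)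 (nat_lit 625) (nat_lit 4592) (.f (nat_lit 497) (nat_lit 465) (nat_lit 6608) (.f (nat_lit 624) (nat_lit 529) (nat_lit 6640) (.d (nat_lit 623) (nat_lit 595) (nat_lit 1615) (nat_lit 655) (nat_lit 5647))))) (.f (nat_lit 464) (nat_lit 561) (nat_lit 4560) (.f (nat_lit 431) (nat_lit 463) (nat_lit 7599) (.f (nat_lit 432) (nat_lit 399) (nat_lit 7567) (.d (nat_lit 433) (nat_lit 401) (nat_lit 6544) (nat_lit 465) (nat_lit 6576)))))))) (.a (.p (nat_lit 595) (.a (.f (nat_lit 561) (nat_lit 596) (nat_lit 3632) (.d (nat_lit 559) (nat_lit 558) (nat_lit 558) (nat_lit 562) (nat_lit 559))) (.a (.f (nat_lit 592) (nat_lit 559) (nat_lit 3631) (.f (nat_lit 564) (nat_lit 563) (nat_lit 2608) (.f (nat_lit 596) (nat_lit 565) (nat_lit 2609) (.d (nat_lit 628) (nat_lit 627) (nat_lit 592) (nat_lit 629) (nat_lit 593))))) (.a (.f (nat_lit 596) (nat_lit 561) (nat_lit 3632) (.f (nat_lit 564) (nat_lit 565) (nat_lit 2609) (.f (nat_lit 628) (nat_lit 629) (nat_lit 593)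 (.d (nat_lit 592) (nat_lit 563) (nat_lit 2608) (nat_lit 627) (nat_lit 592))))) (.f (nat_lit 592) (nat_lit 559) (nat_lit 3631) (.f (nat_lit 624) (nat_lit 623) (nat_lit 1615) (.f (nat_lit 497) (nat_lit 529) (nat_lit 6640) (.f (nat_lit 496) (nat_lit 465) (nat_lit 6608) (.f (nat_lit 464) (nat_lit 561) (nat_lit 4560) (.f (nat_lit 463) (nat_lit 431) (nat_lit 7599) (.f (nat_lit 498) (nat_lit 499) (nat_lit 3535) (.f (nat_lit 627) (nat_lit 628) (nat_lit 592) (.f (nat_lit 563) (nat_lit 564) (nat_lit 2608) (.d (nat_lit 530) (nat_lit 531) (nat_lit 7666) (nat_lit 562) (nat_lit 4594))))))))))))))) (.p (nat_lit 625) (.a (.f (nat_lit 657) (nat_lit 561) (nat_lit 7696) (.d (nat_lit 592) (nat_lit 624) (nat_lit 4624) (nat_lit 689) (nat_lit 7728))) (.a (.f (nat_lit 592) (nat_lit 496) (nat_lit 4592) (.d (nat_lit 657) (nat_lit 624) (nat_lit 4624) (nat_lit 689) (nat_lit 7728))) (.a (.f (nat_lit 561) (nat_lit 657) (nat_lit 7696) (.d (nat_lit 496) (nat_lit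 464) (nat_lit 4560) (nat_lit 529) (nat_lit 7664))) (.f (nat_lit 496) (nat_lit 592) (nat_lit 4592) (.d (nat_lit 561) (nat_lit 464) (nat_lit 4560) (nat_lit 529) (nat_lit 7664)))))))))))))) (.p (nat_lit 592) (.a s4985 (.a s8230 (.a s8347 (.a (.p (nat_lit 496) (.a (.f (nat_lit 593) (nat_lit 625) (nat_lit 4592) (.f (nat_lit 591) (nat_lit 623) (nat_lit 5615) (.d (nat_lit 559) (nat_lit 464) (nat_lit 5583) (nat_lit 558) (nat_lit 3630)))) (.a (.f (nat_lit 591) (nat_lit 623) (nat_lit 5615) (.f (nat_lit 593) (nat_lit 625) (nat_lit 4592) (.f (nat_lit 559) (nat_lit 558) (nat_lit 3630) (.f (nat_lit 562) (nat_lit 563) (nat_lit 2607) (.f (nat_lit 590) (nat_lit 561) (nat_lit 1582) (.f (nat_lit 589) (nat_lit 588) (nat_lit 2604) (.d (nat_lit 621) (nat_lit 620) (nat_lit 1612) (nat_lit 622) (nat_lit 1613)))))))) (.a (.f (nat_lit 591) (nat_lit 623) (nat_lit 5615) (.f (nat_lit 464) (nat_lit 559) (nat_lit 5583) (.f (nat_lit 431) (nat_lit 463) (nat_lit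 7599) (.f (nat_lit 432) (nat_lit 399) (nat_lit 7567) (.d (nat_lit 433) (nat_lit 401) (nat_lit 6544) (nat_lit 465) (nat_lit 6576)))))) (.a (.f (nat_lit 593) (nat_lit 625) (nat_lit 4592) (.f (nat_lit 591) (nat_lit 623) (nat_lit 5615) (.f (nat_lit 561) (nat_lit 464) (nat_lit 4560) (.d (nat_lit 562) (nat_lit 563) (nat_lit 2607) (nat_lit 590) (nat_lit 2606))))) (.a (.f (nat_lit 593) (nat_lit 625) (nat_lit 4592) (.f (nat_lit 464) (nat_lit 561) (nat_lit 4560) (.f (nat_lit 559) (nat_lit 591) (nat_lit 5583) (.f (nat_lit 432) (nat_lit 527) (nat_lit 5551) (.d (nat_lit 431) (nat_lit 399) (nat_lit 7567) (nat_lit 463) (nat_lit 7599)))))) (.f (nat_lit 593) (nat_lit 625) (nat_lit 4592) (.f (nat_lit 464) (nat_lit 561) (nat_lit 4560) (.f (nat_lit 431) (nat_lit 463) (nat_lit 7599) (.f (nat_lit 432) (nat_lit 399) (nat_lit 7567) (.d (nat_lit 433) (nat_lit 401) (nat_lit 6544) (nat_lit 465) (nat_lit 6576)))))))))))) (.a s8464 (.a (.p (nat_lit 496) (.a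 (.f (nat_lit 465) (nat_lit 497) (nat_lit 6608) (.f (nat_lit 464) (nat_lit 433) (nat_lit 6576) (.d (nat_lit 591) (nat_lit 559) (nat_lit 5583) (nat_lit 623) (nat_lit 5615)))) (.a (.f (nat_lit 591) (nat_lit 623) (nat_lit 5615) (.f (nat_lit 464) (nat_lit 559) (nat_lit 5583) (.f (nat_lit 431) (nat_lit 463) (nat_lit 7599) (.f (nat_lit 432) (nat_lit 399) (nat_lit 7567) (.d (nat_lit 433) (nat_lit 401) (nat_lit 6544) (nat_lit 465) (nat_lit 6576)))))) (.a (.f (nat_lit 497) (nat_lit 465) (nat_lit 6608) (.f (nat_lit 624) (nat_lit 529) (nat_lit 6640) (.d (nat_lit 623) (nat_lit 591) (nat_lit 5615) (nat_lit 655) (nat_lit 5647)))) (.a (.f (nat_lit 591) (nat_lit 623) (nat_lit 5615) (.f (nat_lit 464) (nat_lit 559) (nat_lit 5583) (.f (nat_lit 431) (nat_lit 463) (nat_lit 7599) (.f (nat_lit 432) (nat_lit 399) (nat_lit 7567) (.f (nat_lit 401) (nat_lit 433) (nat_lit 6544) (.f (nat_lit 400) (nat_lit 369) (nat_lit 6512) (.d (nat_lit 529) (nat_lit 497) (nat_lit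 4496) (nat_lit 561) (nat_lit 4528)))))))) (.a (.f (nat_lit 465) (nat_lit 497) (nat_lit 6608) (.f (nat_lit 464) (nat_lit 433) (nat_lit 6576) (.f (nat_lit 559) (nat_lit 591) (nat_lit 5583) (.f (nat_lit 431) (nat_lit 463) (nat_lit 7599) (.d (nat_lit 432) (nat_lit 399) (nat_lit 7567) (nat_lit 527) (nat_lit 5551)))))) (.f (nat_lit 465) (nat_lit 497) (nat_lit 6608) (.f (nat_lit 464) (nat_lit 433) (nat_lit 6576) (.f (nat_lit 561) (nat_lit 593) (nat_lit 4560) (.f (nat_lit 431) (nat_lit 463) (nat_lit 7599) (.d (nat_lit 432) (nat_lit 399) (nat_lit 7567) (nat_lit 529) (nat_lit 4528)))))))))))) (.p (nat_lit 496) (.a (.f (nat_lit 593) (nat_lit 625) (nat_lit 4592) (.f (nat_lit 561) (nat_lit 464) (nat_lit 4560) (.f (nat_lit 497) (nat_lit 465) (nat_lit 6608) (.d (nat_lit 529) (nat_lit 624) (nat_lit 5616) (nat_lit 626) (nat_lit 4593))))) (.a (.f (nat_lit 497) (nat_lit 465) (nat_lit 6608) (.f (nat_lit 624) (nat_lit 529) (nat_lit 6640) (.f (nat_lit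 657) (nat_lit 625) (nat_lit 4624) (.f (nat_lit 656) (nat_lit 689) (nat_lit 4656) (.f (nat_lit 559) (nat_lit 527) (nat_lit 7695) (.d (nat_lit 591) (nat_lit 464) (nat_lit 5583) (nat_lit 688) (nat_lit 7727))))))) (.a (.f (nat_lit 465) (nat_lit 497) (nat_lit 6608) (.f (nat_lit 464) (nat_lit 433) (nat_lit 6576) (.f (nat_lit 559) (nat_lit 591) (nat_lit 5583) (.f (nat_lit 431) (nat_lit 463) (nat_lit 7599) (.d (nat_lit 432) (nat_lit 399) (nat_lit 7567) (nat_lit 527) (nat_lit 5551)))))) (.a (.f (nat_lit 593) (nat_lit 625) (nat_lit 4592) (.f (nat_lit 464) (nat_lit 561) (nat_lit 4560) (.f (nat_lit 559) (nat_lit 591) (nat_lit 5583) (.f (nat_lit 432) (nat_lit 527) (nat_lit 5551) (.d (nat_lit 431) (nat_lit 399) (nat_lit 7567) (nat_lit 463) (nat_lit 7599)))))) (.f (nat_lit 497) (nat_lit 465) (nat_lit 6608) (.f (nat_lit 624) (nat_lit 529) (nat_lit 6640) (.d (nat_lit 625) (nat_lit 593) (nat_lit 4592) (nat_lit 657) (nat_lit 4624)))))))))))))))))))))))))))))))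
noncomputable def s8543 : Cert := .r (nat_lit 3773962429215011855543492450550720869832310303675778808522082273768846973641719331484660047637265576285616813297709523478040004805572882704684400427951422413295163801600) (.p (nat_lit 562) (.a (.p (nat_lit 594) (.a (.f (nat_lit 595) (nat_lit 627) (nat_lit 4594) (.f (nat_lit 561) (nat_lit 559) (nat_lit 559) (.d (nat_lit 466) (nat_lit 563) (nat_lit 4562) (nat_lit 593) (nat_lit 5585)))) (.f (nat_lit 497) (nat_lit 465) (nat_lit 7633) (.f (nat_lit 529) (nat_lit 626) (nat_lit 7665) (.d (nat_lit 499) (nat_lit 467) (nat_lit 6610) (nat_lit 500) (nat_lit 1520)))))) (.a s5377 (.a (.p (nat_lit 594) (.a (.f (nat_lit 595) (nat_lit 627) (nat_lit 4594) (.f (nat_lit 561) (nat_lit 559) (nat_lit 559) (.d (nat_lit 563) (nat_lit 466) (nat_lit 4562) (nat_lit 596) (nat_lit 560)))) (.a (.f (nat_lit 467) (nat_lit 499) (nat_lit 6610) (.f (nat_lit 466) (nat_lit 435) (nat_lit 6578) (.d (nat_lit 465) (nat_lit 433)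 (nat_lit 7601) (nat_lit 497) (nat_lit 7633)))) (.f (nat_lit 595) (nat_lit 627) (nat_lit 4594) (.f (nat_lit 561) (nat_lit 559) (nat_lit 559) (.d (nat_lit 596) (nat_lit 563) (nat_lit 560) (nat_lit 597) (nat_lit 3633))))))) (.a (.p (nat_lit 561) (.a (.f (nat_lit 531) (nat_lit 559) (nat_lit 2575) (.d (nat_lit 532) (nat_lit 529) (nat_lit 1552) (nat_lit 533) (nat_lit 1553))) (.a (.f (nat_lit 466) (nat_lit 593) (nat_lit 5585) (.f (nat_lit 563) (nat_lit 595) (nat_lit 4562) (.d (nat_lit 531) (nat_lit 434) (nat_lit 4530) (nat_lit 532) (nat_lit 2576)))) (.f (nat_lit 466) (nat_lit 593) (nat_lit 5585) (.f (nat_lit 529) (nat_lit 434) (nat_lit 5553) (.d (nat_lit 563) (nat_lit 564) (nat_lit 3600) (nat_lit 595) (nat_lit 4562))))))) (.a (.p (nat_lit 561) (.a (.f (nat_lit 531) (nat_lit 559) (nat_lit 2575) (.d (nat_lit 532) (nat_lit 529) (nat_lit 1552) (nat_lit 533) (nat_lit 1553))) (.f (nat_lit 466) (nat_lit 593) (nat_lit 5585) (.f (nat_lit 435) (nat_lit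 467) (nat_lit 6578) (.f (nat_lit 434) (nat_lit 403) (nat_lit 6546) (.d (nat_lit 433) (nat_lit 401) (nat_lit 7569) (nat_lit 465) (nat_lit 7601))))))) (.a s7120 (.p (nat_lit 594) (.a (.f (nat_lit 497) (nat_lit 465) (nat_lit 7633) (.f (nat_lit 529) (nat_lit 626) (nat_lit 7665) (.d (nat_lit 499) (nat_lit 467) (nat_lit 6610) (nat_lit 500) (nat_lit 1520)))) (.f (nat_lit 595) (nat_lit 627) (nat_lit 4594) (.f (nat_lit 561) (nat_lit 559) (nat_lit 559) (.d (nat_lit 596) (nat_lit 563) (nat_lit 560) (nat_lit 597) (nat_lit 3633)))))))))))))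
noncomputable def s8558 : Cert := .r (nat_lit 3773962429215011855748079363544229736708134659727503755535622401646538522984425041990668409912557735965821194068078533299970422563545387142760478962069259479128196775936) (.p (nat_lit 592) (.a (.f (nat_lit 463) (nat_lit 495) (nat_lit 7631) (.f (nat_lit 464) (nat_lit 431) (nat_lit 7599) (.f (nat_lit 465) (nat_lit 433) (nat_lit 6576) (.f (nat_lit 466) (nat_lit 499) (nat_lit 463) (.f (nat_lit 435) (nat_lit 434) (nat_lit 2479) (.d (nat_lit 467) (nat_lit 436) (nat_lit 2480) (nat_lit 562) (nat_lit 6578))))))) (.a (.f (nat_lit 497) (nat_lit 465) (nat_lit 6608) (.d (nat_lit 495) (nat_lit 463) (nat_lit 7631) (nat_lit 531) (nat_lit 495))) (.a (.f (nat_lit 463) (nat_lit 495) (nat_lit 7631) (.f (nat_lit 464) (nat_lit 431) (nat_lit 7599) (.d (nat_lit 591) (nat_lit 559) (nat_lit 5583) (nat_lit 623) (nat_lit 5615)))) (.f (nat_lit 465) (nat_lit 497) (nat_lit 6608) (.f (nat_lit 464) (nat_lit 433) (nat_lit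 6576) (.d (nat_lit 591) (nat_lit 559) (nat_lit 5583) (nat_lit 623) (nat_lit 5615))))))))
noncomputable def s8581 : Cert := .r (nat_lit 3773962429215011855748079363544229736708134659727503755535622401646538522984425041990668409912557735965821194068078533299970422563545387142760478962069259479128196775936) (.p (nat_lit 464) (.a (.f (nat_lit 433) (nat_lit 465) (nat_lit 6576) (.f (nat_lit 432) (nat_lit 401) (nat_lit 6544) (.d (nat_lit 431) (nat_lit 399) (nat_lit 7567) (nat_lit 463) (nat_lit 7599)))) (.a (.f (nat_lit 463) (nat_lit 431) (nat_lit 7599) (.f (nat_lit 592) (nat_lit 495) (nat_lit 7631) (.d (nat_lit 591) (nat_lit 559) (nat_lit 5583) (nat_lit 623) (nat_lit 5615)))) (.a (.f (nat_lit 433) (nat_lit 465) (nat_lit 6576) (.f (nat_lit 432) (nat_lit 401) (nat_lit 6544) (.f (nat_lit 399) (nat_lit 431) (nat_lit 7567) (.f (nat_lit 400) (nat_lit 367) (nat_lit 7535) (.f (nat_lit 559) (nat_lit 591) (nat_lit 5583) (.f (nat_lit 531) (nat_lit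 529) (nat_lit 1551) (.f (nat_lit 434) (nat_lit 435) (nat_lit 3471) (.f (nat_lit 466) (nat_lit 563) (nat_lit 4530) (.f (nat_lit 402) (nat_lit 499) (nat_lit 4498) (.f (nat_lit 371) (nat_lit 403) (nat_lit 6514) (.f (nat_lit 370) (nat_lit 339) (nat_lit 6482) (.d (nat_lit 369) (nat_lit 337) (nat_lit 7505) (nat_lit 368) (nat_lit 1391))))))))))))) (.f (nat_lit 465) (nat_lit 433) (nat_lit 6576) (.f (nat_lit 591) (nat_lit 559) (nat_lit 5583) (.f (nat_lit 592) (nat_lit 623) (nat_lit 5615) (.f (nat_lit 495) (nat_lit 463) (nat_lit 7631) (.f (nat_lit 466) (nat_lit 467) (nat_lit 1487) (.f (nat_lit 531) (nat_lit 529) (nat_lit 3567) (.f (nat_lit 563) (nat_lit 434) (nat_lit 4530) (.d (nat_lit 595) (nat_lit 499) (nat_lit 7634) (nat_lit 562) (nat_lit 4562)))))))))))))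
noncomputable def s8585 : Cert := .r (nat_lit 3773962429215011855748079363544229736708134659727503755535622401646538522984425041990668409912557735965821194068078533299970422563545387142760478962069259479128196775936) (.p (nat_lit 592) (.a (.f (nat_lit 463) (nat_lit 495) (nat_lit 7631) (.f (nat_lit 464) (nat_lit 431) (nat_lit 7599) (.f (nat_lit 465) (nat_lit 433) (nat_lit 6576) (.f (nat_lit 466) (nat_lit 499) (nat_lit 463) (.f (nat_lit 435) (nat_lit 434) (nat_lit 2479) (.d (nat_lit 467) (nat_lit 436) (nat_lit 2480) (nat_lit 562) (nat_lit 6578))))))) (.a (.f (nat_lit 463) (nat_lit 495) (nat_lit 7631) (.f (nat_lit 464) (nat_lit 431) (nat_lit 7599) (.d (nat_lit 591) (nat_lit 559) (nat_lit 5583) (nat_lit 623) (nat_lit 5615)))) (.a (.f (nat_lit 497) (nat_lit 465) (nat_lit 6608) (.f (nat_lit 495) (nat_lit 463) (nat_lit 7631) (.d (nat_lit 529) (nat_lit 494) (nat_lit 494) (nat_lit 624) (nat_lit 6640)))) (.f (nat_lit 465) (nat_lit 497) (nat_lit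 6608) (.f (nat_lit 464) (nat_lit 433) (nat_lit 6576) (.d (nat_lit 591) (nat_lit 559) (nat_lit 5583) (nat_lit 623) (nat_lit 5615))))))))
noncomputable def s8598 : Cert := .r (nat_lit 3773962429215011855748079363544229736708134659727503755535622401646538522984425041990668409912557735965821194068078533299970422563545387142760478962069259479128196775936) (.p (nat_lit 592) (.a (.f (nat_lit 463) (nat_lit 495) (nat_lit 7631) (.f (nat_lit 464) (nat_lit 431) (nat_lit 7599) (.f (nat_lit 465) (nat_lit 433) (nat_lit 6576) (.f (nat_lit 466) (nat_lit 499) (nat_lit 463) (.f (nat_lit 435) (nat_lit 434) (nat_lit 2479) (.d (nat_lit 467) (nat_lit 436) (nat_lit 2480) (nat_lit 562) (nat_lit 6578))))))) (.a (.f (nat_lit 497) (nat_lit 465) (nat_lit 6608) (.d (nat_lit 495) (nat_lit 463) (nat_lit 7631) (nat_lit 531) (nat_lit 495))) (.a (.f (nat_lit 495) (nat_lit 463) (nat_lit 7631) (.d (nat_lit 531) (nat_lit 497) (nat_lit 495) (nat_lit 529) (nat_lit 3567)))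 (.f (nat_lit 497) (nat_lit 465) (nat_lit 6608) (.f (nat_lit 529) (nat_lit 624) (nat_lit 6640) (.f (nat_lit 499) (nat_lit 500) (nat_lit 1520) (.f (nat_lit 531) (nat_lit 532) (nat_lit 496) (.f (nat_lit 467) (nat_lit 468) (nat_lit 2512) (.d (nat_lit 435) (nat_lit 403) (nat_lit 5522) (nat_lit 562) (nat_lit 5554)))))))))))
noncomputable def s8627 : Cert := .r (nat_lit 3773962429215011855543492450550720869832310303675778808522082273768846973641719331484660047637265576285616813297709523478040004805572882704684400427951422413295163801600) (.p (nat_lit 562) (.a (.p (nat_lit 594) (.a (.f (nat_lit 595) (nat_lit 627) (nat_lit 4594) (.f (nat_lit 561) (nat_lit 559) (nat_lit 559) (.d (nat_lit 563) (nat_lit 466) (nat_lit 4562) (nat_lit 596) (nat_lit 560)))) (.a (.f (nat_lit 467) (nat_lit 499) (nat_lit 6610) (.f (nat_lit 466) (nat_lit 435) (nat_lit 6578) (.d (nat_lit 465) (nat_lit 433) (nat_lit 7601) (nat_lit 497) (nat_lit 7633)))) (.f (nat_lit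 595) (nat_lit 627) (nat_lit 4594) (.f (nat_lit 561) (nat_lit 559) (nat_lit 559) (.d (nat_lit 596) (nat_lit 563) (nat_lit 560) (nat_lit 597) (nat_lit 3633))))))) (.a s5672 (.a (.p (nat_lit 561) (.a (.f (nat_lit 466) (nat_lit 593) (nat_lit 5585) (.f (nat_lit 563) (nat_lit 595) (nat_lit 4562) (.d (nat_lit 531) (nat_lit 434) (nat_lit 4530) (nat_lit 532) (nat_lit 2576)))) (.a (.f (nat_lit 466) (nat_lit 593) (nat_lit 5585) (.f (nat_lit 435) (nat_lit 467) (nat_lit 6578) (.f (nat_lit 434) (nat_lit 403) (nat_lit 6546) (.d (nat_lit 433) (nat_lit 401) (nat_lit 7569) (nat_lit 465) (nat_lit 7601))))) (.f (nat_lit 531) (nat_lit 559) (nat_lit 2575) (.d (nat_lit 532) (nat_lit 533) (nat_lit 1553) (nat_lit 563) (nat_lit 2576)))))) (.a (.p (nat_lit 594) (.a (.f (nat_lit 467) (nat_lit 499) (nat_lit 6610) (.f (nat_lit 466) (nat_lit 435) (nat_lit 6578) (.d (nat_lit 465) (nat_lit 433) (nat_lit 7601) (nat_lit 497) (nat_lit 7633)))) (.a (.f (nat_lit 499)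 (nat_lit 467) (nat_lit 6610) (.f (nat_lit 626) (nat_lit 531) (nat_lit 6642) (.d (nat_lit 627) (nat_lit 595) (nat_lit 4594) (nat_lit 659) (nat_lit 4626)))) (.f (nat_lit 595) (nat_lit 627) (nat_lit 4594) (.f (nat_lit 561) (nat_lit 559) (nat_lit 559) (.d (nat_lit 593) (nat_lit 466) (nat_lit 5585) (nat_lit 596) (nat_lit 3632))))))) (.a s5975 (.a (.p (nat_lit 594) (.a (.f (nat_lit 595) (nat_lit 627) (nat_lit 4594) (.f (nat_lit 561) (nat_lit 559) (nat_lit 559) (.d (nat_lit 596) (nat_lit 563) (nat_lit 560) (nat_lit 597) (nat_lit 3633)))) (.a (.f (nat_lit 499) (nat_lit 467) (nat_lit 6610) (.f (nat_lit 626) (nat_lit 531) (nat_lit 6642) (.d (nat_lit 627) (nat_lit 595) (nat_lit 4594) (nat_lit 659) (nat_lit 4626)))) (.f (nat_lit 499) (nat_lit 467) (nat_lit 6610) (.f (nat_lit 531) (nat_lit 626) (nat_lit 6642) (.f (nat_lit 561) (nat_lit 559) (nat_lit 2575) (.d (nat_lit 532) (nat_lit 533) (nat_lit 1553) (nat_lit 563) (nat_lit 2576)))))))) (.a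 (.p (nat_lit 594) (.a (.f (nat_lit 467) (nat_lit 499) (nat_lit 6610) (.f (nat_lit 466) (nat_lit 435) (nat_lit 6578) (.d (nat_lit 465) (nat_lit 433) (nat_lit 7601) (nat_lit 497) (nat_lit 7633)))) (.a (.f (nat_lit 499) (nat_lit 467) (nat_lit 6610) (.f (nat_lit 531) (nat_lit 626) (nat_lit 6642) (.f (nat_lit 561) (nat_lit 559) (nat_lit 2575) (.d (nat_lit 532) (nat_lit 533) (nat_lit 1553) (nat_lit 563) (nat_lit 2576))))) (.f (nat_lit 465) (nat_lit 497) (nat_lit 7633) (.f (nat_lit 466) (nat_lit 433) (nat_lit 7601) (.f (nat_lit 561) (nat_lit 593) (nat_lit 5585) (.f (nat_lit 531) (nat_lit 559) (nat_lit 2575) (.d (nat_lit 532) (nat_lit 533) (nat_lit 1553) (nat_lit 563) (nat_lit 2576))))))))) (.p (nat_lit 594) (.a (.f (nat_lit 595) (nat_lit 627) (nat_lit 4594) (.f (nat_lit 561) (nat_lit 559) (nat_lit 559) (.d (nat_lit 466) (nat_lit 563) (nat_lit 4562) (nat_lit 593) (nat_lit 5585)))) (.a (.f (nat_lit 595) (nat_lit 627) (nat_lit 4594) (.f (nat_lit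 466) (nat_lit 563) (nat_lit 4562) (.d (nat_lit 465) (nat_lit 433) (nat_lit 7601) (nat_lit 497) (nat_lit 7633)))) (.a (.f (nat_lit 595) (nat_lit 627) (nat_lit 4594) (.f (nat_lit 561) (nat_lit 559) (nat_lit 559) (.d (nat_lit 593) (nat_lit 466) (nat_lit 5585) (nat_lit 596) (nat_lit 3632)))) (.a (.f (nat_lit 595) (nat_lit 627) (nat_lit 4594) (.f (nat_lit 561) (nat_lit 559) (nat_lit 559) (.d (nat_lit 596) (nat_lit 563) (nat_lit 560) (nat_lit 597) (nat_lit 3633)))) (.f (nat_lit 465) (nat_lit 497) (nat_lit 7633) (.f (nat_lit 466) (nat_lit 433) (nat_lit 7601) (.f (nat_lit 561) (nat_lit 593) (nat_lit 5585) (.f (nat_lit 531) (nat_lit 559) (nat_lit 2575) (.d (nat_lit 532) (nat_lit 533) (nat_lit 1553) (nat_lit 563) (nat_lit 2576)))))))))))))))))))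
noncomputable def s8646 : Cert := .r (nat_lit 18869812128501177264509710774503796433499995185341540522026907474751343623210314739829166948347900646451490313420764903077122343325272053234930137433682206587892745109504) (.p (nat_lit 594) (.a (.f (nat_lit 595) (nat_lit 627) (nat_lit 4594) (.f (nat_lit 561) (nat_lit 559) (nat_lit 559) (.d (nat_lit 466) (nat_lit 563) (nat_lit 4562) (nat_lit 593) (nat_lit 5585)))) (.a (.f (nat_lit 467) (nat_lit 499) (nat_lit 6610) (.f (nat_lit 466) (nat_lit 435) (nat_lit 6578) (.d (nat_lit 595) (nat_lit 563) (nat_lit 4562) (nat_lit 627) (nat_lit 4594)))) (.a (.f (nat_lit 595) (nat_lit 627) (nat_lit 4594) (.f (nat_lit 561) (nat_lit 559) (nat_lit 559) (.d (nat_lit 593) (nat_lit 466) (nat_lit 5585) (nat_lit 596) (nat_lit 3632)))) (.a (.f (nat_lit 595) (nat_lit 627) (nat_lit 4594) (.f (nat_lit 561) (nat_lit 559) (nat_lit 559) (.d (nat_lit 596) (nat_lit 563) (nat_lit 560) (nat_lit 597) (nat_lit 3633)))) (.f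 (nat_lit 467) (nat_lit 499) (nat_lit 6610) (.f (nat_lit 466) (nat_lit 435) (nat_lit 6578) (.f (nat_lit 561) (nat_lit 593) (nat_lit 5585) (.f (nat_lit 529) (nat_lit 434) (nat_lit 5553) (.f (nat_lit 559) (nat_lit 558) (nat_lit 2574) (.f (nat_lit 591) (nat_lit 590) (nat_lit 1582) (.d (nat_lit 563) (nat_lit 564) (nat_lit 3600) (nat_lit 592) (nat_lit 1583)))))))))))))
noncomputable def s8652 : Cert := .r (nat_lit 18869812128501177264509710774503796433499995185341540522026907474751343623210314739829166948347900646451490313420764903077122343325272053234930137433682206587892745109504) (.p (nat_lit 594) (.a (.f (nat_lit 499) (nat_lit 467) (nat_lit 6610) (.f (nat_lit 531) (nat_lit 626) (nat_lit 6642) (.f (nat_lit 595) (nat_lit 627) (nat_lit 4594) (.f (nat_lit 563) (nat_lit 466) (nat_lit 4562) (.d (nat_lit 500) (nat_lit 468) (nat_lit 6611) (nat_lit 529) (nat_lit 2544)))))) (.a (.f (nat_lit 467) (nat_lit 499) (nat_lit 6610) (.f (nat_lit 466)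 (nat_lit 435) (nat_lit 6578) (.d (nat_lit 595) (nat_lit 563) (nat_lit 4562) (nat_lit 627) (nat_lit 4594)))) (.a (.f (nat_lit 499) (nat_lit 467) (nat_lit 6610) (.f (nat_lit 626) (nat_lit 531) (nat_lit 6642) (.d (nat_lit 627) (nat_lit 595) (nat_lit 4594) (nat_lit 659) (nat_lit 4626)))) (.a (.f (nat_lit 595) (nat_lit 627) (nat_lit 4594) (.f (nat_lit 466) (nat_lit 563) (nat_lit 4562) (.f (nat_lit 433) (nat_lit 465) (nat_lit 7601) (.f (nat_lit 434) (nat_lit 401) (nat_lit 7569) (.d (nat_lit 435) (nat_lit 403) (nat_lit 6546) (nat_lit 467) (nat_lit 6578)))))) (.a (.f (nat_lit 499) (nat_lit 467) (nat_lit 6610) (.f (nat_lit 531) (nat_lit 626) (nat_lit 6642) (.f (nat_lit 529) (nat_lit 500) (nat_lit 2544) (.f (nat_lit 532) (nat_lit 561) (nat_lit 1552) (.d (nat_lit 564) (nat_lit 563) (nat_lit 528) (nat_lit 565) (nat_lit 529)))))) (.f (nat_lit 595) (nat_lit 627) (nat_lit 4594) (.f (nat_lit 563) (nat_lit 466) (nat_lit 4562) (.f (nat_lit 561) (nat_lit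 596) (nat_lit 560) (.f (nat_lit 531) (nat_lit 532) (nat_lit 2576) (.d (nat_lit 626) (nat_lit 499) (nat_lit 5618) (nat_lit 658) (nat_lit 6674))))))))))))
noncomputable def s8653 : Cert := .r (nat_lit 3773962429215011855543492450550720869832310303675778808522082273768846973641719331484660047637265576285616813297709523478040004805572882704684400427951422413295163801600) (.p (nat_lit 562) (.a (.p (nat_lit 561) (.a (.f (nat_lit 531) (nat_lit 559) (nat_lit 2575) (.d (nat_lit 532) (nat_lit 529) (nat_lit 1552) (nat_lit 533) (nat_lit 1553))) (.a (.f (nat_lit 466) (nat_lit 593) (nat_lit 5585) (.f (nat_lit 563) (nat_lit 595) (nat_lit 4562) (.d (nat_lit 531) (nat_lit 434) (nat_lit 4530) (nat_lit 532) (nat_lit 2576)))) (.f (nat_lit 466) (nat_lit 593) (nat_lit 5585) (.f (nat_lit 529) (nat_lit 434) (nat_lit 5553) (.d (nat_lit 563) (nat_lit 564) (nat_lit 3600) (nat_lit 595) (nat_lit 4562))))))) (.a (.p (nat_lit 594) (.a (.f (nat_lit 499) (nat_lit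 467) (nat_lit 6610) (.f (nat_lit 531) (nat_lit 626) (nat_lit 6642) (.d (nat_lit 529) (nat_lit 500) (nat_lit 2544) (nat_lit 559) (nat_lit 1551)))) (.a (.f (nat_lit 467) (nat_lit 499) (nat_lit 6610) (.f (nat_lit 466) (nat_lit 435) (nat_lit 6578) (.d (nat_lit 595) (nat_lit 563) (nat_lit 4562) (nat_lit 627) (nat_lit 4594)))) (.a (.f (nat_lit 595) (nat_lit 627) (nat_lit 4594) (.f (nat_lit 466) (nat_lit 563) (nat_lit 4562) (.f (nat_lit 433) (nat_lit 465) (nat_lit 7601) (.f (nat_lit 434) (nat_lit 401) (nat_lit 7569) (.d (nat_lit 435) (nat_lit 403) (nat_lit 6546) (nat_lit 467) (nat_lit 6578)))))) (.f (nat_lit 627) (nat_lit 595) (nat_lit 4594) (.f (nat_lit 626) (nat_lit 659) (nat_lit 4626) (.f (nat_lit 531) (nat_lit 499) (nat_lit 6642) (.f (nat_lit 529) (nat_lit 559) (nat_lit 1551) (.d (nat_lit 563) (nat_lit 564) (nat_lit 528) (nat_lit 658) (nat_lit 6674)))))))))) (.a (.p (nat_lit 561) (.a (.f (nat_lit 466) (nat_lit 593) (nat_lit 5585) (.f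 (nat_lit 563) (nat_lit 595) (nat_lit 4562) (.d (nat_lit 531) (nat_lit 434) (nat_lit 4530) (nat_lit 532) (nat_lit 2576)))) (.a (.f (nat_lit 466) (nat_lit 593) (nat_lit 5585) (.f (nat_lit 435) (nat_lit 467) (nat_lit 6578) (.f (nat_lit 434) (nat_lit 403) (nat_lit 6546) (.d (nat_lit 433) (nat_lit 401) (nat_lit 7569) (nat_lit 465) (nat_lit 7601))))) (.f (nat_lit 531) (nat_lit 559) (nat_lit 2575) (.d (nat_lit 532) (nat_lit 533) (nat_lit 1553) (nat_lit 563) (nat_lit 2576)))))) (.a s8646 (.a (.p (nat_lit 561) (.a (.f (nat_lit 531) (nat_lit 559) (nat_lit 2575) (.d (nat_lit 532) (nat_lit 529) (nat_lit 1552) (nat_lit 533) (nat_lit 1553))) (.f (nat_lit 466) (nat_lit 593) (nat_lit 5585) (.f (nat_lit 435) (nat_lit 467) (nat_lit 6578) (.f (nat_lit 434) (nat_lit 403) (nat_lit 6546) (.d (nat_lit 433) (nat_lit 401) (nat_lit 7569) (nat_lit 465) (nat_lit 7601))))))) (.a s8652 (.p (nat_lit 594) (.a (.f (nat_lit 595) (nat_lit 627) (nat_lit 4594) (.f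 (nat_lit 561) (nat_lit 559) (nat_lit 559) (.d (nat_lit 596) (nat_lit 563) (nat_lit 560) (nat_lit 597) (nat_lit 3633)))) (.a (.f (nat_lit 499) (nat_lit 467) (nat_lit 6610) (.f (nat_lit 626) (nat_lit 531) (nat_lit 6642) (.d (nat_lit 627) (nat_lit 595) (nat_lit 4594) (nat_lit 659) (nat_lit 4626)))) (.f (nat_lit 499) (nat_lit 467) (nat_lit 6610) (.f (nat_lit 531) (nat_lit 626) (nat_lit 6642) (.f (nat_lit 561) (nat_lit 559) (nat_lit 2575) (.d (nat_lit 532) (nat_lit 533) (nat_lit 1553) (nat_lit 563) (nat_lit 2576)))))))))))))))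
noncomputable def s8671 : Cert := .r (nat_lit 3773962429215011855543492450550720869832310303675778808522082273768846973641719331484660047637265576285616813297709523478040004805572882704684400427951422413295163801600) (.p (nat_lit 562) (.a (.p (nat_lit 594) (.a (.f (nat_lit 595) (nat_lit 627) (nat_lit 4594) (.f (nat_lit 561) (nat_lit 559) (nat_lit 559) (.d (nat_lit 466) (nat_lit 563) (nat_lit 4562) (nat_lit 593) (nat_lit 5585)))) (.f (nat_lit 497) (nat_lit 465) (nat_lit 7633) (.f (nat_lit 529) (nat_lit 626) (nat_lit 7665) (.d (nat_lit 499) (nat_lit 467) (nat_lit 6610) (nat_lit 500) (nat_lit 1520)))))) (.a s6582 (.a (.p (nat_lit 594) (.a (.f (nat_lit 595) (nat_lit 627) (nat_lit 4594) (.f (nat_lit 561) (nat_lit 559) (nat_lit 559) (.d (nat_lit 563) (nat_lit 466) (nat_lit 4562) (nat_lit 596) (nat_lit 560)))) (.a (.f (nat_lit 467) (nat_lit 499) (nat_lit 6610) (.f (nat_lit 466) (nat_lit 435) (nat_lit 6578) (.d (nat_lit 465) (nat_lit 433)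 (nat_lit 7601) (nat_lit 497) (nat_lit 7633)))) (.f (nat_lit 595) (nat_lit 627) (nat_lit 4594) (.f (nat_lit 561) (nat_lit 559) (nat_lit 559) (.d (nat_lit 596) (nat_lit 563) (nat_lit 560) (nat_lit 597) (nat_lit 3633))))))) (.a s8646 (.a s7120 (.a (.p (nat_lit 594) (.a (.f (nat_lit 497) (nat_lit 465) (nat_lit 7633) (.f (nat_lit 529) (nat_lit 626) (nat_lit 7665) (.d (nat_lit 499) (nat_lit 467) (nat_lit 6610) (nat_lit 500) (nat_lit 1520)))) (.a (.f (nat_lit 467) (nat_lit 499) (nat_lit 6610) (.f (nat_lit 466) (nat_lit 435) (nat_lit 6578) (.d (nat_lit 465) (nat_lit 433) (nat_lit 7601) (nat_lit 497) (nat_lit 7633)))) (.f (nat_lit 595) (nat_lit 627) (nat_lit 4594) (.f (nat_lit 561) (nat_lit 559) (nat_lit 559) (.d (nat_lit 593) (nat_lit 466) (nat_lit 5585) (nat_lit 596) (nat_lit 3632))))))) (.a (.p (nat_lit 594) (.a (.f (nat_lit 497) (nat_lit 465) (nat_lit 7633) (.f (nat_lit 529) (nat_lit 626) (nat_lit 7665) (.d (nat_lit 499) (nat_lit 467)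 (nat_lit 6610) (nat_lit 500) (nat_lit 1520)))) (.f (nat_lit 595) (nat_lit 627) (nat_lit 4594) (.f (nat_lit 561) (nat_lit 559) (nat_lit 559) (.d (nat_lit 596) (nat_lit 563) (nat_lit 560) (nat_lit 597) (nat_lit 3633)))))) (.a (.p (nat_lit 594) (.a (.f (nat_lit 497) (nat_lit 465) (nat_lit 7633) (.f (nat_lit 529) (nat_lit 626) (nat_lit 7665) (.d (nat_lit 499) (nat_lit 467) (nat_lit 6610) (nat_lit 500) (nat_lit 1520)))) (.a (.f (nat_lit 467) (nat_lit 499) (nat_lit 6610) (.f (nat_lit 466) (nat_lit 435) (nat_lit 6578) (.d (nat_lit 465) (nat_lit 433) (nat_lit 7601) (nat_lit 497) (nat_lit 7633)))) (.a (.f (nat_lit 467) (nat_lit 499) (nat_lit 6610) (.f (nat_lit 466) (nat_lit 435) (nat_lit 6578) (.f (nat_lit 561) (nat_lit 593) (nat_lit 5585) (.f (nat_lit 529) (nat_lit 434) (nat_lit 5553) (.f (nat_lit 559) (nat_lit 558) (nat_lit 2574) (.f (nat_lit 591) (nat_lit 590) (nat_lit 1582) (.d (nat_lit 563) (nat_lit 564) (nat_lit 3600) (nat_lit 592)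 (nat_lit 1583)))))))) (.a (.f (nat_lit 465) (nat_lit 497) (nat_lit 7633) (.f (nat_lit 466) (nat_lit 433) (nat_lit 7601) (.f (nat_lit 561) (nat_lit 593) (nat_lit 5585) (.f (nat_lit 434) (nat_lit 529) (nat_lit 5553) (.d (nat_lit 435) (nat_lit 403) (nat_lit 6546) (nat_lit 467) (nat_lit 6578)))))) (.f (nat_lit 465) (nat_lit 497) (nat_lit 7633) (.f (nat_lit 466) (nat_lit 433) (nat_lit 7601) (.f (nat_lit 561) (nat_lit 593) (nat_lit 5585) (.f (nat_lit 529) (nat_lit 434) (nat_lit 5553) (.f (nat_lit 559) (nat_lit 558) (nat_lit 2574) (.f (nat_lit 591) (nat_lit 590) (nat_lit 1582) (.d (nat_lit 563) (nat_lit 564) (nat_lit 3600) (nat_lit 592) (nat_lit 1583))))))))))))) (.p (nat_lit 594) (.a (.f (nat_lit 595) (nat_lit 627) (nat_lit 4594) (.f (nat_lit 561) (nat_lit 559) (nat_lit 559) (.d (nat_lit 466) (nat_lit 563) (nat_lit 4562) (nat_lit 593) (nat_lit 5585)))) (.a (.f (nat_lit 595) (nat_lit 627) (nat_lit 4594) (.f (nat_lit 466) (nat_lit 563)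 (nat_lit 4562) (.d (nat_lit 465) (nat_lit 433) (nat_lit 7601) (nat_lit 497) (nat_lit 7633)))) (.a (.f (nat_lit 595) (nat_lit 627) (nat_lit 4594) (.f (nat_lit 561) (nat_lit 559) (nat_lit 559) (.d (nat_lit 593) (nat_lit 466) (nat_lit 5585) (nat_lit 596) (nat_lit 3632)))) (.a (.f (nat_lit 595) (nat_lit 627) (nat_lit 4594) (.f (nat_lit 561) (nat_lit 559) (nat_lit 559) (.d (nat_lit 596) (nat_lit 563) (nat_lit 560) (nat_lit 597) (nat_lit 3633)))) (.f (nat_lit 465) (nat_lit 497) (nat_lit 7633) (.f (nat_lit 466) (nat_lit 433) (nat_lit 7601) (.f (nat_lit 561) (nat_lit 593) (nat_lit 5585) (.f (nat_lit 529) (nat_lit 434) (nat_lit 5553) (.f (nat_lit 559) (nat_lit 558) (nat_lit 2574) (.f (nat_lit 591) (nat_lit 590) (nat_lit 1582) (.d (nat_lit 563) (nat_lit 564) (nat_lit 3600) (nat_lit 592) (nat_lit 1583))))))))))))))))))))))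
noncomputable def s8679 : Cert := .r (nat_lit 18869812128501177264509710774503796433499995185341540522026907474751343623210314739829166948347900646451490313420764903077122343325272053234930137433682206587892745109504) (.p (nat_lit 594) (.a (.f (nat_lit 499) (nat_lit 467) (nat_lit 6610) (.f (nat_lit 531) (nat_lit 626) (nat_lit 6642) (.f (nat_lit 595) (nat_lit 627) (nat_lit 4594) (.f (nat_lit 563) (nat_lit 466) (nat_lit 4562) (.d (nat_lit 500) (nat_lit 468) (nat_lit 6611) (nat_lit 529) (nat_lit 2544)))))) (.a (.f (nat_lit 467) (nat_lit 499) (nat_lit 6610) (.f (nat_lit 466) (nat_lit 435) (nat_lit 6578) (.d (nat_lit 595) (nat_lit 563) (nat_lit 4562) (nat_lit 627) (nat_lit 4594)))) (.a (.f (nat_lit 499) (nat_lit 467) (nat_lit 6610) (.f (nat_lit 626) (nat_lit 531) (nat_lit 6642) (.d (nat_lit 627) (nat_lit 595) (nat_lit 4594) (nat_lit 659) (nat_lit 4626)))) (.a (.f (nat_lit 595) (nat_lit 627) (nat_lit 4594) (.f (nat_lit 563) (nat_lit 466)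 (nat_lit 4562) (.f (nat_lit 561) (nat_lit 596) (nat_lit 560) (.f (nat_lit 564) (nat_lit 529) (nat_lit 3600) (.d (nat_lit 532) (nat_lit 531) (nat_lit 2576) (nat_lit 533) (nat_lit 2577)))))) (.f (nat_lit 499) (nat_lit 467) (nat_lit 6610) (.f (nat_lit 531) (nat_lit 626) (nat_lit 6642) (.f (nat_lit 529) (nat_lit 500) (nat_lit 2544) (.f (nat_lit 532) (nat_lit 561) (nat_lit 1552) (.d (nat_lit 564) (nat_lit 563) (nat_lit 528) (nat_lit 565) (nat_lit 529)))))))))))
noncomputable def s8714 : Cert := .r (nat_lit 3773962429215011855543492450550720869832310303675778808522082273768846973641719331484660047637265576285616813297709523478040004805572882704684400427951422413295163801600) (.p (nat_lit 529) (.a (.f (nat_lit 531) (nat_lit 559) (nat_lit 1551) (.f (nat_lit 499) (nat_lit 500) (nat_lit 2544) (.f (nat_lit 563) (nat_lit 564) (nat_lit 528) (.d (nat_lit 466) (nat_lit 434) (nat_lit 4530) (nat_lit 595) (nat_lit 7634))))) (.a (.f (nat_lit 527)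 (nat_lit 499) (nat_lit 2543) (.f (nat_lit 559) (nat_lit 558) (nat_lit 1550) (.f (nat_lit 495) (nat_lit 494) (nat_lit 3566) (.d (nat_lit 463) (nat_lit 431) (nat_lit 4527) (nat_lit 592) (nat_lit 4559))))) (.a (.f (nat_lit 499) (nat_lit 527) (nat_lit 2543) (.d (nat_lit 500) (nat_lit 501) (nat_lit 1521) (nat_lit 531) (nat_lit 2544))) (.f (nat_lit 531) (nat_lit 559) (nat_lit 1551) (.f (nat_lit 563) (nat_lit 564) (nat_lit 528) (.f (nat_lit 562) (nat_lit 527) (nat_lit 527) (.d (nat_lit 466) (nat_lit 434) (nat_lit 4530) (nat_lit 595) (nat_lit 4562)))))))))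
noncomputable def s8728 : Cert := .r (nat_lit 3773962425700235453761207189473496527578461332485552881862250032036573231881426932091068511225807199947156461919702821867532223248538929286905557330031356994077287514112) (.p (nat_lit 464) (.a (.f (nat_lit 463) (nat_lit 431) (nat_lit 7599) (.f (nat_lit 497) (nat_lit 499) (nat_lit 3535) (.d (nat_lit 462) (nat_lit 461) (nat_lit 461) (nat_lit 465) (nat_lit 462)))) (.a (.f (nat_lit 431) (nat_lit 463) (nat_lit 7599) (.f (nat_lit 432) (nat_lit 399) (nat_lit 7567) (.d (nat_lit 433) (nat_lit 401) (nat_lit 6544) (nat_lit 465) (nat_lit 6576)))) (.a (.f (nat_lit 463) (nat_lit 431) (nat_lit 7599) (.f (nat_lit 497) (nat_lit 499) (nat_lit 3535) (.d (nat_lit 462) (nat_lit 461) (nat_lit 461) (nat_lit 495) (nat_lit 3534)))) (.f (nat_lit 465) (nat_lit 433) (nat_lit 6576) (.f (nat_lit 497) (nat_lit 592) (nat_lit 6608) (.f (nat_lit 499) (nat_lit 500) (nat_lit 3536) (.f (nat_lit 467) (nat_lit 468) (nat_lit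 2512) (.f (nat_lit 466) (nat_lit 495) (nat_lit 2511) (.f (nat_lit 531) (nat_lit 532) (nat_lit 496) (.d (nat_lit 434) (nat_lit 402) (nat_lit 4498) (nat_lit 563) (nat_lit 7602))))))))))))
noncomputable def s8736 : Cert := .r (nat_lit 3773962425700235453761207189473496527578461332485552881862250032036573231881426932091068511225807199947156461919702821867532223248538929286905557330031356994077287514112) (.p (nat_lit 464) (.a (.f (nat_lit 431) (nat_lit 463) (nat_lit 7599) (.f (nat_lit 432) (nat_lit 399) (nat_lit 7567) (.d (nat_lit 433) (nat_lit 401) (nat_lit 6544) (nat_lit 465) (nat_lit 6576)))) (.a (.f (nat_lit 559) (nat_lit 591) (nat_lit 5583) (.f (nat_lit 432) (nat_lit 527) (nat_lit 5551) (.d (nat_lit 431) (nat_lit 399) (nat_lit 7567) (nat_lit 463) (nat_lit 7599)))) (.a (.f (nat_lit 463) (nat_lit 431) (nat_lit 7599) (.f (nat_lit 465) (nat_lit 433) (nat_lit 6576) (.f (nat_lit 495) (nat_lit 592) (nat_lit 7631) (.d (nat_lit 466) (nat_lit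 467) (nat_lit 1487) (nat_lit 494) (nat_lit 1486))))) (.f (nat_lit 559) (nat_lit 591) (nat_lit 5583) (.f (nat_lit 432) (nat_lit 527) (nat_lit 5551) (.d (nat_lit 433) (nat_lit 401) (nat_lit 6544) (nat_lit 465) (nat_lit 6576))))))))
noncomputable def s8748 : Cert := .r (nat_lit 3773962425700235453761207189473496527578461332485552881862250032036573231881426932091068511225807199947156461919702821867532223248538929286905557330031356994077287514112) (.p (nat_lit 592) (.a (.f (nat_lit 497) (nat_lit 465) (nat_lit 6608) (.f (nat_lit 529) (nat_lit 624) (nat_lit 6640) (.f (nat_lit 495) (nat_lit 463) (nat_lit 7631) (.d (nat_lit 494) (nat_lit 493) (nat_lit 493) (nat_lit 530) (nat_lit 494))))) (.a (.f (nat_lit 497) (nat_lit 465) (nat_lit 6608) (.f (nat_lit 495) (nat_lit 463) (nat_lit 7631) (.f (nat_lit 499) (nat_lit 527) (nat_lit 1519) (.d (nat_lit 467) (nat_lit 466) (nat_lit 2511) (nat_lit 468) (nat_lit 2512))))) (.a (.f (nat_lit 495) (nat_lit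 463) (nat_lit 7631) (.f (nat_lit 624) (nat_lit 527) (nat_lit 7663) (.d (nat_lit 623) (nat_lit 591) (nat_lit 5615) (nat_lit 655) (nat_lit 5647)))) (.f (nat_lit 497) (nat_lit 465) (nat_lit 6608) (.f (nat_lit 499) (nat_lit 527) (nat_lit 1519) (.d (nat_lit 529) (nat_lit 500) (nat_lit 1520) (nat_lit 624) (nat_lit 6640))))))))
noncomputable def s8803 : Cert := .r (nat_lit 3773962425700235453761207189473496527578461332485552881862250032036573231881426932091068511225807199947156461919702821867532223248538929286905557330031356994077287514112) (.p (nat_lit 464) (.a (.f (nat_lit 559) (nat_lit 591) (nat_lit 5583) (.f (nat_lit 432) (nat_lit 527) (nat_lit 5551) (.d (nat_lit 433) (nat_lit 401) (nat_lit 6544) (nat_lit 465) (nat_lit 6576)))) (.a (.f (nat_lit 465) (nat_lit 433) (nat_lit 6576) (.f (nat_lit 497) (nat_lit 592) (nat_lit 6608) (.f (nat_lit 499) (nat_lit 500) (nat_lit 3536) (.f (nat_lit 467) (nat_lit 468) (nat_lit 2512) (.f (nat_lit 466)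 (nat_lit 495) (nat_lit 2511) (.f (nat_lit 531) (nat_lit 532) (nat_lit 496) (.d (nat_lit 434) (nat_lit 402) (nat_lit 4498) (nat_lit 563) (nat_lit 7602)))))))) (.a (.f (nat_lit 559) (nat_lit 591) (nat_lit 5583) (.f (nat_lit 432) (nat_lit 527) (nat_lit 5551) (.f (nat_lit 399) (nat_lit 431) (nat_lit 7567) (.f (nat_lit 400) (nat_lit 367) (nat_lit 7535) (.d (nat_lit 401) (nat_lit 369) (nat_lit 6512) (nat_lit 433) (nat_lit 6544)))))) (.f (nat_lit 559) (nat_lit 591) (nat_lit 5583) (.f (nat_lit 527) (nat_lit 432) (nat_lit 5551) (.f (nat_lit 497) (nat_lit 499) (nat_lit 1519) (.f (nat_lit 592) (nat_lit 465) (nat_lit 6608) (.d (nat_lit 624) (nat_lit 495) (nat_lit 7663) (nat_lit 529) (nat_lit 6640))))))))))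
noncomputable def s8835 : Cert := .r (nat_lit 18869812128501177264509710774503796433499995185341540522026907474751343623210314739829166948347900646451490313420764903077122343325272053234930137433682206587892745109504) (.p (nat_lit 561) (.a (.f (nat_lit 563) (nat_lit 527) (nat_lit 3599) (.d (nat_lit 466) (nat_lit 593) (nat_lit 5585) (nat_lit 595) (nat_lit 4562))) (.a (.f (nat_lit 466) (nat_lit 593) (nat_lit 5585) (.f (nat_lit 435) (nat_lit 467) (nat_lit 6578) (.f (nat_lit 434) (nat_lit 403) (nat_lit 6546) (.d (nat_lit 433) (nat_lit 401) (nat_lit 7569) (nat_lit 465) (nat_lit 7601))))) (.a (.f (nat_lit 563) (nat_lit 527) (nat_lit 3599) (.d (nat_lit 595) (nat_lit 466) (nat_lit 4562) (nat_lit 596) (nat_lit 560))) (.f (nat_lit 563) (nat_lit 527) (nat_lit 3599) (.f (nat_lit 592) (nat_lit 591) (nat_lit 1583) (.f (nat_lit 564) (nat_lit 593) (nat_lit 1584) (.d (nat_lit 596) (nat_lit 595) (nat_lit 560) (nat_lit 597) (nat_lit 561)))))))))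
noncomputable def s8898 : Cert := .r (nat_lit 16209045194715341169889328671100218522622355755399656117041864378952822448740554129412576881534684345388788034842345788893064870933929052786999529669587149448496261347781401116672) (.p (nat_lit 496) (.a (.f (nat_lit 497) (nat_lit 465) (nat_lit 6608) (.f (nat_lit 529) (nat_lit 624) (nat_lit 6640) (.f (nat_lit 495) (nat_lit 463) (nat_lit 7631) (.d (nat_lit 494) (nat_lit 493) (nat_lit 493) (nat_lit 530) (nat_lit 494))))) (.a (.f (nat_lit 497) (nat_lit 465) (nat_lit 6608) (.f (nat_lit 463) (nat_lit 495) (nat_lit 7631) (.d (nat_lit 464) (nat_lit 431) (nat_lit 7599) (nat_lit 499) (nat_lit 3535)))) (.a (.f (nat_lit 591) (nat_lit 623) (nat_lit 5615) (.f (nat_lit 464) (nat_lit 559) (nat_lit 5583) (.d (nat_lit 463) (nat_lit 431) (nat_lit 7599) (nat_lit 495) (nat_lit 7631)))) (.f (nat_lit 497) (nat_lit 465) (nat_lit 6608) (.f (nat_lit 499) (nat_lit 527) (nat_lit 1519) (.d (nat_lit 529) (nat_lit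 500) (nat_lit 1520) (nat_lit 624) (nat_lit 6640))))))))
noncomputable def s8909 : Cert := .r (nat_lit 16209045194715341169889328671100218522622355755399656117041864378952822448740554129412576881534684345388788034842345788893064870933929052786999529669587149448496261347781401116672) (.p (nat_lit 496) (.a (.f (nat_lit 497) (nat_lit 465) (nat_lit 6608) (.f (nat_lit 529) (nat_lit 624) (nat_lit 6640) (.f (nat_lit 495) (nat_lit 463) (nat_lit 7631) (.d (nat_lit 494) (nat_lit 493) (nat_lit 493) (nat_lit 530) (nat_lit 494))))) (.a (.f (nat_lit 497) (nat_lit 465) (nat_lit 6608) (.f (nat_lit 463) (nat_lit 495) (nat_lit 7631) (.d (nat_lit 464) (nat_lit 431) (nat_lit 7599) (nat_lit 499) (nat_lit 3535)))) (.a (.f (nat_lit 591) (nat_lit 623) (nat_lit 5615) (.f (nat_lit 464) (nat_lit 559) (nat_lit 5583) (.d (nat_lit 463) (nat_lit 431) (nat_lit 7599) (nat_lit 495) (nat_lit 7631)))) (.a (.f (nat_lit 497) (nat_lit 465) (nat_lit 6608) (.f (nat_lit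 529) (nat_lit 624) (nat_lit 6640) (.f (nat_lit 499) (nat_lit 500) (nat_lit 1520) (.f (nat_lit 464) (nat_lit 463) (nat_lit 3535) (.d (nat_lit 432) (nat_lit 400) (nat_lit 4496) (nat_lit 561) (nat_lit 4528)))))) (.f (nat_lit 497) (nat_lit 465) (nat_lit 6608) (.f (nat_lit 529) (nat_lit 624) (nat_lit 6640) (.f (nat_lit 499) (nat_lit 500) (nat_lit 1520) (.f (nat_lit 531) (nat_lit 532) (nat_lit 496) (.d (nat_lit 530) (nat_lit 495) (nat_lit 495) (nat_lit 559) (nat_lit 1551)))))))))))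
noncomputable def s8959 : Cert := .r (nat_lit 16209045194715341169889328671100218522622355755399656117041864378952822448740554129412576881534684345388788034842345788893064870933929052786999529669587149448496261347781401116672) (.p (nat_lit 496) (.a (.f (nat_lit 497) (nat_lit 465) (nat_lit 6608) (.f (nat_lit 529) (nat_lit 624) (nat_lit 6640) (.f (nat_lit 495) (nat_lit 463) (nat_lit 7631) (.d (nat_lit 494) (nat_lit 493) (nat_lit 493) (nat_lit 530) (nat_lit 494))))) (.a (.f (nat_lit 497) (nat_lit 465) (nat_lit 6608) (.f (nat_lit 463) (nat_lit 495) (nat_lit 7631) (.d (nat_lit 464) (nat_lit 431) (nat_lit 7599) (nat_lit 499) (nat_lit 3535)))) (.a (.f (nat_lit 495) (nat_lit 463) (nat_lit 7631) (.f (nat_lit 624) (nat_lit 527) (nat_lit 7663) (.d (nat_lit 623) (nat_lit 591) (nat_lit 5615) (nat_lit 655) (nat_lit 5647)))) (.a (.f (nat_lit 497) (nat_lit 465) (nat_lit 6608) (.f (nat_lit 529) (nat_lit 624) (nat_lit 6640) (.f (nat_lit 499) (nat_lit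 500) (nat_lit 1520) (.f (nat_lit 464) (nat_lit 463) (nat_lit 3535) (.d (nat_lit 432) (nat_lit 400) (nat_lit 4496) (nat_lit 561) (nat_lit 4528)))))) (.f (nat_lit 497) (nat_lit 465) (nat_lit 6608) (.f (nat_lit 499) (nat_lit 527) (nat_lit 1519) (.d (nat_lit 529) (nat_lit 500) (nat_lit 1520) (nat_lit 624) (nat_lit 6640)))))))))
noncomputable def s8967 : Cert := .r (nat_lit 16209045194715341169889328671100218522622355755399656117041864378952822448740554129412576881534684345388788034842345788893064870933929052786999529669587149448496261347781401116672) (.p (nat_lit 496) (.a (.f (nat_lit 497) (nat_lit 465) (nat_lit 6608) (.f (nat_lit 529) (nat_lit 624) (nat_lit 6640) (.f (nat_lit 499) (nat_lit 500) (nat_lit 1520) (.f (nat_lit 464) (nat_lit 463) (nat_lit 3535) (.d (nat_lit 432) (nat_lit 400) (nat_lit 4496) (nat_lit 561) (nat_lit 4528)))))) (.a (.f (nat_lit 497) (nat_lit 465) (nat_lit 6608) (.f (nat_lit 499) (nat_lit 527) (nat_lit 1519)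 (.d (nat_lit 529) (nat_lit 500) (nat_lit 1520) (nat_lit 624) (nat_lit 6640)))) (.a (.f (nat_lit 591) (nat_lit 623) (nat_lit 5615) (.f (nat_lit 464) (nat_lit 559) (nat_lit 5583) (.d (nat_lit 465) (nat_lit 433) (nat_lit 6576) (nat_lit 497) (nat_lit 6608)))) (.a (.f (nat_lit 591) (nat_lit 623) (nat_lit 5615) (.f (nat_lit 464) (nat_lit 559) (nat_lit 5583) (.f (nat_lit 431) (nat_lit 463) (nat_lit 7599) (.f (nat_lit 432) (nat_lit 399) (nat_lit 7567) (.d (nat_lit 433) (nat_lit 401) (nat_lit 6544) (nat_lit 465) (nat_lit 6576)))))) (.f (nat_lit 591) (nat_lit 623) (nat_lit 5615) (.f (nat_lit 464) (nat_lit 559) (nat_lit 5583) (.f (nat_lit 463) (nat_lit 431) (nat_lit 7599) (.f (nat_lit 497) (nat_lit 499) (nat_lit 3535) (.f (nat_lit 529) (nat_lit 624) (nat_lit 6640) (.d (nat_lit 432) (nat_lit 400) (nat_lit 4496) (nat_lit 561) (nat_lit 4528))))))))))))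
noncomputable def s9039 : Cert := .r (nat_lit 16209045194715341169889328671100218522622355755399656117041864378952822448740554129412576881534684345388788034842345788893064870933929052786999529669587149448496261347781401116672) (.p (nat_lit 624) (.a (.f (nat_lit 527) (nat_lit 495) (nat_lit 7663) (.f (nat_lit 656) (nat_lit 559) (nat_lit 7695) (.d (nat_lit 655) (nat_lit 623) (nat_lit 5647) (nat_lit 687) (nat_lit 5679)))) (.a (.f (nat_lit 655) (nat_lit 623) (nat_lit 5647) (.f (nat_lit 656) (nat_lit 687) (nat_lit 5679) (.f (nat_lit 689) (nat_lit 657) (nat_lit 4656) (.f (nat_lit 688) (nat_lit 721) (nat_lit 4688) (.d (nat_lit 561) (nat_lit 529) (nat_lit 6672) (nat_lit 593) (nat_lit 6704)))))) (.a (.f (nat_lit 527) (nat_lit 495) (nat_lit 7663) (.f (nat_lit 529) (nat_lit 497) (nat_lit 6640) (.f (nat_lit 559) (nat_lit 656) (nat_lit 7695) (.d (nat_lit 530) (nat_lit 499) (nat_lit 2543) (nat_lit 531) (nat_lit 1551))))) (.f (nat_lit 529) (nat_lit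 497) (nat_lit 6640) (.f (nat_lit 527) (nat_lit 495) (nat_lit 7663) (.f (nat_lit 530) (nat_lit 499) (nat_lit 2543) (.d (nat_lit 559) (nat_lit 531) (nat_lit 1551) (nat_lit 558) (nat_lit 1550)))))))))
noncomputable def s9104 : Cert := .r (nat_lit 16209045194715341169889328671100218522622355755399656117041864378952822448740554129412576881534684345388788034842345788893064870933929052786999529669587149448496261347781401116672) (.p (nat_lit 624) (.a (.f (nat_lit 655) (nat_lit 623) (nat_lit 5647) (.f (nat_lit 656) (nat_lit 687) (nat_lit 5679) (.f (nat_lit 689) (nat_lit 657) (nat_lit 4656) (.f (nat_lit 688) (nat_lit 721) (nat_lit 4688) (.d (nat_lit 561) (nat_lit 529) (nat_lit 6672) (nat_lit 593) (nat_lit 6704)))))) (.a (.f (nat_lit 623) (nat_lit 655) (nat_lit 5647) (.f (nat_lit 496) (nat_lit 591) (nat_lit 5615) (.f (nat_lit 497) (nat_lit 529) (nat_lit 6640) (.f (nat_lit 499) (nat_lit 527) (nat_lit 1519) (.f (nat_lit 468) (nat_lit 467) (nat_lit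 2512) (.f (nat_lit 500) (nat_lit 469) (nat_lit 2513) (.d (nat_lit 532) (nat_lit 531) (nat_lit 496) (nat_lit 533) (nat_lit 497)))))))) (.a (.f (nat_lit 655) (nat_lit 623) (nat_lit 5647) (.f (nat_lit 656) (nat_lit 687) (nat_lit 5679) (.f (nat_lit 689) (nat_lit 657) (nat_lit 4656) (.f (nat_lit 688) (nat_lit 721) (nat_lit 4688) (.d (nat_lit 559) (nat_lit 527) (nat_lit 7695) (nat_lit 591) (nat_lit 7727)))))) (.a (.f (nat_lit 529) (nat_lit 497) (nat_lit 6640) (.f (nat_lit 656) (nat_lit 561) (nat_lit 6672) (.f (nat_lit 559) (nat_lit 527) (nat_lit 7695) (.f (nat_lit 688) (nat_lit 591) (nat_lit 7727) (.d (nat_lit 687) (nat_lit 655) (nat_lit 5679) (nat_lit 719) (nat_lit 5711)))))) (.f (nat_lit 529) (nat_lit 497) (nat_lit 6640) (.f (nat_lit 656) (nat_lit 561) (nat_lit 6672) (.f (nat_lit 559) (nat_lit 527) (nat_lit 7695) (.f (nat_lit 591) (nat_lit 688) (nat_lit 7727) (.d (nat_lit 496) (nat_lit 464) (nat_lit 5583) (nat_lit 623) (nat_lit 5615)))))))))))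
noncomputable def s9110 : Cert := .r (nat_lit 16209045194715341169889328671100218522622355755399656117041864378952822448740554129412576881534684345388788034842345788893064870933929052786999529669587149448496261347781401116672) (.p (nat_lit 624) (.a (.f (nat_lit 527) (nat_lit 495) (nat_lit 7663) (.f (nat_lit 529) (nat_lit 497) (nat_lit 6640) (.f (nat_lit 559) (nat_lit 656) (nat_lit 7695) (.d (nat_lit 530) (nat_lit 499) (nat_lit 2543) (nat_lit 531) (nat_lit 1551))))) (.a (.f (nat_lit 529) (nat_lit 497) (nat_lit 6640) (.f (nat_lit 656) (nat_lit 561) (nat_lit 6672) (.f (nat_lit 687) (nat_lit 655) (nat_lit 5679) (.f (nat_lit 688) (nat_lit 719) (nat_lit 5711) (.d (nat_lit 689) (nat_lit 657) (nat_lit 4656) (nat_lit 721) (nat_lit 4688)))))) (.a (.f (nat_lit 527) (nat_lit 495) (nat_lit 7663) (.f (nat_lit 656) (nat_lit 559) (nat_lit 7695) (.f (nat_lit 687) (nat_lit 655) (nat_lit 5679) (.f (nat_lit 688) (nat_lit 719) (nat_lit 5711) (.d (nat_lit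 689) (nat_lit 657) (nat_lit 4656) (nat_lit 721) (nat_lit 4688)))))) (.f (nat_lit 529) (nat_lit 497) (nat_lit 6640) (.f (nat_lit 527) (nat_lit 495) (nat_lit 7663) (.f (nat_lit 530) (nat_lit 499) (nat_lit 2543) (.d (nat_lit 559) (nat_lit 531) (nat_lit 1551) (nat_lit 558) (nat_lit 1550)))))))))
noncomputable def s9184 : Cert := .r (nat_lit 16209045194715341169889328671100218522622355755399656117041864378952822448740554129412576881534684345388788034842345788893064870933929052786999529669587149448496261347781401116672) (.p (nat_lit 496) (.a (.f (nat_lit 497) (nat_lit 465) (nat_lit 6608) (.f (nat_lit 463) (nat_lit 495) (nat_lit 7631) (.d (nat_lit 464) (nat_lit 431) (nat_lit 7599) (nat_lit 499) (nat_lit 3535)))) (.a (.f (nat_lit 591) (nat_lit 623) (nat_lit 5615) (.f (nat_lit 464) (nat_lit 559) (nat_lit 5583) (.d (nat_lit 463) (nat_lit 431) (nat_lit 7599) (nat_lit 495) (nat_lit 7631)))) (.a (.f (nat_lit 495) (nat_lit 463) (nat_lit 7631)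 (.f (nat_lit 624) (nat_lit 527) (nat_lit 7663) (.d (nat_lit 623) (nat_lit 591) (nat_lit 5615) (nat_lit 655) (nat_lit 5647)))) (.f (nat_lit 591) (nat_lit 623) (nat_lit 5615) (.f (nat_lit 464) (nat_lit 559) (nat_lit 5583) (.d (nat_lit 465) (nat_lit 433) (nat_lit 6576) (nat_lit 497) (nat_lit 6608))))))))
noncomputable def s9196 : Cert := .r (nat_lit 16209045194715341169889328671100218522622355755399656117041864378952822448740554129412576881534684345388788034842345788893064870933929052786999529669587149448496261347781401116672) (.p (nat_lit 496) (.a (.f (nat_lit 591) (nat_lit 623) (nat_lit 5615) (.f (nat_lit 464) (nat_lit 559) (nat_lit 5583) (.d (nat_lit 463) (nat_lit 431) (nat_lit 7599) (nat_lit 495) (nat_lit 7631)))) (.a (.f (nat_lit 495) (nat_lit 463) (nat_lit 7631) (.f (nat_lit 624) (nat_lit 527) (nat_lit 7663) (.d (nat_lit 623) (nat_lit 591) (nat_lit 5615) (nat_lit 655) (nat_lit 5647)))) (.a (.f (nat_lit 591) (nat_lit 623) (nat_lit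 5615) (.f (nat_lit 464) (nat_lit 559) (nat_lit 5583) (.f (nat_lit 431) (nat_lit 463) (nat_lit 7599) (.f (nat_lit 432) (nat_lit 399) (nat_lit 7567) (.d (nat_lit 433) (nat_lit 401) (nat_lit 6544) (nat_lit 465) (nat_lit 6576)))))) (.a (.f (nat_lit 463) (nat_lit 495) (nat_lit 7631) (.f (nat_lit 464) (nat_lit 431) (nat_lit 7599) (.f (nat_lit 559) (nat_lit 591) (nat_lit 5583) (.f (nat_lit 432) (nat_lit 527) (nat_lit 5551) (.d (nat_lit 561) (nat_lit 529) (nat_lit 4528) (nat_lit 593) (nat_lit 4560)))))) (.a (.f (nat_lit 495) (nat_lit 463) (nat_lit 7631) (.f (nat_lit 624) (nat_lit 527) (nat_lit 7663) (.f (nat_lit 655) (nat_lit 623) (nat_lit 5647) (.f (nat_lit 656) (nat_lit 687) (nat_lit 5679) (.f (nat_lit 561) (nat_lit 529) (nat_lit 6672) (.d (nat_lit 593) (nat_lit 464) (nat_lit 4560) (nat_lit 688) (nat_lit 6704))))))) (.f (nat_lit 591) (nat_lit 623) (nat_lit 5615) (.f (nat_lit 464) (nat_lit 559) (nat_lit 5583) (.f (nat_lit 561) (nat_lit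 593) (nat_lit 4560) (.f (nat_lit 432) (nat_lit 529) (nat_lit 4528) (.d (nat_lit 433) (nat_lit 401) (nat_lit 6544) (nat_lit 465) (nat_lit 6576))))))))))))
noncomputable def s9197 : Cert := .r (nat_lit 16209045194715341169889328671100218522622355755399656117041864378952822448740554129412576881534684345388788034842345788893064870933929052786999529669587149448496261347781401116672) (.p (nat_lit 496) (.a (.f (nat_lit 497) (nat_lit 465) (nat_lit 6608) (.f (nat_lit 463) (nat_lit 495) (nat_lit 7631) (.d (nat_lit 464) (nat_lit 431) (nat_lit 7599) (nat_lit 499) (nat_lit 3535)))) (.a (.f (nat_lit 591) (nat_lit 623) (nat_lit 5615) (.f (nat_lit 464) (nat_lit 559) (nat_lit 5583) (.d (nat_lit 463) (nat_lit 431) (nat_lit 7599) (nat_lit 495) (nat_lit 7631)))) (.f (nat_lit 497) (nat_lit 465) (nat_lit 6608) (.f (nat_lit 499) (nat_lit 527) (nat_lit 1519) (.f (nat_lit 468) (nat_lit 467) (nat_lit 2512) (.f (nat_lit 500) (nat_lit 469) (nat_lit 2513) (.d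 (nat_lit 532) (nat_lit 531) (nat_lit 496) (nat_lit 533) (nat_lit 497)))))))))
noncomputable def s9255 : Cert := .r (nat_lit 3773962425700235452738272624505952193199339552226928146794549392648115485167898379561026699849346401546134558067857772757880134458676407096525164659442171664912122642432) (.p (nat_lit 498) (.a s6363 (.a (.p (nat_lit 530) (.a s5654 (.a s8543 (.a (.p (nat_lit 496) (.a s5496 (.a s8558 (.a s8581 (.a s8585 (.a (.p (nat_lit 497) (.a (.f (nat_lit 495) (nat_lit 531) (nat_lit 495) (.f (nat_lit 466) (nat_lit 467) (nat_lit 2511) (.f (nat_lit 465) (nat_lit 494) (nat_lit 2510) (.d (nat_lit 433) (nat_lit 401) (nat_lit 4497) (nat_lit 562) (nat_lit 7601))))) (.a (.f (nat_lit 531) (nat_lit 495) (nat_lit 495) (.d (nat_lit 529) (nat_lit 532) (nat_lit 3568) (nat_lit 559) (nat_lit 1551))) (.f (nat_lit 465) (nat_lit 592) (nat_lit 6608) (.d (nat_lit 433) (nat_lit 401) (nat_lit 4497) (nat_lit 529) (nat_lit 5552)))))) (.a s8598 (.a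 (.p (nat_lit 592) (.a (.f (nat_lit 495) (nat_lit 463) (nat_lit 7631) (.d (nat_lit 531) (nat_lit 497) (nat_lit 495) (nat_lit 529) (nat_lit 3567))) (.a (.f (nat_lit 463) (nat_lit 495) (nat_lit 7631) (.f (nat_lit 464) (nat_lit 431) (nat_lit 7599) (.d (nat_lit 591) (nat_lit 559) (nat_lit 5583) (nat_lit 623) (nat_lit 5615)))) (.f (nat_lit 591) (nat_lit 623) (nat_lit 5615) (.f (nat_lit 559) (nat_lit 464) (nat_lit 5583) (.f (nat_lit 529) (nat_lit 531) (nat_lit 1551) (.f (nat_lit 558) (nat_lit 557) (nat_lit 2573) (.f (nat_lit 594) (nat_lit 593) (nat_lit 3630) (.f (nat_lit 497) (nat_lit 624) (nat_lit 6640) (.f (nat_lit 499) (nat_lit 500) (nat_lit 1520) (.d (nat_lit 467) (nat_lit 468) (nat_lit 2512) (nat_lit 562) (nat_lit 6610)))))))))))) (.a (.p (nat_lit 592) (.a (.f (nat_lit 497) (nat_lit 465) (nat_lit 6608) (.f (nat_lit 529) (nat_lit 624) (nat_lit 6640) (.d (nat_lit 531) (nat_lit 532) (nat_lit 3568) (nat_lit 559) (nat_lit 1551)))) (.a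 (.f (nat_lit 465) (nat_lit 497) (nat_lit 6608) (.f (nat_lit 464) (nat_lit 433) (nat_lit 6576) (.d (nat_lit 591) (nat_lit 559) (nat_lit 5583) (nat_lit 623) (nat_lit 5615)))) (.a (.f (nat_lit 591) (nat_lit 623) (nat_lit 5615) (.f (nat_lit 464) (nat_lit 559) (nat_lit 5583) (.f (nat_lit 433) (nat_lit 465) (nat_lit 6576) (.f (nat_lit 432) (nat_lit 401) (nat_lit 6544) (.d (nat_lit 431) (nat_lit 399) (nat_lit 7567) (nat_lit 463) (nat_lit 7599)))))) (.a (.f (nat_lit 497) (nat_lit 465) (nat_lit 6608) (.f (nat_lit 529) (nat_lit 624) (nat_lit 6640) (.f (nat_lit 499) (nat_lit 500) (nat_lit 1520) (.f (nat_lit 531) (nat_lit 532) (nat_lit 496) (.f (nat_lit 467) (nat_lit 468) (nat_lit 2512) (.d (nat_lit 435) (nat_lit 403) (nat_lit 5522) (nat_lit 562) (nat_lit 5554))))))) (.f (nat_lit 591) (nat_lit 623) (nat_lit 5615) (.f (nat_lit 559) (nat_lit 464) (nat_lit 5583) (.f (nat_lit 529) (nat_lit 531) (nat_lit 1551) (.f (nat_lit 558) (nat_lit 557) (nat_lit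 2573) (.f (nat_lit 594) (nat_lit 593) (nat_lit 3630) (.f (nat_lit 497) (nat_lit 624) (nat_lit 6640) (.f (nat_lit 499) (nat_lit 500) (nat_lit 1520) (.d (nat_lit 467) (nat_lit 468) (nat_lit 2512) (nat_lit 562) (nat_lit 6610)))))))))))))) s5639))))))))) (.a s8627 (.a s8653 (.a (.p (nat_lit 496) (.a s5496 (.a (.p (nat_lit 592) (.a (.f (nat_lit 497) (nat_lit 465) (nat_lit 6608) (.d (nat_lit 495) (nat_lit 463) (nat_lit 7631) (nat_lit 531) (nat_lit 495))) (.a (.f (nat_lit 463) (nat_lit 495) (nat_lit 7631) (.f (nat_lit 464) (nat_lit 431) (nat_lit 7599) (.d (nat_lit 591) (nat_lit 559) (nat_lit 5583) (nat_lit 623) (nat_lit 5615)))) (.f (nat_lit 465) (nat_lit 497) (nat_lit 6608) (.f (nat_lit 464) (nat_lit 433) (nat_lit 6576) (.d (nat_lit 591) (nat_lit 559) (nat_lit 5583) (nat_lit 623) (nat_lit 5615))))))) (.a (.p (nat_lit 464) (.a (.f (nat_lit 433) (nat_lit 465) (nat_lit 6576) (.f (nat_lit 432) (nat_lit 401) (nat_lit 6544) (.d (nat_lit 431)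 (nat_lit 399) (nat_lit 7567) (nat_lit 463) (nat_lit 7599)))) (.a (.f (nat_lit 561) (nat_lit 593) (nat_lit 4560) (.f (nat_lit 529) (nat_lit 432) (nat_lit 4528) (.d (nat_lit 531) (nat_lit 495) (nat_lit 3567) (nat_lit 532) (nat_lit 1552)))) (.f (nat_lit 465) (nat_lit 433) (nat_lit 6576) (.f (nat_lit 463) (nat_lit 431) (nat_lit 7599) (.f (nat_lit 466) (nat_lit 499) (nat_lit 463) (.d (nat_lit 495) (nat_lit 467) (nat_lit 1487) (nat_lit 494) (nat_lit 1486)))))))) (.a (.p (nat_lit 464) (.a (.f (nat_lit 433) (nat_lit 465) (nat_lit 6576) (.f (nat_lit 432) (nat_lit 401) (nat_lit 6544) (.d (nat_lit 431) (nat_lit 399) (nat_lit 7567) (nat_lit 463) (nat_lit 7599)))) (.a (.f (nat_lit 463) (nat_lit 431) (nat_lit 7599) (.f (nat_lit 497) (nat_lit 499) (nat_lit 3535) (.d (nat_lit 462) (nat_lit 461) (nat_lit 461) (nat_lit 495) (nat_lit 3534)))) (.f (nat_lit 561) (nat_lit 593) (nat_lit 4560) (.f (nat_lit 529) (nat_lit 432) (nat_lit 4528) (.d (nat_lit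 559) (nat_lit 558) (nat_lit 2574) (nat_lit 591) (nat_lit 5583))))))) (.a (.p (nat_lit 531) (.a (.d (nat_lit 529) (nat_lit 495) (nat_lit 3567) (nat_lit 559) (nat_lit 1551)) (.a (.f (nat_lit 497) (nat_lit 495) (nat_lit 495) (.d (nat_lit 532) (nat_lit 499) (nat_lit 496) (nat_lit 533) (nat_lit 3569))) (.f (nat_lit 529) (nat_lit 559) (nat_lit 1551) (.d (nat_lit 532) (nat_lit 497) (nat_lit 3568) (nat_lit 561) (nat_lit 1552)))))) (.p (nat_lit 464) (.a (.f (nat_lit 433) (nat_lit 465) (nat_lit 6576) (.f (nat_lit 432) (nat_lit 401) (nat_lit 6544) (.d (nat_lit 431) (nat_lit 399) (nat_lit 7567) (nat_lit 463) (nat_lit 7599)))) (.a (.f (nat_lit 561) (nat_lit 593) (nat_lit 4560) (.f (nat_lit 529) (nat_lit 432) (nat_lit 4528) (.d (nat_lit 559) (nat_lit 558) (nat_lit 2574) (nat_lit 591) (nat_lit 5583)))) (.f (nat_lit 465) (nat_lit 433) (nat_lit 6576) (.f (nat_lit 463) (nat_lit 431) (nat_lit 7599) (.d (nat_lit 497) (nat_lit 462) (nat_lit 462) (nat_lit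 499) (nat_lit 3535))))))))))))) (.a s8671 (.a (.p (nat_lit 496) (.a s5496 (.a s8558 (.a s8581 (.a s8585 (.a (.p (nat_lit 531) (.a (.d (nat_lit 529) (nat_lit 495) (nat_lit 3567) (nat_lit 559) (nat_lit 1551)) (.a (.f (nat_lit 497) (nat_lit 495) (nat_lit 495) (.d (nat_lit 532) (nat_lit 499) (nat_lit 496) (nat_lit 533) (nat_lit 3569))) (.f (nat_lit 529) (nat_lit 559) (nat_lit 1551) (.d (nat_lit 532) (nat_lit 497) (nat_lit 3568) (nat_lit 561) (nat_lit 1552)))))) (.a s8598 (.p (nat_lit 592) (.a (.f (nat_lit 497) (nat_lit 465) (nat_lit 6608) (.f (nat_lit 529) (nat_lit 624) (nat_lit 6640) (.d (nat_lit 531) (nat_lit 532) (nat_lit 3568) (nat_lit 559) (nat_lit 1551)))) (.a (.f (nat_lit 465) (nat_lit 497) (nat_lit 6608) (.f (nat_lit 464) (nat_lit 433) (nat_lit 6576) (.d (nat_lit 591) (nat_lit 559) (nat_lit 5583) (nat_lit 623) (nat_lit 5615)))) (.a (.f (nat_lit 591) (nat_lit 623) (nat_lit 5615) (.f (nat_lit 464) (nat_lit 559) (nat_lit 5583)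 (.f (nat_lit 433) (nat_lit 465) (nat_lit 6576) (.f (nat_lit 432) (nat_lit 401) (nat_lit 6544) (.d (nat_lit 431) (nat_lit 399) (nat_lit 7567) (nat_lit 463) (nat_lit 7599)))))) (.a (.f (nat_lit 497) (nat_lit 465) (nat_lit 6608) (.f (nat_lit 529) (nat_lit 624) (nat_lit 6640) (.f (nat_lit 499) (nat_lit 500) (nat_lit 1520) (.f (nat_lit 531) (nat_lit 532) (nat_lit 496) (.f (nat_lit 467) (nat_lit 468) (nat_lit 2512) (.d (nat_lit 435) (nat_lit 403) (nat_lit 5522) (nat_lit 562) (nat_lit 5554))))))) (.f (nat_lit 591) (nat_lit 623) (nat_lit 5615) (.f (nat_lit 559) (nat_lit 464) (nat_lit 5583) (.f (nat_lit 529) (nat_lit 531) (nat_lit 1551) (.d (nat_lit 558) (nat_lit 557) (nat_lit 2573) (nat_lit 561) (nat_lit 2574))))))))))))))))) (.a (.p (nat_lit 562) (.a s7120 (.a s5672 (.a s8652 (.a (.p (nat_lit 594) (.a (.f (nat_lit 497) (nat_lit 465) (nat_lit 7633) (.f (nat_lit 529) (nat_lit 626) (nat_lit 7665) (.d (nat_lit 499) (nat_lit 467) (nat_lit 6610)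 (nat_lit 500) (nat_lit 1520)))) (.a (.f (nat_lit 467) (nat_lit 499) (nat_lit 6610) (.f (nat_lit 466) (nat_lit 435) (nat_lit 6578) (.d (nat_lit 465) (nat_lit 433) (nat_lit 7601) (nat_lit 497) (nat_lit 7633)))) (.a (.f (nat_lit 499) (nat_lit 467) (nat_lit 6610) (.f (nat_lit 626) (nat_lit 531) (nat_lit 6642) (.d (nat_lit 627) (nat_lit 595) (nat_lit 4594) (nat_lit 659) (nat_lit 4626)))) (.f (nat_lit 497) (nat_lit 465) (nat_lit 7633) (.f (nat_lit 626) (nat_lit 529) (nat_lit 7665) (.d (nat_lit 627) (nat_lit 595) (nat_lit 4594) (nat_lit 659) (nat_lit 4626)))))))) (.a s8679 (.a (.p (nat_lit 594) (.a (.f (nat_lit 497) (nat_lit 465) (nat_lit 7633) (.f (nat_lit 529) (nat_lit 626) (nat_lit 7665) (.d (nat_lit 499) (nat_lit 467) (nat_lit 6610) (nat_lit 500) (nat_lit 1520)))) (.a (.f (nat_lit 499) (nat_lit 467) (nat_lit 6610) (.f (nat_lit 626) (nat_lit 531) (nat_lit 6642) (.d (nat_lit 627) (nat_lit 595) (nat_lit 4594) (nat_lit 659) (nat_lit 4626))))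 (.a (.f (nat_lit 497) (nat_lit 465) (nat_lit 7633) (.f (nat_lit 626) (nat_lit 529) (nat_lit 7665) (.d (nat_lit 627) (nat_lit 595) (nat_lit 4594) (nat_lit 659) (nat_lit 4626)))) (.f (nat_lit 497) (nat_lit 465) (nat_lit 7633) (.f (nat_lit 499) (nat_lit 467) (nat_lit 6610) (.f (nat_lit 500) (nat_lit 529) (nat_lit 1520) (.f (nat_lit 533) (nat_lit 532) (nat_lit 497) (.f (nat_lit 501) (nat_lit 534) (nat_lit 498) (.d (nat_lit 469) (nat_lit 468) (nat_lit 2513) (nat_lit 470) (nat_lit 2514))))))))))) (.a (.p (nat_lit 594) (.a (.f (nat_lit 497) (nat_lit 465) (nat_lit 7633) (.f (nat_lit 529) (nat_lit 626) (nat_lit 7665) (.d (nat_lit 499) (nat_lit 467) (nat_lit 6610) (nat_lit 500) (nat_lit 1520)))) (.a (.f (nat_lit 467) (nat_lit 499) (nat_lit 6610) (.f (nat_lit 466) (nat_lit 435) (nat_lit 6578) (.d (nat_lit 465) (nat_lit 433) (nat_lit 7601) (nat_lit 497) (nat_lit 7633)))) (.a (.f (nat_lit 499) (nat_lit 467) (nat_lit 6610) (.f (nat_lit 531) (nat_lit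 626) (nat_lit 6642) (.f (nat_lit 529) (nat_lit 500) (nat_lit 2544) (.f (nat_lit 532) (nat_lit 561) (nat_lit 1552) (.d (nat_lit 564) (nat_lit 563) (nat_lit 528) (nat_lit 565) (nat_lit 529)))))) (.a (.f (nat_lit 465) (nat_lit 497) (nat_lit 7633) (.f (nat_lit 466) (nat_lit 433) (nat_lit 7601) (.f (nat_lit 561) (nat_lit 593) (nat_lit 5585) (.f (nat_lit 434) (nat_lit 529) (nat_lit 5553) (.d (nat_lit 435) (nat_lit 403) (nat_lit 6546) (nat_lit 467) (nat_lit 6578)))))) (.f (nat_lit 497) (nat_lit 465) (nat_lit 7633) (.f (nat_lit 626) (nat_lit 529) (nat_lit 7665) (.f (nat_lit 531) (nat_lit 499) (nat_lit 6642) (.f (nat_lit 563) (nat_lit 658) (nat_lit 6674) (.d (nat_lit 532) (nat_lit 533) (nat_lit 3569) (nat_lit 561) (nat_lit 2576))))))))))) (.p (nat_lit 594) (.a (.f (nat_lit 497) (nat_lit 465) (nat_lit 7633) (.f (nat_lit 529) (nat_lit 626) (nat_lit 7665) (.f (nat_lit 595) (nat_lit 627) (nat_lit 4594) (.f (nat_lit 563) (nat_lit 466) (nat_lit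 4562) (.d (nat_lit 561) (nat_lit 564) (nat_lit 3600) (nat_lit 596) (nat_lit 560)))))) (.a (.f (nat_lit 595) (nat_lit 627) (nat_lit 4594) (.f (nat_lit 466) (nat_lit 563) (nat_lit 4562) (.d (nat_lit 465) (nat_lit 433) (nat_lit 7601) (nat_lit 497) (nat_lit 7633)))) (.a (.f (nat_lit 595) (nat_lit 627) (nat_lit 4594) (.f (nat_lit 563) (nat_lit 466) (nat_lit 4562) (.f (nat_lit 561) (nat_lit 596) (nat_lit 560) (.f (nat_lit 531) (nat_lit 532) (nat_lit 2576) (.d (nat_lit 626) (nat_lit 499) (nat_lit 5618) (nat_lit 658) (nat_lit 6674)))))) (.a (.f (nat_lit 497) (nat_lit 465) (nat_lit 7633) (.f (nat_lit 626) (nat_lit 529) (nat_lit 7665) (.d (nat_lit 627) (nat_lit 595) (nat_lit 4594) (nat_lit 659) (nat_lit 4626)))) (.f (nat_lit 497) (nat_lit 465) (nat_lit 7633) (.f (nat_lit 626) (nat_lit 529) (nat_lit 7665) (.f (nat_lit 531) (nat_lit 499) (nat_lit 6642) (.f (nat_lit 563) (nat_lit 658) (nat_lit 6674) (.d (nat_lit 532) (nat_lit 533) (nat_lit 3569)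 (nat_lit 561) (nat_lit 2576))))))))))))))))))) (.a (.p (nat_lit 562) (.a (.p (nat_lit 561) (.a (.f (nat_lit 531) (nat_lit 559) (nat_lit 2575) (.d (nat_lit 532) (nat_lit 529) (nat_lit 1552) (nat_lit 533) (nat_lit 1553))) (.a (.f (nat_lit 466) (nat_lit 593) (nat_lit 5585) (.f (nat_lit 563) (nat_lit 595) (nat_lit 4562) (.d (nat_lit 531) (nat_lit 434) (nat_lit 4530) (nat_lit 532) (nat_lit 2576)))) (.f (nat_lit 466) (nat_lit 593) (nat_lit 5585) (.f (nat_lit 529) (nat_lit 434) (nat_lit 5553) (.d (nat_lit 563) (nat_lit 564) (nat_lit 3600) (nat_lit 595) (nat_lit 4562))))))) (.a (.p (nat_lit 466) (.a (.f (nat_lit 433) (nat_lit 465) (nat_lit 7601) (.f (nat_lit 434) (nat_lit 401) (nat_lit 7569) (.d (nat_lit 435) (nat_lit 403) (nat_lit 6546) (nat_lit 467) (nat_lit 6578)))) (.a (.f (nat_lit 563) (nat_lit 595) (nat_lit 4562) (.f (nat_lit 434) (nat_lit 531) (nat_lit 4530) (.d (nat_lit 435) (nat_lit 403) (nat_lit 6546) (nat_lit 467) (nat_lit 6578))))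 (.f (nat_lit 465) (nat_lit 433) (nat_lit 7601) (.f (nat_lit 594) (nat_lit 497) (nat_lit 7633) (.d (nat_lit 595) (nat_lit 563) (nat_lit 4562) (nat_lit 627) (nat_lit 4594))))))) (.a s7120 (.a (.p (nat_lit 561) (.a (.f (nat_lit 531) (nat_lit 559) (nat_lit 2575) (.d (nat_lit 532) (nat_lit 529) (nat_lit 1552) (nat_lit 533) (nat_lit 1553))) (.f (nat_lit 466) (nat_lit 593) (nat_lit 5585) (.f (nat_lit 435) (nat_lit 467) (nat_lit 6578) (.f (nat_lit 434) (nat_lit 403) (nat_lit 6546) (.d (nat_lit 433) (nat_lit 401) (nat_lit 7569) (nat_lit 465) (nat_lit 7601))))))) (.p (nat_lit 594) (.a (.f (nat_lit 595) (nat_lit 627) (nat_lit 4594) (.f (nat_lit 561) (nat_lit 559) (nat_lit 559) (.d (nat_lit 596) (nat_lit 563) (nat_lit 560) (nat_lit 597) (nat_lit 3633)))) (.a (.f (nat_lit 497) (nat_lit 465) (nat_lit 7633) (.f (nat_lit 626) (nat_lit 529) (nat_lit 7665) (.d (nat_lit 627) (nat_lit 595) (nat_lit 4594) (nat_lit 659) (nat_lit 4626)))) (.f (nat_lit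 497) (nat_lit 465) (nat_lit 7633) (.f (nat_lit 529) (nat_lit 626) (nat_lit 7665) (.f (nat_lit 559) (nat_lit 531) (nat_lit 1551) (.d (nat_lit 558) (nat_lit 557) (nat_lit 2573) (nat_lit 561) (nat_lit 2574))))))))))))) (.p (nat_lit 562) (.a (.p (nat_lit 561) (.a (.f (nat_lit 531) (nat_lit 559) (nat_lit 2575) (.d (nat_lit 532) (nat_lit 529) (nat_lit 1552) (nat_lit 533) (nat_lit 1553))) (.a (.f (nat_lit 466) (nat_lit 593) (nat_lit 5585) (.f (nat_lit 563) (nat_lit 595) (nat_lit 4562) (.d (nat_lit 531) (nat_lit 434) (nat_lit 4530) (nat_lit 532) (nat_lit 2576)))) (.f (nat_lit 466) (nat_lit 593) (nat_lit 5585) (.f (nat_lit 529) (nat_lit 434) (nat_lit 5553) (.d (nat_lit 563) (nat_lit 564) (nat_lit 3600) (nat_lit 595) (nat_lit 4562))))))) (.a (.p (nat_lit 594) (.a (.f (nat_lit 499) (nat_lit 467) (nat_lit 6610) (.f (nat_lit 531) (nat_lit 626) (nat_lit 6642) (.d (nat_lit 529) (nat_lit 500) (nat_lit 2544) (nat_lit 559) (nat_lit 1551)))) (.a (.f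 (nat_lit 467) (nat_lit 499) (nat_lit 6610) (.f (nat_lit 466) (nat_lit 435) (nat_lit 6578) (.d (nat_lit 595) (nat_lit 563) (nat_lit 4562) (nat_lit 627) (nat_lit 4594)))) (.f (nat_lit 627) (nat_lit 595) (nat_lit 4594) (.f (nat_lit 626) (nat_lit 659) (nat_lit 4626) (.f (nat_lit 529) (nat_lit 497) (nat_lit 7665) (.f (nat_lit 531) (nat_lit 559) (nat_lit 1551) (.d (nat_lit 563) (nat_lit 564) (nat_lit 528) (nat_lit 658) (nat_lit 6674))))))))) (.a s5975 (.a s8646 (.a (.p (nat_lit 594) (.a (.f (nat_lit 499) (nat_lit 467) (nat_lit 6610) (.f (nat_lit 531) (nat_lit 626) (nat_lit 6642) (.d (nat_lit 529) (nat_lit 500) (nat_lit 2544) (nat_lit 559) (nat_lit 1551)))) (.a (.f (nat_lit 499) (nat_lit 467) (nat_lit 6610) (.f (nat_lit 626) (nat_lit 531) (nat_lit 6642) (.d (nat_lit 627) (nat_lit 595) (nat_lit 4594) (nat_lit 659) (nat_lit 4626)))) (.f (nat_lit 595) (nat_lit 627) (nat_lit 4594) (.f (nat_lit 561) (nat_lit 559) (nat_lit 559) (.d (nat_lit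 593) (nat_lit 466) (nat_lit 5585) (nat_lit 596) (nat_lit 3632))))))) (.a s8679 (.a (.p (nat_lit 594) (.a (.f (nat_lit 595) (nat_lit 627) (nat_lit 4594) (.f (nat_lit 561) (nat_lit 559) (nat_lit 559) (.d (nat_lit 596) (nat_lit 563) (nat_lit 560) (nat_lit 597) (nat_lit 3633)))) (.a (.f (nat_lit 499) (nat_lit 467) (nat_lit 6610) (.f (nat_lit 626) (nat_lit 531) (nat_lit 6642) (.d (nat_lit 627) (nat_lit 595) (nat_lit 4594) (nat_lit 659) (nat_lit 4626)))) (.f (nat_lit 499) (nat_lit 467) (nat_lit 6610) (.f (nat_lit 531) (nat_lit 626) (nat_lit 6642) (.f (nat_lit 561) (nat_lit 559) (nat_lit 2575) (.d (nat_lit 532) (nat_lit 533) (nat_lit 1553) (nat_lit 563) (nat_lit 2576)))))))) (.p (nat_lit 561) (.a (.f (nat_lit 531) (nat_lit 559) (nat_lit 2575) (.d (nat_lit 532) (nat_lit 529) (nat_lit 1552) (nat_lit 533) (nat_lit 1553))) (.a (.f (nat_lit 531) (nat_lit 559) (nat_lit 2575) (.d (nat_lit 532) (nat_lit 533) (nat_lit 1553) (nat_lit 563) (nat_lit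 2576))) (.a (.f (nat_lit 466) (nat_lit 593) (nat_lit 5585) (.f (nat_lit 529) (nat_lit 434) (nat_lit 5553) (.f (nat_lit 559) (nat_lit 558) (nat_lit 2574) (.f (nat_lit 591) (nat_lit 590) (nat_lit 1582) (.d (nat_lit 563) (nat_lit 564) (nat_lit 3600) (nat_lit 592) (nat_lit 1583)))))) (.f (nat_lit 466) (nat_lit 593) (nat_lit 5585) (.f (nat_lit 529) (nat_lit 434) (nat_lit 5553) (.f (nat_lit 531) (nat_lit 532) (nat_lit 1552) (.f (nat_lit 499) (nat_lit 500) (nat_lit 2544) (.d (nat_lit 467) (nat_lit 435) (nat_lit 5554) (nat_lit 594) (nat_lit 6610))))))))))))))))))))))))))))) (.a (.p (nat_lit 530) (.a (.p (nat_lit 529) (.a (.f (nat_lit 499) (nat_lit 527) (nat_lit 2543) (.d (nat_lit 500) (nat_lit 497) (nat_lit 1520) (nat_lit 501) (nat_lit 1521))) (.a (.f (nat_lit 531) (nat_lit 559) (nat_lit 1551) (.f (nat_lit 499) (nat_lit 500) (nat_lit 2544) (.f (nat_lit 563) (nat_lit 564) (nat_lit 528) (.d (nat_lit 466) (nat_lit 434) (nat_lit 4530) (nat_lit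 595) (nat_lit 7634))))) (.f (nat_lit 531) (nat_lit 559) (nat_lit 1551) (.f (nat_lit 563) (nat_lit 564) (nat_lit 528) (.f (nat_lit 562) (nat_lit 527) (nat_lit 527) (.d (nat_lit 466) (nat_lit 434) (nat_lit 4530) (nat_lit 595) (nat_lit 4562)))))))) (.a s8543 (.a s8627 (.a s8714 (.a (.p (nat_lit 529) (.a (.f (nat_lit 499) (nat_lit 527) (nat_lit 2543) (.d (nat_lit 500) (nat_lit 497) (nat_lit 1520) (nat_lit 501) (nat_lit 1521))) (.a (.f (nat_lit 531) (nat_lit 559) (nat_lit 1551) (.f (nat_lit 499) (nat_lit 500) (nat_lit 2544) (.f (nat_lit 563) (nat_lit 564) (nat_lit 528) (.d (nat_lit 466) (nat_lit 434) (nat_lit 4530) (nat_lit 595) (nat_lit 7634))))) (.f (nat_lit 531) (nat_lit 559) (nat_lit 1551) (.f (nat_lit 532) (nat_lit 561) (nat_lit 1552) (.d (nat_lit 564) (nat_lit 563) (nat_lit 528) (nat_lit 565) (nat_lit 529))))))) (.a s8671 (.a (.p (nat_lit 529) (.a (.f (nat_lit 499) (nat_lit 527) (nat_lit 2543) (.d (nat_lit 500) (nat_lit 497) (nat_lit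 1520) (nat_lit 501) (nat_lit 1521))) (.a (.f (nat_lit 531) (nat_lit 559) (nat_lit 1551) (.f (nat_lit 499) (nat_lit 500) (nat_lit 2544) (.f (nat_lit 532) (nat_lit 561) (nat_lit 1552) (.d (nat_lit 533) (nat_lit 497) (nat_lit 3569) (nat_lit 534) (nat_lit 3570))))) (.a (.f (nat_lit 527) (nat_lit 499) (nat_lit 2543) (.f (nat_lit 559) (nat_lit 558) (nat_lit 1550) (.f (nat_lit 495) (nat_lit 494) (nat_lit 3566) (.d (nat_lit 463) (nat_lit 431) (nat_lit 4527) (nat_lit 592) (nat_lit 4559))))) (.f (nat_lit 559) (nat_lit 531) (nat_lit 1551) (.d (nat_lit 558) (nat_lit 527) (nat_lit 1550) (nat_lit 557) (nat_lit 2573))))))) (.a s6856 s6267))))))))) (.a (.p (nat_lit 496) (.a s6286 (.a s8728 (.a s8736 (.a s8748 (.a (.p (nat_lit 592) (.a (.f (nat_lit 591) (nat_lit 623) (nat_lit 5615) (.f (nat_lit 464) (nat_lit 559) (nat_lit 5583) (.d (nat_lit 463) (nat_lit 431) (nat_lit 7599) (nat_lit 495) (nat_lit 7631)))) (.a (.f (nat_lit 495) (nat_lit 463) (nat_lit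 7631) (.f (nat_lit 624) (nat_lit 527) (nat_lit 7663) (.d (nat_lit 623) (nat_lit 591) (nat_lit 5615) (nat_lit 655) (nat_lit 5647)))) (.a (.f (nat_lit 591) (nat_lit 623) (nat_lit 5615) (.f (nat_lit 464) (nat_lit 559) (nat_lit 5583) (.f (nat_lit 431) (nat_lit 463) (nat_lit 7599) (.f (nat_lit 432) (nat_lit 399) (nat_lit 7567) (.f (nat_lit 401) (nat_lit 433) (nat_lit 6544) (.f (nat_lit 400) (nat_lit 369) (nat_lit 6512) (.f (nat_lit 497) (nat_lit 529) (nat_lit 4496) (.f (nat_lit 499) (nat_lit 527) (nat_lit 1519) (.f (nat_lit 468) (nat_lit 467) (nat_lit 2512) (.f (nat_lit 500) (nat_lit 469) (nat_lit 2513) (.d (nat_lit 532) (nat_lit 531) (nat_lit 496) (nat_lit 533) (nat_lit 497)))))))))))) (.a (.f (nat_lit 495) (nat_lit 463) (nat_lit 7631) (.f (nat_lit 527) (nat_lit 624) (nat_lit 7663) (.f (nat_lit 497) (nat_lit 499) (nat_lit 1519) (.f (nat_lit 530) (nat_lit 531) (nat_lit 495) (.f (nat_lit 529) (nat_lit 494) (nat_lit 3566) (.f (nat_lit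 559) (nat_lit 558) (nat_lit 1550) (.d (nat_lit 464) (nat_lit 432) (nat_lit 5551) (nat_lit 591) (nat_lit 5583)))))))) (.a (.f (nat_lit 495) (nat_lit 463) (nat_lit 7631) (.f (nat_lit 527) (nat_lit 624) (nat_lit 7663) (.f (nat_lit 497) (nat_lit 499) (nat_lit 1519) (.f (nat_lit 530) (nat_lit 531) (nat_lit 495) (.f (nat_lit 529) (nat_lit 494) (nat_lit 3566) (.f (nat_lit 559) (nat_lit 558) (nat_lit 1550) (.f (nat_lit 562) (nat_lit 563) (nat_lit 527) (.f (nat_lit 594) (nat_lit 626) (nat_lit 7665) (.d (nat_lit 595) (nat_lit 593) (nat_lit 3631) (nat_lit 627) (nat_lit 4594)))))))))) (.f (nat_lit 623) (nat_lit 591) (nat_lit 5615) (.f (nat_lit 624) (nat_lit 655) (nat_lit 5647) (.f (nat_lit 497) (nat_lit 529) (nat_lit 6640) (.d (nat_lit 527) (nat_lit 495) (nat_lit 7663) (nat_lit 499) (nat_lit 1519))))))))))) (.a (.p (nat_lit 592) (.a (.f (nat_lit 497) (nat_lit 465) (nat_lit 6608) (.f (nat_lit 499) (nat_lit 527) (nat_lit 1519) (.d (nat_lit 529)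 (nat_lit 500) (nat_lit 1520) (nat_lit 624) (nat_lit 6640)))) (.a (.f (nat_lit 591) (nat_lit 623) (nat_lit 5615) (.f (nat_lit 464) (nat_lit 559) (nat_lit 5583) (.d (nat_lit 465) (nat_lit 433) (nat_lit 6576) (nat_lit 497) (nat_lit 6608)))) (.a (.f (nat_lit 591) (nat_lit 623) (nat_lit 5615) (.f (nat_lit 464) (nat_lit 559) (nat_lit 5583) (.f (nat_lit 431) (nat_lit 463) (nat_lit 7599) (.f (nat_lit 432) (nat_lit 399) (nat_lit 7567) (.d (nat_lit 433) (nat_lit 401) (nat_lit 6544) (nat_lit 465) (nat_lit 6576)))))) (.f (nat_lit 591) (nat_lit 623) (nat_lit 5615) (.f (nat_lit 464) (nat_lit 559) (nat_lit 5583) (.f (nat_lit 431) (nat_lit 463) (nat_lit 7599) (.f (nat_lit 432) (nat_lit 399) (nat_lit 7567) (.f (nat_lit 401) (nat_lit 433) (nat_lit 6544) (.f (nat_lit 400) (nat_lit 369) (nat_lit 6512) (.f (nat_lit 497) (nat_lit 529) (nat_lit 4496) (.f (nat_lit 499) (nat_lit 527) (nat_lit 1519) (.f (nat_lit 468) (nat_lit 467) (nat_lit 2512) (.f (nat_lit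 500) (nat_lit 469) (nat_lit 2513) (.d (nat_lit 532) (nat_lit 531) (nat_lit 496) (nat_lit 533) (nat_lit 497)))))))))))))))) s8803))))))) (.a (.p (nat_lit 496) (.a s6286 (.a s8728 (.a s8736 (.a (.p (nat_lit 592) (.a (.f (nat_lit 497) (nat_lit 465) (nat_lit 6608) (.f (nat_lit 495) (nat_lit 463) (nat_lit 7631) (.f (nat_lit 499) (nat_lit 527) (nat_lit 1519) (.d (nat_lit 467) (nat_lit 466) (nat_lit 2511) (nat_lit 468) (nat_lit 2512))))) (.a (.f (nat_lit 497) (nat_lit 465) (nat_lit 6608) (.f (nat_lit 495) (nat_lit 463) (nat_lit 7631) (.f (nat_lit 467) (nat_lit 466) (nat_lit 2511) (.f (nat_lit 499) (nat_lit 468) (nat_lit 2512) (.d (nat_lit 531) (nat_lit 530) (nat_lit 495) (nat_lit 532) (nat_lit 496)))))) (.a (.f (nat_lit 495) (nat_lit 463) (nat_lit 7631) (.f (nat_lit 624) (nat_lit 527) (nat_lit 7663) (.d (nat_lit 623) (nat_lit 591) (nat_lit 5615) (nat_lit 655) (nat_lit 5647)))) (.f (nat_lit 497) (nat_lit 465) (nat_lit 6608) (.f (nat_lit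 499) (nat_lit 527) (nat_lit 1519) (.f (nat_lit 468) (nat_lit 467) (nat_lit 2512) (.f (nat_lit 500) (nat_lit 469) (nat_lit 2513) (.d (nat_lit 532) (nat_lit 531) (nat_lit 496) (nat_lit 533) (nat_lit 497)))))))))) (.a (.p (nat_lit 464) (.a (.f (nat_lit 463) (nat_lit 431) (nat_lit 7599) (.f (nat_lit 497) (nat_lit 499) (nat_lit 3535) (.d (nat_lit 462) (nat_lit 461) (nat_lit 461) (nat_lit 495) (nat_lit 3534)))) (.a (.f (nat_lit 559) (nat_lit 591) (nat_lit 5583) (.f (nat_lit 432) (nat_lit 527) (nat_lit 5551) (.d (nat_lit 431) (nat_lit 399) (nat_lit 7567) (nat_lit 463) (nat_lit 7599)))) (.a (.f (nat_lit 559) (nat_lit 591) (nat_lit 5583) (.f (nat_lit 432) (nat_lit 527) (nat_lit 5551) (.f (nat_lit 399) (nat_lit 431) (nat_lit 7567) (.f (nat_lit 400) (nat_lit 367) (nat_lit 7535) (.d (nat_lit 401) (nat_lit 369) (nat_lit 6512) (nat_lit 433) (nat_lit 6544)))))) (.f (nat_lit 559) (nat_lit 591) (nat_lit 5583) (.f (nat_lit 527) (nat_lit 432) (nat_lit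 5551) (.f (nat_lit 561) (nat_lit 593) (nat_lit 4560) (.f (nat_lit 562) (nat_lit 563) (nat_lit 3599) (.f (nat_lit 499) (nat_lit 497) (nat_lit 1519) (.f (nat_lit 530) (nat_lit 531) (nat_lit 2575) (.d (nat_lit 594) (nat_lit 467) (nat_lit 6610) (nat_lit 595) (nat_lit 559)))))))))))) (.a (.p (nat_lit 464) (.a (.f (nat_lit 463) (nat_lit 431) (nat_lit 7599) (.f (nat_lit 497) (nat_lit 499) (nat_lit 3535) (.d (nat_lit 462) (nat_lit 461) (nat_lit 461) (nat_lit 465) (nat_lit 462)))) (.a (.f (nat_lit 431) (nat_lit 463) (nat_lit 7599) (.f (nat_lit 432) (nat_lit 399) (nat_lit 7567) (.d (nat_lit 433) (nat_lit 401) (nat_lit 6544) (nat_lit 465) (nat_lit 6576)))) (.a (.f (nat_lit 559) (nat_lit 591) (nat_lit 5583) (.f (nat_lit 432) (nat_lit 527) (nat_lit 5551) (.d (nat_lit 431) (nat_lit 399) (nat_lit 7567) (nat_lit 463) (nat_lit 7599)))) (.f (nat_lit 559) (nat_lit 591) (nat_lit 5583) (.f (nat_lit 432) (nat_lit 527) (nat_lit 5551) (.d (nat_lit 433)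 (nat_lit 401) (nat_lit 6544) (nat_lit 465) (nat_lit 6576)))))))) (.p (nat_lit 464) (.a (.f (nat_lit 559) (nat_lit 591) (nat_lit 5583) (.f (nat_lit 432) (nat_lit 527) (nat_lit 5551) (.d (nat_lit 433) (nat_lit 401) (nat_lit 6544) (nat_lit 465) (nat_lit 6576)))) (.a (.f (nat_lit 465) (nat_lit 433) (nat_lit 6576) (.f (nat_lit 497) (nat_lit 592) (nat_lit 6608) (.f (nat_lit 499) (nat_lit 500) (nat_lit 3536) (.f (nat_lit 467) (nat_lit 468) (nat_lit 2512) (.f (nat_lit 466) (nat_lit 495) (nat_lit 2511) (.f (nat_lit 531) (nat_lit 532) (nat_lit 496) (.d (nat_lit 434) (nat_lit 402) (nat_lit 4498) (nat_lit 563) (nat_lit 7602)))))))) (.a (.f (nat_lit 559) (nat_lit 591) (nat_lit 5583) (.f (nat_lit 432) (nat_lit 527) (nat_lit 5551) (.f (nat_lit 399) (nat_lit 431) (nat_lit 7567) (.f (nat_lit 400) (nat_lit 367) (nat_lit 7535) (.d (nat_lit 401) (nat_lit 369) (nat_lit 6512) (nat_lit 433) (nat_lit 6544)))))) (.f (nat_lit 559) (nat_lit 591) (nat_lit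 5583) (.f (nat_lit 527) (nat_lit 432) (nat_lit 5551) (.f (nat_lit 561) (nat_lit 593) (nat_lit 4560) (.f (nat_lit 562) (nat_lit 563) (nat_lit 3599) (.f (nat_lit 499) (nat_lit 497) (nat_lit 1519) (.f (nat_lit 530) (nat_lit 531) (nat_lit 2575) (.d (nat_lit 594) (nat_lit 467) (nat_lit 6610) (nat_lit 595) (nat_lit 559))))))))))))))))))) (.a (.p (nat_lit 530) (.a s8714 (.a s8653 (.a (.p (nat_lit 562) (.a (.p (nat_lit 561) (.a (.f (nat_lit 466) (nat_lit 593) (nat_lit 5585) (.f (nat_lit 563) (nat_lit 595) (nat_lit 4562) (.d (nat_lit 531) (nat_lit 434) (nat_lit 4530) (nat_lit 532) (nat_lit 2576)))) (.a (.f (nat_lit 466) (nat_lit 593) (nat_lit 5585) (.f (nat_lit 435) (nat_lit 467) (nat_lit 6578) (.f (nat_lit 434) (nat_lit 403) (nat_lit 6546) (.d (nat_lit 433) (nat_lit 401) (nat_lit 7569) (nat_lit 465) (nat_lit 7601))))) (.f (nat_lit 531) (nat_lit 559) (nat_lit 2575) (.d (nat_lit 532) (nat_lit 533) (nat_lit 1553) (nat_lit 563) (nat_lit 2576))))))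 (.a (.p (nat_lit 466) (.a (.f (nat_lit 433) (nat_lit 465) (nat_lit 7601) (.f (nat_lit 434) (nat_lit 401) (nat_lit 7569) (.d (nat_lit 435) (nat_lit 403) (nat_lit 6546) (nat_lit 467) (nat_lit 6578)))) (.a (.f (nat_lit 563) (nat_lit 595) (nat_lit 4562) (.f (nat_lit 434) (nat_lit 531) (nat_lit 4530) (.d (nat_lit 435) (nat_lit 403) (nat_lit 6546) (nat_lit 467) (nat_lit 6578)))) (.a (.f (nat_lit 467) (nat_lit 435) (nat_lit 6578) (.f (nat_lit 465) (nat_lit 433) (nat_lit 7601) (.f (nat_lit 499) (nat_lit 594) (nat_lit 6610) (.d (nat_lit 464) (nat_lit 463) (nat_lit 463) (nat_lit 500) (nat_lit 464))))) (.f (nat_lit 563) (nat_lit 595) (nat_lit 4562) (.f (nat_lit 434) (nat_lit 531) (nat_lit 4530) (.d (nat_lit 433) (nat_lit 401) (nat_lit 7569) (nat_lit 465) (nat_lit 7601)))))))) (.a s8835 (.a (.p (nat_lit 561) (.a (.f (nat_lit 466) (nat_lit 593) (nat_lit 5585) (.f (nat_lit 435) (nat_lit 467) (nat_lit 6578) (.f (nat_lit 434) (nat_lit 403) (nat_lit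 6546) (.d (nat_lit 433) (nat_lit 401) (nat_lit 7569) (nat_lit 465) (nat_lit 7601))))) (.f (nat_lit 559) (nat_lit 531) (nat_lit 2575) (.f (nat_lit 591) (nat_lit 590) (nat_lit 1582) (.f (nat_lit 496) (nat_lit 464) (nat_lit 5583) (.d (nat_lit 623) (nat_lit 527) (nat_lit 6639) (nat_lit 655) (nat_lit 6671))))))) (.a s5975 s6094)))))) (.a s5731 (.a s6185 (.a (.p (nat_lit 466) (.a s6212 (.a (.p (nat_lit 562) (.a (.f (nat_lit 561) (nat_lit 593) (nat_lit 5585) (.f (nat_lit 529) (nat_lit 434) (nat_lit 5553) (.d (nat_lit 563) (nat_lit 564) (nat_lit 3600) (nat_lit 595) (nat_lit 4562)))) (.a (.f (nat_lit 433) (nat_lit 465) (nat_lit 7601) (.f (nat_lit 434) (nat_lit 401) (nat_lit 7569) (.d (nat_lit 435) (nat_lit 403) (nat_lit 6546) (nat_lit 467) (nat_lit 6578)))) (.f (nat_lit 561) (nat_lit 593) (nat_lit 5585) (.d (nat_lit 563) (nat_lit 527) (nat_lit 3599) (nat_lit 595) (nat_lit 4562)))))) (.a s6225 (.a (.p (nat_lit 562) (.a (.f (nat_lit 561) (nat_lit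 593) (nat_lit 5585) (.f (nat_lit 529) (nat_lit 434) (nat_lit 5553) (.d (nat_lit 563) (nat_lit 564) (nat_lit 3600) (nat_lit 595) (nat_lit 4562)))) (.a (.f (nat_lit 467) (nat_lit 435) (nat_lit 6578) (.f (nat_lit 594) (nat_lit 499) (nat_lit 6610) (.d (nat_lit 595) (nat_lit 563) (nat_lit 4562) (nat_lit 627) (nat_lit 4594)))) (.a (.f (nat_lit 561) (nat_lit 593) (nat_lit 5585) (.f (nat_lit 529) (nat_lit 434) (nat_lit 5553) (.f (nat_lit 559) (nat_lit 558) (nat_lit 2574) (.f (nat_lit 594) (nat_lit 595) (nat_lit 559) (.d (nat_lit 467) (nat_lit 435) (nat_lit 6578) (nat_lit 499) (nat_lit 6610)))))) (.f (nat_lit 561) (nat_lit 593) (nat_lit 5585) (.f (nat_lit 529) (nat_lit 434) (nat_lit 5553) (.f (nat_lit 559) (nat_lit 558) (nat_lit 2574) (.f (nat_lit 527) (nat_lit 499) (nat_lit 2543) (.f (nat_lit 495) (nat_lit 494) (nat_lit 3566) (.d (nat_lit 463) (nat_lit 431) (nat_lit 4527) (nat_lit 592) (nat_lit 4559))))))))))) (.a (.p (nat_lit 562) (.a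 (.f (nat_lit 561) (nat_lit 593) (nat_lit 5585) (.d (nat_lit 563) (nat_lit 527) (nat_lit 3599) (nat_lit 595) (nat_lit 4562))) (.f (nat_lit 467) (nat_lit 435) (nat_lit 6578) (.f (nat_lit 465) (nat_lit 433) (nat_lit 7601) (.f (nat_lit 499) (nat_lit 594) (nat_lit 6610) (.d (nat_lit 464) (nat_lit 463) (nat_lit 463) (nat_lit 500) (nat_lit 464))))))) (.p (nat_lit 562) (.a (.f (nat_lit 561) (nat_lit 593) (nat_lit 5585) (.f (nat_lit 529) (nat_lit 434) (nat_lit 5553) (.d (nat_lit 563) (nat_lit 564) (nat_lit 3600) (nat_lit 595) (nat_lit 4562)))) (.a (.f (nat_lit 465) (nat_lit 433) (nat_lit 7601) (.f (nat_lit 595) (nat_lit 563) (nat_lit 4562) (.f (nat_lit 594) (nat_lit 627) (nat_lit 4594) (.f (nat_lit 499) (nat_lit 467) (nat_lit 6610) (.f (nat_lit 463) (nat_lit 464) (nat_lit 463) (.f (nat_lit 527) (nat_lit 529) (nat_lit 2543) (.f (nat_lit 495) (nat_lit 431) (nat_lit 4527) (.d (nat_lit 592) (nat_lit 496) (nat_lit 7631) (nat_lit 559) (nat_lit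 4559))))))))) (.a (.f (nat_lit 561) (nat_lit 593) (nat_lit 5585) (.d (nat_lit 563) (nat_lit 527) (nat_lit 3599) (nat_lit 595) (nat_lit 4562))) (.f (nat_lit 561) (nat_lit 593) (nat_lit 5585) (.f (nat_lit 529) (nat_lit 434) (nat_lit 5553) (.f (nat_lit 559) (nat_lit 558) (nat_lit 2574) (.f (nat_lit 527) (nat_lit 499) (nat_lit 2543) (.f (nat_lit 495) (nat_lit 494) (nat_lit 3566) (.d (nat_lit 463) (nat_lit 431) (nat_lit 4527) (nat_lit 592) (nat_lit 4559))))))))))))))))) (.a (.p (nat_lit 529) (.a (.f (nat_lit 527) (nat_lit 499) (nat_lit 2543) (.f (nat_lit 559) (nat_lit 558) (nat_lit 1550) (.f (nat_lit 495) (nat_lit 494) (nat_lit 3566) (.d (nat_lit 463) (nat_lit 431) (nat_lit 4527) (nat_lit 592) (nat_lit 4559))))) (.a (.f (nat_lit 559) (nat_lit 531) (nat_lit 1551) (.d (nat_lit 558) (nat_lit 557) (nat_lit 2573) (nat_lit 561) (nat_lit 2574))) (.f (nat_lit 499) (nat_lit 527) (nat_lit 2543) (.d (nat_lit 500) (nat_lit 501) (nat_lit 1521) (nat_lit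 531) (nat_lit 2544)))))) (.a (.p (nat_lit 562) (.a (.p (nat_lit 466) (.a (.f (nat_lit 433) (nat_lit 465) (nat_lit 7601) (.f (nat_lit 434) (nat_lit 401) (nat_lit 7569) (.d (nat_lit 435) (nat_lit 403) (nat_lit 6546) (nat_lit 467) (nat_lit 6578)))) (.a (.f (nat_lit 563) (nat_lit 595) (nat_lit 4562) (.f (nat_lit 529) (nat_lit 527) (nat_lit 527) (.d (nat_lit 531) (nat_lit 434) (nat_lit 4530) (nat_lit 564) (nat_lit 528)))) (.f (nat_lit 563) (nat_lit 595) (nat_lit 4562) (.f (nat_lit 529) (nat_lit 527) (nat_lit 527) (.d (nat_lit 564) (nat_lit 531) (nat_lit 528) (nat_lit 565) (nat_lit 3601))))))) (.a s8652 (.a s8835 (.a (.p (nat_lit 466) (.a (.f (nat_lit 433) (nat_lit 465) (nat_lit 7601) (.f (nat_lit 434) (nat_lit 401) (nat_lit 7569) (.d (nat_lit 435) (nat_lit 403) (nat_lit 6546) (nat_lit 467) (nat_lit 6578)))) (.a (.f (nat_lit 435) (nat_lit 467) (nat_lit 6578) (.f (nat_lit 434) (nat_lit 403) (nat_lit 6546) (.d (nat_lit 561) (nat_lit 529)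 (nat_lit 5553) (nat_lit 593) (nat_lit 5585)))) (.a (.f (nat_lit 467) (nat_lit 435) (nat_lit 6578) (.f (nat_lit 465) (nat_lit 433) (nat_lit 7601) (.f (nat_lit 499) (nat_lit 594) (nat_lit 6610) (.d (nat_lit 464) (nat_lit 463) (nat_lit 463) (nat_lit 500) (nat_lit 464))))) (.f (nat_lit 561) (nat_lit 593) (nat_lit 5585) (.f (nat_lit 529) (nat_lit 434) (nat_lit 5553) (.f (nat_lit 531) (nat_lit 532) (nat_lit 1552) (.d (nat_lit 499) (nat_lit 500) (nat_lit 2544) (nat_lit 527) (nat_lit 2543))))))))) (.a s6805 (.a (.p (nat_lit 499) (.a (.f (nat_lit 594) (nat_lit 467) (nat_lit 6610) (.f (nat_lit 626) (nat_lit 531) (nat_lit 6642) (.d (nat_lit 627) (nat_lit 595) (nat_lit 4594) (nat_lit 659) (nat_lit 4626)))) (.a (.f (nat_lit 527) (nat_lit 529) (nat_lit 2543) (.f (nat_lit 594) (nat_lit 467) (nat_lit 6610) (.f (nat_lit 561) (nat_lit 563) (nat_lit 3599) (.f (nat_lit 595) (nat_lit 627) (nat_lit 4594) (.d (nat_lit 596) (nat_lit 593) (nat_lit 3632)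 (nat_lit 597) (nat_lit 3633)))))) (.f (nat_lit 529) (nat_lit 527) (nat_lit 2543) (.d (nat_lit 500) (nat_lit 501) (nat_lit 1521) (nat_lit 531) (nat_lit 2544)))))) (.p (nat_lit 561) (.a (.f (nat_lit 466) (nat_lit 593) (nat_lit 5585) (.f (nat_lit 563) (nat_lit 595) (nat_lit 4562) (.d (nat_lit 531) (nat_lit 434) (nat_lit 4530) (nat_lit 532) (nat_lit 2576)))) (.a (.f (nat_lit 466) (nat_lit 593) (nat_lit 5585) (.f (nat_lit 529) (nat_lit 434) (nat_lit 5553) (.d (nat_lit 563) (nat_lit 564) (nat_lit 3600) (nat_lit 595) (nat_lit 4562)))) (.a (.f (nat_lit 563) (nat_lit 527) (nat_lit 3599) (.d (nat_lit 595) (nat_lit 466) (nat_lit 4562) (nat_lit 596) (nat_lit 560))) (.a (.f (nat_lit 466) (nat_lit 593) (nat_lit 5585) (.f (nat_lit 529) (nat_lit 434) (nat_lit 5553) (.f (nat_lit 531) (nat_lit 532) (nat_lit 1552) (.d (nat_lit 499) (nat_lit 500) (nat_lit 2544) (nat_lit 527) (nat_lit 2543))))) (.f (nat_lit 563) (nat_lit 527) (nat_lit 3599) (.f (nat_lit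 564) (nat_lit 529) (nat_lit 3600) (.d (nat_lit 596) (nat_lit 595) (nat_lit 560) (nat_lit 597) (nat_lit 561)))))))))))))))) s6267))))))))) (.a (.p (nat_lit 496) (.a s6282 (.a s6286 (.a s6294 (.a s8748 (.a s6342 (.a (.p (nat_lit 464) (.a (.f (nat_lit 463) (nat_lit 431) (nat_lit 7599) (.f (nat_lit 497) (nat_lit 499) (nat_lit 3535) (.d (nat_lit 462) (nat_lit 461) (nat_lit 461) (nat_lit 495) (nat_lit 3534)))) (.a (.f (nat_lit 431) (nat_lit 463) (nat_lit 7599) (.f (nat_lit 432) (nat_lit 399) (nat_lit 7567) (.d (nat_lit 561) (nat_lit 529) (nat_lit 4528) (nat_lit 593) (nat_lit 4560)))) (.f (nat_lit 559) (nat_lit 591) (nat_lit 5583) (.f (nat_lit 432) (nat_lit 527) (nat_lit 5551) (.d (nat_lit 561) (nat_lit 529) (nat_lit 4528) (nat_lit 593) (nat_lit 4560))))))) (.p (nat_lit 592) (.a (.f (nat_lit 497) (nat_lit 465) (nat_lit 6608) (.f (nat_lit 499) (nat_lit 527) (nat_lit 1519) (.d (nat_lit 529) (nat_lit 500) (nat_lit 1520) (nat_lit 624) (nat_lit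 6640)))) (.a (.f (nat_lit 591) (nat_lit 623) (nat_lit 5615) (.f (nat_lit 464) (nat_lit 559) (nat_lit 5583) (.d (nat_lit 465) (nat_lit 433) (nat_lit 6576) (nat_lit 497) (nat_lit 6608)))) (.a (.f (nat_lit 591) (nat_lit 623) (nat_lit 5615) (.f (nat_lit 464) (nat_lit 559) (nat_lit 5583) (.f (nat_lit 561) (nat_lit 593) (nat_lit 4560) (.f (nat_lit 432) (nat_lit 529) (nat_lit 4528) (.d (nat_lit 433) (nat_lit 401) (nat_lit 6544) (nat_lit 465) (nat_lit 6576)))))) (.f (nat_lit 623) (nat_lit 591) (nat_lit 5615) (.f (nat_lit 624) (nat_lit 655) (nat_lit 5647) (.f (nat_lit 497) (nat_lit 529) (nat_lit 6640) (.d (nat_lit 527) (nat_lit 495) (nat_lit 7663) (nat_lit 499) (nat_lit 1519)))))))))))))))) (.a (.p (nat_lit 496) (.a s6282 (.a s6286 (.a s6294 (.a (.p (nat_lit 592) (.a (.f (nat_lit 497) (nat_lit 465) (nat_lit 6608) (.f (nat_lit 495) (nat_lit 463) (nat_lit 7631) (.f (nat_lit 499) (nat_lit 527) (nat_lit 1519) (.d (nat_lit 467) (nat_lit 466)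 (nat_lit 2511) (nat_lit 468) (nat_lit 2512))))) (.a (.f (nat_lit 497) (nat_lit 465) (nat_lit 6608) (.f (nat_lit 495) (nat_lit 463) (nat_lit 7631) (.f (nat_lit 529) (nat_lit 624) (nat_lit 6640) (.f (nat_lit 499) (nat_lit 500) (nat_lit 1520) (.d (nat_lit 467) (nat_lit 466) (nat_lit 2511) (nat_lit 468) (nat_lit 2512)))))) (.a (.f (nat_lit 495) (nat_lit 463) (nat_lit 7631) (.f (nat_lit 624) (nat_lit 527) (nat_lit 7663) (.d (nat_lit 623) (nat_lit 591) (nat_lit 5615) (nat_lit 655) (nat_lit 5647)))) (.f (nat_lit 497) (nat_lit 465) (nat_lit 6608) (.f (nat_lit 499) (nat_lit 527) (nat_lit 1519) (.d (nat_lit 529) (nat_lit 500) (nat_lit 1520) (nat_lit 624) (nat_lit 6640)))))))) (.a s6342 (.a (.p (nat_lit 464) (.a (.f (nat_lit 463) (nat_lit 431) (nat_lit 7599) (.f (nat_lit 497) (nat_lit 499) (nat_lit 3535) (.d (nat_lit 462) (nat_lit 461) (nat_lit 461) (nat_lit 495) (nat_lit 3534)))) (.a (.f (nat_lit 431) (nat_lit 463) (nat_lit 7599) (.f (nat_lit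 432) (nat_lit 399) (nat_lit 7567) (.d (nat_lit 561) (nat_lit 529) (nat_lit 4528) (nat_lit 593) (nat_lit 4560)))) (.f (nat_lit 559) (nat_lit 591) (nat_lit 5583) (.f (nat_lit 432) (nat_lit 527) (nat_lit 5551) (.d (nat_lit 561) (nat_lit 529) (nat_lit 4528) (nat_lit 593) (nat_lit 4560))))))) s8803))))))) (.a (.p (nat_lit 592) (.a s8898 (.a s8909 (.a (.p (nat_lit 624) (.a (.f (nat_lit 527) (nat_lit 495) (nat_lit 7663) (.f (nat_lit 656) (nat_lit 559) (nat_lit 7695) (.d (nat_lit 655) (nat_lit 623) (nat_lit 5647) (nat_lit 687) (nat_lit 5679)))) (.a (.f (nat_lit 529) (nat_lit 497) (nat_lit 6640) (.f (nat_lit 656) (nat_lit 561) (nat_lit 6672) (.d (nat_lit 655) (nat_lit 623) (nat_lit 5647) (nat_lit 687) (nat_lit 5679)))) (.a (.f (nat_lit 527) (nat_lit 495) (nat_lit 7663) (.f (nat_lit 529) (nat_lit 497) (nat_lit 6640) (.f (nat_lit 559) (nat_lit 656) (nat_lit 7695) (.d (nat_lit 530) (nat_lit 499) (nat_lit 2543) (nat_lit 531) (nat_lit 1551)))))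 (.f (nat_lit 529) (nat_lit 497) (nat_lit 6640) (.f (nat_lit 527) (nat_lit 495) (nat_lit 7663) (.f (nat_lit 530) (nat_lit 499) (nat_lit 2543) (.d (nat_lit 559) (nat_lit 531) (nat_lit 1551) (nat_lit 558) (nat_lit 1550))))))))) (.a (.p (nat_lit 496) (.a (.f (nat_lit 497) (nat_lit 465) (nat_lit 6608) (.f (nat_lit 463) (nat_lit 495) (nat_lit 7631) (.d (nat_lit 464) (nat_lit 431) (nat_lit 7599) (nat_lit 499) (nat_lit 3535)))) (.a (.f (nat_lit 591) (nat_lit 623) (nat_lit 5615) (.f (nat_lit 464) (nat_lit 559) (nat_lit 5583) (.d (nat_lit 463) (nat_lit 431) (nat_lit 7599) (nat_lit 495) (nat_lit 7631)))) (.a (.f (nat_lit 497) (nat_lit 465) (nat_lit 6608) (.f (nat_lit 495) (nat_lit 463) (nat_lit 7631) (.f (nat_lit 499) (nat_lit 527) (nat_lit 1519) (.d (nat_lit 467) (nat_lit 466) (nat_lit 2511) (nat_lit 468) (nat_lit 2512))))) (.f (nat_lit 591) (nat_lit 623) (nat_lit 5615) (.f (nat_lit 464) (nat_lit 559) (nat_lit 5583) (.d (nat_lit 465) (nat_lit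 433) (nat_lit 6576) (nat_lit 497) (nat_lit 6608)))))))) (.a (.p (nat_lit 496) (.a (.f (nat_lit 591) (nat_lit 623) (nat_lit 5615) (.f (nat_lit 464) (nat_lit 559) (nat_lit 5583) (.d (nat_lit 463) (nat_lit 431) (nat_lit 7599) (nat_lit 495) (nat_lit 7631)))) (.a (.f (nat_lit 495) (nat_lit 463) (nat_lit 7631) (.f (nat_lit 624) (nat_lit 527) (nat_lit 7663) (.d (nat_lit 623) (nat_lit 591) (nat_lit 5615) (nat_lit 655) (nat_lit 5647)))) (.a (.f (nat_lit 591) (nat_lit 623) (nat_lit 5615) (.f (nat_lit 464) (nat_lit 559) (nat_lit 5583) (.f (nat_lit 431) (nat_lit 463) (nat_lit 7599) (.f (nat_lit 432) (nat_lit 399) (nat_lit 7567) (.d (nat_lit 433) (nat_lit 401) (nat_lit 6544) (nat_lit 465) (nat_lit 6576)))))) (.a (.f (nat_lit 463) (nat_lit 495) (nat_lit 7631) (.f (nat_lit 464) (nat_lit 431) (nat_lit 7599) (.f (nat_lit 465) (nat_lit 433) (nat_lit 6576) (.f (nat_lit 466) (nat_lit 499) (nat_lit 463) (.f (nat_lit 435) (nat_lit 434) (nat_lit 2479)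 (.f (nat_lit 467) (nat_lit 436) (nat_lit 2480) (.f (nat_lit 559) (nat_lit 591) (nat_lit 5583) (.f (nat_lit 530) (nat_lit 562) (nat_lit 6578) (.f (nat_lit 529) (nat_lit 531) (nat_lit 1551) (.d (nat_lit 432) (nat_lit 527) (nat_lit 5551) (nat_lit 561) (nat_lit 4528))))))))))) (.a (.f (nat_lit 463) (nat_lit 495) (nat_lit 7631) (.f (nat_lit 464) (nat_lit 431) (nat_lit 7599) (.f (nat_lit 433) (nat_lit 465) (nat_lit 6576) (.f (nat_lit 432) (nat_lit 401) (nat_lit 6544) (.f (nat_lit 529) (nat_lit 561) (nat_lit 4528) (.f (nat_lit 527) (nat_lit 559) (nat_lit 5551) (.f (nat_lit 530) (nat_lit 499) (nat_lit 2543) (.f (nat_lit 563) (nat_lit 562) (nat_lit 527) (.f (nat_lit 531) (nat_lit 564) (nat_lit 528) (.d (nat_lit 434) (nat_lit 435) (nat_lit 1455) (nat_lit 466) (nat_lit 4530))))))))))) (.f (nat_lit 591) (nat_lit 623) (nat_lit 5615) (.f (nat_lit 464) (nat_lit 559) (nat_lit 5583) (.f (nat_lit 433) (nat_lit 465) (nat_lit 6576) (.f (nat_lit 432)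 (nat_lit 401) (nat_lit 6544) (.f (nat_lit 399) (nat_lit 431) (nat_lit 7567) (.f (nat_lit 400) (nat_lit 367) (nat_lit 7535) (.f (nat_lit 527) (nat_lit 495) (nat_lit 5519) (.f (nat_lit 529) (nat_lit 561) (nat_lit 4528) (.f (nat_lit 530) (nat_lit 499) (nat_lit 2543) (.f (nat_lit 563) (nat_lit 562) (nat_lit 527) (.f (nat_lit 531) (nat_lit 564) (nat_lit 528) (.d (nat_lit 434) (nat_lit 435) (nat_lit 3471) (nat_lit 466) (nat_lit 4530))))))))))))))))))) (.a s8959 (.a (.p (nat_lit 496) (.a (.f (nat_lit 497) (nat_lit 465) (nat_lit 6608) (.f (nat_lit 529) (nat_lit 624) (nat_lit 6640) (.f (nat_lit 495) (nat_lit 463) (nat_lit 7631) (.d (nat_lit 494) (nat_lit 493) (nat_lit 493) (nat_lit 530) (nat_lit 494))))) (.a (.f (nat_lit 591) (nat_lit 623) (nat_lit 5615) (.f (nat_lit 464) (nat_lit 559) (nat_lit 5583) (.d (nat_lit 463) (nat_lit 431) (nat_lit 7599) (nat_lit 495) (nat_lit 7631)))) (.f (nat_lit 591) (nat_lit 623) (nat_lit 5615) (.f (nat_lit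 464) (nat_lit 559) (nat_lit 5583) (.d (nat_lit 465) (nat_lit 433) (nat_lit 6576) (nat_lit 497) (nat_lit 6608))))))) (.a s8967 (.p (nat_lit 496) (.a (.f (nat_lit 497) (nat_lit 465) (nat_lit 6608) (.f (nat_lit 529) (nat_lit 624) (nat_lit 6640) (.f (nat_lit 495) (nat_lit 463) (nat_lit 7631) (.d (nat_lit 494) (nat_lit 493) (nat_lit 493) (nat_lit 530) (nat_lit 494))))) (.a (.f (nat_lit 497) (nat_lit 465) (nat_lit 6608) (.f (nat_lit 463) (nat_lit 495) (nat_lit 7631) (.d (nat_lit 464) (nat_lit 431) (nat_lit 7599) (nat_lit 499) (nat_lit 3535)))) (.a (.f (nat_lit 463) (nat_lit 495) (nat_lit 7631) (.f (nat_lit 464) (nat_lit 431) (nat_lit 7599) (.f (nat_lit 465) (nat_lit 433) (nat_lit 6576) (.f (nat_lit 466) (nat_lit 499) (nat_lit 463) (.f (nat_lit 435) (nat_lit 434) (nat_lit 2479) (.f (nat_lit 467) (nat_lit 436) (nat_lit 2480) (.f (nat_lit 559) (nat_lit 591) (nat_lit 5583) (.f (nat_lit 530) (nat_lit 562) (nat_lit 6578) (.f (nat_lit 529) (nat_lit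 531) (nat_lit 1551) (.d (nat_lit 432) (nat_lit 527) (nat_lit 5551) (nat_lit 561) (nat_lit 4528))))))))))) (.a (.f (nat_lit 495) (nat_lit 463) (nat_lit 7631) (.f (nat_lit 527) (nat_lit 624) (nat_lit 7663) (.f (nat_lit 497) (nat_lit 499) (nat_lit 1519) (.f (nat_lit 530) (nat_lit 531) (nat_lit 495) (.f (nat_lit 529) (nat_lit 494) (nat_lit 3566) (.f (nat_lit 559) (nat_lit 558) (nat_lit 1550) (.d (nat_lit 464) (nat_lit 432) (nat_lit 5551) (nat_lit 591) (nat_lit 5583)))))))) (.a (.f (nat_lit 497) (nat_lit 465) (nat_lit 6608) (.f (nat_lit 529) (nat_lit 624) (nat_lit 6640) (.f (nat_lit 499) (nat_lit 500) (nat_lit 1520) (.f (nat_lit 464) (nat_lit 463) (nat_lit 3535) (.d (nat_lit 432) (nat_lit 400) (nat_lit 4496) (nat_lit 561) (nat_lit 4528)))))) (.f (nat_lit 497) (nat_lit 465) (nat_lit 6608) (.f (nat_lit 529) (nat_lit 624) (nat_lit 6640) (.f (nat_lit 499) (nat_lit 500) (nat_lit 1520) (.f (nat_lit 531) (nat_lit 532) (nat_lit 496) (.d (nat_lit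 530) (nat_lit 495) (nat_lit 495) (nat_lit 559) (nat_lit 1551))))))))))))))))))))) (.a (.p (nat_lit 496) (.a s6282 (.a s8728 (.a s6294 (.a s8748 (.a s6342 (.a (.p (nat_lit 592) (.a (.f (nat_lit 495) (nat_lit 463) (nat_lit 7631) (.f (nat_lit 624) (nat_lit 527) (nat_lit 7663) (.d (nat_lit 623) (nat_lit 591) (nat_lit 5615) (nat_lit 655) (nat_lit 5647)))) (.a (.f (nat_lit 463) (nat_lit 495) (nat_lit 7631) (.f (nat_lit 464) (nat_lit 431) (nat_lit 7599) (.f (nat_lit 497) (nat_lit 499) (nat_lit 3535) (.f (nat_lit 529) (nat_lit 624) (nat_lit 6640) (.d (nat_lit 432) (nat_lit 400) (nat_lit 4496) (nat_lit 561) (nat_lit 4528)))))) (.a (.f (nat_lit 463) (nat_lit 495) (nat_lit 7631) (.f (nat_lit 464) (nat_lit 431) (nat_lit 7599) (.f (nat_lit 499) (nat_lit 497) (nat_lit 3535) (.f (nat_lit 561) (nat_lit 593) (nat_lit 4560) (.f (nat_lit 529) (nat_lit 432) (nat_lit 4528) (.f (nat_lit 530) (nat_lit 527) (nat_lit 2543) (.d (nat_lit 500) (nat_lit 501)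 (nat_lit 1521) (nat_lit 531) (nat_lit 2544)))))))) (.f (nat_lit 623) (nat_lit 591) (nat_lit 5615) (.f (nat_lit 624) (nat_lit 655) (nat_lit 5647) (.f (nat_lit 497) (nat_lit 529) (nat_lit 6640) (.f (nat_lit 499) (nat_lit 527) (nat_lit 1519) (.f (nat_lit 468) (nat_lit 467) (nat_lit 2512) (.f (nat_lit 500) (nat_lit 469) (nat_lit 2513) (.d (nat_lit 532) (nat_lit 531) (nat_lit 496) (nat_lit 533) (nat_lit 497)))))))))))) (.p (nat_lit 464) (.a (.f (nat_lit 433) (nat_lit 465) (nat_lit 6576) (.f (nat_lit 432) (nat_lit 401) (nat_lit 6544) (.d (nat_lit 561) (nat_lit 529) (nat_lit 4528) (nat_lit 593) (nat_lit 4560)))) (.a (.f (nat_lit 465) (nat_lit 433) (nat_lit 6576) (.f (nat_lit 497) (nat_lit 592) (nat_lit 6608) (.f (nat_lit 499) (nat_lit 500) (nat_lit 3536) (.f (nat_lit 467) (nat_lit 468) (nat_lit 2512) (.f (nat_lit 466) (nat_lit 495) (nat_lit 2511) (.f (nat_lit 531) (nat_lit 532) (nat_lit 496) (.d (nat_lit 434) (nat_lit 402) (nat_lit 4498)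 (nat_lit 563) (nat_lit 7602)))))))) (.a (.f (nat_lit 561) (nat_lit 593) (nat_lit 4560) (.f (nat_lit 432) (nat_lit 529) (nat_lit 4528) (.f (nat_lit 399) (nat_lit 431) (nat_lit 7567) (.f (nat_lit 400) (nat_lit 367) (nat_lit 7535) (.d (nat_lit 401) (nat_lit 369) (nat_lit 6512) (nat_lit 433) (nat_lit 6544)))))) (.f (nat_lit 561) (nat_lit 593) (nat_lit 4560) (.f (nat_lit 432) (nat_lit 529) (nat_lit 4528) (.f (nat_lit 399) (nat_lit 431) (nat_lit 7567) (.f (nat_lit 400) (nat_lit 367) (nat_lit 7535) (.f (nat_lit 369) (nat_lit 401) (nat_lit 6512) (.f (nat_lit 368) (nat_lit 337) (nat_lit 6480) (.f (nat_lit 497) (nat_lit 465) (nat_lit 4464) (.d (nat_lit 527) (nat_lit 495) (nat_lit 5519) (nat_lit 499) (nat_lit 1519)))))))))))))))))))) (.a (.p (nat_lit 496) (.a s6342 (.a s8736 (.a (.p (nat_lit 592) (.a (.f (nat_lit 497) (nat_lit 465) (nat_lit 6608) (.f (nat_lit 529) (nat_lit 624) (nat_lit 6640) (.f (nat_lit 495) (nat_lit 463) (nat_lit 7631)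 (.d (nat_lit 494) (nat_lit 493) (nat_lit 493) (nat_lit 530) (nat_lit 494))))) (.a (.f (nat_lit 495) (nat_lit 463) (nat_lit 7631) (.f (nat_lit 624) (nat_lit 527) (nat_lit 7663) (.d (nat_lit 623) (nat_lit 591) (nat_lit 5615) (nat_lit 655) (nat_lit 5647)))) (.a (.f (nat_lit 495) (nat_lit 463) (nat_lit 7631) (.f (nat_lit 497) (nat_lit 465) (nat_lit 6608) (.f (nat_lit 530) (nat_lit 531) (nat_lit 495) (.f (nat_lit 529) (nat_lit 494) (nat_lit 494) (.f (nat_lit 466) (nat_lit 467) (nat_lit 2511) (.d (nat_lit 434) (nat_lit 402) (nat_lit 5521) (nat_lit 561) (nat_lit 5553))))))) (.f (nat_lit 497) (nat_lit 465) (nat_lit 6608) (.f (nat_lit 624) (nat_lit 529) (nat_lit 6640) (.d (nat_lit 623) (nat_lit 591) (nat_lit 5615) (nat_lit 655) (nat_lit 5647)))))))) (.a (.p (nat_lit 592) (.a (.f (nat_lit 591) (nat_lit 623) (nat_lit 5615) (.f (nat_lit 464) (nat_lit 559) (nat_lit 5583) (.d (nat_lit 463) (nat_lit 431) (nat_lit 7599) (nat_lit 495) (nat_lit 7631))))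 (.a (.f (nat_lit 495) (nat_lit 463) (nat_lit 7631) (.f (nat_lit 624) (nat_lit 527) (nat_lit 7663) (.d (nat_lit 623) (nat_lit 591) (nat_lit 5615) (nat_lit 655) (nat_lit 5647)))) (.a (.f (nat_lit 591) (nat_lit 623) (nat_lit 5615) (.f (nat_lit 464) (nat_lit 559) (nat_lit 5583) (.f (nat_lit 561) (nat_lit 593) (nat_lit 4560) (.f (nat_lit 529) (nat_lit 432) (nat_lit 4528) (.d (nat_lit 624) (nat_lit 497) (nat_lit 6640) (nat_lit 656) (nat_lit 6672)))))) (.f (nat_lit 495) (nat_lit 463) (nat_lit 7631) (.f (nat_lit 624) (nat_lit 527) (nat_lit 7663) (.f (nat_lit 529) (nat_lit 497) (nat_lit 6640) (.f (nat_lit 561) (nat_lit 656) (nat_lit 6672) (.d (nat_lit 464) (nat_lit 432) (nat_lit 4528) (nat_lit 593) (nat_lit 4560)))))))))) (.p (nat_lit 592) (.a (.f (nat_lit 591) (nat_lit 623) (nat_lit 5615) (.f (nat_lit 464) (nat_lit 559) (nat_lit 5583) (.d (nat_lit 465) (nat_lit 433) (nat_lit 6576) (nat_lit 497) (nat_lit 6608)))) (.a (.f (nat_lit 591) (nat_lit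 623) (nat_lit 5615) (.f (nat_lit 464) (nat_lit 559) (nat_lit 5583) (.f (nat_lit 561) (nat_lit 593) (nat_lit 4560) (.f (nat_lit 432) (nat_lit 529) (nat_lit 4528) (.d (nat_lit 433) (nat_lit 401) (nat_lit 6544) (nat_lit 465) (nat_lit 6576)))))) (.a (.f (nat_lit 497) (nat_lit 465) (nat_lit 6608) (.f (nat_lit 624) (nat_lit 529) (nat_lit 6640) (.d (nat_lit 623) (nat_lit 591) (nat_lit 5615) (nat_lit 655) (nat_lit 5647)))) (.a (.f (nat_lit 591) (nat_lit 623) (nat_lit 5615) (.f (nat_lit 464) (nat_lit 559) (nat_lit 5583) (.f (nat_lit 561) (nat_lit 593) (nat_lit 4560) (.f (nat_lit 529) (nat_lit 432) (nat_lit 4528) (.d (nat_lit 624) (nat_lit 497) (nat_lit 6640) (nat_lit 656) (nat_lit 6672)))))) (.a (.f (nat_lit 497) (nat_lit 465) (nat_lit 6608) (.f (nat_lit 624) (nat_lit 529) (nat_lit 6640) (.f (nat_lit 527) (nat_lit 495) (nat_lit 7663) (.f (nat_lit 559) (nat_lit 656) (nat_lit 7695) (.d (nat_lit 464) (nat_lit 432) (nat_lit 5551) (nat_lit 591)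 (nat_lit 5583)))))) (.f (nat_lit 497) (nat_lit 465) (nat_lit 6608) (.f (nat_lit 624) (nat_lit 529) (nat_lit 6640) (.f (nat_lit 527) (nat_lit 495) (nat_lit 7663) (.f (nat_lit 656) (nat_lit 559) (nat_lit 7695) (.d (nat_lit 655) (nat_lit 623) (nat_lit 5647) (nat_lit 687) (nat_lit 5679))))))))))))))))) (.a (.p (nat_lit 592) (.a s9039 (.a (.p (nat_lit 496) (.a (.f (nat_lit 591) (nat_lit 623) (nat_lit 5615) (.f (nat_lit 464) (nat_lit 559) (nat_lit 5583) (.d (nat_lit 463) (nat_lit 431) (nat_lit 7599) (nat_lit 495) (nat_lit 7631)))) (.a (.f (nat_lit 495) (nat_lit 463) (nat_lit 7631) (.f (nat_lit 623) (nat_lit 591) (nat_lit 5615) (.f (nat_lit 624) (nat_lit 655) (nat_lit 5647) (.f (nat_lit 529) (nat_lit 497) (nat_lit 6640) (.f (nat_lit 530) (nat_lit 531) (nat_lit 3567) (.f (nat_lit 561) (nat_lit 656) (nat_lit 6672) (.f (nat_lit 466) (nat_lit 434) (nat_lit 5553) (.f (nat_lit 562) (nat_lit 593) (nat_lit 5585) (.d (nat_lit 563) (nat_lit 564)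 (nat_lit 3600) (nat_lit 595) (nat_lit 4562)))))))))) (.a (.f (nat_lit 591) (nat_lit 623) (nat_lit 5615) (.f (nat_lit 464) (nat_lit 559) (nat_lit 5583) (.f (nat_lit 463) (nat_lit 431) (nat_lit 7599) (.f (nat_lit 497) (nat_lit 499) (nat_lit 3535) (.f (nat_lit 529) (nat_lit 624) (nat_lit 6640) (.d (nat_lit 432) (nat_lit 400) (nat_lit 4496) (nat_lit 561) (nat_lit 4528))))))) (.a (.f (nat_lit 463) (nat_lit 495) (nat_lit 7631) (.f (nat_lit 464) (nat_lit 431) (nat_lit 7599) (.f (nat_lit 497) (nat_lit 499) (nat_lit 3535) (.f (nat_lit 529) (nat_lit 624) (nat_lit 6640) (.d (nat_lit 432) (nat_lit 400) (nat_lit 4496) (nat_lit 561) (nat_lit 4528)))))) (.f (nat_lit 591) (nat_lit 623) (nat_lit 5615) (.f (nat_lit 464) (nat_lit 559) (nat_lit 5583) (.f (nat_lit 561) (nat_lit 593) (nat_lit 4560) (.f (nat_lit 529) (nat_lit 432) (nat_lit 4528) (.d (nat_lit 624) (nat_lit 497) (nat_lit 6640) (nat_lit 656) (nat_lit 6672))))))))))) (.a (.p (nat_lit 496)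 (.a (.f (nat_lit 591) (nat_lit 623) (nat_lit 5615) (.f (nat_lit 464) (nat_lit 559) (nat_lit 5583) (.d (nat_lit 463) (nat_lit 431) (nat_lit 7599) (nat_lit 495) (nat_lit 7631)))) (.a (.f (nat_lit 495) (nat_lit 463) (nat_lit 7631) (.f (nat_lit 624) (nat_lit 527) (nat_lit 7663) (.d (nat_lit 623) (nat_lit 591) (nat_lit 5615) (nat_lit 655) (nat_lit 5647)))) (.a (.f (nat_lit 591) (nat_lit 623) (nat_lit 5615) (.f (nat_lit 464) (nat_lit 559) (nat_lit 5583) (.f (nat_lit 431) (nat_lit 463) (nat_lit 7599) (.f (nat_lit 432) (nat_lit 399) (nat_lit 7567) (.f (nat_lit 401) (nat_lit 433) (nat_lit 6544) (.f (nat_lit 400) (nat_lit 369) (nat_lit 6512) (.f (nat_lit 497) (nat_lit 529) (nat_lit 4496) (.f (nat_lit 499) (nat_lit 527) (nat_lit 1519) (.f (nat_lit 468) (nat_lit 467) (nat_lit 2512) (.f (nat_lit 500) (nat_lit 469) (nat_lit 2513) (.d (nat_lit 532) (nat_lit 531) (nat_lit 496) (nat_lit 533) (nat_lit 497)))))))))))) (.a (.f (nat_lit 495) (nat_lit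 463) (nat_lit 7631) (.f (nat_lit 527) (nat_lit 624) (nat_lit 7663) (.f (nat_lit 497) (nat_lit 499) (nat_lit 1519) (.f (nat_lit 530) (nat_lit 531) (nat_lit 495) (.f (nat_lit 529) (nat_lit 494) (nat_lit 3566) (.f (nat_lit 559) (nat_lit 558) (nat_lit 1550) (.d (nat_lit 464) (nat_lit 432) (nat_lit 5551) (nat_lit 591) (nat_lit 5583)))))))) (.a (.f (nat_lit 495) (nat_lit 463) (nat_lit 7631) (.f (nat_lit 527) (nat_lit 624) (nat_lit 7663) (.f (nat_lit 497) (nat_lit 499) (nat_lit 1519) (.f (nat_lit 530) (nat_lit 531) (nat_lit 495) (.f (nat_lit 529) (nat_lit 494) (nat_lit 3566) (.f (nat_lit 559) (nat_lit 558) (nat_lit 1550) (.f (nat_lit 562) (nat_lit 563) (nat_lit 527) (.f (nat_lit 594) (nat_lit 626) (nat_lit 7665) (.d (nat_lit 595) (nat_lit 593) (nat_lit 3631) (nat_lit 627) (nat_lit 4594)))))))))) (.f (nat_lit 623) (nat_lit 591) (nat_lit 5615) (.f (nat_lit 624) (nat_lit 655) (nat_lit 5647) (.f (nat_lit 497) (nat_lit 529) (nat_lit 6640) (.d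 (nat_lit 527) (nat_lit 495) (nat_lit 7663) (nat_lit 499) (nat_lit 1519))))))))))) (.a (.p (nat_lit 624) (.a (.f (nat_lit 527) (nat_lit 495) (nat_lit 7663) (.f (nat_lit 656) (nat_lit 559) (nat_lit 7695) (.d (nat_lit 655) (nat_lit 623) (nat_lit 5647) (nat_lit 687) (nat_lit 5679)))) (.a (.p (nat_lit 656) (.a (.d (nat_lit 655) (nat_lit 623) (nat_lit 5647) (nat_lit 687) (nat_lit 5679)) (.a (.f (nat_lit 687) (nat_lit 655) (nat_lit 5679) (.f (nat_lit 688) (nat_lit 719) (nat_lit 5711) (.d (nat_lit 689) (nat_lit 657) (nat_lit 4656) (nat_lit 721) (nat_lit 4688)))) (.f (nat_lit 689) (nat_lit 657) (nat_lit 4656) (.f (nat_lit 688) (nat_lit 721) (nat_lit 4688) (.f (nat_lit 591) (nat_lit 559) (nat_lit 7727) (.d (nat_lit 623) (nat_lit 496) (nat_lit 5615) (nat_lit 720) (nat_lit 7759)))))))) (.a (.f (nat_lit 623) (nat_lit 655) (nat_lit 5647) (.f (nat_lit 496) (nat_lit 591) (nat_lit 5615) (.d (nat_lit 495) (nat_lit 463) (nat_lit 7631) (nat_lit 527)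 (nat_lit 7663)))) (.a (.f (nat_lit 527) (nat_lit 495) (nat_lit 7663) (.f (nat_lit 656) (nat_lit 559) (nat_lit 7695) (.f (nat_lit 687) (nat_lit 655) (nat_lit 5679) (.f (nat_lit 688) (nat_lit 719) (nat_lit 5711) (.d (nat_lit 689) (nat_lit 657) (nat_lit 4656) (nat_lit 721) (nat_lit 4688)))))) (.p (nat_lit 496) (.a (.d (nat_lit 495) (nat_lit 463) (nat_lit 7631) (nat_lit 527) (nat_lit 7663)) (.a (.f (nat_lit 463) (nat_lit 495) (nat_lit 7631) (.f (nat_lit 464) (nat_lit 431) (nat_lit 7599) (.d (nat_lit 591) (nat_lit 559) (nat_lit 5583) (nat_lit 623) (nat_lit 5615)))) (.f (nat_lit 591) (nat_lit 623) (nat_lit 5615) (.f (nat_lit 559) (nat_lit 464) (nat_lit 5583) (.d (nat_lit 656) (nat_lit 527) (nat_lit 7695) (nat_lit 688) (nat_lit 7727)))))))))))) (.a (.p (nat_lit 496) (.a (.f (nat_lit 591) (nat_lit 623) (nat_lit 5615) (.f (nat_lit 464) (nat_lit 559) (nat_lit 5583) (.d (nat_lit 463) (nat_lit 431) (nat_lit 7599) (nat_lit 495) (nat_lit 7631))))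 (.a (.p (nat_lit 497) (.a (.f (nat_lit 495) (nat_lit 463) (nat_lit 7631) (.f (nat_lit 499) (nat_lit 527) (nat_lit 1519) (.d (nat_lit 467) (nat_lit 466) (nat_lit 2511) (nat_lit 468) (nat_lit 2512)))) (.a (.f (nat_lit 495) (nat_lit 463) (nat_lit 7631) (.f (nat_lit 530) (nat_lit 531) (nat_lit 495) (.f (nat_lit 529) (nat_lit 494) (nat_lit 494) (.f (nat_lit 466) (nat_lit 467) (nat_lit 2511) (.d (nat_lit 434) (nat_lit 402) (nat_lit 5521) (nat_lit 561) (nat_lit 5553)))))) (.a (.f (nat_lit 499) (nat_lit 527) (nat_lit 1519) (.f (nat_lit 500) (nat_lit 529) (nat_lit 1520) (.d (nat_lit 468) (nat_lit 467) (nat_lit 2512) (nat_lit 469) (nat_lit 2513)))) (.f (nat_lit 495) (nat_lit 463) (nat_lit 7631) (.f (nat_lit 530) (nat_lit 531) (nat_lit 495) (.f (nat_lit 529) (nat_lit 494) (nat_lit 494) (.d (nat_lit 499) (nat_lit 500) (nat_lit 1520) (nat_lit 527) (nat_lit 1519))))))))) (.a (.f (nat_lit 591) (nat_lit 623) (nat_lit 5615) (.f (nat_lit 464) (nat_lit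 559) (nat_lit 5583) (.f (nat_lit 431) (nat_lit 463) (nat_lit 7599) (.f (nat_lit 432) (nat_lit 399) (nat_lit 7567) (.f (nat_lit 401) (nat_lit 433) (nat_lit 6544) (.f (nat_lit 400) (nat_lit 369) (nat_lit 6512) (.f (nat_lit 497) (nat_lit 529) (nat_lit 4496) (.f (nat_lit 499) (nat_lit 527) (nat_lit 1519) (.f (nat_lit 468) (nat_lit 467) (nat_lit 2512) (.f (nat_lit 500) (nat_lit 469) (nat_lit 2513) (.d (nat_lit 532) (nat_lit 531) (nat_lit 496) (nat_lit 533) (nat_lit 497)))))))))))) (.f (nat_lit 591) (nat_lit 623) (nat_lit 5615) (.f (nat_lit 464) (nat_lit 559) (nat_lit 5583) (.f (nat_lit 561) (nat_lit 593) (nat_lit 4560) (.f (nat_lit 432) (nat_lit 529) (nat_lit 4528) (.f (nat_lit 399) (nat_lit 431) (nat_lit 7567) (.f (nat_lit 400) (nat_lit 367) (nat_lit 7535) (.d (nat_lit 401) (nat_lit 369) (nat_lit 6512) (nat_lit 433) (nat_lit 6544)))))))))))) (.a (.p (nat_lit 496) (.a (.f (nat_lit 495) (nat_lit 463) (nat_lit 7631) (.f (nat_lit 624) (nat_lit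 527) (nat_lit 7663) (.d (nat_lit 623) (nat_lit 591) (nat_lit 5615) (nat_lit 655) (nat_lit 5647)))) (.a (.f (nat_lit 463) (nat_lit 495) (nat_lit 7631) (.f (nat_lit 464) (nat_lit 431) (nat_lit 7599) (.f (nat_lit 497) (nat_lit 499) (nat_lit 3535) (.f (nat_lit 529) (nat_lit 624) (nat_lit 6640) (.d (nat_lit 432) (nat_lit 400) (nat_lit 4496) (nat_lit 561) (nat_lit 4528)))))) (.a (.f (nat_lit 463) (nat_lit 495) (nat_lit 7631) (.f (nat_lit 464) (nat_lit 431) (nat_lit 7599) (.f (nat_lit 499) (nat_lit 497) (nat_lit 3535) (.f (nat_lit 561) (nat_lit 593) (nat_lit 4560) (.f (nat_lit 529) (nat_lit 432) (nat_lit 4528) (.f (nat_lit 530) (nat_lit 527) (nat_lit 2543) (.d (nat_lit 500) (nat_lit 501) (nat_lit 1521) (nat_lit 531) (nat_lit 2544)))))))) (.f (nat_lit 623) (nat_lit 591) (nat_lit 5615) (.f (nat_lit 624) (nat_lit 655) (nat_lit 5647) (.f (nat_lit 497) (nat_lit 529) (nat_lit 6640) (.f (nat_lit 499) (nat_lit 527) (nat_lit 1519) (.f (nat_lit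 468) (nat_lit 467) (nat_lit 2512) (.f (nat_lit 500) (nat_lit 469) (nat_lit 2513) (.d (nat_lit 532) (nat_lit 531) (nat_lit 496) (nat_lit 533) (nat_lit 497)))))))))))) (.a s9104 s9110)))))))) (.a (.p (nat_lit 497) (.a (.p (nat_lit 529) (.a (.f (nat_lit 465) (nat_lit 433) (nat_lit 5552) (.d (nat_lit 592) (nat_lit 561) (nat_lit 5584) (nat_lit 624) (nat_lit 6640))) (.f (nat_lit 499) (nat_lit 500) (nat_lit 1520) (.f (nat_lit 530) (nat_lit 527) (nat_lit 2543) (.f (nat_lit 531) (nat_lit 559) (nat_lit 1551) (.f (nat_lit 563) (nat_lit 564) (nat_lit 528) (.d (nat_lit 466) (nat_lit 434) (nat_lit 4530) (nat_lit 595) (nat_lit 7634)))))))) (.a (.p (nat_lit 465) (.a (.f (nat_lit 529) (nat_lit 433) (nat_lit 5552) (.d (nat_lit 592) (nat_lit 496) (nat_lit 6608) (nat_lit 561) (nat_lit 5584))) (.a (.f (nat_lit 529) (nat_lit 433) (nat_lit 5552) (.d (nat_lit 592) (nat_lit 561) (nat_lit 5584) (nat_lit 624) (nat_lit 6640))) (.a (.f (nat_lit 433) (nat_lit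 529) (nat_lit 5552) (.d (nat_lit 401) (nat_lit 496) (nat_lit 5520) (nat_lit 530) (nat_lit 4497))) (.a (.f (nat_lit 496) (nat_lit 592) (nat_lit 6608) (.d (nat_lit 433) (nat_lit 401) (nat_lit 5520) (nat_lit 464) (nat_lit 6576))) (.f (nat_lit 592) (nat_lit 496) (nat_lit 6608) (.d (nat_lit 529) (nat_lit 561) (nat_lit 5584) (nat_lit 624) (nat_lit 6640)))))))) (.a (.p (nat_lit 592) (.a (.f (nat_lit 529) (nat_lit 624) (nat_lit 6640) (.f (nat_lit 499) (nat_lit 500) (nat_lit 1520) (.f (nat_lit 530) (nat_lit 527) (nat_lit 2543) (.f (nat_lit 531) (nat_lit 559) (nat_lit 1551) (.f (nat_lit 563) (nat_lit 564) (nat_lit 528) (.d (nat_lit 466) (nat_lit 434) (nat_lit 4530) (nat_lit 595) (nat_lit 7634))))))) (.a (.f (nat_lit 496) (nat_lit 465) (nat_lit 6608) (.f (nat_lit 529) (nat_lit 624) (nat_lit 6640) (.f (nat_lit 499) (nat_lit 500) (nat_lit 1520) (.f (nat_lit 464) (nat_lit 463) (nat_lit 3535) (.d (nat_lit 591) (nat_lit 559) (nat_lit 5583) (nat_lit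 623) (nat_lit 5615)))))) (.a (.f (nat_lit 496) (nat_lit 465) (nat_lit 6608) (.f (nat_lit 591) (nat_lit 623) (nat_lit 5615) (.f (nat_lit 464) (nat_lit 559) (nat_lit 5583) (.d (nat_lit 463) (nat_lit 431) (nat_lit 7599) (nat_lit 499) (nat_lit 3535))))) (.a (.f (nat_lit 496) (nat_lit 465) (nat_lit 6608) (.f (nat_lit 499) (nat_lit 527) (nat_lit 1519) (.d (nat_lit 529) (nat_lit 500) (nat_lit 1520) (nat_lit 624) (nat_lit 6640)))) (.f (nat_lit 465) (nat_lit 496) (nat_lit 6608) (.d (nat_lit 529) (nat_lit 433) (nat_lit 5552) (nat_lit 624) (nat_lit 6640)))))))) (.a (.p (nat_lit 496) (.a (.f (nat_lit 499) (nat_lit 527) (nat_lit 1519) (.f (nat_lit 468) (nat_lit 467) (nat_lit 2512) (.f (nat_lit 500) (nat_lit 469) (nat_lit 2513) (.d (nat_lit 532) (nat_lit 531) (nat_lit 496) (nat_lit 533) (nat_lit 497))))) (.f (nat_lit 465) (nat_lit 592) (nat_lit 6608) (.d (nat_lit 433) (nat_lit 401) (nat_lit 5520) (nat_lit 464) (nat_lit 6576))))) (.a (.p (nat_lit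 499) (.a (.f (nat_lit 500) (nat_lit 529) (nat_lit 1520) (.f (nat_lit 465) (nat_lit 464) (nat_lit 3536) (.f (nat_lit 501) (nat_lit 466) (nat_lit 3537) (.d (nat_lit 469) (nat_lit 468) (nat_lit 2513) (nat_lit 470) (nat_lit 2514))))) (.a (.f (nat_lit 496) (nat_lit 527) (nat_lit 1519) (.f (nat_lit 464) (nat_lit 463) (nat_lit 3535) (.d (nat_lit 465) (nat_lit 433) (nat_lit 6576) (nat_lit 500) (nat_lit 3536)))) (.a (.f (nat_lit 500) (nat_lit 529) (nat_lit 1520) (.f (nat_lit 468) (nat_lit 469) (nat_lit 2513) (.f (nat_lit 532) (nat_lit 533) (nat_lit 497) (.d (nat_lit 496) (nat_lit 467) (nat_lit 2512) (nat_lit 531) (nat_lit 496))))) (.f (nat_lit 496) (nat_lit 527) (nat_lit 1519) (.f (nat_lit 464) (nat_lit 463) (nat_lit 3535) (.f (nat_lit 561) (nat_lit 593) (nat_lit 4560) (.f (nat_lit 529) (nat_lit 432) (nat_lit 4528) (.f (nat_lit 531) (nat_lit 532) (nat_lit 496) (.d (nat_lit 559) (nat_lit 530) (nat_lit 1551) (nat_lit 591) (nat_lit 5583)))))))))))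 (.p (nat_lit 499) (.a (.f (nat_lit 496) (nat_lit 527) (nat_lit 1519) (.f (nat_lit 529) (nat_lit 500) (nat_lit 1520) (.f (nat_lit 464) (nat_lit 463) (nat_lit 3535) (.d (nat_lit 432) (nat_lit 400) (nat_lit 4496) (nat_lit 561) (nat_lit 4528))))) (.a (.f (nat_lit 500) (nat_lit 529) (nat_lit 1520) (.f (nat_lit 468) (nat_lit 469) (nat_lit 2513) (.f (nat_lit 532) (nat_lit 533) (nat_lit 497) (.d (nat_lit 496) (nat_lit 467) (nat_lit 2512) (nat_lit 531) (nat_lit 496))))) (.a (.f (nat_lit 529) (nat_lit 500) (nat_lit 1520) (.f (nat_lit 530) (nat_lit 527) (nat_lit 2543) (.f (nat_lit 531) (nat_lit 559) (nat_lit 1551) (.d (nat_lit 532) (nat_lit 533) (nat_lit 3569) (nat_lit 561) (nat_lit 1552))))) (.a (.f (nat_lit 496) (nat_lit 527) (nat_lit 1519) (.f (nat_lit 468) (nat_lit 467) (nat_lit 2512) (.f (nat_lit 500) (nat_lit 469) (nat_lit 2513) (.d (nat_lit 532) (nat_lit 531) (nat_lit 496) (nat_lit 533) (nat_lit 497))))) (.f (nat_lit 496) (nat_lit 527)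 (nat_lit 1519) (.f (nat_lit 464) (nat_lit 463) (nat_lit 3535) (.f (nat_lit 561) (nat_lit 593) (nat_lit 4560) (.f (nat_lit 529) (nat_lit 432) (nat_lit 4528) (.f (nat_lit 531) (nat_lit 532) (nat_lit 496) (.d (nat_lit 559) (nat_lit 530) (nat_lit 1551) (nat_lit 591) (nat_lit 5583)))))))))))))))))) (.a (.p (nat_lit 592) (.a s8898 (.a s8909 (.a s9039 (.a s9184 (.a s9196 (.a s9197 (.a s8959 (.a s8967 s9110))))))))) (.a (.p (nat_lit 592) (.a s8898 (.a s8909 (.a s9039 (.a s9197 (.a (.p (nat_lit 496) (.a (.f (nat_lit 591) (nat_lit 623) (nat_lit 5615) (.f (nat_lit 464) (nat_lit 559) (nat_lit 5583) (.d (nat_lit 463) (nat_lit 431) (nat_lit 7599) (nat_lit 495) (nat_lit 7631)))) (.a (.f (nat_lit 495) (nat_lit 463) (nat_lit 7631) (.f (nat_lit 624) (nat_lit 527) (nat_lit 7663) (.d (nat_lit 623) (nat_lit 591) (nat_lit 5615) (nat_lit 655) (nat_lit 5647)))) (.a (.f (nat_lit 591) (nat_lit 623) (nat_lit 5615) (.f (nat_lit 464) (nat_lit 559) (nat_lit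 5583) (.f (nat_lit 561) (nat_lit 593) (nat_lit 4560) (.f (nat_lit 432) (nat_lit 529) (nat_lit 4528) (.d (nat_lit 431) (nat_lit 399) (nat_lit 7567) (nat_lit 463) (nat_lit 7599)))))) (.a (.f (nat_lit 463) (nat_lit 495) (nat_lit 7631) (.f (nat_lit 464) (nat_lit 431) (nat_lit 7599) (.f (nat_lit 559) (nat_lit 591) (nat_lit 5583) (.f (nat_lit 432) (nat_lit 527) (nat_lit 5551) (.d (nat_lit 561) (nat_lit 529) (nat_lit 4528) (nat_lit 593) (nat_lit 4560)))))) (.a (.f (nat_lit 495) (nat_lit 463) (nat_lit 7631) (.f (nat_lit 624) (nat_lit 527) (nat_lit 7663) (.f (nat_lit 655) (nat_lit 623) (nat_lit 5647) (.f (nat_lit 656) (nat_lit 687) (nat_lit 5679) (.f (nat_lit 561) (nat_lit 529) (nat_lit 6672) (.d (nat_lit 593) (nat_lit 464) (nat_lit 4560) (nat_lit 688) (nat_lit 6704))))))) (.f (nat_lit 591) (nat_lit 623) (nat_lit 5615) (.f (nat_lit 464) (nat_lit 559) (nat_lit 5583) (.f (nat_lit 561) (nat_lit 593) (nat_lit 4560) (.f (nat_lit 529) (nat_lit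 432) (nat_lit 4528) (.f (nat_lit 562) (nat_lit 563) (nat_lit 1583) (.f (nat_lit 624) (nat_lit 656) (nat_lit 6672) (.f (nat_lit 495) (nat_lit 527) (nat_lit 7663) (.f (nat_lit 530) (nat_lit 531) (nat_lit 3567) (.f (nat_lit 466) (nat_lit 434) (nat_lit 5553) (.d (nat_lit 467) (nat_lit 435) (nat_lit 6578) (nat_lit 465) (nat_lit 1487))))))))))))))))) (.a s8959 (.a s9104 s9110)))))))) (.a (.p (nat_lit 496) (.a s6282 (.a s8728 (.a s6294 (.a (.p (nat_lit 497) (.a (.f (nat_lit 499) (nat_lit 527) (nat_lit 1519) (.f (nat_lit 500) (nat_lit 529) (nat_lit 1520) (.d (nat_lit 468) (nat_lit 467) (nat_lit 2512) (nat_lit 469) (nat_lit 2513)))) (.a (.f (nat_lit 465) (nat_lit 592) (nat_lit 6608) (.d (nat_lit 433) (nat_lit 401) (nat_lit 5520) (nat_lit 529) (nat_lit 5552))) (.f (nat_lit 499) (nat_lit 527) (nat_lit 1519) (.f (nat_lit 468) (nat_lit 467) (nat_lit 2512) (.f (nat_lit 500) (nat_lit 469) (nat_lit 2513) (.d (nat_lit 532) (nat_lit 531) (nat_lit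 496) (nat_lit 533) (nat_lit 497)))))))) (.a s6342 (.a (.p (nat_lit 464) (.a (.f (nat_lit 463) (nat_lit 431) (nat_lit 7599) (.f (nat_lit 497) (nat_lit 499) (nat_lit 3535) (.d (nat_lit 462) (nat_lit 461) (nat_lit 461) (nat_lit 495) (nat_lit 3534)))) (.a (.f (nat_lit 431) (nat_lit 463) (nat_lit 7599) (.f (nat_lit 432) (nat_lit 399) (nat_lit 7567) (.d (nat_lit 561) (nat_lit 529) (nat_lit 4528) (nat_lit 593) (nat_lit 4560)))) (.a (.f (nat_lit 561) (nat_lit 593) (nat_lit 4560) (.f (nat_lit 432) (nat_lit 529) (nat_lit 4528) (.f (nat_lit 399) (nat_lit 431) (nat_lit 7567) (.f (nat_lit 400) (nat_lit 367) (nat_lit 7535) (.d (nat_lit 401) (nat_lit 369) (nat_lit 6512) (nat_lit 433) (nat_lit 6544)))))) (.f (nat_lit 561) (nat_lit 593) (nat_lit 4560) (.f (nat_lit 432) (nat_lit 529) (nat_lit 4528) (.f (nat_lit 527) (nat_lit 559) (nat_lit 5551) (.f (nat_lit 495) (nat_lit 400) (nat_lit 5519) (.d (nat_lit 592) (nat_lit 463) (nat_lit 7631) (nat_lit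 624) (nat_lit 7663)))))))))) (.p (nat_lit 592) (.a (.f (nat_lit 497) (nat_lit 465) (nat_lit 6608) (.f (nat_lit 529) (nat_lit 624) (nat_lit 6640) (.f (nat_lit 495) (nat_lit 463) (nat_lit 7631) (.d (nat_lit 494) (nat_lit 493) (nat_lit 493) (nat_lit 530) (nat_lit 494))))) (.a (.f (nat_lit 497) (nat_lit 465) (nat_lit 6608) (.f (nat_lit 463) (nat_lit 495) (nat_lit 7631) (.d (nat_lit 464) (nat_lit 431) (nat_lit 7599) (nat_lit 499) (nat_lit 3535)))) (.a (.f (nat_lit 495) (nat_lit 463) (nat_lit 7631) (.f (nat_lit 624) (nat_lit 527) (nat_lit 7663) (.f (nat_lit 655) (nat_lit 623) (nat_lit 5647) (.f (nat_lit 656) (nat_lit 687) (nat_lit 5679) (.f (nat_lit 561) (nat_lit 529) (nat_lit 6672) (.d (nat_lit 593) (nat_lit 464) (nat_lit 4560) (nat_lit 688) (nat_lit 6704))))))) (.a (.f (nat_lit 497) (nat_lit 465) (nat_lit 6608) (.f (nat_lit 529) (nat_lit 624) (nat_lit 6640) (.f (nat_lit 499) (nat_lit 500) (nat_lit 1520) (.f (nat_lit 464) (nat_lit 463)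 (nat_lit 3535) (.d (nat_lit 432) (nat_lit 400) (nat_lit 4496) (nat_lit 561) (nat_lit 4528)))))) (.f (nat_lit 497) (nat_lit 465) (nat_lit 6608) (.f (nat_lit 529) (nat_lit 624) (nat_lit 6640) (.f (nat_lit 499) (nat_lit 500) (nat_lit 1520) (.f (nat_lit 531) (nat_lit 532) (nat_lit 496) (.d (nat_lit 530) (nat_lit 495) (nat_lit 495) (nat_lit 559) (nat_lit 1551)))))))))))))))))) (.a (.p (nat_lit 497) (.a (.p (nat_lit 529) (.a (.f (nat_lit 465) (nat_lit 433) (nat_lit 5552) (.d (nat_lit 592) (nat_lit 561) (nat_lit 5584) (nat_lit 624) (nat_lit 6640))) (.f (nat_lit 499) (nat_lit 500) (nat_lit 1520) (.f (nat_lit 530) (nat_lit 527) (nat_lit 2543) (.f (nat_lit 531) (nat_lit 559) (nat_lit 1551) (.f (nat_lit 563) (nat_lit 564) (nat_lit 528) (.d (nat_lit 466) (nat_lit 434) (nat_lit 4530) (nat_lit 595) (nat_lit 7634)))))))) (.a (.p (nat_lit 465) (.a (.f (nat_lit 529) (nat_lit 433) (nat_lit 5552) (.d (nat_lit 592) (nat_lit 496) (nat_lit 6608) (nat_lit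 561) (nat_lit 5584))) (.a (.f (nat_lit 529) (nat_lit 433) (nat_lit 5552) (.d (nat_lit 592) (nat_lit 561) (nat_lit 5584) (nat_lit 624) (nat_lit 6640))) (.a (.f (nat_lit 433) (nat_lit 529) (nat_lit 5552) (.d (nat_lit 401) (nat_lit 496) (nat_lit 5520) (nat_lit 530) (nat_lit 4497))) (.a (.f (nat_lit 496) (nat_lit 592) (nat_lit 6608) (.d (nat_lit 433) (nat_lit 401) (nat_lit 5520) (nat_lit 464) (nat_lit 6576))) (.f (nat_lit 592) (nat_lit 496) (nat_lit 6608) (.d (nat_lit 529) (nat_lit 561) (nat_lit 5584) (nat_lit 624) (nat_lit 6640)))))))) (.a (.p (nat_lit 496) (.a (.f (nat_lit 499) (nat_lit 527) (nat_lit 1519) (.f (nat_lit 468) (nat_lit 467) (nat_lit 2512) (.f (nat_lit 500) (nat_lit 469) (nat_lit 2513) (.d (nat_lit 532) (nat_lit 531) (nat_lit 496) (nat_lit 533) (nat_lit 497))))) (.f (nat_lit 465) (nat_lit 592) (nat_lit 6608) (.d (nat_lit 433) (nat_lit 401) (nat_lit 5520) (nat_lit 464) (nat_lit 6576))))) (.a (.p (nat_lit 499) (.a (.f (nat_lit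 500) (nat_lit 529) (nat_lit 1520) (.f (nat_lit 465) (nat_lit 464) (nat_lit 3536) (.f (nat_lit 501) (nat_lit 466) (nat_lit 3537) (.d (nat_lit 469) (nat_lit 468) (nat_lit 2513) (nat_lit 470) (nat_lit 2514))))) (.a (.f (nat_lit 496) (nat_lit 527) (nat_lit 1519) (.f (nat_lit 467) (nat_lit 468) (nat_lit 2512) (.f (nat_lit 531) (nat_lit 532) (nat_lit 496) (.d (nat_lit 495) (nat_lit 466) (nat_lit 2511) (nat_lit 530) (nat_lit 495))))) (.a (.f (nat_lit 500) (nat_lit 529) (nat_lit 1520) (.f (nat_lit 468) (nat_lit 469) (nat_lit 2513) (.f (nat_lit 532) (nat_lit 533) (nat_lit 497) (.d (nat_lit 496) (nat_lit 467) (nat_lit 2512) (nat_lit 531) (nat_lit 496))))) (.f (nat_lit 529) (nat_lit 500) (nat_lit 1520) (.f (nat_lit 530) (nat_lit 527) (nat_lit 2543) (.f (nat_lit 531) (nat_lit 559) (nat_lit 1551) (.d (nat_lit 532) (nat_lit 533) (nat_lit 3569) (nat_lit 561) (nat_lit 1552))))))))) (.p (nat_lit 499) (.a (.f (nat_lit 500) (nat_lit 529) (nat_lit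 1520) (.f (nat_lit 468) (nat_lit 469) (nat_lit 2513) (.f (nat_lit 532) (nat_lit 533) (nat_lit 497) (.d (nat_lit 496) (nat_lit 467) (nat_lit 2512) (nat_lit 531) (nat_lit 496))))) (.a (.f (nat_lit 529) (nat_lit 500) (nat_lit 1520) (.f (nat_lit 530) (nat_lit 527) (nat_lit 2543) (.f (nat_lit 531) (nat_lit 559) (nat_lit 1551) (.d (nat_lit 532) (nat_lit 533) (nat_lit 3569) (nat_lit 561) (nat_lit 1552))))) (.a (.f (nat_lit 496) (nat_lit 527) (nat_lit 1519) (.f (nat_lit 467) (nat_lit 468) (nat_lit 2512) (.f (nat_lit 531) (nat_lit 532) (nat_lit 496) (.d (nat_lit 495) (nat_lit 466) (nat_lit 2511) (nat_lit 530) (nat_lit 495))))) (.a (.f (nat_lit 500) (nat_lit 529) (nat_lit 1520) (.f (nat_lit 469) (nat_lit 468) (nat_lit 2513) (.f (nat_lit 501) (nat_lit 470) (nat_lit 2514) (.d (nat_lit 533) (nat_lit 532) (nat_lit 497) (nat_lit 534) (nat_lit 498))))) (.f (nat_lit 529) (nat_lit 500) (nat_lit 1520) (.d (nat_lit 527) (nat_lit 496) (nat_lit 1519)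 (nat_lit 530) (nat_lit 2543))))))))))))) (.p (nat_lit 592) (.a s8898 (.a s8909 (.a s9039 (.a s9184 (.a s9196 (.a (.p (nat_lit 496) (.a (.f (nat_lit 497) (nat_lit 465) (nat_lit 6608) (.f (nat_lit 463) (nat_lit 495) (nat_lit 7631) (.d (nat_lit 464) (nat_lit 431) (nat_lit 7599) (nat_lit 499) (nat_lit 3535)))) (.a (.f (nat_lit 591) (nat_lit 623) (nat_lit 5615) (.f (nat_lit 464) (nat_lit 559) (nat_lit 5583) (.d (nat_lit 463) (nat_lit 431) (nat_lit 7599) (nat_lit 495) (nat_lit 7631)))) (.a (.f (nat_lit 497) (nat_lit 465) (nat_lit 6608) (.f (nat_lit 495) (nat_lit 463) (nat_lit 7631) (.f (nat_lit 530) (nat_lit 531) (nat_lit 495) (.f (nat_lit 529) (nat_lit 494) (nat_lit 494) (.d (nat_lit 499) (nat_lit 500) (nat_lit 1520) (nat_lit 527) (nat_lit 1519)))))) (.f (nat_lit 591) (nat_lit 623) (nat_lit 5615) (.f (nat_lit 464) (nat_lit 559) (nat_lit 5583) (.d (nat_lit 465) (nat_lit 433) (nat_lit 6576) (nat_lit 497) (nat_lit 6608)))))))) (.a s8959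 (.a s8967 (.p (nat_lit 496) (.a (.f (nat_lit 497) (nat_lit 465) (nat_lit 6608) (.f (nat_lit 529) (nat_lit 624) (nat_lit 6640) (.f (nat_lit 495) (nat_lit 463) (nat_lit 7631) (.d (nat_lit 494) (nat_lit 493) (nat_lit 493) (nat_lit 530) (nat_lit 494))))) (.a (.f (nat_lit 497) (nat_lit 465) (nat_lit 6608) (.f (nat_lit 463) (nat_lit 495) (nat_lit 7631) (.d (nat_lit 464) (nat_lit 431) (nat_lit 7599) (nat_lit 499) (nat_lit 3535)))) (.a (.f (nat_lit 463) (nat_lit 495) (nat_lit 7631) (.f (nat_lit 464) (nat_lit 431) (nat_lit 7599) (.f (nat_lit 465) (nat_lit 433) (nat_lit 6576) (.f (nat_lit 466) (nat_lit 499) (nat_lit 463) (.f (nat_lit 561) (nat_lit 593) (nat_lit 4560) (.f (nat_lit 434) (nat_lit 435) (nat_lit 2479) (.d (nat_lit 529) (nat_lit 432) (nat_lit 4528) (nat_lit 530) (nat_lit 5553)))))))) (.a (.f (nat_lit 463) (nat_lit 495) (nat_lit 7631) (.f (nat_lit 464) (nat_lit 431) (nat_lit 7599) (.f (nat_lit 497) (nat_lit 499) (nat_lit 3535) (.f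 (nat_lit 529) (nat_lit 624) (nat_lit 6640) (.d (nat_lit 432) (nat_lit 400) (nat_lit 4496) (nat_lit 561) (nat_lit 4528)))))) (.a (.f (nat_lit 497) (nat_lit 465) (nat_lit 6608) (.f (nat_lit 529) (nat_lit 624) (nat_lit 6640) (.f (nat_lit 499) (nat_lit 500) (nat_lit 1520) (.f (nat_lit 464) (nat_lit 463) (nat_lit 3535) (.d (nat_lit 432) (nat_lit 400) (nat_lit 4496) (nat_lit 561) (nat_lit 4528)))))) (.f (nat_lit 497) (nat_lit 465) (nat_lit 6608) (.f (nat_lit 529) (nat_lit 624) (nat_lit 6640) (.f (nat_lit 499) (nat_lit 500) (nat_lit 1520) (.f (nat_lit 531) (nat_lit 532) (nat_lit 496) (.f (nat_lit 530) (nat_lit 495) (nat_lit 3567) (.f (nat_lit 563) (nat_lit 564) (nat_lit 528) (.d (nat_lit 466) (nat_lit 434) (nat_lit 4530) (nat_lit 595) (nat_lit 7634)))))))))))))))))))))))))))))))))))))))))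
noncomputable def s9261 : Cert := .r (nat_lit 64836180782635327105257550133865756107099233344784774323566786510389197141567267213334914537603630284999823986032247621314213099342709661479114454765656505907541824002709199519744) (.p (nat_lit 498) (.a (.f (nat_lit 625) (nat_lit 593) (nat_lit 5617) (.f (nat_lit 626) (nat_lit 657) (nat_lit 5649) (.d (nat_lit 499) (nat_lit 467) (nat_lit 6610) (nat_lit 531) (nat_lit 6642)))) (.a (.f (nat_lit 625) (nat_lit 593) (nat_lit 5617) (.f (nat_lit 626) (nat_lit 657) (nat_lit 5649) (.d (nat_lit 627) (nat_lit 595) (nat_lit 4594) (nat_lit 659) (nat_lit 4626)))) (.a (.f (nat_lit 499) (nat_lit 467) (nat_lit 6610) (.f (nat_lit 531) (nat_lit 626) (nat_lit 6642) (.d (nat_lit 529) (nat_lit 500) (nat_lit 2544) (nat_lit 559) (nat_lit 1551)))) (.f (nat_lit 593) (nat_lit 625) (nat_lit 5617) (.f (nat_lit 595) (nat_lit 627) (nat_lit 4594) (.f (nat_lit 592) (nat_lit 559) (nat_lit 3631) (.f (nat_lit 623) (nat_lit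 624) (nat_lit 1615) (.d (nat_lit 591) (nat_lit 496) (nat_lit 5615) (nat_lit 622) (nat_lit 1614))))))))))
noncomputable def s9262 : Cert := .r (nat_lit 64836180782635327105257550133865756107099233344784774323566786510389197141567267213334914537603630284999823986032247621314213099342709661479114454765656505907541824002709199519744) (.p (nat_lit 498) (.a (.f (nat_lit 499) (nat_lit 467) (nat_lit 6610) (.f (nat_lit 531) (nat_lit 626) (nat_lit 6642) (.d (nat_lit 529) (nat_lit 500) (nat_lit 2544) (nat_lit 559) (nat_lit 1551)))) (.a (.f (nat_lit 467) (nat_lit 499) (nat_lit 6610) (.f (nat_lit 466) (nat_lit 435) (nat_lit 6578) (.d (nat_lit 595) (nat_lit 563) (nat_lit 4562) (nat_lit 627) (nat_lit 4594)))) (.f (nat_lit 627) (nat_lit 595) (nat_lit 4594) (.f (nat_lit 626) (nat_lit 659) (nat_lit 4626) (.f (nat_lit 529) (nat_lit 497) (nat_lit 7665) (.f (nat_lit 531) (nat_lit 559) (nat_lit 1551) (.d (nat_lit 563) (nat_lit 564) (nat_lit 528) (nat_lit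 658) (nat_lit 6674)))))))))
noncomputable def s9264 : Cert := .r (nat_lit 64836180782635327105257550133865756107099233344784774323566786510389197141567267213334914537603630284999823986032247621314213099342709661479114454765656505907541824002709199519744) (.p (nat_lit 498) (.a (.f (nat_lit 497) (nat_lit 465) (nat_lit 7633) (.f (nat_lit 529) (nat_lit 626) (nat_lit 7665) (.d (nat_lit 499) (nat_lit 467) (nat_lit 6610) (nat_lit 500) (nat_lit 1520)))) (.a (.f (nat_lit 625) (nat_lit 593) (nat_lit 5617) (.f (nat_lit 626) (nat_lit 657) (nat_lit 5649) (.d (nat_lit 499) (nat_lit 467) (nat_lit 6610) (nat_lit 531) (nat_lit 6642)))) (.a (.f (nat_lit 497) (nat_lit 465) (nat_lit 7633) (.f (nat_lit 626) (nat_lit 529) (nat_lit 7665) (.d (nat_lit 625) (nat_lit 593) (nat_lit 5617) (nat_lit 657) (nat_lit 5649)))) (.f (nat_lit 497) (nat_lit 465) (nat_lit 7633) (.f (nat_lit 499) (nat_lit 467) (nat_lit 6610) (.f (nat_lit 500) (nat_lit 529) (nat_lit 1520)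 (.f (nat_lit 533) (nat_lit 532) (nat_lit 497) (.f (nat_lit 501) (nat_lit 534) (nat_lit 498) (.d (nat_lit 469) (nat_lit 468) (nat_lit 2513) (nat_lit 470) (nat_lit 2514)))))))))))
noncomputable def s9267 : Cert := .r (nat_lit 64836180782635327105257550133865756107099233344784774323566786510389197141567267213334914537603630284999823986032247621314213099342709661479114454765656505907541824002709199519744) (.p (nat_lit 498) (.a (.f (nat_lit 499) (nat_lit 467) (nat_lit 6610) (.f (nat_lit 529) (nat_lit 527) (nat_lit 2543) (.d (nat_lit 500) (nat_lit 501) (nat_lit 1521) (nat_lit 531) (nat_lit 2544)))) (.a (.f (nat_lit 497) (nat_lit 465) (nat_lit 7633) (.f (nat_lit 499) (nat_lit 467) (nat_lit 6610) (.f (nat_lit 500) (nat_lit 529) (nat_lit 1520) (.f (nat_lit 533) (nat_lit 532) (nat_lit 497) (.f (nat_lit 501) (nat_lit 534) (nat_lit 498) (.d (nat_lit 469) (nat_lit 468) (nat_lit 2513) (nat_lit 470) (nat_lit 2514))))))) (.a (.f (nat_lit 467) (nat_lit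 499) (nat_lit 6610) (.f (nat_lit 466) (nat_lit 435) (nat_lit 6578) (.d (nat_lit 595) (nat_lit 563) (nat_lit 4562) (nat_lit 627) (nat_lit 4594)))) (.f (nat_lit 595) (nat_lit 627) (nat_lit 4594) (.f (nat_lit 563) (nat_lit 466) (nat_lit 4562) (.f (nat_lit 529) (nat_lit 527) (nat_lit 527) (.d (nat_lit 531) (nat_lit 559) (nat_lit 1551) (nat_lit 564) (nat_lit 528)))))))))
noncomputable def s9273 : Cert := .r (nat_lit 64836180782635327105257550133865756107099233344784774323566786510389197141567267213334914537603630284999823986032247621314213099342709661479114454765656505907541824002709199519744) (.p (nat_lit 498) (.a (.f (nat_lit 497) (nat_lit 465) (nat_lit 7633) (.f (nat_lit 529) (nat_lit 626) (nat_lit 7665) (.d (nat_lit 499) (nat_lit 467) (nat_lit 6610) (nat_lit 500) (nat_lit 1520)))) (.a (.f (nat_lit 499) (nat_lit 467) (nat_lit 6610) (.f (nat_lit 626) (nat_lit 531) (nat_lit 6642) (.d (nat_lit 627) (nat_lit 595) (nat_lit 4594) (nat_lit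 659) (nat_lit 4626)))) (.a (.f (nat_lit 497) (nat_lit 465) (nat_lit 7633) (.f (nat_lit 529) (nat_lit 626) (nat_lit 7665) (.f (nat_lit 559) (nat_lit 531) (nat_lit 1551) (.d (nat_lit 558) (nat_lit 527) (nat_lit 1550) (nat_lit 557) (nat_lit 2573))))) (.f (nat_lit 499) (nat_lit 467) (nat_lit 6610) (.f (nat_lit 529) (nat_lit 527) (nat_lit 2543) (.d (nat_lit 500) (nat_lit 501) (nat_lit 1521) (nat_lit 531) (nat_lit 2544))))))))
noncomputable def s9274 : Cert := .r (nat_lit 64836180782635327105257550133865756107099233344784774323566786510389197141567267213334914537603630284999823986032247621314213099342709661479114454765656505907541824002709199519744) (.p (nat_lit 498) (.a (.f (nat_lit 499) (nat_lit 467) (nat_lit 6610) (.f (nat_lit 529) (nat_lit 527) (nat_lit 2543) (.d (nat_lit 500) (nat_lit 501) (nat_lit 1521) (nat_lit 531) (nat_lit 2544)))) (.a (.f (nat_lit 497) (nat_lit 465) (nat_lit 7633) (.f (nat_lit 499) (nat_lit 467) (nat_lit 6610)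 (.f (nat_lit 500) (nat_lit 529) (nat_lit 1520) (.f (nat_lit 533) (nat_lit 532) (nat_lit 497) (.f (nat_lit 501) (nat_lit 534) (nat_lit 498) (.d (nat_lit 469) (nat_lit 468) (nat_lit 2513) (nat_lit 470) (nat_lit 2514))))))) (.f (nat_lit 593) (nat_lit 625) (nat_lit 5617) (.f (nat_lit 595) (nat_lit 627) (nat_lit 4594) (.f (nat_lit 592) (nat_lit 559) (nat_lit 3631) (.f (nat_lit 623) (nat_lit 624) (nat_lit 1615) (.d (nat_lit 591) (nat_lit 496) (nat_lit 5615) (nat_lit 622) (nat_lit 1614)))))))))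
noncomputable def s9294 : Cert := .r (nat_lit 64836180782635327105257550133865756107099233344784774323566786510389197141567267213334914537603630284999823986032247621314213099342709661479114454765656505907541824002709199519744) (.p (nat_lit 529) (.a (.f (nat_lit 527) (nat_lit 563) (nat_lit 527) (.f (nat_lit 495) (nat_lit 494) (nat_lit 3566) (.f (nat_lit 559) (nat_lit 558) (nat_lit 1550) (.d (nat_lit 463) (nat_lit 431) (nat_lit 4527) (nat_lit 592) (nat_lit 4559))))) (.a (.f (nat_lit 531) (nat_lit 559) (nat_lit 1551) (.f (nat_lit 563) (nat_lit 564) (nat_lit 528) (.d (nat_lit 626) (nat_lit 497) (nat_lit 7665) (nat_lit 658) (nat_lit 6674)))) (.a (.f (nat_lit 559) (nat_lit 531) (nat_lit 1551) (.d (nat_lit 558) (nat_lit 527) (nat_lit 1550) (nat_lit 557) (nat_lit 2573))) (.f (nat_lit 563) (nat_lit 527) (nat_lit 527) (.d (nat_lit 564) (nat_lit 531) (nat_lit 528) (nat_lit 565) (nat_lit 3601)))))))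
noncomputable def s9302 : Cert := .r (nat_lit 64836180782635327101742773731878883933028500135655100996324835636715824771957301922231916427704030386313073450013582889165837387910271462164107996909801584275503921517658290257920) (.p (nat_lit 530) (.a (.p (nat_lit 498) (.a (.f (nat_lit 595) (nat_lit 627) (nat_lit 4594) (.f (nat_lit 563) (nat_lit 466) (nat_lit 4562) (.f (nat_lit 593) (nat_lit 625) (nat_lit 5617) (.d (nat_lit 564) (nat_lit 565) (nat_lit 1585) (nat_lit 592) (nat_lit 2608))))) (.f (nat_lit 499) (nat_lit 467) (nat_lit 6610) (.f (nat_lit 529) (nat_lit 527) (nat_lit 2543) (.d (nat_lit 500) (nat_lit 501) (nat_lit 1521) (nat_lit 531) (nat_lit 2544)))))) (.a (.p (nat_lit 498) (.a (.f (nat_lit 595) (nat_lit 627) (nat_lit 4594) (.f (nat_lit 563) (nat_lit 466) (nat_lit 4562) (.f (nat_lit 593) (nat_lit 625) (nat_lit 5617) (.d (nat_lit 564) (nat_lit 565) (nat_lit 1585) (nat_lit 592) (nat_lit 2608))))) (.f (nat_lit 497) (nat_lit 465)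 (nat_lit 7633) (.f (nat_lit 499) (nat_lit 467) (nat_lit 6610) (.f (nat_lit 500) (nat_lit 529) (nat_lit 1520) (.f (nat_lit 533) (nat_lit 532) (nat_lit 497) (.f (nat_lit 501) (nat_lit 534) (nat_lit 498) (.d (nat_lit 469) (nat_lit 468) (nat_lit 2513) (nat_lit 470) (nat_lit 2514))))))))) (.a (.p (nat_lit 498) (.a (.f (nat_lit 595) (nat_lit 627) (nat_lit 4594) (.f (nat_lit 563) (nat_lit 466) (nat_lit 4562) (.f (nat_lit 593) (nat_lit 625) (nat_lit 5617) (.d (nat_lit 564) (nat_lit 565) (nat_lit 1585) (nat_lit 592) (nat_lit 2608))))) (.a (.f (nat_lit 467) (nat_lit 499) (nat_lit 6610) (.f (nat_lit 466) (nat_lit 435) (nat_lit 6578) (.d (nat_lit 595) (nat_lit 563) (nat_lit 4562) (nat_lit 627) (nat_lit 4594)))) (.a (.f (nat_lit 593) (nat_lit 625) (nat_lit 5617) (.f (nat_lit 595) (nat_lit 627) (nat_lit 4594) (.f (nat_lit 592) (nat_lit 559) (nat_lit 3631) (.f (nat_lit 623) (nat_lit 624) (nat_lit 1615) (.d (nat_lit 591) (nat_lit 496) (nat_lit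 5615) (nat_lit 622) (nat_lit 1614)))))) (.f (nat_lit 497) (nat_lit 465) (nat_lit 7633) (.f (nat_lit 499) (nat_lit 467) (nat_lit 6610) (.f (nat_lit 496) (nat_lit 527) (nat_lit 1519) (.d (nat_lit 531) (nat_lit 495) (nat_lit 495) (nat_lit 532) (nat_lit 496))))))))) (.a s9267 (.a s4007 (.a s9274 (.p (nat_lit 529) (.a (.f (nat_lit 527) (nat_lit 563) (nat_lit 527) (.f (nat_lit 495) (nat_lit 494) (nat_lit 3566) (.f (nat_lit 559) (nat_lit 558) (nat_lit 1550) (.d (nat_lit 463) (nat_lit 431) (nat_lit 4527) (nat_lit 592) (nat_lit 4559))))) (.a (.f (nat_lit 531) (nat_lit 559) (nat_lit 1551) (.f (nat_lit 496) (nat_lit 495) (nat_lit 3567) (.f (nat_lit 497) (nat_lit 532) (nat_lit 3568) (.d (nat_lit 465) (nat_lit 498) (nat_lit 7633) (nat_lit 592) (nat_lit 6608))))) (.a (.f (nat_lit 559) (nat_lit 531) (nat_lit 1551) (.d (nat_lit 558) (nat_lit 527) (nat_lit 1550) (nat_lit 557) (nat_lit 2573))) (.f (nat_lit 563) (nat_lit 527) (nat_lit 527) (.d (nat_lit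 564) (nat_lit 531) (nat_lit 528) (nat_lit 565) (nat_lit 3601))))))))))))))
noncomputable def s9323 : Cert := .r (nat_lit 3773962425700235452738272624505952193199339552226928146794549392648115485167898379561026699849346401546134558067857772757880134458676407096525164659442171664912122642432) (.p (nat_lit 562) (.a s3059 (.a s7670 (.a s7671 (.a (.p (nat_lit 594) (.a s4002 (.a (.p (nat_lit 530) (.a (.p (nat_lit 498) (.a (.f (nat_lit 497) (nat_lit 465) (nat_lit 7633) (.f (nat_lit 529) (nat_lit 626) (nat_lit 7665) (.d (nat_lit 499) (nat_lit 467) (nat_lit 6610) (nat_lit 500) (nat_lit 1520)))) (.f (nat_lit 595) (nat_lit 627) (nat_lit 4594) (.f (nat_lit 563) (nat_lit 466) (nat_lit 4562) (.f (nat_lit 593) (nat_lit 625) (nat_lit 5617) (.d (nat_lit 564) (nat_lit 565) (nat_lit 1585) (nat_lit 592) (nat_lit 2608))))))) (.a (.p (nat_lit 498) (.a (.f (nat_lit 595) (nat_lit 627) (nat_lit 4594) (.f (nat_lit 563) (nat_lit 466) (nat_lit 4562) (.f (nat_lit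 593) (nat_lit 625) (nat_lit 5617) (.d (nat_lit 564) (nat_lit 565) (nat_lit 1585) (nat_lit 592) (nat_lit 2608))))) (.a (.f (nat_lit 625) (nat_lit 593) (nat_lit 5617) (.f (nat_lit 626) (nat_lit 657) (nat_lit 5649) (.d (nat_lit 499) (nat_lit 467) (nat_lit 6610) (nat_lit 531) (nat_lit 6642)))) (.f (nat_lit 467) (nat_lit 499) (nat_lit 6610) (.f (nat_lit 466) (nat_lit 435) (nat_lit 6578) (.d (nat_lit 595) (nat_lit 563) (nat_lit 4562) (nat_lit 627) (nat_lit 4594))))))) (.a (.p (nat_lit 529) (.a (.f (nat_lit 531) (nat_lit 559) (nat_lit 1551) (.d (nat_lit 499) (nat_lit 500) (nat_lit 2544) (nat_lit 626) (nat_lit 6642))) (.a (.f (nat_lit 626) (nat_lit 497) (nat_lit 7665) (.f (nat_lit 657) (nat_lit 625) (nat_lit 5649) (.f (nat_lit 658) (nat_lit 689) (nat_lit 5681) (.d (nat_lit 659) (nat_lit 627) (nat_lit 4626) (nat_lit 691) (nat_lit 4658))))) (.f (nat_lit 531) (nat_lit 559) (nat_lit 1551) (.f (nat_lit 563) (nat_lit 564) (nat_lit 528) (.d (nat_lit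 499) (nat_lit 467) (nat_lit 5586) (nat_lit 500) (nat_lit 2544))))))) (.a s9261 (.a s3705 (.a s9262 (.a (.p (nat_lit 498) (.a (.f (nat_lit 595) (nat_lit 627) (nat_lit 4594) (.f (nat_lit 563) (nat_lit 466) (nat_lit 4562) (.f (nat_lit 593) (nat_lit 625) (nat_lit 5617) (.d (nat_lit 564) (nat_lit 565) (nat_lit 1585) (nat_lit 592) (nat_lit 2608))))) (.f (nat_lit 497) (nat_lit 465) (nat_lit 7633) (.f (nat_lit 499) (nat_lit 467) (nat_lit 6610) (.f (nat_lit 500) (nat_lit 529) (nat_lit 1520) (.f (nat_lit 533) (nat_lit 532) (nat_lit 497) (.f (nat_lit 501) (nat_lit 534) (nat_lit 498) (.d (nat_lit 469) (nat_lit 468) (nat_lit 2513) (nat_lit 470) (nat_lit 2514))))))))) s9264)))))))) (.a s7207 (.a s7216 (.a (.p (nat_lit 530) (.a (.p (nat_lit 529) (.a (.f (nat_lit 531) (nat_lit 559) (nat_lit 1551) (.d (nat_lit 499) (nat_lit 500) (nat_lit 2544) (nat_lit 626) (nat_lit 6642))) (.a (.f (nat_lit 626) (nat_lit 497) (nat_lit 7665) (.f (nat_lit 657) (nat_lit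 625) (nat_lit 5649) (.f (nat_lit 658) (nat_lit 689) (nat_lit 5681) (.d (nat_lit 659) (nat_lit 627) (nat_lit 4626) (nat_lit 691) (nat_lit 4658))))) (.f (nat_lit 531) (nat_lit 559) (nat_lit 1551) (.f (nat_lit 563) (nat_lit 564) (nat_lit 528) (.d (nat_lit 499) (nat_lit 467) (nat_lit 5586) (nat_lit 500) (nat_lit 2544))))))) (.a (.p (nat_lit 498) (.a (.f (nat_lit 625) (nat_lit 593) (nat_lit 5617) (.f (nat_lit 626) (nat_lit 657) (nat_lit 5649) (.d (nat_lit 499) (nat_lit 467) (nat_lit 6610) (nat_lit 531) (nat_lit 6642)))) (.a (.f (nat_lit 467) (nat_lit 499) (nat_lit 6610) (.f (nat_lit 466) (nat_lit 435) (nat_lit 6578) (.d (nat_lit 595) (nat_lit 563) (nat_lit 4562) (nat_lit 627) (nat_lit 4594)))) (.f (nat_lit 625) (nat_lit 593) (nat_lit 5617) (.f (nat_lit 626) (nat_lit 657) (nat_lit 5649) (.d (nat_lit 627) (nat_lit 595) (nat_lit 4594) (nat_lit 659) (nat_lit 4626))))))) (.a (.p (nat_lit 498) (.a (.f (nat_lit 497) (nat_lit 465) (nat_lit 7633)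 (.f (nat_lit 529) (nat_lit 626) (nat_lit 7665) (.d (nat_lit 499) (nat_lit 467) (nat_lit 6610) (nat_lit 500) (nat_lit 1520)))) (.a (.f (nat_lit 467) (nat_lit 499) (nat_lit 6610) (.f (nat_lit 466) (nat_lit 435) (nat_lit 6578) (.d (nat_lit 595) (nat_lit 563) (nat_lit 4562) (nat_lit 627) (nat_lit 4594)))) (.f (nat_lit 497) (nat_lit 465) (nat_lit 7633) (.f (nat_lit 626) (nat_lit 529) (nat_lit 7665) (.d (nat_lit 625) (nat_lit 593) (nat_lit 5617) (nat_lit 657) (nat_lit 5649))))))) (.a (.p (nat_lit 498) (.a (.f (nat_lit 499) (nat_lit 467) (nat_lit 6610) (.f (nat_lit 529) (nat_lit 527) (nat_lit 2543) (.d (nat_lit 500) (nat_lit 501) (nat_lit 1521) (nat_lit 531) (nat_lit 2544)))) (.a (.f (nat_lit 625) (nat_lit 593) (nat_lit 5617) (.f (nat_lit 626) (nat_lit 657) (nat_lit 5649) (.d (nat_lit 499) (nat_lit 467) (nat_lit 6610) (nat_lit 531) (nat_lit 6642)))) (.f (nat_lit 625) (nat_lit 593) (nat_lit 5617) (.f (nat_lit 626) (nat_lit 657) (nat_lit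 5649) (.d (nat_lit 627) (nat_lit 595) (nat_lit 4594) (nat_lit 659) (nat_lit 4626))))))) (.a (.p (nat_lit 529) (.a (.f (nat_lit 626) (nat_lit 497) (nat_lit 7665) (.f (nat_lit 657) (nat_lit 625) (nat_lit 5649) (.f (nat_lit 658) (nat_lit 689) (nat_lit 5681) (.d (nat_lit 659) (nat_lit 627) (nat_lit 4626) (nat_lit 691) (nat_lit 4658))))) (.f (nat_lit 563) (nat_lit 527) (nat_lit 527) (.d (nat_lit 564) (nat_lit 531) (nat_lit 528) (nat_lit 565) (nat_lit 3601))))) (.a s3973 (.a s9267 s8019)))))))) (.a s7221 (.a (.p (nat_lit 530) (.a (.p (nat_lit 529) (.a (.f (nat_lit 531) (nat_lit 559) (nat_lit 1551) (.d (nat_lit 499) (nat_lit 500) (nat_lit 2544) (nat_lit 626) (nat_lit 6642))) (.a (.f (nat_lit 626) (nat_lit 497) (nat_lit 7665) (.f (nat_lit 657) (nat_lit 625) (nat_lit 5649) (.f (nat_lit 658) (nat_lit 689) (nat_lit 5681) (.d (nat_lit 659) (nat_lit 627) (nat_lit 4626) (nat_lit 691) (nat_lit 4658))))) (.f (nat_lit 531) (nat_lit 559) (nat_lit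 1551) (.f (nat_lit 563) (nat_lit 564) (nat_lit 528) (.d (nat_lit 499) (nat_lit 467) (nat_lit 5586) (nat_lit 500) (nat_lit 2544))))))) (.a (.p (nat_lit 626) (.a (.f (nat_lit 531) (nat_lit 499) (nat_lit 6642) (.f (nat_lit 658) (nat_lit 563) (nat_lit 6674) (.d (nat_lit 657) (nat_lit 625) (nat_lit 5649) (nat_lit 689) (nat_lit 5681)))) (.a (.f (nat_lit 657) (nat_lit 625) (nat_lit 5649) (.f (nat_lit 658) (nat_lit 689) (nat_lit 5681) (.d (nat_lit 659) (nat_lit 627) (nat_lit 4626) (nat_lit 691) (nat_lit 4658)))) (.a (.f (nat_lit 531) (nat_lit 499) (nat_lit 6642) (.f (nat_lit 658) (nat_lit 563) (nat_lit 6674) (.d (nat_lit 659) (nat_lit 627) (nat_lit 4626) (nat_lit 691) (nat_lit 4658)))) (.f (nat_lit 499) (nat_lit 531) (nat_lit 6642) (.f (nat_lit 498) (nat_lit 467) (nat_lit 6610) (.d (nat_lit 627) (nat_lit 595) (nat_lit 4594) (nat_lit 659) (nat_lit 4626)))))))) (.a (.p (nat_lit 529) (.a (.f (nat_lit 626) (nat_lit 497) (nat_lit 7665) (.f (nat_lit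 657) (nat_lit 625) (nat_lit 5649) (.f (nat_lit 658) (nat_lit 689) (nat_lit 5681) (.d (nat_lit 659) (nat_lit 627) (nat_lit 4626) (nat_lit 691) (nat_lit 4658))))) (.f (nat_lit 527) (nat_lit 563) (nat_lit 527) (.f (nat_lit 495) (nat_lit 494) (nat_lit 3566) (.f (nat_lit 559) (nat_lit 558) (nat_lit 1550) (.d (nat_lit 463) (nat_lit 431) (nat_lit 4527) (nat_lit 592) (nat_lit 4559))))))) (.a (.p (nat_lit 529) (.a (.f (nat_lit 531) (nat_lit 559) (nat_lit 1551) (.d (nat_lit 499) (nat_lit 500) (nat_lit 2544) (nat_lit 626) (nat_lit 6642))) (.a (.f (nat_lit 626) (nat_lit 497) (nat_lit 7665) (.f (nat_lit 657) (nat_lit 625) (nat_lit 5649) (.f (nat_lit 658) (nat_lit 689) (nat_lit 5681) (.d (nat_lit 659) (nat_lit 627) (nat_lit 4626) (nat_lit 691) (nat_lit 4658))))) (.f (nat_lit 559) (nat_lit 531) (nat_lit 1551) (.d (nat_lit 558) (nat_lit 527) (nat_lit 1550) (nat_lit 557) (nat_lit 2573)))))) (.a s3973 s4007)))))) (.a (.p (nat_lit 530) (.a (.p (nat_lit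 498) (.a (.f (nat_lit 499) (nat_lit 467) (nat_lit 6610) (.f (nat_lit 529) (nat_lit 527) (nat_lit 2543) (.d (nat_lit 500) (nat_lit 501) (nat_lit 1521) (nat_lit 531) (nat_lit 2544)))) (.a (.f (nat_lit 625) (nat_lit 593) (nat_lit 5617) (.f (nat_lit 626) (nat_lit 657) (nat_lit 5649) (.d (nat_lit 499) (nat_lit 467) (nat_lit 6610) (nat_lit 531) (nat_lit 6642)))) (.f (nat_lit 625) (nat_lit 593) (nat_lit 5617) (.f (nat_lit 626) (nat_lit 657) (nat_lit 5649) (.d (nat_lit 627) (nat_lit 595) (nat_lit 4594) (nat_lit 659) (nat_lit 4626))))))) (.a s9261 (.a (.p (nat_lit 498) (.a (.f (nat_lit 625) (nat_lit 593) (nat_lit 5617) (.f (nat_lit 626) (nat_lit 657) (nat_lit 5649) (.d (nat_lit 499) (nat_lit 467) (nat_lit 6610) (nat_lit 531) (nat_lit 6642)))) (.a (.f (nat_lit 625) (nat_lit 593) (nat_lit 5617) (.f (nat_lit 626) (nat_lit 657) (nat_lit 5649) (.d (nat_lit 627) (nat_lit 595) (nat_lit 4594) (nat_lit 659) (nat_lit 4626)))) (.a (.f (nat_lit 499)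 (nat_lit 467) (nat_lit 6610) (.f (nat_lit 626) (nat_lit 531) (nat_lit 6642) (.d (nat_lit 627) (nat_lit 595) (nat_lit 4594) (nat_lit 659) (nat_lit 4626)))) (.f (nat_lit 593) (nat_lit 625) (nat_lit 5617) (.f (nat_lit 595) (nat_lit 627) (nat_lit 4594) (.f (nat_lit 592) (nat_lit 559) (nat_lit 3631) (.f (nat_lit 623) (nat_lit 624) (nat_lit 1615) (.d (nat_lit 591) (nat_lit 496) (nat_lit 5615) (nat_lit 622) (nat_lit 1614)))))))))) (.a (.p (nat_lit 498) (.a (.f (nat_lit 497) (nat_lit 465) (nat_lit 7633) (.f (nat_lit 529) (nat_lit 626) (nat_lit 7665) (.d (nat_lit 499) (nat_lit 467) (nat_lit 6610) (nat_lit 500) (nat_lit 1520)))) (.a (.f (nat_lit 625) (nat_lit 593) (nat_lit 5617) (.f (nat_lit 626) (nat_lit 657) (nat_lit 5649) (.d (nat_lit 627) (nat_lit 595) (nat_lit 4594) (nat_lit 659) (nat_lit 4626)))) (.f (nat_lit 497) (nat_lit 465) (nat_lit 7633) (.f (nat_lit 499) (nat_lit 467) (nat_lit 6610) (.f (nat_lit 500) (nat_lit 529) (nat_lit 1520)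 (.f (nat_lit 533) (nat_lit 532) (nat_lit 497) (.f (nat_lit 501) (nat_lit 534) (nat_lit 498) (.d (nat_lit 469) (nat_lit 468) (nat_lit 2513) (nat_lit 470) (nat_lit 2514)))))))))) (.a (.p (nat_lit 529) (.a (.f (nat_lit 531) (nat_lit 559) (nat_lit 1551) (.d (nat_lit 499) (nat_lit 500) (nat_lit 2544) (nat_lit 626) (nat_lit 6642))) (.a (.f (nat_lit 626) (nat_lit 497) (nat_lit 7665) (.f (nat_lit 657) (nat_lit 625) (nat_lit 5649) (.f (nat_lit 658) (nat_lit 689) (nat_lit 5681) (.d (nat_lit 659) (nat_lit 627) (nat_lit 4626) (nat_lit 691) (nat_lit 4658))))) (.f (nat_lit 559) (nat_lit 531) (nat_lit 1551) (.d (nat_lit 558) (nat_lit 527) (nat_lit 1550) (nat_lit 557) (nat_lit 2573)))))) (.a s3981 (.a s9273 (.a s9274 s9264))))))))) (.a s8020 (.a (.p (nat_lit 530) (.a s3973 (.a s9262 (.a (.p (nat_lit 626) (.a (.f (nat_lit 531) (nat_lit 499) (nat_lit 6642) (.f (nat_lit 658) (nat_lit 563) (nat_lit 6674) (.d (nat_lit 659) (nat_lit 627) (nat_lit 4626)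 (nat_lit 691) (nat_lit 4658)))) (.a (.f (nat_lit 627) (nat_lit 659) (nat_lit 4626) (.f (nat_lit 498) (nat_lit 595) (nat_lit 4594) (.f (nat_lit 497) (nat_lit 465) (nat_lit 7633) (.f (nat_lit 499) (nat_lit 467) (nat_lit 6610) (.f (nat_lit 496) (nat_lit 527) (nat_lit 1519) (.f (nat_lit 463) (nat_lit 464) (nat_lit 3535) (.d (nat_lit 495) (nat_lit 462) (nat_lit 3534) (nat_lit 592) (nat_lit 7631)))))))) (.a (.f (nat_lit 659) (nat_lit 627) (nat_lit 4626) (.f (nat_lit 658) (nat_lit 691) (nat_lit 4658) (.f (nat_lit 563) (nat_lit 531) (nat_lit 6674) (.f (nat_lit 689) (nat_lit 657) (nat_lit 5681) (.d (nat_lit 690) (nat_lit 595) (nat_lit 6706) (nat_lit 721) (nat_lit 5713)))))) (.f (nat_lit 499) (nat_lit 531) (nat_lit 6642) (.f (nat_lit 498) (nat_lit 467) (nat_lit 6610) (.f (nat_lit 497) (nat_lit 465) (nat_lit 7633) (.f (nat_lit 496) (nat_lit 527) (nat_lit 1519) (.f (nat_lit 463) (nat_lit 464) (nat_lit 3535) (.d (nat_lit 495) (nat_lit 462) (nat_lit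 3534) (nat_lit 592) (nat_lit 7631))))))))))) (.a (.p (nat_lit 498) (.a (.f (nat_lit 497) (nat_lit 465) (nat_lit 7633) (.f (nat_lit 529) (nat_lit 626) (nat_lit 7665) (.d (nat_lit 499) (nat_lit 467) (nat_lit 6610) (nat_lit 500) (nat_lit 1520)))) (.a (.f (nat_lit 467) (nat_lit 499) (nat_lit 6610) (.f (nat_lit 466) (nat_lit 435) (nat_lit 6578) (.d (nat_lit 595) (nat_lit 563) (nat_lit 4562) (nat_lit 627) (nat_lit 4594)))) (.f (nat_lit 497) (nat_lit 465) (nat_lit 7633) (.f (nat_lit 626) (nat_lit 529) (nat_lit 7665) (.d (nat_lit 627) (nat_lit 595) (nat_lit 4594) (nat_lit 659) (nat_lit 4626))))))) (.a (.p (nat_lit 529) (.a (.f (nat_lit 531) (nat_lit 559) (nat_lit 1551) (.d (nat_lit 499) (nat_lit 500) (nat_lit 2544) (nat_lit 626) (nat_lit 6642))) (.a (.f (nat_lit 527) (nat_lit 563) (nat_lit 527) (.f (nat_lit 495) (nat_lit 494) (nat_lit 3566) (.f (nat_lit 559) (nat_lit 558) (nat_lit 1550) (.d (nat_lit 463) (nat_lit 431) (nat_lit 4527) (nat_lit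 592) (nat_lit 4559))))) (.f (nat_lit 563) (nat_lit 527) (nat_lit 527) (.d (nat_lit 564) (nat_lit 531) (nat_lit 528) (nat_lit 565) (nat_lit 3601)))))) (.a s9273 (.a s9294 s4007)))))))) (.a s9302 (.a (.p (nat_lit 530) (.a (.p (nat_lit 529) (.a (.f (nat_lit 531) (nat_lit 559) (nat_lit 1551) (.d (nat_lit 499) (nat_lit 500) (nat_lit 2544) (nat_lit 626) (nat_lit 6642))) (.a (.f (nat_lit 626) (nat_lit 497) (nat_lit 7665) (.f (nat_lit 657) (nat_lit 625) (nat_lit 5649) (.f (nat_lit 658) (nat_lit 689) (nat_lit 5681) (.d (nat_lit 659) (nat_lit 627) (nat_lit 4626) (nat_lit 691) (nat_lit 4658))))) (.f (nat_lit 531) (nat_lit 559) (nat_lit 1551) (.f (nat_lit 563) (nat_lit 564) (nat_lit 528) (.d (nat_lit 499) (nat_lit 467) (nat_lit 5586) (nat_lit 500) (nat_lit 2544))))))) (.a s3908 (.a (.p (nat_lit 529) (.a (.f (nat_lit 626) (nat_lit 497) (nat_lit 7665) (.f (nat_lit 657) (nat_lit 625) (nat_lit 5649) (.f (nat_lit 658) (nat_lit 689) (nat_lit 5681)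 (.d (nat_lit 659) (nat_lit 627) (nat_lit 4626) (nat_lit 691) (nat_lit 4658))))) (.f (nat_lit 527) (nat_lit 563) (nat_lit 527) (.f (nat_lit 495) (nat_lit 494) (nat_lit 3566) (.f (nat_lit 559) (nat_lit 558) (nat_lit 1550) (.d (nat_lit 463) (nat_lit 431) (nat_lit 4527) (nat_lit 592) (nat_lit 4559))))))) (.a (.p (nat_lit 529) (.a (.f (nat_lit 531) (nat_lit 559) (nat_lit 1551) (.d (nat_lit 499) (nat_lit 500) (nat_lit 2544) (nat_lit 626) (nat_lit 6642))) (.a (.f (nat_lit 626) (nat_lit 497) (nat_lit 7665) (.f (nat_lit 657) (nat_lit 625) (nat_lit 5649) (.f (nat_lit 658) (nat_lit 689) (nat_lit 5681) (.d (nat_lit 659) (nat_lit 627) (nat_lit 4626) (nat_lit 691) (nat_lit 4658))))) (.f (nat_lit 559) (nat_lit 531) (nat_lit 1551) (.d (nat_lit 558) (nat_lit 527) (nat_lit 1550) (nat_lit 557) (nat_lit 2573)))))) (.a (.p (nat_lit 529) (.a (.f (nat_lit 531) (nat_lit 559) (nat_lit 1551) (.d (nat_lit 499) (nat_lit 500) (nat_lit 2544) (nat_lit 626) (nat_lit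 6642))) (.a (.f (nat_lit 527) (nat_lit 563) (nat_lit 527) (.f (nat_lit 495) (nat_lit 494) (nat_lit 3566) (.f (nat_lit 559) (nat_lit 558) (nat_lit 1550) (.d (nat_lit 463) (nat_lit 431) (nat_lit 4527) (nat_lit 592) (nat_lit 4559))))) (.f (nat_lit 563) (nat_lit 527) (nat_lit 527) (.d (nat_lit 564) (nat_lit 531) (nat_lit 528) (nat_lit 565) (nat_lit 3601)))))) s4007)))))) (.p (nat_lit 530) (.a (.p (nat_lit 529) (.a (.f (nat_lit 531) (nat_lit 559) (nat_lit 1551) (.d (nat_lit 499) (nat_lit 500) (nat_lit 2544) (nat_lit 626) (nat_lit 6642))) (.a (.f (nat_lit 527) (nat_lit 563) (nat_lit 527) (.f (nat_lit 495) (nat_lit 494) (nat_lit 3566) (.f (nat_lit 559) (nat_lit 558) (nat_lit 1550) (.d (nat_lit 463) (nat_lit 431) (nat_lit 4527) (nat_lit 592) (nat_lit 4559))))) (.f (nat_lit 563) (nat_lit 527) (nat_lit 527) (.d (nat_lit 564) (nat_lit 531) (nat_lit 528) (nat_lit 565) (nat_lit 3601)))))) (.a s9264 (.a (.p (nat_lit 626) (.a (.f (nat_lit 531)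 (nat_lit 499) (nat_lit 6642) (.f (nat_lit 658) (nat_lit 563) (nat_lit 6674) (.d (nat_lit 657) (nat_lit 625) (nat_lit 5649) (nat_lit 689) (nat_lit 5681)))) (.a (.f (nat_lit 625) (nat_lit 657) (nat_lit 5649) (.f (nat_lit 593) (nat_lit 498) (nat_lit 5617) (.f (nat_lit 592) (nat_lit 496) (nat_lit 4592) (.d (nat_lit 591) (nat_lit 563) (nat_lit 2607) (nat_lit 590) (nat_lit 590))))) (.a (.f (nat_lit 625) (nat_lit 657) (nat_lit 5649) (.f (nat_lit 498) (nat_lit 593) (nat_lit 5617) (.d (nat_lit 499) (nat_lit 467) (nat_lit 6610) (nat_lit 531) (nat_lit 6642)))) (.f (nat_lit 499) (nat_lit 531) (nat_lit 6642) (.f (nat_lit 498) (nat_lit 467) (nat_lit 6610) (.f (nat_lit 497) (nat_lit 465) (nat_lit 7633) (.f (nat_lit 496) (nat_lit 527) (nat_lit 1519) (.f (nat_lit 463) (nat_lit 464) (nat_lit 3535) (.d (nat_lit 495) (nat_lit 462) (nat_lit 3534) (nat_lit 592) (nat_lit 7631))))))))))) (.a (.p (nat_lit 498) (.a (.f (nat_lit 497) (nat_lit 465) (nat_lit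 7633) (.f (nat_lit 529) (nat_lit 626) (nat_lit 7665) (.d (nat_lit 499) (nat_lit 467) (nat_lit 6610) (nat_lit 500) (nat_lit 1520)))) (.a (.f (nat_lit 625) (nat_lit 593) (nat_lit 5617) (.f (nat_lit 626) (nat_lit 657) (nat_lit 5649) (.f (nat_lit 467) (nat_lit 499) (nat_lit 6610) (.f (nat_lit 466) (nat_lit 435) (nat_lit 6578) (.f (nat_lit 497) (nat_lit 465) (nat_lit 7633) (.f (nat_lit 595) (nat_lit 563) (nat_lit 4562) (.f (nat_lit 623) (nat_lit 624) (nat_lit 2639) (.f (nat_lit 496) (nat_lit 495) (nat_lit 2511) (.f (nat_lit 591) (nat_lit 592) (nat_lit 5615) (.d (nat_lit 559) (nat_lit 464) (nat_lit 5583) (nat_lit 527) (nat_lit 6639))))))))))) (.a (.f (nat_lit 467) (nat_lit 499) (nat_lit 6610) (.f (nat_lit 466) (nat_lit 435) (nat_lit 6578) (.f (nat_lit 563) (nat_lit 595) (nat_lit 4562) (.f (nat_lit 593) (nat_lit 625) (nat_lit 5617) (.f (nat_lit 592) (nat_lit 591) (nat_lit 2607) (.f (nat_lit 527) (nat_lit 529) (nat_lit 527) (.f (nat_lit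 624) (nat_lit 495) (nat_lit 7663) (.f (nat_lit 656) (nat_lit 559) (nat_lit 7695) (.d (nat_lit 655) (nat_lit 623) (nat_lit 5647) (nat_lit 687) (nat_lit 5679)))))))))) (.f (nat_lit 497) (nat_lit 465) (nat_lit 7633) (.f (nat_lit 626) (nat_lit 529) (nat_lit 7665) (.d (nat_lit 625) (nat_lit 593) (nat_lit 5617) (nat_lit 657) (nat_lit 5649)))))))) (.a s9294 s4007))))))))))))))))))) (.a s7244 (.a s3327 (.a s7310 (.a s7917 (.a (.p (nat_lit 496) (.a (.p (nat_lit 592) (.a (.f (nat_lit 591) (nat_lit 623) (nat_lit 5615) (.f (nat_lit 593) (nat_lit 625) (nat_lit 4592) (.f (nat_lit 559) (nat_lit 464) (nat_lit 5583) (.d (nat_lit 558) (nat_lit 557) (nat_lit 557) (nat_lit 594) (nat_lit 3630))))) (.f (nat_lit 497) (nat_lit 465) (nat_lit 6608) (.f (nat_lit 495) (nat_lit 463) (nat_lit 7631) (.f (nat_lit 529) (nat_lit 624) (nat_lit 6640) (.d (nat_lit 494) (nat_lit 493) (nat_lit 493) (nat_lit 530) (nat_lit 494))))))) (.a (.p (nat_lit 592) (.a (.f (nat_lit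 591) (nat_lit 623) (nat_lit 5615) (.f (nat_lit 593) (nat_lit 625) (nat_lit 4592) (.f (nat_lit 559) (nat_lit 464) (nat_lit 5583) (.d (nat_lit 558) (nat_lit 557) (nat_lit 557) (nat_lit 594) (nat_lit 3630))))) (.a (.f (nat_lit 495) (nat_lit 463) (nat_lit 7631) (.f (nat_lit 624) (nat_lit 527) (nat_lit 7663) (.d (nat_lit 623) (nat_lit 591) (nat_lit 5615) (nat_lit 655) (nat_lit 5647)))) (.f (nat_lit 495) (nat_lit 463) (nat_lit 7631) (.f (nat_lit 624) (nat_lit 527) (nat_lit 7663) (.d (nat_lit 625) (nat_lit 593) (nat_lit 4592) (nat_lit 657) (nat_lit 4624))))))) (.a (.p (nat_lit 464) (.a (.f (nat_lit 561) (nat_lit 593) (nat_lit 4560) (.f (nat_lit 529) (nat_lit 432) (nat_lit 4528) (.f (nat_lit 559) (nat_lit 591) (nat_lit 5583) (.d (nat_lit 530) (nat_lit 531) (nat_lit 2575) (nat_lit 558) (nat_lit 2574))))) (.a (.f (nat_lit 559) (nat_lit 591) (nat_lit 5583) (.f (nat_lit 432) (nat_lit 527) (nat_lit 5551) (.d (nat_lit 431) (nat_lit 399) (nat_lit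 7567) (nat_lit 463) (nat_lit 7599)))) (.a (.f (nat_lit 431) (nat_lit 463) (nat_lit 7599) (.f (nat_lit 432) (nat_lit 399) (nat_lit 7567) (.d (nat_lit 561) (nat_lit 529) (nat_lit 4528) (nat_lit 593) (nat_lit 4560)))) (.f (nat_lit 559) (nat_lit 591) (nat_lit 5583) (.f (nat_lit 561) (nat_lit 593) (nat_lit 4560) (.f (nat_lit 530) (nat_lit 531) (nat_lit 2575) (.f (nat_lit 529) (nat_lit 558) (nat_lit 2574) (.f (nat_lit 594) (nat_lit 595) (nat_lit 559) (.d (nat_lit 626) (nat_lit 497) (nat_lit 7665) (nat_lit 658) (nat_lit 7697))))))))))) (.a s3357 (.a s7948 (.a s7959 s3360))))))) (.a s7332 (.a s8112 (.a s8127 (.a s8133 s7476))))))))))))))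
noncomputable def s9325 : Cert := .r (nat_lit 64836180782635327105257550133865756107099233344784774323566786510389197141567267213334914537603630284999823986032247621314213099342709661479114454765656505907541824002709199519744) (.p (nat_lit 498) (.a (.f (nat_lit 467) (nat_lit 499) (nat_lit 6610) (.f (nat_lit 466) (nat_lit 435) (nat_lit 6578) (.d (nat_lit 465) (nat_lit 433) (nat_lit 7601) (nat_lit 497) (nat_lit 7633)))) (.a (.f (nat_lit 467) (nat_lit 499) (nat_lit 6610) (.f (nat_lit 466) (nat_lit 435) (nat_lit 6578) (.d (nat_lit 595) (nat_lit 563) (nat_lit 4562) (nat_lit 627) (nat_lit 4594)))) (.a (.f (nat_lit 595) (nat_lit 627) (nat_lit 4594) (.f (nat_lit 466) (nat_lit 563) (nat_lit 4562) (.d (nat_lit 465) (nat_lit 433) (nat_lit 7601) (nat_lit 497) (nat_lit 7633)))) (.f (nat_lit 497) (nat_lit 465) (nat_lit 7633) (.f (nat_lit 499) (nat_lit 467) (nat_lit 6610) (.f (nat_lit 500) (nat_lit 529) (nat_lit 1520) (.f (nat_lit 533) (nat_lit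 532) (nat_lit 497) (.f (nat_lit 501) (nat_lit 534) (nat_lit 498) (.d (nat_lit 469) (nat_lit 468) (nat_lit 2513) (nat_lit 470) (nat_lit 2514)))))))))))
noncomputable def s9338 : Cert := .r (nat_lit 18869812124986400861704490948459027756867024433892689860299374593630612134736493787905533600559981471712008058190913152356962472978375577626770901665172955839509703950336) (.p (nat_lit 530) (.a s7114 (.a (.p (nat_lit 594) (.a s3695 (.a (.p (nat_lit 498) (.a (.f (nat_lit 467) (nat_lit 499) (nat_lit 6610) (.f (nat_lit 466) (nat_lit 435) (nat_lit 6578) (.d (nat_lit 465) (nat_lit 433) (nat_lit 7601) (nat_lit 497) (nat_lit 7633)))) (.a (.f (nat_lit 625) (nat_lit 593) (nat_lit 5617) (.f (nat_lit 626) (nat_lit 657) (nat_lit 5649) (.d (nat_lit 499) (nat_lit 467) (nat_lit 6610) (nat_lit 531) (nat_lit 6642)))) (.f (nat_lit 595) (nat_lit 627) (nat_lit 4594) (.f (nat_lit 466) (nat_lit 563) (nat_lit 4562) (.d (nat_lit 465) (nat_lit 433) (nat_lit 7601)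 (nat_lit 497) (nat_lit 7633))))))) (.a (.p (nat_lit 498) (.a (.f (nat_lit 625) (nat_lit 593) (nat_lit 5617) (.f (nat_lit 626) (nat_lit 657) (nat_lit 5649) (.d (nat_lit 499) (nat_lit 467) (nat_lit 6610) (nat_lit 531) (nat_lit 6642)))) (.a (.f (nat_lit 467) (nat_lit 499) (nat_lit 6610) (.f (nat_lit 466) (nat_lit 435) (nat_lit 6578) (.d (nat_lit 595) (nat_lit 563) (nat_lit 4562) (nat_lit 627) (nat_lit 4594)))) (.f (nat_lit 625) (nat_lit 593) (nat_lit 5617) (.f (nat_lit 626) (nat_lit 657) (nat_lit 5649) (.d (nat_lit 627) (nat_lit 595) (nat_lit 4594) (nat_lit 659) (nat_lit 4626))))))) (.a s3488 (.a (.p (nat_lit 529) (.a (.f (nat_lit 531) (nat_lit 559) (nat_lit 1551) (.d (nat_lit 499) (nat_lit 500) (nat_lit 2544) (nat_lit 626) (nat_lit 6642))) (.a (.f (nat_lit 626) (nat_lit 497) (nat_lit 7665) (.f (nat_lit 657) (nat_lit 625) (nat_lit 5649) (.f (nat_lit 658) (nat_lit 689) (nat_lit 5681) (.d (nat_lit 659) (nat_lit 627) (nat_lit 4626) (nat_lit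 691) (nat_lit 4658))))) (.f (nat_lit 531) (nat_lit 559) (nat_lit 1551) (.f (nat_lit 563) (nat_lit 564) (nat_lit 528) (.d (nat_lit 499) (nat_lit 467) (nat_lit 5586) (nat_lit 500) (nat_lit 2544))))))) (.a (.p (nat_lit 498) (.a (.f (nat_lit 497) (nat_lit 465) (nat_lit 7633) (.f (nat_lit 626) (nat_lit 529) (nat_lit 7665) (.d (nat_lit 625) (nat_lit 593) (nat_lit 5617) (nat_lit 657) (nat_lit 5649)))) (.a (.f (nat_lit 595) (nat_lit 627) (nat_lit 4594) (.f (nat_lit 466) (nat_lit 563) (nat_lit 4562) (.d (nat_lit 465) (nat_lit 433) (nat_lit 7601) (nat_lit 497) (nat_lit 7633)))) (.f (nat_lit 625) (nat_lit 593) (nat_lit 5617) (.f (nat_lit 626) (nat_lit 657) (nat_lit 5649) (.d (nat_lit 627) (nat_lit 595) (nat_lit 4594) (nat_lit 659) (nat_lit 4626))))))) (.a s3706 s9325)))))))) (.a (.p (nat_lit 594) (.a (.p (nat_lit 626) (.a (.f (nat_lit 531) (nat_lit 499) (nat_lit 6642) (.f (nat_lit 561) (nat_lit 559) (nat_lit 2575) (.d (nat_lit 532) (nat_lit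 533) (nat_lit 1553) (nat_lit 563) (nat_lit 2576)))) (.a (.f (nat_lit 531) (nat_lit 499) (nat_lit 6642) (.f (nat_lit 658) (nat_lit 563) (nat_lit 6674) (.d (nat_lit 657) (nat_lit 625) (nat_lit 5649) (nat_lit 689) (nat_lit 5681)))) (.f (nat_lit 657) (nat_lit 625) (nat_lit 5649) (.f (nat_lit 658) (nat_lit 689) (nat_lit 5681) (.d (nat_lit 659) (nat_lit 627) (nat_lit 4626) (nat_lit 691) (nat_lit 4658))))))) (.a (.p (nat_lit 498) (.a (.f (nat_lit 467) (nat_lit 499) (nat_lit 6610) (.f (nat_lit 466) (nat_lit 435) (nat_lit 6578) (.d (nat_lit 465) (nat_lit 433) (nat_lit 7601) (nat_lit 497) (nat_lit 7633)))) (.a (.f (nat_lit 625) (nat_lit 593) (nat_lit 5617) (.f (nat_lit 626) (nat_lit 657) (nat_lit 5649) (.d (nat_lit 499) (nat_lit 467) (nat_lit 6610) (nat_lit 531) (nat_lit 6642)))) (.f (nat_lit 595) (nat_lit 627) (nat_lit 4594) (.f (nat_lit 466) (nat_lit 563) (nat_lit 4562) (.d (nat_lit 465) (nat_lit 433) (nat_lit 7601) (nat_lit 497) (nat_lit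 7633))))))) (.a (.p (nat_lit 498) (.a (.f (nat_lit 595) (nat_lit 627) (nat_lit 4594) (.f (nat_lit 561) (nat_lit 559) (nat_lit 559) (.d (nat_lit 466) (nat_lit 563) (nat_lit 4562) (nat_lit 593) (nat_lit 5585)))) (.a (.f (nat_lit 467) (nat_lit 499) (nat_lit 6610) (.f (nat_lit 466) (nat_lit 435) (nat_lit 6578) (.d (nat_lit 465) (nat_lit 433) (nat_lit 7601) (nat_lit 497) (nat_lit 7633)))) (.f (nat_lit 595) (nat_lit 627) (nat_lit 4594) (.f (nat_lit 561) (nat_lit 559) (nat_lit 559) (.d (nat_lit 593) (nat_lit 596) (nat_lit 3632) (nat_lit 625) (nat_lit 5617))))))) (.a (.p (nat_lit 498) (.a (.f (nat_lit 467) (nat_lit 499) (nat_lit 6610) (.f (nat_lit 466) (nat_lit 435) (nat_lit 6578) (.d (nat_lit 465) (nat_lit 433) (nat_lit 7601) (nat_lit 497) (nat_lit 7633)))) (.a (.f (nat_lit 625) (nat_lit 593) (nat_lit 5617) (.f (nat_lit 626) (nat_lit 657) (nat_lit 5649) (.d (nat_lit 499) (nat_lit 467) (nat_lit 6610) (nat_lit 531) (nat_lit 6642)))) (.f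 (nat_lit 625) (nat_lit 593) (nat_lit 5617) (.f (nat_lit 626) (nat_lit 657) (nat_lit 5649) (.d (nat_lit 627) (nat_lit 595) (nat_lit 4594) (nat_lit 659) (nat_lit 4626))))))) (.a (.p (nat_lit 595) (.a (.f (nat_lit 561) (nat_lit 559) (nat_lit 559) (.d (nat_lit 596) (nat_lit 593) (nat_lit 3632) (nat_lit 597) (nat_lit 3633))) (.f (nat_lit 627) (nat_lit 498) (nat_lit 4594) (.d (nat_lit 659) (nat_lit 626) (nat_lit 4626) (nat_lit 691) (nat_lit 7730))))) s3460)))))) (.a s7175 (.a (.p (nat_lit 498) (.a (.p (nat_lit 594) (.a (.f (nat_lit 595) (nat_lit 627) (nat_lit 4594) (.f (nat_lit 561) (nat_lit 559) (nat_lit 559) (.d (nat_lit 466) (nat_lit 563) (nat_lit 4562) (nat_lit 593) (nat_lit 5585)))) (.f (nat_lit 497) (nat_lit 465) (nat_lit 7633) (.f (nat_lit 529) (nat_lit 626) (nat_lit 7665) (.d (nat_lit 499) (nat_lit 467) (nat_lit 6610) (nat_lit 500) (nat_lit 1520)))))) (.a s5236 (.a (.p (nat_lit 594) (.a (.f (nat_lit 595) (nat_lit 627) (nat_lit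 4594) (.f (nat_lit 561) (nat_lit 559) (nat_lit 559) (.d (nat_lit 563) (nat_lit 466) (nat_lit 4562) (nat_lit 596) (nat_lit 560)))) (.a (.f (nat_lit 467) (nat_lit 499) (nat_lit 6610) (.f (nat_lit 466) (nat_lit 435) (nat_lit 6578) (.d (nat_lit 465) (nat_lit 433) (nat_lit 7601) (nat_lit 497) (nat_lit 7633)))) (.f (nat_lit 595) (nat_lit 627) (nat_lit 4594) (.f (nat_lit 561) (nat_lit 559) (nat_lit 559) (.d (nat_lit 596) (nat_lit 563) (nat_lit 560) (nat_lit 597) (nat_lit 3633))))))) (.a s5459 (.a (.p (nat_lit 594) (.a (.f (nat_lit 497) (nat_lit 465) (nat_lit 7633) (.f (nat_lit 529) (nat_lit 626) (nat_lit 7665) (.d (nat_lit 499) (nat_lit 467) (nat_lit 6610) (nat_lit 500) (nat_lit 1520)))) (.f (nat_lit 595) (nat_lit 627) (nat_lit 4594) (.f (nat_lit 561) (nat_lit 559) (nat_lit 559) (.d (nat_lit 593) (nat_lit 596) (nat_lit 3632) (nat_lit 625) (nat_lit 5617)))))) (.a s5608 (.a s5373 (.p (nat_lit 594) (.a (.f (nat_lit 595) (nat_lit 627) (nat_lit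 4594) (.f (nat_lit 561) (nat_lit 559) (nat_lit 559) (.d (nat_lit 593) (nat_lit 596) (nat_lit 3632) (nat_lit 625) (nat_lit 5617)))) (.a (.f (nat_lit 497) (nat_lit 465) (nat_lit 7633) (.f (nat_lit 626) (nat_lit 529) (nat_lit 7665) (.d (nat_lit 625) (nat_lit 593) (nat_lit 5617) (nat_lit 657) (nat_lit 5649)))) (.f (nat_lit 595) (nat_lit 627) (nat_lit 4594) (.f (nat_lit 561) (nat_lit 559) (nat_lit 559) (.d (nat_lit 596) (nat_lit 563) (nat_lit 560) (nat_lit 597) (nat_lit 3633))))))))))))))) (.a (.p (nat_lit 531) (.a (.d (nat_lit 559) (nat_lit 529) (nat_lit 1551) (nat_lit 561) (nat_lit 2575)) (.a (.f (nat_lit 529) (nat_lit 559) (nat_lit 1551) (.f (nat_lit 499) (nat_lit 500) (nat_lit 2544) (.f (nat_lit 563) (nat_lit 564) (nat_lit 528) (.d (nat_lit 467) (nat_lit 435) (nat_lit 5554) (nat_lit 594) (nat_lit 5586))))) (.a (.f (nat_lit 561) (nat_lit 559) (nat_lit 2575) (.d (nat_lit 532) (nat_lit 533) (nat_lit 1553) (nat_lit 563) (nat_lit 2576)))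 (.p (nat_lit 529) (.a (.f (nat_lit 532) (nat_lit 561) (nat_lit 1552) (.d (nat_lit 500) (nat_lit 499) (nat_lit 2544) (nat_lit 501) (nat_lit 2545))) (.a (.f (nat_lit 499) (nat_lit 500) (nat_lit 2544) (.f (nat_lit 563) (nat_lit 564) (nat_lit 528) (.d (nat_lit 467) (nat_lit 435) (nat_lit 5554) (nat_lit 594) (nat_lit 5586)))) (.f (nat_lit 532) (nat_lit 561) (nat_lit 1552) (.d (nat_lit 496) (nat_lit 495) (nat_lit 3567) (nat_lit 497) (nat_lit 3568)))))))))) (.a s7156 (.a (.p (nat_lit 594) (.a s3695 (.a (.p (nat_lit 498) (.a (.f (nat_lit 467) (nat_lit 499) (nat_lit 6610) (.f (nat_lit 466) (nat_lit 435) (nat_lit 6578) (.d (nat_lit 465) (nat_lit 433) (nat_lit 7601) (nat_lit 497) (nat_lit 7633)))) (.a (.f (nat_lit 625) (nat_lit 593) (nat_lit 5617) (.f (nat_lit 626) (nat_lit 657) (nat_lit 5649) (.d (nat_lit 499) (nat_lit 467) (nat_lit 6610) (nat_lit 531) (nat_lit 6642)))) (.f (nat_lit 595) (nat_lit 627) (nat_lit 4594) (.f (nat_lit 466) (nat_lit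 563) (nat_lit 4562) (.d (nat_lit 465) (nat_lit 433) (nat_lit 7601) (nat_lit 497) (nat_lit 7633))))))) (.a (.p (nat_lit 498) (.a (.f (nat_lit 625) (nat_lit 593) (nat_lit 5617) (.f (nat_lit 626) (nat_lit 657) (nat_lit 5649) (.d (nat_lit 499) (nat_lit 467) (nat_lit 6610) (nat_lit 531) (nat_lit 6642)))) (.a (.f (nat_lit 467) (nat_lit 499) (nat_lit 6610) (.f (nat_lit 466) (nat_lit 435) (nat_lit 6578) (.d (nat_lit 595) (nat_lit 563) (nat_lit 4562) (nat_lit 627) (nat_lit 4594)))) (.f (nat_lit 625) (nat_lit 593) (nat_lit 5617) (.f (nat_lit 626) (nat_lit 657) (nat_lit 5649) (.d (nat_lit 627) (nat_lit 595) (nat_lit 4594) (nat_lit 659) (nat_lit 4626))))))) (.a s3488 (.a s4780 (.a (.p (nat_lit 498) (.a (.f (nat_lit 593) (nat_lit 625) (nat_lit 5617) (.f (nat_lit 561) (nat_lit 466) (nat_lit 5585) (.d (nat_lit 595) (nat_lit 596) (nat_lit 3632) (nat_lit 627) (nat_lit 4594)))) (.a (.f (nat_lit 497) (nat_lit 465) (nat_lit 7633) (.f (nat_lit 626)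 (nat_lit 529) (nat_lit 7665) (.d (nat_lit 625) (nat_lit 593) (nat_lit 5617) (nat_lit 657) (nat_lit 5649)))) (.f (nat_lit 497) (nat_lit 465) (nat_lit 7633) (.f (nat_lit 626) (nat_lit 529) (nat_lit 7665) (.d (nat_lit 627) (nat_lit 595) (nat_lit 4594) (nat_lit 659) (nat_lit 4626))))))) (.a s3736 s9325)))))))) (.p (nat_lit 594) (.a s3737 (.a (.p (nat_lit 498) (.a (.f (nat_lit 497) (nat_lit 465) (nat_lit 7633) (.f (nat_lit 626) (nat_lit 529) (nat_lit 7665) (.d (nat_lit 625) (nat_lit 593) (nat_lit 5617) (nat_lit 657) (nat_lit 5649)))) (.a (.f (nat_lit 595) (nat_lit 627) (nat_lit 4594) (.f (nat_lit 466) (nat_lit 563) (nat_lit 4562) (.d (nat_lit 465) (nat_lit 433) (nat_lit 7601) (nat_lit 497) (nat_lit 7633)))) (.f (nat_lit 625) (nat_lit 593) (nat_lit 5617) (.f (nat_lit 626) (nat_lit 657) (nat_lit 5649) (.d (nat_lit 627) (nat_lit 595) (nat_lit 4594) (nat_lit 659) (nat_lit 4626))))))) (.a (.p (nat_lit 595) (.a (.f (nat_lit 561) (nat_lit 559)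 (nat_lit 559) (.d (nat_lit 596) (nat_lit 593) (nat_lit 3632) (nat_lit 597) (nat_lit 3633))) (.f (nat_lit 627) (nat_lit 498) (nat_lit 4594) (.d (nat_lit 659) (nat_lit 626) (nat_lit 4626) (nat_lit 691) (nat_lit 7730))))) (.a (.p (nat_lit 529) (.a (.f (nat_lit 626) (nat_lit 497) (nat_lit 7665) (.f (nat_lit 657) (nat_lit 625) (nat_lit 5649) (.f (nat_lit 658) (nat_lit 689) (nat_lit 5681) (.d (nat_lit 659) (nat_lit 627) (nat_lit 4626) (nat_lit 691) (nat_lit 4658))))) (.f (nat_lit 559) (nat_lit 531) (nat_lit 1551) (.d (nat_lit 558) (nat_lit 557) (nat_lit 2573) (nat_lit 561) (nat_lit 2574))))) (.a (.p (nat_lit 498) (.a (.f (nat_lit 595) (nat_lit 627) (nat_lit 4594) (.f (nat_lit 561) (nat_lit 559) (nat_lit 559) (.d (nat_lit 466) (nat_lit 563) (nat_lit 4562) (nat_lit 593) (nat_lit 5585)))) (.a (.f (nat_lit 595) (nat_lit 627) (nat_lit 4594) (.f (nat_lit 466) (nat_lit 563) (nat_lit 4562) (.d (nat_lit 465) (nat_lit 433) (nat_lit 7601) (nat_lit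 497) (nat_lit 7633)))) (.a (.f (nat_lit 593) (nat_lit 625) (nat_lit 5617) (.f (nat_lit 561) (nat_lit 466) (nat_lit 5585) (.d (nat_lit 559) (nat_lit 531) (nat_lit 2575) (nat_lit 558) (nat_lit 558)))) (.f (nat_lit 595) (nat_lit 627) (nat_lit 4594) (.f (nat_lit 561) (nat_lit 559) (nat_lit 559) (.d (nat_lit 593) (nat_lit 596) (nat_lit 3632) (nat_lit 625) (nat_lit 5617)))))))) (.p (nat_lit 498) (.a (.f (nat_lit 593) (nat_lit 625) (nat_lit 5617) (.f (nat_lit 561) (nat_lit 466) (nat_lit 5585) (.d (nat_lit 559) (nat_lit 531) (nat_lit 2575) (nat_lit 558) (nat_lit 558)))) (.a (.f (nat_lit 497) (nat_lit 465) (nat_lit 7633) (.f (nat_lit 626) (nat_lit 529) (nat_lit 7665) (.d (nat_lit 625) (nat_lit 593) (nat_lit 5617) (nat_lit 657) (nat_lit 5649)))) (.f (nat_lit 497) (nat_lit 465) (nat_lit 7633) (.f (nat_lit 529) (nat_lit 626) (nat_lit 7665) (.f (nat_lit 559) (nat_lit 531) (nat_lit 1551) (.d (nat_lit 558) (nat_lit 557) (nat_lit 2573) (nat_lit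 561) (nat_lit 2574)))))))))))))))))))))))
noncomputable def s9358 : Cert := .r (nat_lit 16209045209811190870932882280241525281636762456128880238121701741240173323017267227161848502804957746341629734296734132008832066961508819932311911375456033133774648501572305158144) (.p (nat_lit 530) (.a (.f (nat_lit 531) (nat_lit 559) (nat_lit 1551) (.f (nat_lit 563) (nat_lit 564) (nat_lit 528) (.f (nat_lit 499) (nat_lit 500) (nat_lit 2544) (.d (nat_lit 467) (nat_lit 435) (nat_lit 5554) (nat_lit 594) (nat_lit 5586))))) (.a (.f (nat_lit 497) (nat_lit 624) (nat_lit 6640) (.f (nat_lit 465) (nat_lit 433) (nat_lit 5552) (.d (nat_lit 594) (nat_lit 498) (nat_lit 7633) (nat_lit 626) (nat_lit 7665)))) (.f (nat_lit 531) (nat_lit 559) (nat_lit 1551) (.f (nat_lit 563) (nat_lit 564) (nat_lit 528) (.f (nat_lit 499) (nat_lit 500) (nat_lit 2544) (.f (nat_lit 467) (nat_lit 435) (nat_lit 5554) (.f (nat_lit 466) (nat_lit 434) (nat_lit 7602) (.f (nat_lit 595) (nat_lit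 498) (nat_lit 4562) (.f (nat_lit 627) (nat_lit 659) (nat_lit 7698) (.d (nat_lit 628) (nat_lit 596) (nat_lit 4595) (nat_lit 660) (nat_lit 4627))))))))))))
noncomputable def s9384 : Cert := .r (nat_lit 16209045209811190869175494079248089194601395851564043574500726304403487138212284581610349447855157796998254466287401765934644211245289720274808682447528572317755697259046850527232) (.p (nat_lit 496) (.a (.f (nat_lit 463) (nat_lit 495) (nat_lit 7631) (.f (nat_lit 464) (nat_lit 431) (nat_lit 7599) (.d (nat_lit 465) (nat_lit 433) (nat_lit 6576) (nat_lit 497) (nat_lit 6608)))) (.a (.f (nat_lit 495) (nat_lit 463) (nat_lit 7631) (.f (nat_lit 624) (nat_lit 527) (nat_lit 7663) (.d (nat_lit 625) (nat_lit 593) (nat_lit 4592) (nat_lit 657) (nat_lit 4624)))) (.a (.f (nat_lit 465) (nat_lit 497) (nat_lit 6608) (.f (nat_lit 464) (nat_lit 433) (nat_lit 6576) (.f (nat_lit 431) (nat_lit 463) (nat_lit 7599) (.f (nat_lit 432) (nat_lit 399) (nat_lit 7567)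 (.d (nat_lit 559) (nat_lit 527) (nat_lit 5551) (nat_lit 591) (nat_lit 5583)))))) (.f (nat_lit 465) (nat_lit 497) (nat_lit 6608) (.f (nat_lit 464) (nat_lit 433) (nat_lit 6576) (.f (nat_lit 559) (nat_lit 591) (nat_lit 5583) (.f (nat_lit 527) (nat_lit 432) (nat_lit 5551) (.d (nat_lit 624) (nat_lit 495) (nat_lit 7663) (nat_lit 656) (nat_lit 7695))))))))))
noncomputable def s9414 : Cert := .r (nat_lit 16209045209811190869175494079248089194601395851564043574500726304403487138212284581610349447855157796998254466287401765934644211245289720274808682447528572317755697259046850527232) (.p (nat_lit 496) (.a (.f (nat_lit 495) (nat_lit 463) (nat_lit 7631) (.f (nat_lit 624) (nat_lit 527) (nat_lit 7663) (.d (nat_lit 497) (nat_lit 465) (nat_lit 6608) (nat_lit 529) (nat_lit 6640)))) (.a (.f (nat_lit 497) (nat_lit 465) (nat_lit 6608) (.f (nat_lit 495) (nat_lit 463) (nat_lit 7631) (.f (nat_lit 529) (nat_lit 624) (nat_lit 6640) (.d (nat_lit 494) (nat_lit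 493) (nat_lit 493) (nat_lit 530) (nat_lit 494))))) (.a (.f (nat_lit 463) (nat_lit 495) (nat_lit 7631) (.f (nat_lit 464) (nat_lit 431) (nat_lit 7599) (.d (nat_lit 465) (nat_lit 433) (nat_lit 6576) (nat_lit 497) (nat_lit 6608)))) (.a (.f (nat_lit 463) (nat_lit 495) (nat_lit 7631) (.f (nat_lit 464) (nat_lit 431) (nat_lit 7599) (.f (nat_lit 433) (nat_lit 465) (nat_lit 6576) (.f (nat_lit 432) (nat_lit 401) (nat_lit 6544) (.d (nat_lit 559) (nat_lit 527) (nat_lit 5551) (nat_lit 591) (nat_lit 5583)))))) (.a (.f (nat_lit 463) (nat_lit 495) (nat_lit 7631) (.f (nat_lit 464) (nat_lit 431) (nat_lit 7599) (.f (nat_lit 559) (nat_lit 591) (nat_lit 5583) (.f (nat_lit 527) (nat_lit 432) (nat_lit 5551) (.f (nat_lit 624) (nat_lit 656) (nat_lit 7695) (.f (nat_lit 529) (nat_lit 497) (nat_lit 6640) (.d (nat_lit 530) (nat_lit 531) (nat_lit 1551) (nat_lit 558) (nat_lit 1550)))))))) (.a (.f (nat_lit 465) (nat_lit 497) (nat_lit 6608) (.f (nat_lit 464) (nat_lit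 433) (nat_lit 6576) (.f (nat_lit 431) (nat_lit 463) (nat_lit 7599) (.f (nat_lit 432) (nat_lit 399) (nat_lit 7567) (.d (nat_lit 559) (nat_lit 527) (nat_lit 5551) (nat_lit 591) (nat_lit 5583)))))) (.f (nat_lit 465) (nat_lit 497) (nat_lit 6608) (.f (nat_lit 464) (nat_lit 433) (nat_lit 6576) (.f (nat_lit 559) (nat_lit 591) (nat_lit 5583) (.f (nat_lit 527) (nat_lit 432) (nat_lit 5551) (.d (nat_lit 624) (nat_lit 495) (nat_lit 7663) (nat_lit 656) (nat_lit 7695)))))))))))))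
noncomputable def s9415 : Cert := .r (nat_lit 18869812124986400861704490948459027756867024433892689860299374593630612134736493787905533600559981471712008058190913152356962472978375577626770901665172955839509703950336) (.p (nat_lit 592) (.a s3261 (.a (.p (nat_lit 593) (.a (.p (nat_lit 594) (.a (.f (nat_lit 559) (nat_lit 595) (nat_lit 3631) (.d (nat_lit 558) (nat_lit 557) (nat_lit 557) (nat_lit 591) (nat_lit 3630))) (.a (.f (nat_lit 591) (nat_lit 563) (nat_lit 2607) (.f (nat_lit 626) (nat_lit 627) (nat_lit 591) (.f (nat_lit 625) (nat_lit 590) (nat_lit 590) (.d (nat_lit 657) (nat_lit 530) (nat_lit 5649) (nat_lit 689) (nat_lit 7728))))) (.f (nat_lit 595) (nat_lit 559) (nat_lit 3631) (.f (nat_lit 563) (nat_lit 564) (nat_lit 2608) (.f (nat_lit 627) (nat_lit 628) (nat_lit 592) (.d (nat_lit 659) (nat_lit 530) (nat_lit 7698) (nat_lit 691) (nat_lit 7730)))))))) (.a (.f (nat_lit 625) (nat_lit 496) (nat_lit 4592) (.d (nat_lit 657) (nat_lit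 624) (nat_lit 4624) (nat_lit 689) (nat_lit 7728))) (.p (nat_lit 594) (.a (.f (nat_lit 559) (nat_lit 595) (nat_lit 3631) (.d (nat_lit 558) (nat_lit 557) (nat_lit 557) (nat_lit 591) (nat_lit 3630))) (.a (.f (nat_lit 563) (nat_lit 591) (nat_lit 2607) (.d (nat_lit 564) (nat_lit 565) (nat_lit 1585) (nat_lit 595) (nat_lit 2608))) (.a (.f (nat_lit 595) (nat_lit 559) (nat_lit 3631) (.f (nat_lit 563) (nat_lit 564) (nat_lit 2608) (.f (nat_lit 627) (nat_lit 628) (nat_lit 592) (.d (nat_lit 659) (nat_lit 530) (nat_lit 7698) (nat_lit 691) (nat_lit 7730))))) (.f (nat_lit 591) (nat_lit 563) (nat_lit 2607) (.f (nat_lit 559) (nat_lit 558) (nat_lit 3630) (.f (nat_lit 496) (nat_lit 464) (nat_lit 5583) (.f (nat_lit 497) (nat_lit 465) (nat_lit 6608) (.f (nat_lit 529) (nat_lit 624) (nat_lit 6640) (.d (nat_lit 530) (nat_lit 531) (nat_lit 1551) (nat_lit 626) (nat_lit 7665)))))))))))))) (.a (.p (nat_lit 529) (.a (.f (nat_lit 624) (nat_lit 497) (nat_lit 6640)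 (.f (nat_lit 527) (nat_lit 495) (nat_lit 7663) (.f (nat_lit 559) (nat_lit 656) (nat_lit 7695) (.d (nat_lit 530) (nat_lit 531) (nat_lit 1551) (nat_lit 558) (nat_lit 1550))))) (.a s9358 (.a (.p (nat_lit 530) (.a (.f (nat_lit 531) (nat_lit 559) (nat_lit 1551) (.f (nat_lit 563) (nat_lit 564) (nat_lit 528) (.f (nat_lit 499) (nat_lit 500) (nat_lit 2544) (.d (nat_lit 467) (nat_lit 435) (nat_lit 5554) (nat_lit 594) (nat_lit 5586))))) (.a (.f (nat_lit 527) (nat_lit 563) (nat_lit 527) (.d (nat_lit 495) (nat_lit 494) (nat_lit 3566) (nat_lit 624) (nat_lit 7663))) (.f (nat_lit 559) (nat_lit 531) (nat_lit 1551) (.d (nat_lit 558) (nat_lit 527) (nat_lit 1550) (nat_lit 557) (nat_lit 2573)))))) (.a (.f (nat_lit 624) (nat_lit 497) (nat_lit 6640) (.f (nat_lit 527) (nat_lit 495) (nat_lit 7663) (.f (nat_lit 559) (nat_lit 656) (nat_lit 7695) (.d (nat_lit 530) (nat_lit 558) (nat_lit 1550) (nat_lit 563) (nat_lit 527))))) (.a (.f (nat_lit 624) (nat_lit 497)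 (nat_lit 6640) (.f (nat_lit 527) (nat_lit 495) (nat_lit 7663) (.f (nat_lit 656) (nat_lit 559) (nat_lit 7695) (.d (nat_lit 657) (nat_lit 625) (nat_lit 4624) (nat_lit 689) (nat_lit 4656))))) (.a s7751 (.f (nat_lit 624) (nat_lit 497) (nat_lit 6640) (.f (nat_lit 527) (nat_lit 495) (nat_lit 7663) (.f (nat_lit 530) (nat_lit 563) (nat_lit 527) (.f (nat_lit 499) (nat_lit 498) (nat_lit 2543) (.f (nat_lit 531) (nat_lit 500) (nat_lit 2544) (.f (nat_lit 625) (nat_lit 657) (nat_lit 4624) (.f (nat_lit 626) (nat_lit 594) (nat_lit 6642) (.f (nat_lit 627) (nat_lit 591) (nat_lit 3663) (.f (nat_lit 628) (nat_lit 593) (nat_lit 3664) (.d (nat_lit 596) (nat_lit 595) (nat_lit 2640) (nat_lit 597) (nat_lit 2641)))))))))))))))))) (.a s9384 (.a (.p (nat_lit 593) (.a (.p (nat_lit 594) (.a (.f (nat_lit 559) (nat_lit 595) (nat_lit 3631) (.d (nat_lit 558) (nat_lit 557) (nat_lit 557) (nat_lit 591) (nat_lit 3630))) (.a (.f (nat_lit 591) (nat_lit 563) (nat_lit 2607)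 (.f (nat_lit 626) (nat_lit 627) (nat_lit 591) (.f (nat_lit 625) (nat_lit 590) (nat_lit 590) (.d (nat_lit 657) (nat_lit 530) (nat_lit 5649) (nat_lit 689) (nat_lit 7728))))) (.f (nat_lit 595) (nat_lit 559) (nat_lit 3631) (.f (nat_lit 563) (nat_lit 564) (nat_lit 2608) (.f (nat_lit 627) (nat_lit 628) (nat_lit 592) (.d (nat_lit 659) (nat_lit 530) (nat_lit 7698) (nat_lit 691) (nat_lit 7730)))))))) (.a (.f (nat_lit 625) (nat_lit 496) (nat_lit 4592) (.d (nat_lit 657) (nat_lit 624) (nat_lit 4624) (nat_lit 689) (nat_lit 7728))) (.p (nat_lit 594) (.a (.f (nat_lit 559) (nat_lit 595) (nat_lit 3631) (.d (nat_lit 558) (nat_lit 557) (nat_lit 557) (nat_lit 591) (nat_lit 3630))) (.a (.f (nat_lit 563) (nat_lit 591) (nat_lit 2607) (.d (nat_lit 564) (nat_lit 565) (nat_lit 1585) (nat_lit 595) (nat_lit 2608))) (.a (.f (nat_lit 595) (nat_lit 559) (nat_lit 3631) (.f (nat_lit 563) (nat_lit 564) (nat_lit 2608) (.f (nat_lit 627) (nat_lit 628) (nat_lit 592)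 (.d (nat_lit 659) (nat_lit 530) (nat_lit 7698) (nat_lit 691) (nat_lit 7730))))) (.f (nat_lit 591) (nat_lit 563) (nat_lit 2607) (.f (nat_lit 559) (nat_lit 558) (nat_lit 3630) (.f (nat_lit 496) (nat_lit 464) (nat_lit 5583) (.f (nat_lit 495) (nat_lit 463) (nat_lit 7631) (.f (nat_lit 527) (nat_lit 624) (nat_lit 7663) (.f (nat_lit 494) (nat_lit 462) (nat_lit 7630) (.d (nat_lit 493) (nat_lit 492) (nat_lit 492) (nat_lit 529) (nat_lit 493))))))))))))))) (.a (.p (nat_lit 496) (.a (.f (nat_lit 495) (nat_lit 463) (nat_lit 7631) (.f (nat_lit 624) (nat_lit 527) (nat_lit 7663) (.d (nat_lit 497) (nat_lit 465) (nat_lit 6608) (nat_lit 529) (nat_lit 6640)))) (.a (.f (nat_lit 497) (nat_lit 465) (nat_lit 6608) (.f (nat_lit 495) (nat_lit 463) (nat_lit 7631) (.f (nat_lit 529) (nat_lit 624) (nat_lit 6640) (.d (nat_lit 494) (nat_lit 493) (nat_lit 493) (nat_lit 530) (nat_lit 494))))) (.a (.f (nat_lit 463) (nat_lit 495) (nat_lit 7631) (.f (nat_lit 464) (nat_lit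 431) (nat_lit 7599) (.d (nat_lit 465) (nat_lit 433) (nat_lit 6576) (nat_lit 497) (nat_lit 6608)))) (.a (.f (nat_lit 463) (nat_lit 495) (nat_lit 7631) (.f (nat_lit 464) (nat_lit 431) (nat_lit 7599) (.f (nat_lit 433) (nat_lit 465) (nat_lit 6576) (.f (nat_lit 432) (nat_lit 401) (nat_lit 6544) (.d (nat_lit 559) (nat_lit 527) (nat_lit 5551) (nat_lit 591) (nat_lit 5583)))))) (.a (.f (nat_lit 463) (nat_lit 495) (nat_lit 7631) (.f (nat_lit 464) (nat_lit 431) (nat_lit 7599) (.f (nat_lit 559) (nat_lit 591) (nat_lit 5583) (.f (nat_lit 527) (nat_lit 432) (nat_lit 5551) (.f (nat_lit 624) (nat_lit 656) (nat_lit 7695) (.f (nat_lit 529) (nat_lit 497) (nat_lit 6640) (.d (nat_lit 530) (nat_lit 531) (nat_lit 1551) (nat_lit 558) (nat_lit 1550)))))))) (.f (nat_lit 497) (nat_lit 465) (nat_lit 6608) (.f (nat_lit 624) (nat_lit 529) (nat_lit 6640) (.f (nat_lit 657) (nat_lit 625) (nat_lit 4624) (.f (nat_lit 656) (nat_lit 689) (nat_lit 4656) (.f (nat_lit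 559) (nat_lit 527) (nat_lit 7695) (.d (nat_lit 591) (nat_lit 464) (nat_lit 5583) (nat_lit 688) (nat_lit 7727))))))))))))) (.a (.p (nat_lit 593) (.a (.p (nat_lit 594) (.a (.f (nat_lit 559) (nat_lit 595) (nat_lit 3631) (.d (nat_lit 558) (nat_lit 557) (nat_lit 557) (nat_lit 591) (nat_lit 3630))) (.a (.f (nat_lit 591) (nat_lit 563) (nat_lit 2607) (.f (nat_lit 626) (nat_lit 627) (nat_lit 591) (.f (nat_lit 625) (nat_lit 590) (nat_lit 590) (.d (nat_lit 657) (nat_lit 530) (nat_lit 5649) (nat_lit 689) (nat_lit 7728))))) (.f (nat_lit 595) (nat_lit 559) (nat_lit 3631) (.f (nat_lit 563) (nat_lit 564) (nat_lit 2608) (.f (nat_lit 627) (nat_lit 628) (nat_lit 592) (.d (nat_lit 659) (nat_lit 530) (nat_lit 7698) (nat_lit 691) (nat_lit 7730)))))))) (.a (.f (nat_lit 496) (nat_lit 625) (nat_lit 4592) (.f (nat_lit 463) (nat_lit 495) (nat_lit 7631) (.f (nat_lit 464) (nat_lit 431) (nat_lit 7599) (.d (nat_lit 465) (nat_lit 433) (nat_lit 6576) (nat_lit 497)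 (nat_lit 6608))))) (.p (nat_lit 594) (.a (.f (nat_lit 559) (nat_lit 595) (nat_lit 3631) (.d (nat_lit 558) (nat_lit 557) (nat_lit 557) (nat_lit 591) (nat_lit 3630))) (.a (.f (nat_lit 563) (nat_lit 591) (nat_lit 2607) (.d (nat_lit 564) (nat_lit 565) (nat_lit 1585) (nat_lit 595) (nat_lit 2608))) (.a (.f (nat_lit 595) (nat_lit 559) (nat_lit 3631) (.f (nat_lit 563) (nat_lit 564) (nat_lit 2608) (.f (nat_lit 627) (nat_lit 628) (nat_lit 592) (.d (nat_lit 659) (nat_lit 530) (nat_lit 7698) (nat_lit 691) (nat_lit 7730))))) (.f (nat_lit 591) (nat_lit 563) (nat_lit 2607) (.f (nat_lit 559) (nat_lit 558) (nat_lit 3630) (.f (nat_lit 496) (nat_lit 464) (nat_lit 5583) (.f (nat_lit 495) (nat_lit 463) (nat_lit 7631) (.f (nat_lit 497) (nat_lit 465) (nat_lit 6608) (.f (nat_lit 626) (nat_lit 627) (nat_lit 591) (.f (nat_lit 530) (nat_lit 529) (nat_lit 7665) (.d (nat_lit 531) (nat_lit 498) (nat_lit 495) (nat_lit 499) (nat_lit 6642)))))))))))))))) s9414))))))))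
noncomputable def s9417 : Cert := .r (nat_lit 16209045209811190869175494079248089194601395851564043574500726304403487138212284581610349447855157796998254466287401765934644211245289720274808682447528572317755697259046850527232) (.p (nat_lit 496) (.a (.f (nat_lit 593) (nat_lit 625) (nat_lit 4592) (.f (nat_lit 561) (nat_lit 464) (nat_lit 4560) (.d (nat_lit 563) (nat_lit 564) (nat_lit 1584) (nat_lit 591) (nat_lit 1583)))) (.a (.f (nat_lit 463) (nat_lit 495) (nat_lit 7631) (.f (nat_lit 464) (nat_lit 431) (nat_lit 7599) (.d (nat_lit 465) (nat_lit 433) (nat_lit 6576) (nat_lit 497) (nat_lit 6608)))) (.p (nat_lit 591) (.a (.f (nat_lit 561) (nat_lit 563) (nat_lit 1583) (.d (nat_lit 590) (nat_lit 559) (nat_lit 1582) (nat_lit 589) (nat_lit 2605))) (.a (.f (nat_lit 593) (nat_lit 625) (nat_lit 4592) (.f (nat_lit 594) (nat_lit 563) (nat_lit 2607) (.d (nat_lit 559) (nat_lit 558) (nat_lit 3630) (nat_lit 595) (nat_lit 3631)))) (.f (nat_lit 593) (nat_lit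 625) (nat_lit 4592) (.f (nat_lit 590) (nat_lit 561) (nat_lit 2606) (.f (nat_lit 557) (nat_lit 558) (nat_lit 3629) (.f (nat_lit 589) (nat_lit 556) (nat_lit 3628) (.d (nat_lit 621) (nat_lit 620) (nat_lit 1612) (nat_lit 622) (nat_lit 1613))))))))))))
noncomputable def s9450 : Cert := .r (nat_lit 16209045209811190869175494079248089194601395851564043574500726304403487138212284581610349447855157796998254466287401765934644211245289720274808682447528572317755697259046850527232) (.p (nat_lit 496) (.a (.f (nat_lit 593) (nat_lit 625) (nat_lit 4592) (.f (nat_lit 561) (nat_lit 464) (nat_lit 4560) (.d (nat_lit 563) (nat_lit 564) (nat_lit 1584) (nat_lit 591) (nat_lit 1583)))) (.a (.f (nat_lit 465) (nat_lit 497) (nat_lit 6608) (.f (nat_lit 464) (nat_lit 433) (nat_lit 6576) (.f (nat_lit 431) (nat_lit 463) (nat_lit 7599) (.f (nat_lit 432) (nat_lit 399) (nat_lit 7567) (.d (nat_lit 559) (nat_lit 527) (nat_lit 5551) (nat_lit 591) (nat_lit 5583))))))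 (.a (.p (nat_lit 591) (.a (.f (nat_lit 561) (nat_lit 563) (nat_lit 1583) (.d (nat_lit 590) (nat_lit 559) (nat_lit 1582) (nat_lit 589) (nat_lit 2605))) (.a (.f (nat_lit 593) (nat_lit 625) (nat_lit 4592) (.f (nat_lit 594) (nat_lit 563) (nat_lit 2607) (.d (nat_lit 559) (nat_lit 558) (nat_lit 3630) (nat_lit 595) (nat_lit 3631)))) (.f (nat_lit 593) (nat_lit 625) (nat_lit 4592) (.f (nat_lit 590) (nat_lit 561) (nat_lit 2606) (.f (nat_lit 557) (nat_lit 558) (nat_lit 3629) (.f (nat_lit 589) (nat_lit 556) (nat_lit 3628) (.d (nat_lit 621) (nat_lit 620) (nat_lit 1612) (nat_lit 622) (nat_lit 1613))))))))) (.f (nat_lit 593) (nat_lit 625) (nat_lit 4592) (.f (nat_lit 561) (nat_lit 464) (nat_lit 4560) (.d (nat_lit 563) (nat_lit 527) (nat_lit 3599) (nat_lit 564) (nat_lit 1584))))))))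
noncomputable def s9470 : Cert := .r (nat_lit 64836180782635327105257550133865756107099233344784774323566786510389197141567267213334914537603630284999823986032247621314213099342709661479114454765656505907541824002709199519744) (.p (nat_lit 625) (.a (.f (nat_lit 498) (nat_lit 593) (nat_lit 5617) (.f (nat_lit 626) (nat_lit 657) (nat_lit 5649) (.d (nat_lit 627) (nat_lit 595) (nat_lit 4594) (nat_lit 659) (nat_lit 4626)))) (.a (.f (nat_lit 657) (nat_lit 626) (nat_lit 5649) (.f (nat_lit 592) (nat_lit 624) (nat_lit 4624) (.f (nat_lit 593) (nat_lit 689) (nat_lit 7728) (.f (nat_lit 559) (nat_lit 595) (nat_lit 3631) (.d (nat_lit 558) (nat_lit 557) (nat_lit 557) (nat_lit 591) (nat_lit 3630)))))) (.a (.f (nat_lit 626) (nat_lit 657) (nat_lit 5649) (.f (nat_lit 627) (nat_lit 659) (nat_lit 4626) (.f (nat_lit 595) (nat_lit 498) (nat_lit 4594) (.d (nat_lit 596) (nat_lit 597) (nat_lit 1617) (nat_lit 624) (nat_lit 2640))))) (.a (.f (nat_lit 593) (nat_lit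 498) (nat_lit 5617) (.f (nat_lit 592) (nat_lit 496) (nat_lit 4592) (.d (nat_lit 657) (nat_lit 624) (nat_lit 4624) (nat_lit 689) (nat_lit 7728)))) (.f (nat_lit 498) (nat_lit 593) (nat_lit 5617) (.f (nat_lit 467) (nat_lit 499) (nat_lit 6610) (.f (nat_lit 466) (nat_lit 435) (nat_lit 6578) (.d (nat_lit 595) (nat_lit 563) (nat_lit 4562) (nat_lit 627) (nat_lit 4594))))))))))
noncomputable def s9471 : Cert := .r (nat_lit 64836180782635327101742773731878883933028500135655100996324835636715824771957301922231916427704030386313073450013582889165837387910271462164107996909801584275503921517658290257920) (.p (nat_lit 530) (.a (.p (nat_lit 498) (.a (.f (nat_lit 595) (nat_lit 627) (nat_lit 4594) (.f (nat_lit 563) (nat_lit 466) (nat_lit 4562) (.f (nat_lit 593) (nat_lit 625) (nat_lit 5617) (.d (nat_lit 564) (nat_lit 565) (nat_lit 1585) (nat_lit 592) (nat_lit 2608))))) (.a (.f (nat_lit 625) (nat_lit 593) (nat_lit 5617) (.f (nat_lit 626) (nat_lit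 657) (nat_lit 5649) (.d (nat_lit 499) (nat_lit 467) (nat_lit 6610) (nat_lit 531) (nat_lit 6642)))) (.f (nat_lit 499) (nat_lit 467) (nat_lit 6610) (.f (nat_lit 531) (nat_lit 626) (nat_lit 6642) (.d (nat_lit 529) (nat_lit 500) (nat_lit 2544) (nat_lit 559) (nat_lit 1551))))))) (.a (.p (nat_lit 498) (.a (.f (nat_lit 595) (nat_lit 627) (nat_lit 4594) (.f (nat_lit 563) (nat_lit 466) (nat_lit 4562) (.f (nat_lit 593) (nat_lit 625) (nat_lit 5617) (.d (nat_lit 564) (nat_lit 565) (nat_lit 1585) (nat_lit 592) (nat_lit 2608))))) (.a (.f (nat_lit 625) (nat_lit 593) (nat_lit 5617) (.f (nat_lit 626) (nat_lit 657) (nat_lit 5649) (.d (nat_lit 499) (nat_lit 467) (nat_lit 6610) (nat_lit 531) (nat_lit 6642)))) (.f (nat_lit 467) (nat_lit 499) (nat_lit 6610) (.f (nat_lit 466) (nat_lit 435) (nat_lit 6578) (.d (nat_lit 595) (nat_lit 563) (nat_lit 4562) (nat_lit 627) (nat_lit 4594))))))) (.a (.p (nat_lit 498) (.a (.f (nat_lit 499) (nat_lit 467) (nat_lit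 6610) (.f (nat_lit 529) (nat_lit 527) (nat_lit 2543) (.d (nat_lit 500) (nat_lit 501) (nat_lit 1521) (nat_lit 531) (nat_lit 2544)))) (.a (.f (nat_lit 625) (nat_lit 593) (nat_lit 5617) (.f (nat_lit 626) (nat_lit 657) (nat_lit 5649) (.d (nat_lit 499) (nat_lit 467) (nat_lit 6610) (nat_lit 531) (nat_lit 6642)))) (.f (nat_lit 625) (nat_lit 593) (nat_lit 5617) (.f (nat_lit 626) (nat_lit 657) (nat_lit 5649) (.d (nat_lit 627) (nat_lit 595) (nat_lit 4594) (nat_lit 659) (nat_lit 4626))))))) (.a s9470 (.a (.p (nat_lit 529) (.a (.f (nat_lit 531) (nat_lit 559) (nat_lit 1551) (.d (nat_lit 499) (nat_lit 500) (nat_lit 2544) (nat_lit 626) (nat_lit 6642))) (.a (.f (nat_lit 527) (nat_lit 563) (nat_lit 527) (.f (nat_lit 495) (nat_lit 494) (nat_lit 3566) (.f (nat_lit 559) (nat_lit 558) (nat_lit 1550) (.d (nat_lit 463) (nat_lit 431) (nat_lit 4527) (nat_lit 592) (nat_lit 4559))))) (.f (nat_lit 563) (nat_lit 527) (nat_lit 527) (.d (nat_lit 564) (nat_lit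 531) (nat_lit 528) (nat_lit 565) (nat_lit 3601)))))) (.a s7215 (.p (nat_lit 498) (.a (.f (nat_lit 595) (nat_lit 627) (nat_lit 4594) (.f (nat_lit 563) (nat_lit 466) (nat_lit 4562) (.f (nat_lit 593) (nat_lit 625) (nat_lit 5617) (.d (nat_lit 564) (nat_lit 565) (nat_lit 1585) (nat_lit 592) (nat_lit 2608))))) (.f (nat_lit 499) (nat_lit 467) (nat_lit 6610) (.f (nat_lit 529) (nat_lit 527) (nat_lit 2543) (.d (nat_lit 500) (nat_lit 501) (nat_lit 1521) (nat_lit 531) (nat_lit 2544)))))))))))))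
noncomputable def s9472 : Cert := .r (nat_lit 64836180782635327105257550133865756107099233344784774323566786510389197141567267213334914537603630284999823986032247621314213099342709661479114454765656505907541824002709199519744) (.p (nat_lit 498) (.a (.f (nat_lit 499) (nat_lit 467) (nat_lit 6610) (.f (nat_lit 529) (nat_lit 527) (nat_lit 2543) (.d (nat_lit 500) (nat_lit 501) (nat_lit 1521) (nat_lit 531) (nat_lit 2544)))) (.a (.f (nat_lit 499) (nat_lit 467) (nat_lit 6610) (.f (nat_lit 531) (nat_lit 626) (nat_lit 6642) (.d (nat_lit 529) (nat_lit 500) (nat_lit 2544) (nat_lit 559) (nat_lit 1551)))) (.a (.f (nat_lit 499) (nat_lit 467) (nat_lit 6610) (.f (nat_lit 626) (nat_lit 531) (nat_lit 6642) (.d (nat_lit 627) (nat_lit 595) (nat_lit 4594) (nat_lit 659) (nat_lit 4626)))) (.a (.f (nat_lit 499) (nat_lit 467) (nat_lit 6610) (.f (nat_lit 529) (nat_lit 527) (nat_lit 2543) (.f (nat_lit 627) (nat_lit 595) (nat_lit 4594) (.f (nat_lit 626) (nat_lit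 659) (nat_lit 4626) (.f (nat_lit 561) (nat_lit 658) (nat_lit 7697) (.f (nat_lit 559) (nat_lit 558) (nat_lit 2574) (.f (nat_lit 466) (nat_lit 434) (nat_lit 5553) (.f (nat_lit 465) (nat_lit 433) (nat_lit 7601) (.f (nat_lit 464) (nat_lit 463) (nat_lit 463) (.d (nat_lit 496) (nat_lit 432) (nat_lit 4528) (nat_lit 591) (nat_lit 5583))))))))))) (.f (nat_lit 595) (nat_lit 627) (nat_lit 4594) (.f (nat_lit 559) (nat_lit 561) (nat_lit 559) (.f (nat_lit 529) (nat_lit 531) (nat_lit 1551) (.d (nat_lit 558) (nat_lit 527) (nat_lit 1550) (nat_lit 557) (nat_lit 2573))))))))))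
noncomputable def s9473 : Cert := .r (nat_lit 64836180782635327101742773731878883933028500135655100996324835636715824771957301922231916427704030386313073450013582889165837387910271462164107996909801584275503921517658290257920) (.p (nat_lit 530) (.a s3715 (.a (.p (nat_lit 498) (.a (.f (nat_lit 499) (nat_lit 467) (nat_lit 6610) (.f (nat_lit 529) (nat_lit 527) (nat_lit 2543) (.d (nat_lit 500) (nat_lit 501) (nat_lit 1521) (nat_lit 531) (nat_lit 2544)))) (.a (.f (nat_lit 625) (nat_lit 593) (nat_lit 5617) (.f (nat_lit 626) (nat_lit 657) (nat_lit 5649) (.d (nat_lit 499) (nat_lit 467) (nat_lit 6610) (nat_lit 531) (nat_lit 6642)))) (.f (nat_lit 625) (nat_lit 593) (nat_lit 5617) (.f (nat_lit 626) (nat_lit 657) (nat_lit 5649) (.d (nat_lit 627) (nat_lit 595) (nat_lit 4594) (nat_lit 659) (nat_lit 4626))))))) (.a (.p (nat_lit 595) (.a (.f (nat_lit 561) (nat_lit 559) (nat_lit 559) (.d (nat_lit 596) (nat_lit 593) (nat_lit 3632) (nat_lit 597) (nat_lit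 3633))) (.f (nat_lit 627) (nat_lit 498) (nat_lit 4594) (.d (nat_lit 659) (nat_lit 626) (nat_lit 4626) (nat_lit 691) (nat_lit 7730))))) (.a s3813 (.a s9472 (.a (.p (nat_lit 498) (.a (.f (nat_lit 593) (nat_lit 625) (nat_lit 5617) (.f (nat_lit 561) (nat_lit 466) (nat_lit 5585) (.d (nat_lit 559) (nat_lit 531) (nat_lit 2575) (nat_lit 558) (nat_lit 558)))) (.a (.f (nat_lit 499) (nat_lit 467) (nat_lit 6610) (.f (nat_lit 529) (nat_lit 527) (nat_lit 2543) (.d (nat_lit 500) (nat_lit 501) (nat_lit 1521) (nat_lit 531) (nat_lit 2544)))) (.f (nat_lit 595) (nat_lit 627) (nat_lit 4594) (.f (nat_lit 561) (nat_lit 559) (nat_lit 559) (.d (nat_lit 593) (nat_lit 596) (nat_lit 3632) (nat_lit 625) (nat_lit 5617))))))) (.p (nat_lit 498) (.a (.f (nat_lit 593) (nat_lit 625) (nat_lit 5617) (.f (nat_lit 561) (nat_lit 466) (nat_lit 5585) (.d (nat_lit 559) (nat_lit 531) (nat_lit 2575) (nat_lit 558) (nat_lit 558)))) (.a (.f (nat_lit 499) (nat_lit 467) (nat_lit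 6610) (.f (nat_lit 529) (nat_lit 527) (nat_lit 2543) (.d (nat_lit 500) (nat_lit 501) (nat_lit 1521) (nat_lit 531) (nat_lit 2544)))) (.f (nat_lit 593) (nat_lit 625) (nat_lit 5617) (.f (nat_lit 561) (nat_lit 466) (nat_lit 5585) (.d (nat_lit 559) (nat_lit 558) (nat_lit 558) (nat_lit 595) (nat_lit 559))))))))))))))
noncomputable def s9506 : Cert := .r (nat_lit 64836180782635327105257550133865756107099233344784774323566786510389197141567267213334914537603630284999823986032247621314213099342709661479114454765656505907541824002709199519744) (.p (nat_lit 626) (.a (.f (nat_lit 657) (nat_lit 625) (nat_lit 5649) (.f (nat_lit 658) (nat_lit 689) (nat_lit 5681) (.d (nat_lit 659) (nat_lit 627) (nat_lit 4626) (nat_lit 691) (nat_lit 4658)))) (.a (.f (nat_lit 659) (nat_lit 627) (nat_lit 4626) (.f (nat_lit 658) (nat_lit 691) (nat_lit 4658) (.f (nat_lit 561) (nat_lit 529) (nat_lit 7697) (.f (nat_lit 593) (nat_lit 690) (nat_lit 7729) (.f (nat_lit 563)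 (nat_lit 527) (nat_lit 3599) (.d (nat_lit 564) (nat_lit 565) (nat_lit 1585) (nat_lit 592) (nat_lit 1584))))))) (.a (.f (nat_lit 625) (nat_lit 657) (nat_lit 5649) (.f (nat_lit 627) (nat_lit 659) (nat_lit 4626) (.f (nat_lit 593) (nat_lit 498) (nat_lit 5617) (.d (nat_lit 592) (nat_lit 591) (nat_lit 591) (nat_lit 628) (nat_lit 3664))))) (.f (nat_lit 625) (nat_lit 657) (nat_lit 5649) (.f (nat_lit 498) (nat_lit 593) (nat_lit 5617) (.f (nat_lit 499) (nat_lit 467) (nat_lit 6610) (.f (nat_lit 529) (nat_lit 527) (nat_lit 2543) (.f (nat_lit 561) (nat_lit 658) (nat_lit 7697) (.f (nat_lit 559) (nat_lit 558) (nat_lit 2574) (.f (nat_lit 591) (nat_lit 590) (nat_lit 1582) (.d (nat_lit 563) (nat_lit 564) (nat_lit 3600) (nat_lit 592) (nat_lit 1583)))))))))))))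
noncomputable def s9507 : Cert := .r (nat_lit 64836180782635327101742773731878883933028500135655100996324835636715824771957301922231916427704030386313073450013582889165837387910271462164107996909801584275503921517658290257920) (.p (nat_lit 530) (.a (.p (nat_lit 626) (.a (.f (nat_lit 531) (nat_lit 499) (nat_lit 6642) (.f (nat_lit 561) (nat_lit 559) (nat_lit 2575) (.d (nat_lit 532) (nat_lit 533) (nat_lit 1553) (nat_lit 563) (nat_lit 2576)))) (.a (.f (nat_lit 531) (nat_lit 499) (nat_lit 6642) (.f (nat_lit 658) (nat_lit 563) (nat_lit 6674) (.d (nat_lit 657) (nat_lit 625) (nat_lit 5649) (nat_lit 689) (nat_lit 5681)))) (.f (nat_lit 657) (nat_lit 625) (nat_lit 5649) (.f (nat_lit 658) (nat_lit 689) (nat_lit 5681) (.d (nat_lit 659) (nat_lit 627) (nat_lit 4626) (nat_lit 691) (nat_lit 4658))))))) (.a s3908 (.a s9506 (.a s3813 (.p (nat_lit 561) (.a (.f (nat_lit 531) (nat_lit 559) (nat_lit 2575) (.d (nat_lit 532) (nat_lit 533) (nat_lit 1553)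 (nat_lit 563) (nat_lit 2576))) (.a (.f (nat_lit 563) (nat_lit 527) (nat_lit 3599) (.f (nat_lit 564) (nat_lit 529) (nat_lit 3600) (.d (nat_lit 592) (nat_lit 591) (nat_lit 1583) (nat_lit 593) (nat_lit 1584)))) (.f (nat_lit 559) (nat_lit 531) (nat_lit 2575) (.d (nat_lit 558) (nat_lit 529) (nat_lit 2574) (nat_lit 593) (nat_lit 558)))))))))))
noncomputable def s9508 : Cert := .r (nat_lit 18869812124986400861704490948459027756867024433892689860299374593630612134736493787905533600559981471712008058190913152356962472978375577626770901665172955839509703950336) (.p (nat_lit 594) (.a (.p (nat_lit 561) (.a (.f (nat_lit 563) (nat_lit 527) (nat_lit 3599) (.d (nat_lit 595) (nat_lit 559) (nat_lit 559) (nat_lit 596) (nat_lit 560))) (.a (.f (nat_lit 559) (nat_lit 595) (nat_lit 559) (.f (nat_lit 593) (nat_lit 558) (nat_lit 558) (.f (nat_lit 625) (nat_lit 657) (nat_lit 7696) (.d (nat_lit 496) (nat_lit 464) (nat_lit 4560) (nat_lit 529) (nat_lit 7664)))))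 (.f (nat_lit 563) (nat_lit 527) (nat_lit 3599) (.f (nat_lit 564) (nat_lit 529) (nat_lit 3600) (.d (nat_lit 532) (nat_lit 531) (nat_lit 2576) (nat_lit 533) (nat_lit 2577))))))) (.a s8120 (.a s9471 (.a s4047 (.a (.p (nat_lit 561) (.a (.f (nat_lit 563) (nat_lit 527) (nat_lit 3599) (.d (nat_lit 595) (nat_lit 559) (nat_lit 559) (nat_lit 596) (nat_lit 560))) (.a (.f (nat_lit 559) (nat_lit 595) (nat_lit 559) (.f (nat_lit 593) (nat_lit 558) (nat_lit 558) (.f (nat_lit 625) (nat_lit 657) (nat_lit 7696) (.d (nat_lit 496) (nat_lit 464) (nat_lit 4560) (nat_lit 529) (nat_lit 7664))))) (.f (nat_lit 563) (nat_lit 527) (nat_lit 3599) (.f (nat_lit 592) (nat_lit 591) (nat_lit 1583) (.f (nat_lit 593) (nat_lit 564) (nat_lit 1584) (.d (nat_lit 496) (nat_lit 464) (nat_lit 4560) (nat_lit 625) (nat_lit 4592)))))))) (.a s4563 (.a s9473 (.a (.p (nat_lit 593) (.a (.p (nat_lit 563) (.a (.f (nat_lit 592) (nat_lit 591) (nat_lit 2607) (.d (nat_lit 564) (nat_lit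 565) (nat_lit 1585) (nat_lit 595) (nat_lit 2608))) (.a (.f (nat_lit 561) (nat_lit 527) (nat_lit 3599) (.f (nat_lit 595) (nat_lit 596) (nat_lit 560) (.f (nat_lit 531) (nat_lit 532) (nat_lit 2576) (.d (nat_lit 499) (nat_lit 467) (nat_lit 5586) (nat_lit 626) (nat_lit 5618))))) (.f (nat_lit 561) (nat_lit 527) (nat_lit 3599) (.d (nat_lit 564) (nat_lit 565) (nat_lit 1585) (nat_lit 592) (nat_lit 1584)))))) (.a (.p (nat_lit 592) (.a (.f (nat_lit 591) (nat_lit 563) (nat_lit 2607) (.f (nat_lit 626) (nat_lit 627) (nat_lit 591) (.f (nat_lit 625) (nat_lit 590) (nat_lit 590) (.d (nat_lit 657) (nat_lit 530) (nat_lit 5649) (nat_lit 689) (nat_lit 7728))))) (.a (.f (nat_lit 563) (nat_lit 591) (nat_lit 2607) (.d (nat_lit 564) (nat_lit 565) (nat_lit 1585) (nat_lit 595) (nat_lit 2608))) (.f (nat_lit 625) (nat_lit 496) (nat_lit 4592) (.f (nat_lit 657) (nat_lit 689) (nat_lit 7728) (.d (nat_lit 530) (nat_lit 498) (nat_lit 5617) (nat_lit 626) (nat_lit 5649)))))))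 (.a (.p (nat_lit 561) (.a (.f (nat_lit 563) (nat_lit 527) (nat_lit 3599) (.d (nat_lit 564) (nat_lit 529) (nat_lit 3600) (nat_lit 565) (nat_lit 1585))) (.a (.f (nat_lit 625) (nat_lit 657) (nat_lit 7696) (.d (nat_lit 496) (nat_lit 464) (nat_lit 4560) (nat_lit 529) (nat_lit 7664))) (.f (nat_lit 595) (nat_lit 596) (nat_lit 3632) (.f (nat_lit 563) (nat_lit 527) (nat_lit 3599) (.f (nat_lit 531) (nat_lit 532) (nat_lit 2576) (.d (nat_lit 499) (nat_lit 467) (nat_lit 5586) (nat_lit 626) (nat_lit 5618)))))))) (.a (.p (nat_lit 496) (.a (.f (nat_lit 464) (nat_lit 561) (nat_lit 4560) (.f (nat_lit 433) (nat_lit 465) (nat_lit 6576) (.f (nat_lit 432) (nat_lit 401) (nat_lit 6544) (.d (nat_lit 431) (nat_lit 399) (nat_lit 7567) (nat_lit 463) (nat_lit 7599))))) (.f (nat_lit 625) (nat_lit 592) (nat_lit 4592) (.f (nat_lit 530) (nat_lit 498) (nat_lit 5617) (.d (nat_lit 657) (nat_lit 626) (nat_lit 5649) (nat_lit 689) (nat_lit 6705)))))) (.p (nat_lit 592)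 (.a (.f (nat_lit 563) (nat_lit 591) (nat_lit 2607) (.d (nat_lit 564) (nat_lit 565) (nat_lit 1585) (nat_lit 595) (nat_lit 2608))) (.f (nat_lit 625) (nat_lit 496) (nat_lit 4592) (.d (nat_lit 657) (nat_lit 561) (nat_lit 7696) (nat_lit 689) (nat_lit 7728)))))))))) s9507)))))))))
noncomputable def s9523 : Cert := .r (nat_lit 64836180782635327101742773731878883933028500135655100996324835636715824771957301922231916427704030386313073450013582889165837387910271462164107996909801584275503921517658290257920) (.p (nat_lit 592) (.a s3771 (.a (.p (nat_lit 593) (.a (.f (nat_lit 559) (nat_lit 595) (nat_lit 3631) (.d (nat_lit 558) (nat_lit 557) (nat_lit 557) (nat_lit 591) (nat_lit 3630))) (.a (.f (nat_lit 591) (nat_lit 563) (nat_lit 2607) (.f (nat_lit 626) (nat_lit 627) (nat_lit 591) (.f (nat_lit 625) (nat_lit 590) (nat_lit 590) (.d (nat_lit 657) (nat_lit 530) (nat_lit 5649) (nat_lit 689) (nat_lit 7728))))) (.f (nat_lit 595) (nat_lit 559) (nat_lit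 3631) (.f (nat_lit 563) (nat_lit 564) (nat_lit 2608) (.f (nat_lit 627) (nat_lit 628) (nat_lit 592) (.d (nat_lit 659) (nat_lit 530) (nat_lit 7698) (nat_lit 691) (nat_lit 7730)))))))) (.a (.p (nat_lit 561) (.a (.f (nat_lit 563) (nat_lit 591) (nat_lit 1583) (.d (nat_lit 595) (nat_lit 559) (nat_lit 559) (nat_lit 596) (nat_lit 560))) (.a (.f (nat_lit 595) (nat_lit 559) (nat_lit 559) (.d (nat_lit 596) (nat_lit 593) (nat_lit 3632) (nat_lit 597) (nat_lit 3633))) (.f (nat_lit 563) (nat_lit 591) (nat_lit 1583) (.d (nat_lit 564) (nat_lit 529) (nat_lit 3600) (nat_lit 593) (nat_lit 1584)))))) (.a (.p (nat_lit 496) (.a (.f (nat_lit 465) (nat_lit 497) (nat_lit 6608) (.f (nat_lit 464) (nat_lit 433) (nat_lit 6576) (.d (nat_lit 463) (nat_lit 431) (nat_lit 7599) (nat_lit 495) (nat_lit 7631)))) (.a (.f (nat_lit 593) (nat_lit 625) (nat_lit 4592) (.f (nat_lit 561) (nat_lit 464) (nat_lit 4560) (.d (nat_lit 559) (nat_lit 558) (nat_lit 558) (nat_lit 595)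 (nat_lit 559)))) (.f (nat_lit 593) (nat_lit 625) (nat_lit 4592) (.f (nat_lit 559) (nat_lit 595) (nat_lit 3631) (.d (nat_lit 558) (nat_lit 557) (nat_lit 557) (nat_lit 561) (nat_lit 558))))))) (.p (nat_lit 496) (.a (.f (nat_lit 465) (nat_lit 497) (nat_lit 6608) (.f (nat_lit 464) (nat_lit 433) (nat_lit 6576) (.d (nat_lit 463) (nat_lit 431) (nat_lit 7599) (nat_lit 495) (nat_lit 7631)))) (.a (.f (nat_lit 593) (nat_lit 625) (nat_lit 4592) (.f (nat_lit 561) (nat_lit 464) (nat_lit 4560) (.d (nat_lit 563) (nat_lit 564) (nat_lit 1584) (nat_lit 591) (nat_lit 1583)))) (.f (nat_lit 593) (nat_lit 625) (nat_lit 4592) (.f (nat_lit 563) (nat_lit 591) (nat_lit 2607) (.d (nat_lit 564) (nat_lit 561) (nat_lit 1584) (nat_lit 565) (nat_lit 1585))))))))))))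
noncomputable def s9549 : Cert := .r (nat_lit 64836180782635327101742773732083470846022009002530925352376560583729364899834993471574622138210038748588365609693787269936206397732201879922080501347877662809621758583491323232256) (.p (nat_lit 592) (.a (.f (nat_lit 593) (nat_lit 625) (nat_lit 4592) (.f (nat_lit 561) (nat_lit 464) (nat_lit 4560) (.d (nat_lit 559) (nat_lit 558) (nat_lit 558) (nat_lit 595) (nat_lit 559)))) (.a (.f (nat_lit 593) (nat_lit 625) (nat_lit 4592) (.f (nat_lit 559) (nat_lit 595) (nat_lit 3631) (.d (nat_lit 558) (nat_lit 557) (nat_lit 557) (nat_lit 591) (nat_lit 3630)))) (.a (.f (nat_lit 463) (nat_lit 495) (nat_lit 7631) (.f (nat_lit 464) (nat_lit 431) (nat_lit 7599) (.f (nat_lit 433) (nat_lit 465) (nat_lit 6576) (.f (nat_lit 432) (nat_lit 401) (nat_lit 6544) (.f (nat_lit 561) (nat_lit 529) (nat_lit 4528) (.d (nat_lit 559) (nat_lit 591) (nat_lit 5583) (nat_lit 595) (nat_lit 559))))))) (.a (.f (nat_lit 593) (nat_lit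 625) (nat_lit 4592) (.f (nat_lit 561) (nat_lit 464) (nat_lit 4560) (.f (nat_lit 595) (nat_lit 596) (nat_lit 3632) (.f (nat_lit 627) (nat_lit 628) (nat_lit 592) (.d (nat_lit 591) (nat_lit 590) (nat_lit 2606) (nat_lit 626) (nat_lit 591)))))) (.f (nat_lit 593) (nat_lit 625) (nat_lit 4592) (.f (nat_lit 561) (nat_lit 464) (nat_lit 4560) (.f (nat_lit 559) (nat_lit 558) (nat_lit 558) (.f (nat_lit 591) (nat_lit 590) (nat_lit 1582) (.f (nat_lit 626) (nat_lit 627) (nat_lit 591) (.d (nat_lit 658) (nat_lit 529) (nat_lit 7697) (nat_lit 690) (nat_lit 7729))))))))))))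
noncomputable def s9579 : Cert := .r (nat_lit 64836180782635327101742773732083470846022009002530925352376560583729364899834993471574622138210038748588365609693787269936206397732201879922080501347877662809621758583491323232256) (.p (nat_lit 592) (.a (.f (nat_lit 465) (nat_lit 497) (nat_lit 6608) (.f (nat_lit 464) (nat_lit 433) (nat_lit 6576) (.d (nat_lit 463) (nat_lit 431) (nat_lit 7599) (nat_lit 495) (nat_lit 7631)))) (.a (.f (nat_lit 593) (nat_lit 625) (nat_lit 4592) (.f (nat_lit 561) (nat_lit 464) (nat_lit 4560) (.f (nat_lit 595) (nat_lit 596) (nat_lit 3632) (.f (nat_lit 627) (nat_lit 628) (nat_lit 592) (.d (nat_lit 591) (nat_lit 590) (nat_lit 2606) (nat_lit 626) (nat_lit 591)))))) (.f (nat_lit 495) (nat_lit 463) (nat_lit 7631) (.f (nat_lit 624) (nat_lit 527) (nat_lit 7663) (.d (nat_lit 497) (nat_lit 465) (nat_lit 6608) (nat_lit 529) (nat_lit 6640)))))))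
noncomputable def s9580 : Cert := .r (nat_lit 64836180782635327101742773732083470846022009002530925352376560583729364899834993471574622138210038748588365609693787269936206397732201879922080501347877662809621758583491323232256) (.p (nat_lit 592) (.a (.f (nat_lit 593) (nat_lit 625) (nat_lit 4592) (.f (nat_lit 561) (nat_lit 464) (nat_lit 4560) (.d (nat_lit 559) (nat_lit 558) (nat_lit 558) (nat_lit 595) (nat_lit 559)))) (.a (.f (nat_lit 593) (nat_lit 625) (nat_lit 4592) (.f (nat_lit 559) (nat_lit 595) (nat_lit 3631) (.d (nat_lit 558) (nat_lit 557) (nat_lit 557) (nat_lit 591) (nat_lit 3630)))) (.a (.f (nat_lit 495) (nat_lit 463) (nat_lit 7631) (.f (nat_lit 624) (nat_lit 527) (nat_lit 7663) (.f (nat_lit 529) (nat_lit 497) (nat_lit 6640) (.f (nat_lit 561) (nat_lit 656) (nat_lit 6672) (.f (nat_lit 559) (nat_lit 595) (nat_lit 559) (.d (nat_lit 464) (nat_lit 432) (nat_lit 4528) (nat_lit 591) (nat_lit 5583))))))) (.a (.f (nat_lit 593) (nat_lit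 625) (nat_lit 4592) (.f (nat_lit 561) (nat_lit 464) (nat_lit 4560) (.f (nat_lit 595) (nat_lit 596) (nat_lit 3632) (.f (nat_lit 627) (nat_lit 628) (nat_lit 592) (.d (nat_lit 591) (nat_lit 590) (nat_lit 2606) (nat_lit 626) (nat_lit 591)))))) (.f (nat_lit 593) (nat_lit 625) (nat_lit 4592) (.f (nat_lit 561) (nat_lit 464) (nat_lit 4560) (.f (nat_lit 559) (nat_lit 558) (nat_lit 558) (.f (nat_lit 591) (nat_lit 590) (nat_lit 1582) (.f (nat_lit 626) (nat_lit 627) (nat_lit 591) (.d (nat_lit 658) (nat_lit 529) (nat_lit 7697) (nat_lit 690) (nat_lit 7729))))))))))))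
noncomputable def s9581 : Cert := .r (nat_lit 64836180782635327101742773732083470846022009002530925352376560583729364899834993471574622138210038748588365609693787269936206397732201879922080501347877662809621758583491323232256) (.p (nat_lit 592) (.a (.f (nat_lit 465) (nat_lit 497) (nat_lit 6608) (.f (nat_lit 464) (nat_lit 433) (nat_lit 6576) (.d (nat_lit 463) (nat_lit 431) (nat_lit 7599) (nat_lit 495) (nat_lit 7631)))) (.a (.f (nat_lit 593) (nat_lit 625) (nat_lit 4592) (.f (nat_lit 561) (nat_lit 464) (nat_lit 4560) (.f (nat_lit 559) (nat_lit 558) (nat_lit 558) (.f (nat_lit 591) (nat_lit 590) (nat_lit 1582) (.f (nat_lit 626) (nat_lit 627) (nat_lit 591) (.d (nat_lit 658) (nat_lit 529) (nat_lit 7697) (nat_lit 690) (nat_lit 7729))))))) (.f (nat_lit 495) (nat_lit 463) (nat_lit 7631) (.f (nat_lit 624) (nat_lit 527) (nat_lit 7663) (.d (nat_lit 497) (nat_lit 465) (nat_lit 6608) (nat_lit 529) (nat_lit 6640)))))))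
noncomputable def s9583 : Cert := .r (nat_lit 64836180782635327101742773731878883933028500135655100996324835636715824771957301922231916427704030386313073450013582889165837387910271462164107996909801584275503921517658290257920) (.p (nat_lit 496) (.a (.p (nat_lit 592) (.a (.f (nat_lit 465) (nat_lit 497) (nat_lit 6608) (.f (nat_lit 464) (nat_lit 433) (nat_lit 6576) (.d (nat_lit 463) (nat_lit 431) (nat_lit 7599) (nat_lit 495) (nat_lit 7631)))) (.a (.f (nat_lit 593) (nat_lit 625) (nat_lit 4592) (.f (nat_lit 561) (nat_lit 464) (nat_lit 4560) (.d (nat_lit 559) (nat_lit 558) (nat_lit 558) (nat_lit 595) (nat_lit 559)))) (.f (nat_lit 593) (nat_lit 625) (nat_lit 4592) (.f (nat_lit 559) (nat_lit 595) (nat_lit 3631) (.d (nat_lit 558) (nat_lit 557) (nat_lit 557) (nat_lit 561) (nat_lit 558))))))) (.a (.p (nat_lit 592) (.a (.f (nat_lit 465) (nat_lit 497) (nat_lit 6608) (.f (nat_lit 464) (nat_lit 433) (nat_lit 6576) (.d (nat_lit 463) (nat_lit 431)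 (nat_lit 7599) (nat_lit 495) (nat_lit 7631)))) (.f (nat_lit 593) (nat_lit 625) (nat_lit 4592) (.f (nat_lit 559) (nat_lit 595) (nat_lit 3631) (.d (nat_lit 558) (nat_lit 557) (nat_lit 557) (nat_lit 591) (nat_lit 3630)))))) (.a s9549 (.a (.p (nat_lit 561) (.a (.f (nat_lit 559) (nat_lit 595) (nat_lit 559) (.d (nat_lit 591) (nat_lit 464) (nat_lit 5583) (nat_lit 590) (nat_lit 1582))) (.a (.f (nat_lit 559) (nat_lit 595) (nat_lit 559) (.f (nat_lit 558) (nat_lit 593) (nat_lit 558) (.d (nat_lit 529) (nat_lit 530) (nat_lit 2574) (nat_lit 557) (nat_lit 2573)))) (.f (nat_lit 464) (nat_lit 593) (nat_lit 4560) (.f (nat_lit 433) (nat_lit 465) (nat_lit 6576) (.f (nat_lit 432) (nat_lit 401) (nat_lit 6544) (.d (nat_lit 431) (nat_lit 399) (nat_lit 7567) (nat_lit 463) (nat_lit 7599)))))))) (.a (.p (nat_lit 592) (.a (.f (nat_lit 593) (nat_lit 625) (nat_lit 4592) (.f (nat_lit 559) (nat_lit 595) (nat_lit 3631) (.d (nat_lit 558) (nat_lit 557) (nat_lit 557)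 (nat_lit 561) (nat_lit 558)))) (.a (.f (nat_lit 593) (nat_lit 625) (nat_lit 4592) (.f (nat_lit 559) (nat_lit 595) (nat_lit 3631) (.d (nat_lit 558) (nat_lit 557) (nat_lit 557) (nat_lit 591) (nat_lit 3630)))) (.f (nat_lit 495) (nat_lit 463) (nat_lit 7631) (.f (nat_lit 624) (nat_lit 527) (nat_lit 7663) (.d (nat_lit 497) (nat_lit 465) (nat_lit 6608) (nat_lit 529) (nat_lit 6640))))))) (.a (.p (nat_lit 592) (.a (.f (nat_lit 465) (nat_lit 497) (nat_lit 6608) (.f (nat_lit 464) (nat_lit 433) (nat_lit 6576) (.d (nat_lit 463) (nat_lit 431) (nat_lit 7599) (nat_lit 495) (nat_lit 7631)))) (.a (.f (nat_lit 463) (nat_lit 495) (nat_lit 7631) (.f (nat_lit 464) (nat_lit 431) (nat_lit 7599) (.f (nat_lit 433) (nat_lit 465) (nat_lit 6576) (.f (nat_lit 432) (nat_lit 401) (nat_lit 6544) (.f (nat_lit 561) (nat_lit 529) (nat_lit 4528) (.d (nat_lit 559) (nat_lit 591) (nat_lit 5583) (nat_lit 595) (nat_lit 559))))))) (.a (.f (nat_lit 495) (nat_lit 463) (nat_lit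 7631) (.f (nat_lit 624) (nat_lit 527) (nat_lit 7663) (.d (nat_lit 497) (nat_lit 465) (nat_lit 6608) (nat_lit 529) (nat_lit 6640)))) (.a (.f (nat_lit 495) (nat_lit 463) (nat_lit 7631) (.f (nat_lit 624) (nat_lit 527) (nat_lit 7663) (.f (nat_lit 529) (nat_lit 497) (nat_lit 6640) (.f (nat_lit 561) (nat_lit 656) (nat_lit 6672) (.f (nat_lit 559) (nat_lit 595) (nat_lit 559) (.d (nat_lit 464) (nat_lit 432) (nat_lit 4528) (nat_lit 591) (nat_lit 5583))))))) (.a (.f (nat_lit 465) (nat_lit 497) (nat_lit 6608) (.f (nat_lit 464) (nat_lit 433) (nat_lit 6576) (.f (nat_lit 559) (nat_lit 591) (nat_lit 5583) (.f (nat_lit 431) (nat_lit 463) (nat_lit 7599) (.d (nat_lit 432) (nat_lit 399) (nat_lit 7567) (nat_lit 527) (nat_lit 5551)))))) (.f (nat_lit 497) (nat_lit 465) (nat_lit 6608) (.f (nat_lit 529) (nat_lit 624) (nat_lit 6640) (.f (nat_lit 626) (nat_lit 530) (nat_lit 7665) (.f (nat_lit 561) (nat_lit 658) (nat_lit 7697) (.f (nat_lit 559) (nat_lit 595)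 (nat_lit 559) (.d (nat_lit 464) (nat_lit 432) (nat_lit 4528) (nat_lit 591) (nat_lit 5583))))))))))))) (.a s9579 (.a s9580 (.a s9581 (.p (nat_lit 592) (.a (.f (nat_lit 593) (nat_lit 625) (nat_lit 4592) (.f (nat_lit 561) (nat_lit 464) (nat_lit 4560) (.d (nat_lit 559) (nat_lit 558) (nat_lit 558) (nat_lit 595) (nat_lit 559)))) (.a (.f (nat_lit 593) (nat_lit 625) (nat_lit 4592) (.f (nat_lit 559) (nat_lit 595) (nat_lit 3631) (.d (nat_lit 558) (nat_lit 557) (nat_lit 557) (nat_lit 591) (nat_lit 3630)))) (.a (.f (nat_lit 497) (nat_lit 465) (nat_lit 6608) (.f (nat_lit 529) (nat_lit 624) (nat_lit 6640) (.f (nat_lit 626) (nat_lit 530) (nat_lit 7665) (.f (nat_lit 561) (nat_lit 658) (nat_lit 7697) (.f (nat_lit 559) (nat_lit 595) (nat_lit 559) (.d (nat_lit 464) (nat_lit 432) (nat_lit 4528) (nat_lit 591) (nat_lit 5583))))))) (.a (.f (nat_lit 593) (nat_lit 625) (nat_lit 4592) (.f (nat_lit 561) (nat_lit 464) (nat_lit 4560) (.f (nat_lit 595) (nat_lit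 596) (nat_lit 3632) (.f (nat_lit 627) (nat_lit 628) (nat_lit 592) (.d (nat_lit 591) (nat_lit 590) (nat_lit 2606) (nat_lit 626) (nat_lit 591)))))) (.f (nat_lit 593) (nat_lit 625) (nat_lit 4592) (.f (nat_lit 561) (nat_lit 464) (nat_lit 4560) (.f (nat_lit 559) (nat_lit 558) (nat_lit 558) (.f (nat_lit 591) (nat_lit 590) (nat_lit 1582) (.f (nat_lit 626) (nat_lit 627) (nat_lit 591) (.d (nat_lit 658) (nat_lit 529) (nat_lit 7697) (nat_lit 690) (nat_lit 7729))))))))))))))))))))))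
noncomputable def s9584 : Cert := .r (nat_lit 64836180782635327105257550133865756107099233344784774323566786510389197141567267213334914537603630284999823986032247621314213099342709661479114454765656505907541824002709199519744) (.p (nat_lit 498) (.a (.f (nat_lit 497) (nat_lit 465) (nat_lit 7633) (.f (nat_lit 529) (nat_lit 626) (nat_lit 7665) (.d (nat_lit 499) (nat_lit 467) (nat_lit 6610) (nat_lit 500) (nat_lit 1520)))) (.a (.f (nat_lit 467) (nat_lit 499) (nat_lit 6610) (.f (nat_lit 466) (nat_lit 435) (nat_lit 6578) (.d (nat_lit 465) (nat_lit 433) (nat_lit 7601) (nat_lit 497) (nat_lit 7633)))) (.a (.f (nat_lit 593) (nat_lit 625) (nat_lit 5617) (.f (nat_lit 466) (nat_lit 561) (nat_lit 5585) (.d (nat_lit 467) (nat_lit 435) (nat_lit 6578) (nat_lit 499) (nat_lit 6610)))) (.f (nat_lit 497) (nat_lit 465) (nat_lit 7633) (.f (nat_lit 626) (nat_lit 529) (nat_lit 7665) (.d (nat_lit 625) (nat_lit 593) (nat_lit 5617) (nat_lit 657) (nat_lit 5649))))))))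
noncomputable def s9585 : Cert := .r (nat_lit 64836180782635327105257550133865756107099233344784774323566786510389197141567267213334914537603630284999823986032247621314213099342709661479114454765656505907541824002709199519744) (.p (nat_lit 498) (.a (.f (nat_lit 593) (nat_lit 625) (nat_lit 5617) (.f (nat_lit 561) (nat_lit 466) (nat_lit 5585) (.f (nat_lit 563) (nat_lit 527) (nat_lit 3599) (.d (nat_lit 564) (nat_lit 565) (nat_lit 1585) (nat_lit 592) (nat_lit 1584))))) (.a (.f (nat_lit 467) (nat_lit 499) (nat_lit 6610) (.f (nat_lit 466) (nat_lit 435) (nat_lit 6578) (.d (nat_lit 465) (nat_lit 433) (nat_lit 7601) (nat_lit 497) (nat_lit 7633)))) (.f (nat_lit 593) (nat_lit 625) (nat_lit 5617) (.f (nat_lit 497) (nat_lit 465) (nat_lit 7633) (.f (nat_lit 499) (nat_lit 467) (nat_lit 6610) (.f (nat_lit 496) (nat_lit 527) (nat_lit 1519) (.d (nat_lit 464) (nat_lit 463) (nat_lit 3535) (nat_lit 561) (nat_lit 4560)))))))))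
noncomputable def s9586 : Cert := .r (nat_lit 64836180782635327101742773731878883933028500135655100996324835636715824771957301922231916427704030386313073450013582889165837387910271462164107996909801584275503921517658290257920) (.p (nat_lit 530) (.a (.p (nat_lit 529) (.a (.f (nat_lit 626) (nat_lit 497) (nat_lit 7665) (.f (nat_lit 657) (nat_lit 625) (nat_lit 5649) (.f (nat_lit 658) (nat_lit 689) (nat_lit 5681) (.d (nat_lit 659) (nat_lit 627) (nat_lit 4626) (nat_lit 691) (nat_lit 4658))))) (.f (nat_lit 527) (nat_lit 563) (nat_lit 527) (.f (nat_lit 495) (nat_lit 494) (nat_lit 3566) (.f (nat_lit 559) (nat_lit 558) (nat_lit 1550) (.d (nat_lit 463) (nat_lit 431) (nat_lit 4527) (nat_lit 592) (nat_lit 4559))))))) (.a s9584 (.a s9585 (.a s9506 s4424)))))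
noncomputable def s9587 : Cert := .r (nat_lit 18869812124986400861704490948459027756867024433892689860299374593630612134736493787905533600559981471712008058190913152356962472978375577626770901665172955839509703950336) (.p (nat_lit 594) (.a s4412 (.a s9523 (.a (.p (nat_lit 530) (.a (.p (nat_lit 498) (.a (.f (nat_lit 497) (nat_lit 465) (nat_lit 7633) (.f (nat_lit 529) (nat_lit 626) (nat_lit 7665) (.d (nat_lit 499) (nat_lit 467) (nat_lit 6610) (nat_lit 500) (nat_lit 1520)))) (.f (nat_lit 595) (nat_lit 627) (nat_lit 4594) (.f (nat_lit 563) (nat_lit 466) (nat_lit 4562) (.f (nat_lit 593) (nat_lit 625) (nat_lit 5617) (.d (nat_lit 564) (nat_lit 565) (nat_lit 1585) (nat_lit 592) (nat_lit 2608))))))) (.a (.p (nat_lit 498) (.a (.f (nat_lit 595) (nat_lit 627) (nat_lit 4594) (.f (nat_lit 563) (nat_lit 466) (nat_lit 4562) (.f (nat_lit 593) (nat_lit 625) (nat_lit 5617) (.d (nat_lit 564) (nat_lit 565) (nat_lit 1585) (nat_lit 592) (nat_lit 2608)))))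 (.a (.f (nat_lit 467) (nat_lit 499) (nat_lit 6610) (.f (nat_lit 466) (nat_lit 435) (nat_lit 6578) (.d (nat_lit 465) (nat_lit 433) (nat_lit 7601) (nat_lit 497) (nat_lit 7633)))) (.f (nat_lit 625) (nat_lit 593) (nat_lit 5617) (.f (nat_lit 626) (nat_lit 657) (nat_lit 5649) (.d (nat_lit 627) (nat_lit 595) (nat_lit 4594) (nat_lit 659) (nat_lit 4626))))))) (.a s9470 (.a s3488 (.a (.p (nat_lit 529) (.a (.f (nat_lit 626) (nat_lit 497) (nat_lit 7665) (.f (nat_lit 657) (nat_lit 625) (nat_lit 5649) (.f (nat_lit 658) (nat_lit 689) (nat_lit 5681) (.d (nat_lit 659) (nat_lit 627) (nat_lit 4626) (nat_lit 691) (nat_lit 4658))))) (.f (nat_lit 527) (nat_lit 563) (nat_lit 527) (.f (nat_lit 495) (nat_lit 494) (nat_lit 3566) (.f (nat_lit 559) (nat_lit 558) (nat_lit 1550) (.d (nat_lit 463) (nat_lit 431) (nat_lit 4527) (nat_lit 592) (nat_lit 4559))))))) (.a (.p (nat_lit 498) (.a (.f (nat_lit 497) (nat_lit 465) (nat_lit 7633) (.f (nat_lit 529) (nat_lit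 626) (nat_lit 7665) (.d (nat_lit 499) (nat_lit 467) (nat_lit 6610) (nat_lit 500) (nat_lit 1520)))) (.a (.f (nat_lit 467) (nat_lit 499) (nat_lit 6610) (.f (nat_lit 466) (nat_lit 435) (nat_lit 6578) (.d (nat_lit 465) (nat_lit 433) (nat_lit 7601) (nat_lit 497) (nat_lit 7633)))) (.f (nat_lit 625) (nat_lit 593) (nat_lit 5617) (.f (nat_lit 626) (nat_lit 657) (nat_lit 5649) (.d (nat_lit 627) (nat_lit 595) (nat_lit 4594) (nat_lit 659) (nat_lit 4626))))))) (.a s3499 (.a s3506 (.p (nat_lit 529) (.a (.f (nat_lit 527) (nat_lit 563) (nat_lit 527) (.f (nat_lit 495) (nat_lit 494) (nat_lit 3566) (.f (nat_lit 559) (nat_lit 558) (nat_lit 1550) (.d (nat_lit 463) (nat_lit 431) (nat_lit 4527) (nat_lit 592) (nat_lit 4559))))) (.f (nat_lit 497) (nat_lit 626) (nat_lit 7665) (.d (nat_lit 465) (nat_lit 433) (nat_lit 4529) (nat_lit 498) (nat_lit 7633)))))))))))))) (.a (.p (nat_lit 561) (.a (.f (nat_lit 563) (nat_lit 527) (nat_lit 3599) (.d (nat_lit 595) (nat_lit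 559) (nat_lit 559) (nat_lit 596) (nat_lit 560))) (.a (.f (nat_lit 559) (nat_lit 595) (nat_lit 559) (.f (nat_lit 593) (nat_lit 558) (nat_lit 558) (.f (nat_lit 625) (nat_lit 657) (nat_lit 7696) (.d (nat_lit 496) (nat_lit 464) (nat_lit 4560) (nat_lit 592) (nat_lit 4592))))) (.f (nat_lit 563) (nat_lit 527) (nat_lit 3599) (.f (nat_lit 592) (nat_lit 591) (nat_lit 1583) (.f (nat_lit 593) (nat_lit 564) (nat_lit 1584) (.d (nat_lit 496) (nat_lit 464) (nat_lit 4560) (nat_lit 625) (nat_lit 4592)))))))) (.a s4664 (.a s9583 (.a s3586 s9586))))))))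
noncomputable def s9644 : Cert := .r (nat_lit 18869812124986400861704490948459027756867024433892689860299374593630612134736493787905533600559981471712008058190913152356962472978375577626770901665172955839509703950336) (.p (nat_lit 592) (.a (.p (nat_lit 496) (.a (.f (nat_lit 495) (nat_lit 463) (nat_lit 7631) (.f (nat_lit 624) (nat_lit 527) (nat_lit 7663) (.d (nat_lit 497) (nat_lit 465) (nat_lit 6608) (nat_lit 529) (nat_lit 6640)))) (.f (nat_lit 593) (nat_lit 625) (nat_lit 4592) (.f (nat_lit 561) (nat_lit 464) (nat_lit 4560) (.d (nat_lit 563) (nat_lit 564) (nat_lit 1584) (nat_lit 591) (nat_lit 1583)))))) (.a s7669 (.a (.p (nat_lit 624) (.a (.f (nat_lit 527) (nat_lit 495) (nat_lit 7663) (.f (nat_lit 561) (nat_lit 563) (nat_lit 3599) (.d (nat_lit 529) (nat_lit 497) (nat_lit 6640) (nat_lit 656) (nat_lit 6672)))) (.a (.f (nat_lit 529) (nat_lit 497) (nat_lit 6640) (.f (nat_lit 561) (nat_lit 656) (nat_lit 6672) (.d (nat_lit 563) (nat_lit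 564) (nat_lit 3600) (nat_lit 591) (nat_lit 1583)))) (.a (.f (nat_lit 527) (nat_lit 495) (nat_lit 7663) (.f (nat_lit 656) (nat_lit 559) (nat_lit 7695) (.d (nat_lit 657) (nat_lit 625) (nat_lit 4624) (nat_lit 689) (nat_lit 4656)))) (.p (nat_lit 591) (.a (.f (nat_lit 561) (nat_lit 563) (nat_lit 1583) (.d (nat_lit 590) (nat_lit 559) (nat_lit 1582) (nat_lit 589) (nat_lit 2605))) (.a (.f (nat_lit 625) (nat_lit 657) (nat_lit 4624) (.f (nat_lit 590) (nat_lit 589) (nat_lit 589) (.d (nat_lit 626) (nat_lit 593) (nat_lit 590) (nat_lit 627) (nat_lit 3663)))) (.f (nat_lit 561) (nat_lit 563) (nat_lit 1583) (.f (nat_lit 529) (nat_lit 497) (nat_lit 6640) (.f (nat_lit 625) (nat_lit 657) (nat_lit 4624) (.f (nat_lit 626) (nat_lit 627) (nat_lit 3663) (.d (nat_lit 658) (nat_lit 593) (nat_lit 4625) (nat_lit 594) (nat_lit 7697))))))))))))) (.a s9384 (.a s3374 (.a (.p (nat_lit 496) (.a (.f (nat_lit 495) (nat_lit 463) (nat_lit 7631) (.f (nat_lit 624) (nat_lit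 527) (nat_lit 7663) (.d (nat_lit 497) (nat_lit 465) (nat_lit 6608) (nat_lit 529) (nat_lit 6640)))) (.a (.f (nat_lit 463) (nat_lit 495) (nat_lit 7631) (.f (nat_lit 464) (nat_lit 431) (nat_lit 7599) (.d (nat_lit 465) (nat_lit 433) (nat_lit 6576) (nat_lit 497) (nat_lit 6608)))) (.a (.f (nat_lit 495) (nat_lit 463) (nat_lit 7631) (.f (nat_lit 624) (nat_lit 527) (nat_lit 7663) (.f (nat_lit 657) (nat_lit 625) (nat_lit 4624) (.f (nat_lit 656) (nat_lit 689) (nat_lit 4656) (.f (nat_lit 561) (nat_lit 529) (nat_lit 6672) (.f (nat_lit 591) (nat_lit 563) (nat_lit 1583) (.d (nat_lit 559) (nat_lit 464) (nat_lit 5583) (nat_lit 590) (nat_lit 1582)))))))) (.f (nat_lit 497) (nat_lit 465) (nat_lit 6608) (.f (nat_lit 624) (nat_lit 529) (nat_lit 6640) (.f (nat_lit 657) (nat_lit 625) (nat_lit 4624) (.f (nat_lit 656) (nat_lit 689) (nat_lit 4656) (.f (nat_lit 559) (nat_lit 527) (nat_lit 7695) (.d (nat_lit 591) (nat_lit 464) (nat_lit 5583) (nat_lit 688) (nat_lit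 7727))))))))))) (.a s9417 (.a s9450 (.a (.p (nat_lit 496) (.a (.f (nat_lit 495) (nat_lit 463) (nat_lit 7631) (.f (nat_lit 624) (nat_lit 527) (nat_lit 7663) (.d (nat_lit 497) (nat_lit 465) (nat_lit 6608) (nat_lit 529) (nat_lit 6640)))) (.a (.f (nat_lit 463) (nat_lit 495) (nat_lit 7631) (.f (nat_lit 464) (nat_lit 431) (nat_lit 7599) (.d (nat_lit 465) (nat_lit 433) (nat_lit 6576) (nat_lit 497) (nat_lit 6608)))) (.a (.f (nat_lit 495) (nat_lit 463) (nat_lit 7631) (.f (nat_lit 527) (nat_lit 624) (nat_lit 7663) (.f (nat_lit 561) (nat_lit 563) (nat_lit 3599) (.f (nat_lit 464) (nat_lit 593) (nat_lit 4560) (.d (nat_lit 432) (nat_lit 400) (nat_lit 5519) (nat_lit 529) (nat_lit 4528)))))) (.f (nat_lit 465) (nat_lit 497) (nat_lit 6608) (.f (nat_lit 464) (nat_lit 433) (nat_lit 6576) (.f (nat_lit 561) (nat_lit 593) (nat_lit 4560) (.d (nat_lit 563) (nat_lit 527) (nat_lit 3599) (nat_lit 591) (nat_lit 1583))))))))) s3058))))))))))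
noncomputable def s9655 : Cert := .r (nat_lit 64836180782635327105257550133865756107099233344784774323566786510389197141567267213334914537603630284999823986032247621314213099342709661479114454765656505907541824002709199519744) (.p (nat_lit 498) (.a (.f (nat_lit 467) (nat_lit 499) (nat_lit 6610) (.f (nat_lit 466) (nat_lit 435) (nat_lit 6578) (.d (nat_lit 465) (nat_lit 433) (nat_lit 7601) (nat_lit 497) (nat_lit 7633)))) (.a (.f (nat_lit 499) (nat_lit 467) (nat_lit 6610) (.f (nat_lit 626) (nat_lit 531) (nat_lit 6642) (.d (nat_lit 627) (nat_lit 595) (nat_lit 4594) (nat_lit 659) (nat_lit 4626)))) (.a s6073 (.f (nat_lit 497) (nat_lit 465) (nat_lit 7633) (.f (nat_lit 627) (nat_lit 595) (nat_lit 4594) (.f (nat_lit 626) (nat_lit 659) (nat_lit 4626) (.f (nat_lit 531) (nat_lit 499) (nat_lit 6642) (.f (nat_lit 496) (nat_lit 495) (nat_lit 495) (.f (nat_lit 559) (nat_lit 561) (nat_lit 2575) (.f (nat_lit 464) (nat_lit 591) (nat_lit 5583) (.f (nat_lit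 432) (nat_lit 527) (nat_lit 5551) (.d (nat_lit 431) (nat_lit 399) (nat_lit 7567) (nat_lit 463) (nat_lit 7599))))))))))))))
noncomputable def s9675 : Cert := .r (nat_lit 64836180782635327101742773731878883933028500135655100996324835636715824771957301922231916427704030386313073450013582889165837387910271462164107996909801584275503921517658290257920) (.p (nat_lit 530) (.a (.p (nat_lit 626) (.a (.f (nat_lit 531) (nat_lit 499) (nat_lit 6642) (.f (nat_lit 561) (nat_lit 559) (nat_lit 2575) (.d (nat_lit 532) (nat_lit 533) (nat_lit 1553) (nat_lit 563) (nat_lit 2576)))) (.a (.f (nat_lit 531) (nat_lit 499) (nat_lit 6642) (.f (nat_lit 658) (nat_lit 563) (nat_lit 6674) (.d (nat_lit 657) (nat_lit 625) (nat_lit 5649) (nat_lit 689) (nat_lit 5681)))) (.f (nat_lit 657) (nat_lit 625) (nat_lit 5649) (.f (nat_lit 658) (nat_lit 689) (nat_lit 5681) (.d (nat_lit 659) (nat_lit 627) (nat_lit 4626) (nat_lit 691) (nat_lit 4658))))))) (.a s3449 (.a (.p (nat_lit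 498) (.a (.f (nat_lit 595) (nat_lit 627) (nat_lit 4594) (.f (nat_lit 561) (nat_lit 559) (nat_lit 559) (.d (nat_lit 563) (nat_lit 466) (nat_lit 4562) (nat_lit 596) (nat_lit 560)))) (.a (.f (nat_lit 467) (nat_lit 499) (nat_lit 6610) (.f (nat_lit 466) (nat_lit 435) (nat_lit 6578) (.d (nat_lit 465) (nat_lit 433) (nat_lit 7601) (nat_lit 497) (nat_lit 7633)))) (.f (nat_lit 595) (nat_lit 627) (nat_lit 4594) (.f (nat_lit 561) (nat_lit 559) (nat_lit 559) (.d (nat_lit 596) (nat_lit 563) (nat_lit 560) (nat_lit 597) (nat_lit 3633))))))) (.a s9655 (.a (.p (nat_lit 498) (.a (.f (nat_lit 595) (nat_lit 627) (nat_lit 4594) (.f (nat_lit 561) (nat_lit 559) (nat_lit 559) (.d (nat_lit 563) (nat_lit 466) (nat_lit 4562) (nat_lit 596) (nat_lit 560)))) (.a (.f (nat_lit 595) (nat_lit 627) (nat_lit 4594) (.f (nat_lit 466) (nat_lit 563) (nat_lit 4562) (.d (nat_lit 465) (nat_lit 433) (nat_lit 7601) (nat_lit 497) (nat_lit 7633)))) (.a s6073 (.a (.f (nat_lit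 595) (nat_lit 627) (nat_lit 4594) (.f (nat_lit 561) (nat_lit 559) (nat_lit 559) (.d (nat_lit 596) (nat_lit 563) (nat_lit 560) (nat_lit 597) (nat_lit 3633)))) (.f (nat_lit 465) (nat_lit 497) (nat_lit 7633) (.f (nat_lit 466) (nat_lit 433) (nat_lit 7601) (.f (nat_lit 435) (nat_lit 467) (nat_lit 6578) (.f (nat_lit 434) (nat_lit 403) (nat_lit 6546) (.f (nat_lit 531) (nat_lit 563) (nat_lit 4530) (.f (nat_lit 464) (nat_lit 463) (nat_lit 2479) (.f (nat_lit 559) (nat_lit 561) (nat_lit 2575) (.f (nat_lit 496) (nat_lit 591) (nat_lit 5583) (.f (nat_lit 432) (nat_lit 527) (nat_lit 5551) (.f (nat_lit 399) (nat_lit 431) (nat_lit 7567) (.f (nat_lit 400) (nat_lit 367) (nat_lit 7535) (.d (nat_lit 401) (nat_lit 369) (nat_lit 6512) (nat_lit 402) (nat_lit 399)))))))))))))))))) (.p (nat_lit 498) (.a (.f (nat_lit 467) (nat_lit 499) (nat_lit 6610) (.f (nat_lit 466) (nat_lit 435) (nat_lit 6578) (.d (nat_lit 465) (nat_lit 433) (nat_lit 7601) (nat_lit 497)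 (nat_lit 7633)))) (.a (.f (nat_lit 499) (nat_lit 467) (nat_lit 6610) (.f (nat_lit 531) (nat_lit 626) (nat_lit 6642) (.f (nat_lit 561) (nat_lit 559) (nat_lit 2575) (.d (nat_lit 532) (nat_lit 533) (nat_lit 1553) (nat_lit 563) (nat_lit 2576))))) (.a (.f (nat_lit 465) (nat_lit 497) (nat_lit 7633) (.f (nat_lit 466) (nat_lit 433) (nat_lit 7601) (.f (nat_lit 435) (nat_lit 467) (nat_lit 6578) (.f (nat_lit 434) (nat_lit 403) (nat_lit 6546) (.d (nat_lit 563) (nat_lit 531) (nat_lit 4530) (nat_lit 595) (nat_lit 4562)))))) (.f (nat_lit 465) (nat_lit 497) (nat_lit 7633) (.f (nat_lit 466) (nat_lit 433) (nat_lit 7601) (.f (nat_lit 563) (nat_lit 595) (nat_lit 4562) (.f (nat_lit 531) (nat_lit 434) (nat_lit 4530) (.d (nat_lit 561) (nat_lit 527) (nat_lit 3599) (nat_lit 532) (nat_lit 2576))))))))))))))))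
noncomputable def s9677 : Cert := .r (nat_lit 64836180782635327101742773731878883933028500135655100996324835636715824771957301922231916427704030386313073450013582889165837387910271462164107996909801584275503921517658290257920) (.p (nat_lit 530) (.a s3730 (.a (.p (nat_lit 529) (.a (.f (nat_lit 531) (nat_lit 559) (nat_lit 1551) (.d (nat_lit 499) (nat_lit 500) (nat_lit 2544) (nat_lit 626) (nat_lit 6642))) (.a (.f (nat_lit 626) (nat_lit 497) (nat_lit 7665) (.f (nat_lit 657) (nat_lit 625) (nat_lit 5649) (.f (nat_lit 658) (nat_lit 689) (nat_lit 5681) (.d (nat_lit 659) (nat_lit 627) (nat_lit 4626) (nat_lit 691) (nat_lit 4658))))) (.f (nat_lit 559) (nat_lit 531) (nat_lit 1551) (.d (nat_lit 558) (nat_lit 527) (nat_lit 1550) (nat_lit 557) (nat_lit 2573)))))) (.a s9655 (.a s9472 (.a (.p (nat_lit 498) (.a (.f (nat_lit 497) (nat_lit 465) (nat_lit 7633) (.f (nat_lit 529) (nat_lit 626) (nat_lit 7665) (.d (nat_lit 499) (nat_lit 467) (nat_lit 6610)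 (nat_lit 500) (nat_lit 1520)))) (.a (.f (nat_lit 467) (nat_lit 499) (nat_lit 6610) (.f (nat_lit 466) (nat_lit 435) (nat_lit 6578) (.d (nat_lit 465) (nat_lit 433) (nat_lit 7601) (nat_lit 497) (nat_lit 7633)))) (.a (.f (nat_lit 499) (nat_lit 467) (nat_lit 6610) (.f (nat_lit 529) (nat_lit 527) (nat_lit 2543) (.f (nat_lit 627) (nat_lit 595) (nat_lit 4594) (.f (nat_lit 626) (nat_lit 659) (nat_lit 4626) (.f (nat_lit 561) (nat_lit 658) (nat_lit 7697) (.f (nat_lit 559) (nat_lit 558) (nat_lit 2574) (.f (nat_lit 466) (nat_lit 434) (nat_lit 5553) (.f (nat_lit 465) (nat_lit 433) (nat_lit 7601) (.f (nat_lit 464) (nat_lit 463) (nat_lit 463) (.d (nat_lit 496) (nat_lit 432) (nat_lit 4528) (nat_lit 591) (nat_lit 5583))))))))))) (.a (.f (nat_lit 497) (nat_lit 465) (nat_lit 7633) (.f (nat_lit 529) (nat_lit 626) (nat_lit 7665) (.f (nat_lit 595) (nat_lit 627) (nat_lit 4594) (.f (nat_lit 559) (nat_lit 561) (nat_lit 559) (.d (nat_lit 558) (nat_lit 527)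 (nat_lit 1550) (nat_lit 557) (nat_lit 2573)))))) (.f (nat_lit 499) (nat_lit 467) (nat_lit 6610) (.f (nat_lit 529) (nat_lit 527) (nat_lit 2543) (.d (nat_lit 497) (nat_lit 500) (nat_lit 1520) (nat_lit 626) (nat_lit 7665))))))))) (.a s3982 (.a (.p (nat_lit 529) (.a (.f (nat_lit 626) (nat_lit 497) (nat_lit 7665) (.f (nat_lit 657) (nat_lit 625) (nat_lit 5649) (.f (nat_lit 658) (nat_lit 689) (nat_lit 5681) (.d (nat_lit 659) (nat_lit 627) (nat_lit 4626) (nat_lit 691) (nat_lit 4658))))) (.f (nat_lit 559) (nat_lit 531) (nat_lit 1551) (.d (nat_lit 558) (nat_lit 527) (nat_lit 1550) (nat_lit 557) (nat_lit 2573))))) (.p (nat_lit 498) (.a (.f (nat_lit 467) (nat_lit 499) (nat_lit 6610) (.f (nat_lit 466) (nat_lit 435) (nat_lit 6578) (.d (nat_lit 465) (nat_lit 433) (nat_lit 7601) (nat_lit 497) (nat_lit 7633)))) (.a (.f (nat_lit 499) (nat_lit 467) (nat_lit 6610) (.f (nat_lit 529) (nat_lit 527) (nat_lit 2543) (.d (nat_lit 500) (nat_lit 501) (nat_lit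 1521) (nat_lit 531) (nat_lit 2544)))) (.f (nat_lit 595) (nat_lit 627) (nat_lit 4594) (.f (nat_lit 559) (nat_lit 561) (nat_lit 559) (.f (nat_lit 529) (nat_lit 531) (nat_lit 1551) (.d (nat_lit 558) (nat_lit 527) (nat_lit 1550) (nat_lit 557) (nat_lit 2573))))))))))))))))
noncomputable def s9678 : Cert := .r (nat_lit 18869812124986400861704490948459027756867024433892689860299374593630612134736493787905533600559981471712008058190913152356962472978375577626770901665172955839509703950336) (.p (nat_lit 594) (.a (.p (nat_lit 561) (.a (.f (nat_lit 563) (nat_lit 527) (nat_lit 3599) (.d (nat_lit 595) (nat_lit 559) (nat_lit 559) (nat_lit 596) (nat_lit 560))) (.a (.f (nat_lit 559) (nat_lit 595) (nat_lit 559) (.f (nat_lit 530) (nat_lit 531) (nat_lit 2575) (.f (nat_lit 529) (nat_lit 558) (nat_lit 2574) (.d (nat_lit 497) (nat_lit 465) (nat_lit 4561) (nat_lit 626) (nat_lit 7665))))) (.f (nat_lit 563) (nat_lit 527) (nat_lit 3599) (.f (nat_lit 564)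 (nat_lit 529) (nat_lit 3600) (.d (nat_lit 532) (nat_lit 531) (nat_lit 2576) (nat_lit 533) (nat_lit 2577))))))) (.a s3739 (.a s3975 (.a s9675 (.a s4563 (.a s4664 (.a s9677 (.a s4425 s4742)))))))))
noncomputable def s9721 : Cert := .r (nat_lit 64836180782635327101742773732083470846022009002530925352376560583729364899834993471574622138210038748588365609693787269936206397732201879922080501347877662809621758583491323232256) (.p (nat_lit 592) (.a (.f (nat_lit 593) (nat_lit 625) (nat_lit 4592) (.f (nat_lit 561) (nat_lit 464) (nat_lit 4560) (.d (nat_lit 559) (nat_lit 558) (nat_lit 558) (nat_lit 595) (nat_lit 559)))) (.a (.f (nat_lit 593) (nat_lit 625) (nat_lit 4592) (.f (nat_lit 559) (nat_lit 595) (nat_lit 3631) (.d (nat_lit 558) (nat_lit 557) (nat_lit 557) (nat_lit 591) (nat_lit 3630)))) (.a (.f (nat_lit 465) (nat_lit 497) (nat_lit 6608) (.f (nat_lit 464) (nat_lit 433) (nat_lit 6576) (.f (nat_lit 559) (nat_lit 591) (nat_lit 5583) (.f (nat_lit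 527) (nat_lit 432) (nat_lit 5551) (.d (nat_lit 624) (nat_lit 495) (nat_lit 7663) (nat_lit 656) (nat_lit 7695)))))) (.f (nat_lit 593) (nat_lit 625) (nat_lit 4592) (.f (nat_lit 561) (nat_lit 464) (nat_lit 4560) (.f (nat_lit 595) (nat_lit 596) (nat_lit 3632) (.f (nat_lit 627) (nat_lit 628) (nat_lit 592) (.d (nat_lit 591) (nat_lit 590) (nat_lit 2606) (nat_lit 626) (nat_lit 591))))))))))
noncomputable def s9728 : Cert := .r (nat_lit 64836180782635327101742773731878883933028500135655100996324835636715824771957301922231916427704030386313073450013582889165837387910271462164107996909801584275503921517658290257920) (.p (nat_lit 496) (.a (.p (nat_lit 592) (.a (.f (nat_lit 465) (nat_lit 497) (nat_lit 6608) (.f (nat_lit 464) (nat_lit 433) (nat_lit 6576) (.d (nat_lit 463) (nat_lit 431) (nat_lit 7599) (nat_lit 495) (nat_lit 7631)))) (.a (.f (nat_lit 593) (nat_lit 625) (nat_lit 4592) (.f (nat_lit 561) (nat_lit 464) (nat_lit 4560) (.d (nat_lit 559)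 (nat_lit 558) (nat_lit 558) (nat_lit 595) (nat_lit 559)))) (.f (nat_lit 593) (nat_lit 625) (nat_lit 4592) (.f (nat_lit 559) (nat_lit 595) (nat_lit 3631) (.d (nat_lit 558) (nat_lit 557) (nat_lit 557) (nat_lit 561) (nat_lit 558))))))) (.a (.p (nat_lit 592) (.a (.f (nat_lit 465) (nat_lit 497) (nat_lit 6608) (.f (nat_lit 464) (nat_lit 433) (nat_lit 6576) (.d (nat_lit 463) (nat_lit 431) (nat_lit 7599) (nat_lit 495) (nat_lit 7631)))) (.f (nat_lit 593) (nat_lit 625) (nat_lit 4592) (.f (nat_lit 559) (nat_lit 595) (nat_lit 3631) (.d (nat_lit 558) (nat_lit 557) (nat_lit 557) (nat_lit 591) (nat_lit 3630)))))) (.a s9549 (.a (.p (nat_lit 561) (.a (.f (nat_lit 559) (nat_lit 595) (nat_lit 559) (.d (nat_lit 591) (nat_lit 464) (nat_lit 5583) (nat_lit 590) (nat_lit 1582))) (.a (.f (nat_lit 559) (nat_lit 595) (nat_lit 559) (.f (nat_lit 558) (nat_lit 593) (nat_lit 558) (.d (nat_lit 590) (nat_lit 589) (nat_lit 1581) (nat_lit 591) (nat_lit 1582)))) (.f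 (nat_lit 464) (nat_lit 593) (nat_lit 4560) (.f (nat_lit 433) (nat_lit 465) (nat_lit 6576) (.f (nat_lit 432) (nat_lit 401) (nat_lit 6544) (.d (nat_lit 431) (nat_lit 399) (nat_lit 7567) (nat_lit 463) (nat_lit 7599)))))))) (.a (.p (nat_lit 592) (.a (.f (nat_lit 593) (nat_lit 625) (nat_lit 4592) (.f (nat_lit 559) (nat_lit 595) (nat_lit 3631) (.d (nat_lit 558) (nat_lit 557) (nat_lit 557) (nat_lit 561) (nat_lit 558)))) (.a (.f (nat_lit 593) (nat_lit 625) (nat_lit 4592) (.f (nat_lit 559) (nat_lit 595) (nat_lit 3631) (.d (nat_lit 558) (nat_lit 557) (nat_lit 557) (nat_lit 591) (nat_lit 3630)))) (.f (nat_lit 495) (nat_lit 463) (nat_lit 7631) (.f (nat_lit 624) (nat_lit 527) (nat_lit 7663) (.d (nat_lit 497) (nat_lit 465) (nat_lit 6608) (nat_lit 529) (nat_lit 6640))))))) (.a (.p (nat_lit 592) (.a (.f (nat_lit 465) (nat_lit 497) (nat_lit 6608) (.f (nat_lit 464) (nat_lit 433) (nat_lit 6576) (.d (nat_lit 463) (nat_lit 431) (nat_lit 7599) (nat_lit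 495) (nat_lit 7631)))) (.a (.f (nat_lit 463) (nat_lit 495) (nat_lit 7631) (.f (nat_lit 464) (nat_lit 431) (nat_lit 7599) (.f (nat_lit 433) (nat_lit 465) (nat_lit 6576) (.f (nat_lit 432) (nat_lit 401) (nat_lit 6544) (.f (nat_lit 561) (nat_lit 529) (nat_lit 4528) (.d (nat_lit 559) (nat_lit 591) (nat_lit 5583) (nat_lit 595) (nat_lit 559))))))) (.a (.f (nat_lit 495) (nat_lit 463) (nat_lit 7631) (.f (nat_lit 624) (nat_lit 527) (nat_lit 7663) (.d (nat_lit 497) (nat_lit 465) (nat_lit 6608) (nat_lit 529) (nat_lit 6640)))) (.a (.f (nat_lit 495) (nat_lit 463) (nat_lit 7631) (.f (nat_lit 624) (nat_lit 527) (nat_lit 7663) (.f (nat_lit 529) (nat_lit 497) (nat_lit 6640) (.f (nat_lit 561) (nat_lit 656) (nat_lit 6672) (.f (nat_lit 559) (nat_lit 595) (nat_lit 559) (.d (nat_lit 464) (nat_lit 432) (nat_lit 4528) (nat_lit 591) (nat_lit 5583))))))) (.a (.f (nat_lit 465) (nat_lit 497) (nat_lit 6608) (.f (nat_lit 464) (nat_lit 433) (nat_lit 6576) (.f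 (nat_lit 559) (nat_lit 591) (nat_lit 5583) (.f (nat_lit 431) (nat_lit 463) (nat_lit 7599) (.d (nat_lit 432) (nat_lit 399) (nat_lit 7567) (nat_lit 527) (nat_lit 5551)))))) (.f (nat_lit 465) (nat_lit 497) (nat_lit 6608) (.f (nat_lit 464) (nat_lit 433) (nat_lit 6576) (.f (nat_lit 559) (nat_lit 591) (nat_lit 5583) (.f (nat_lit 527) (nat_lit 432) (nat_lit 5551) (.d (nat_lit 624) (nat_lit 495) (nat_lit 7663) (nat_lit 656) (nat_lit 7695)))))))))))) (.a s9579 (.a s9580 (.a s9581 s9721))))))))))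
noncomputable def s9729 : Cert := .r (nat_lit 64836180782635327101742773731878883933028500135655100996324835636715824771957301922231916427704030386313073450013582889165837387910271462164107996909801584275503921517658290257920) (.p (nat_lit 530) (.a s3695 (.a (.p (nat_lit 498) (.a (.f (nat_lit 593) (nat_lit 625) (nat_lit 5617) (.f (nat_lit 561) (nat_lit 466) (nat_lit 5585) (.d (nat_lit 559) (nat_lit 531) (nat_lit 2575) (nat_lit 558) (nat_lit 558)))) (.a (.f (nat_lit 467) (nat_lit 499) (nat_lit 6610) (.f (nat_lit 466) (nat_lit 435) (nat_lit 6578) (.d (nat_lit 465) (nat_lit 433) (nat_lit 7601) (nat_lit 497) (nat_lit 7633)))) (.f (nat_lit 625) (nat_lit 593) (nat_lit 5617) (.f (nat_lit 626) (nat_lit 657) (nat_lit 5649) (.d (nat_lit 499) (nat_lit 467) (nat_lit 6610) (nat_lit 531) (nat_lit 6642))))))) (.a s3813 (.a s9584 (.a s3730 (.a (.p (nat_lit 498) (.a (.f (nat_lit 593) (nat_lit 625) (nat_lit 5617) (.f (nat_lit 561) (nat_lit 466) (nat_lit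 5585) (.d (nat_lit 559) (nat_lit 531) (nat_lit 2575) (nat_lit 558) (nat_lit 558)))) (.a (.f (nat_lit 497) (nat_lit 465) (nat_lit 7633) (.f (nat_lit 626) (nat_lit 529) (nat_lit 7665) (.d (nat_lit 625) (nat_lit 593) (nat_lit 5617) (nat_lit 657) (nat_lit 5649)))) (.f (nat_lit 497) (nat_lit 465) (nat_lit 7633) (.f (nat_lit 529) (nat_lit 626) (nat_lit 7665) (.f (nat_lit 559) (nat_lit 531) (nat_lit 1551) (.d (nat_lit 558) (nat_lit 557) (nat_lit 2573) (nat_lit 561) (nat_lit 2574)))))))) (.p (nat_lit 498) (.a (.f (nat_lit 593) (nat_lit 625) (nat_lit 5617) (.f (nat_lit 561) (nat_lit 466) (nat_lit 5585) (.d (nat_lit 559) (nat_lit 531) (nat_lit 2575) (nat_lit 558) (nat_lit 558)))) (.a (.f (nat_lit 467) (nat_lit 499) (nat_lit 6610) (.f (nat_lit 466) (nat_lit 435) (nat_lit 6578) (.d (nat_lit 465) (nat_lit 433) (nat_lit 7601) (nat_lit 497) (nat_lit 7633)))) (.f (nat_lit 499) (nat_lit 467) (nat_lit 6610) (.f (nat_lit 529) (nat_lit 527) (nat_lit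 2543) (.d (nat_lit 500) (nat_lit 501) (nat_lit 1521) (nat_lit 531) (nat_lit 2544))))))))))))))
noncomputable def s9763 : Cert := .r (nat_lit 18869812124986400862727425513426572091246146214151314595367075233019069881450022340435575411936442270113029962042758201466614561768238099817151294335762141168674868822016) (.p (nat_lit 464) (.a (.f (nat_lit 463) (nat_lit 431) (nat_lit 7599) (.f (nat_lit 465) (nat_lit 433) (nat_lit 6576) (.f (nat_lit 466) (nat_lit 499) (nat_lit 463) (.d (nat_lit 495) (nat_lit 467) (nat_lit 1487) (nat_lit 494) (nat_lit 1486))))) (.a (.f (nat_lit 431) (nat_lit 463) (nat_lit 7599) (.f (nat_lit 432) (nat_lit 399) (nat_lit 7567) (.d (nat_lit 433) (nat_lit 401) (nat_lit 6544) (nat_lit 465) (nat_lit 6576)))) (.a (.f (nat_lit 463) (nat_lit 431) (nat_lit 7599) (.f (nat_lit 497) (nat_lit 499) (nat_lit 3535) (.d (nat_lit 462) (nat_lit 461) (nat_lit 461) (nat_lit 495) (nat_lit 3534)))) (.f (nat_lit 465) (nat_lit 433) (nat_lit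 6576) (.f (nat_lit 497) (nat_lit 592) (nat_lit 6608) (.f (nat_lit 499) (nat_lit 500) (nat_lit 3536) (.f (nat_lit 467) (nat_lit 468) (nat_lit 2512) (.f (nat_lit 466) (nat_lit 495) (nat_lit 2511) (.f (nat_lit 531) (nat_lit 532) (nat_lit 496) (.d (nat_lit 434) (nat_lit 402) (nat_lit 4498) (nat_lit 563) (nat_lit 7602))))))))))))
noncomputable def s9864 : Cert := .r (nat_lit 16209045209811190869175494080066436846575431319067340998707626092457647649723050778981172289879191246099423105008219289016120250533011391306698700199832886454227045522378982424576) (.p (nat_lit 496) (.a (.f (nat_lit 593) (nat_lit 625) (nat_lit 4592) (.f (nat_lit 561) (nat_lit 464) (nat_lit 4560) (.d (nat_lit 563) (nat_lit 527) (nat_lit 3599) (nat_lit 564) (nat_lit 1584)))) (.a (.f (nat_lit 593) (nat_lit 625) (nat_lit 4592) (.f (nat_lit 561) (nat_lit 464) (nat_lit 4560) (.d (nat_lit 563) (nat_lit 564) (nat_lit 1584) (nat_lit 591) (nat_lit 1583)))) (.a (.f (nat_lit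 495) (nat_lit 463) (nat_lit 7631) (.f (nat_lit 624) (nat_lit 527) (nat_lit 7663) (.d (nat_lit 625) (nat_lit 593) (nat_lit 4592) (nat_lit 657) (nat_lit 4624)))) (.a (.f (nat_lit 495) (nat_lit 463) (nat_lit 7631) (.f (nat_lit 624) (nat_lit 527) (nat_lit 7663) (.f (nat_lit 657) (nat_lit 625) (nat_lit 4624) (.f (nat_lit 656) (nat_lit 689) (nat_lit 4656) (.f (nat_lit 561) (nat_lit 529) (nat_lit 6672) (.f (nat_lit 591) (nat_lit 563) (nat_lit 1583) (.d (nat_lit 559) (nat_lit 464) (nat_lit 5583) (nat_lit 590) (nat_lit 1582)))))))) (.f (nat_lit 495) (nat_lit 463) (nat_lit 7631) (.f (nat_lit 527) (nat_lit 624) (nat_lit 7663) (.f (nat_lit 561) (nat_lit 563) (nat_lit 3599) (.f (nat_lit 464) (nat_lit 593) (nat_lit 4560) (.d (nat_lit 432) (nat_lit 400) (nat_lit 5519) (nat_lit 529) (nat_lit 4528)))))))))))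
noncomputable def s9873 : Cert := .r (nat_lit 16209045209811190869175494080066436846575431319067340998707626092457647649723050778981172289879191246099423105008219289016120250533011391306698700199832886454227045522378982424576) (.p (nat_lit 496) (.a (.f (nat_lit 593) (nat_lit 625) (nat_lit 4592) (.f (nat_lit 561) (nat_lit 464) (nat_lit 4560) (.d (nat_lit 563) (nat_lit 564) (nat_lit 1584) (nat_lit 591) (nat_lit 1583)))) (.a (.f (nat_lit 497) (nat_lit 465) (nat_lit 6608) (.f (nat_lit 463) (nat_lit 495) (nat_lit 7631) (.d (nat_lit 464) (nat_lit 431) (nat_lit 7599) (nat_lit 499) (nat_lit 3535)))) (.f (nat_lit 497) (nat_lit 465) (nat_lit 6608) (.f (nat_lit 529) (nat_lit 624) (nat_lit 6640) (.f (nat_lit 593) (nat_lit 625) (nat_lit 4592) (.f (nat_lit 561) (nat_lit 466) (nat_lit 6609) (.d (nat_lit 563) (nat_lit 564) (nat_lit 1584) (nat_lit 591) (nat_lit 1583)))))))))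
noncomputable def s9887 : Cert := .r (nat_lit 16209045209811190869175494080066436846575431319067340998707626092457647649723050778981172289879191246099423105008219289016120250533011391306698700199832886454227045522378982424576) (.p (nat_lit 624) (.a (.f (nat_lit 657) (nat_lit 625) (nat_lit 4624) (.f (nat_lit 656) (nat_lit 689) (nat_lit 4656) (.f (nat_lit 561) (nat_lit 529) (nat_lit 6672) (.f (nat_lit 593) (nat_lit 688) (nat_lit 6704) (.d (nat_lit 563) (nat_lit 564) (nat_lit 1584) (nat_lit 591) (nat_lit 1583)))))) (.a (.f (nat_lit 529) (nat_lit 497) (nat_lit 6640) (.f (nat_lit 527) (nat_lit 495) (nat_lit 7663) (.d (nat_lit 530) (nat_lit 499) (nat_lit 2543) (nat_lit 563) (nat_lit 527)))) (.f (nat_lit 527) (nat_lit 495) (nat_lit 7663) (.f (nat_lit 656) (nat_lit 559) (nat_lit 7695) (.f (nat_lit 687) (nat_lit 655) (nat_lit 5679) (.f (nat_lit 688) (nat_lit 719) (nat_lit 5711) (.d (nat_lit 689) (nat_lit 657) (nat_lit 4656) (nat_lit 721)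 (nat_lit 4688)))))))))
noncomputable def s9898 : Cert := .r (nat_lit 16209045209811190869175494080066436846575431319067340998707626092457647649723050778981172289879191246099423105008219289016120250533011391306698700199832886454227045522378982424576) (.p (nat_lit 496) (.a (.f (nat_lit 463) (nat_lit 495) (nat_lit 7631) (.f (nat_lit 464) (nat_lit 431) (nat_lit 7599) (.f (nat_lit 465) (nat_lit 433) (nat_lit 6576) (.f (nat_lit 466) (nat_lit 499) (nat_lit 463) (.f (nat_lit 435) (nat_lit 434) (nat_lit 2479) (.d (nat_lit 467) (nat_lit 436) (nat_lit 2480) (nat_lit 530) (nat_lit 6578))))))) (.a (.f (nat_lit 495) (nat_lit 463) (nat_lit 7631) (.f (nat_lit 624) (nat_lit 527) (nat_lit 7663) (.d (nat_lit 625) (nat_lit 593) (nat_lit 4592) (nat_lit 657) (nat_lit 4624)))) (.f (nat_lit 497) (nat_lit 465) (nat_lit 6608) (.f (nat_lit 499) (nat_lit 527) (nat_lit 1519) (.f (nat_lit 500) (nat_lit 529) (nat_lit 1520) (.d (nat_lit 468) (nat_lit 467) (nat_lit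 2512) (nat_lit 469) (nat_lit 2513))))))))
noncomputable def s9899 : Cert := .r (nat_lit 16209045209811190869175494080066436846575431319067340998707626092457647649723050778981172289879191246099423105008219289016120250533011391306698700199832886454227045522378982424576) (.p (nat_lit 496) (.a (.f (nat_lit 463) (nat_lit 495) (nat_lit 7631) (.f (nat_lit 464) (nat_lit 431) (nat_lit 7599) (.f (nat_lit 465) (nat_lit 433) (nat_lit 6576) (.f (nat_lit 466) (nat_lit 499) (nat_lit 463) (.f (nat_lit 435) (nat_lit 434) (nat_lit 2479) (.d (nat_lit 467) (nat_lit 436) (nat_lit 2480) (nat_lit 530) (nat_lit 6578))))))) (.a (.f (nat_lit 495) (nat_lit 463) (nat_lit 7631) (.f (nat_lit 624) (nat_lit 527) (nat_lit 7663) (.d (nat_lit 625) (nat_lit 593) (nat_lit 4592) (nat_lit 657) (nat_lit 4624)))) (.f (nat_lit 593) (nat_lit 625) (nat_lit 4592) (.f (nat_lit 561) (nat_lit 464) (nat_lit 4560) (.d (nat_lit 563) (nat_lit 527) (nat_lit 3599) (nat_lit 564) (nat_lit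 1584)))))))
noncomputable def s9914 : Cert := .r (nat_lit 16209045209811190869175494080066436846575431319067340998707626092457647649723050778981172289879191246099423105008219289016120250533011391306698700199832886454227045522378982424576) (.p (nat_lit 496) (.a (.f (nat_lit 463) (nat_lit 495) (nat_lit 7631) (.f (nat_lit 464) (nat_lit 431) (nat_lit 7599) (.f (nat_lit 465) (nat_lit 433) (nat_lit 6576) (.f (nat_lit 466) (nat_lit 499) (nat_lit 463) (.f (nat_lit 435) (nat_lit 434) (nat_lit 2479) (.d (nat_lit 467) (nat_lit 436) (nat_lit 2480) (nat_lit 530) (nat_lit 6578))))))) (.a (.f (nat_lit 497) (nat_lit 465) (nat_lit 6608) (.f (nat_lit 495) (nat_lit 463) (nat_lit 7631) (.f (nat_lit 529) (nat_lit 624) (nat_lit 6640) (.d (nat_lit 494) (nat_lit 493) (nat_lit 493) (nat_lit 530) (nat_lit 494))))) (.a (.f (nat_lit 463) (nat_lit 495) (nat_lit 7631) (.f (nat_lit 464) (nat_lit 431) (nat_lit 7599) (.f (nat_lit 497) (nat_lit 499) (nat_lit 3535)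 (.f (nat_lit 529) (nat_lit 624) (nat_lit 6640) (.d (nat_lit 432) (nat_lit 400) (nat_lit 4496) (nat_lit 561) (nat_lit 4528)))))) (.f (nat_lit 497) (nat_lit 465) (nat_lit 6608) (.f (nat_lit 529) (nat_lit 624) (nat_lit 6640) (.f (nat_lit 499) (nat_lit 500) (nat_lit 1520) (.f (nat_lit 531) (nat_lit 532) (nat_lit 496) (.f (nat_lit 530) (nat_lit 559) (nat_lit 1551) (.d (nat_lit 467) (nat_lit 435) (nat_lit 5554) (nat_lit 468) (nat_lit 2512)))))))))))
noncomputable def s9918 : Cert := .r (nat_lit 16209045209811190869175494080066436846575431319067340998707626092457647649723050778981172289879191246099423105008219289016120250533011391306698700199832886454227045522378982424576) (.p (nat_lit 624) (.a (.f (nat_lit 529) (nat_lit 497) (nat_lit 6640) (.f (nat_lit 527) (nat_lit 495) (nat_lit 7663) (.d (nat_lit 530) (nat_lit 499) (nat_lit 2543) (nat_lit 563) (nat_lit 527)))) (.a (.f (nat_lit 529) (nat_lit 497) (nat_lit 6640) (.f (nat_lit 561) (nat_lit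 656) (nat_lit 6672) (.d (nat_lit 563) (nat_lit 564) (nat_lit 3600) (nat_lit 591) (nat_lit 1583)))) (.f (nat_lit 527) (nat_lit 495) (nat_lit 7663) (.f (nat_lit 656) (nat_lit 559) (nat_lit 7695) (.f (nat_lit 687) (nat_lit 655) (nat_lit 5679) (.f (nat_lit 688) (nat_lit 719) (nat_lit 5711) (.d (nat_lit 689) (nat_lit 657) (nat_lit 4656) (nat_lit 721) (nat_lit 4688)))))))))
noncomputable def s9926 : Cert := .r (nat_lit 16209045209811190869175494080066436846575431319067340998707626092457647649723050778981172289879191246099423105008219289016120250533011391306698700199832886454227045522378982424576) (.p (nat_lit 496) (.a (.f (nat_lit 463) (nat_lit 495) (nat_lit 7631) (.f (nat_lit 464) (nat_lit 431) (nat_lit 7599) (.f (nat_lit 465) (nat_lit 433) (nat_lit 6576) (.f (nat_lit 466) (nat_lit 499) (nat_lit 463) (.f (nat_lit 435) (nat_lit 434) (nat_lit 2479) (.d (nat_lit 467) (nat_lit 436) (nat_lit 2480) (nat_lit 530) (nat_lit 6578))))))) (.a (.f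 (nat_lit 497) (nat_lit 465) (nat_lit 6608) (.f (nat_lit 495) (nat_lit 463) (nat_lit 7631) (.d (nat_lit 527) (nat_lit 499) (nat_lit 1519) (nat_lit 624) (nat_lit 7663)))) (.a (.f (nat_lit 495) (nat_lit 463) (nat_lit 7631) (.f (nat_lit 497) (nat_lit 465) (nat_lit 6608) (.f (nat_lit 527) (nat_lit 624) (nat_lit 7663) (.f (nat_lit 563) (nat_lit 561) (nat_lit 3599) (.f (nat_lit 530) (nat_lit 531) (nat_lit 495) (.d (nat_lit 466) (nat_lit 467) (nat_lit 2511) (nat_lit 595) (nat_lit 4562))))))) (.a (.f (nat_lit 495) (nat_lit 463) (nat_lit 7631) (.f (nat_lit 527) (nat_lit 624) (nat_lit 7663) (.f (nat_lit 497) (nat_lit 499) (nat_lit 1519) (.f (nat_lit 563) (nat_lit 561) (nat_lit 3599) (.f (nat_lit 530) (nat_lit 531) (nat_lit 495) (.d (nat_lit 466) (nat_lit 467) (nat_lit 2511) (nat_lit 595) (nat_lit 4562))))))) (.a (.f (nat_lit 465) (nat_lit 497) (nat_lit 6608) (.f (nat_lit 464) (nat_lit 433) (nat_lit 6576) (.f (nat_lit 463) (nat_lit 431) (nat_lit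 7599) (.f (nat_lit 466) (nat_lit 499) (nat_lit 463) (.f (nat_lit 435) (nat_lit 434) (nat_lit 2479) (.d (nat_lit 467) (nat_lit 436) (nat_lit 2480) (nat_lit 530) (nat_lit 6578))))))) (.f (nat_lit 497) (nat_lit 465) (nat_lit 6608) (.f (nat_lit 499) (nat_lit 527) (nat_lit 1519) (.f (nat_lit 467) (nat_lit 468) (nat_lit 2512) (.f (nat_lit 531) (nat_lit 532) (nat_lit 496) (.d (nat_lit 495) (nat_lit 466) (nat_lit 2511) (nat_lit 530) (nat_lit 495))))))))))))
noncomputable def s9947 : Cert := .r (nat_lit 16209045209811190869175494080066436846575431319067340998707626092457647649723050778981172289879191246099423105008219289016120250533011391306698700199832886454227045522378982424576) (.p (nat_lit 496) (.a (.f (nat_lit 463) (nat_lit 495) (nat_lit 7631) (.f (nat_lit 464) (nat_lit 431) (nat_lit 7599) (.f (nat_lit 465) (nat_lit 433) (nat_lit 6576) (.f (nat_lit 466) (nat_lit 499) (nat_lit 463) (.f (nat_lit 435) (nat_lit 434) (nat_lit 2479) (.d (nat_lit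 467) (nat_lit 436) (nat_lit 2480) (nat_lit 530) (nat_lit 6578))))))) (.a (.f (nat_lit 497) (nat_lit 465) (nat_lit 6608) (.f (nat_lit 495) (nat_lit 463) (nat_lit 7631) (.f (nat_lit 530) (nat_lit 531) (nat_lit 495) (.f (nat_lit 529) (nat_lit 494) (nat_lit 494) (.d (nat_lit 499) (nat_lit 500) (nat_lit 1520) (nat_lit 527) (nat_lit 1519)))))) (.a (.f (nat_lit 497) (nat_lit 465) (nat_lit 6608) (.f (nat_lit 463) (nat_lit 495) (nat_lit 7631) (.d (nat_lit 464) (nat_lit 431) (nat_lit 7599) (nat_lit 499) (nat_lit 3535)))) (.a (.f (nat_lit 465) (nat_lit 497) (nat_lit 6608) (.f (nat_lit 464) (nat_lit 433) (nat_lit 6576) (.d (nat_lit 463) (nat_lit 431) (nat_lit 7599) (nat_lit 495) (nat_lit 7631)))) (.a (.f (nat_lit 463) (nat_lit 495) (nat_lit 7631) (.f (nat_lit 464) (nat_lit 431) (nat_lit 7599) (.f (nat_lit 497) (nat_lit 499) (nat_lit 3535) (.f (nat_lit 559) (nat_lit 591) (nat_lit 5583) (.f (nat_lit 432) (nat_lit 527) (nat_lit 5551) (.f (nat_lit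 400) (nat_lit 529) (nat_lit 4496) (.d (nat_lit 401) (nat_lit 369) (nat_lit 6512) (nat_lit 433) (nat_lit 6544)))))))) (.f (nat_lit 497) (nat_lit 465) (nat_lit 6608) (.f (nat_lit 499) (nat_lit 527) (nat_lit 1519) (.f (nat_lit 500) (nat_lit 529) (nat_lit 1520) (.d (nat_lit 468) (nat_lit 467) (nat_lit 2512) (nat_lit 469) (nat_lit 2513)))))))))))
noncomputable def s10020 : Cert := .r (nat_lit 18869812128501177264509710774503796433499995185341540522026907474751343623210314739829166948347900646451490313420764903077122343325272053234930137433682206587892745109504) (.p (nat_lit 594) (.a (.f (nat_lit 595) (nat_lit 627) (nat_lit 4594) (.f (nat_lit 563) (nat_lit 466) (nat_lit 4562) (.f (nat_lit 593) (nat_lit 625) (nat_lit 5617) (.d (nat_lit 564) (nat_lit 565) (nat_lit 1585) (nat_lit 592) (nat_lit 2608))))) (.a (.f (nat_lit 593) (nat_lit 625) (nat_lit 5617) (.f (nat_lit 561) (nat_lit 466) (nat_lit 5585) (.d (nat_lit 595) (nat_lit 596) (nat_lit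 3632) (nat_lit 627) (nat_lit 4594)))) (.a (.f (nat_lit 595) (nat_lit 627) (nat_lit 4594) (.f (nat_lit 563) (nat_lit 466) (nat_lit 4562) (.d (nat_lit 527) (nat_lit 529) (nat_lit 527) (nat_lit 561) (nat_lit 3599)))) (.a (.f (nat_lit 625) (nat_lit 593) (nat_lit 5617) (.f (nat_lit 626) (nat_lit 657) (nat_lit 5649) (.d (nat_lit 627) (nat_lit 595) (nat_lit 4594) (nat_lit 659) (nat_lit 4626)))) (.f (nat_lit 593) (nat_lit 625) (nat_lit 5617) (.f (nat_lit 561) (nat_lit 466) (nat_lit 5585) (.f (nat_lit 563) (nat_lit 527) (nat_lit 3599) (.d (nat_lit 564) (nat_lit 565) (nat_lit 1585) (nat_lit 592) (nat_lit 1584))))))))))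
noncomputable def s10022 : Cert := .r (nat_lit 18869812128501177263691363122529760965996697761134640733972746963240577425839491897805133499246732007730672790339288863789400672293382035482625823297210858324560613212160) (.p (nat_lit 594) (.a s3695 (.a (.p (nat_lit 498) (.a (.f (nat_lit 467) (nat_lit 499) (nat_lit 6610) (.f (nat_lit 466) (nat_lit 435) (nat_lit 6578) (.d (nat_lit 465) (nat_lit 433) (nat_lit 7601) (nat_lit 497) (nat_lit 7633)))) (.a (.f (nat_lit 625) (nat_lit 593) (nat_lit 5617) (.f (nat_lit 626) (nat_lit 657) (nat_lit 5649) (.d (nat_lit 499) (nat_lit 467) (nat_lit 6610) (nat_lit 531) (nat_lit 6642)))) (.f (nat_lit 595) (nat_lit 627) (nat_lit 4594) (.f (nat_lit 466) (nat_lit 563) (nat_lit 4562) (.d (nat_lit 465) (nat_lit 433) (nat_lit 7601) (nat_lit 497) (nat_lit 7633))))))) (.a (.p (nat_lit 498) (.a (.f (nat_lit 499) (nat_lit 467) (nat_lit 6610) (.f (nat_lit 529) (nat_lit 527) (nat_lit 2543) (.d (nat_lit 500) (nat_lit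 501) (nat_lit 1521) (nat_lit 531) (nat_lit 2544)))) (.a (.f (nat_lit 625) (nat_lit 593) (nat_lit 5617) (.f (nat_lit 626) (nat_lit 657) (nat_lit 5649) (.d (nat_lit 499) (nat_lit 467) (nat_lit 6610) (nat_lit 531) (nat_lit 6642)))) (.f (nat_lit 625) (nat_lit 593) (nat_lit 5617) (.f (nat_lit 626) (nat_lit 657) (nat_lit 5649) (.d (nat_lit 627) (nat_lit 595) (nat_lit 4594) (nat_lit 659) (nat_lit 4626))))))) (.a s3488 (.a (.p (nat_lit 529) (.a (.f (nat_lit 626) (nat_lit 497) (nat_lit 7665) (.f (nat_lit 657) (nat_lit 625) (nat_lit 5649) (.f (nat_lit 658) (nat_lit 689) (nat_lit 5681) (.d (nat_lit 659) (nat_lit 627) (nat_lit 4626) (nat_lit 691) (nat_lit 4658))))) (.f (nat_lit 563) (nat_lit 527) (nat_lit 527) (.d (nat_lit 564) (nat_lit 531) (nat_lit 528) (nat_lit 561) (nat_lit 3600))))) (.a s3736 (.p (nat_lit 498) (.a (.f (nat_lit 467) (nat_lit 499) (nat_lit 6610) (.f (nat_lit 466) (nat_lit 435) (nat_lit 6578) (.d (nat_lit 465) (nat_lit 433)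 (nat_lit 7601) (nat_lit 497) (nat_lit 7633)))) (.a (.f (nat_lit 499) (nat_lit 467) (nat_lit 6610) (.f (nat_lit 529) (nat_lit 527) (nat_lit 2543) (.d (nat_lit 500) (nat_lit 501) (nat_lit 1521) (nat_lit 531) (nat_lit 2544)))) (.f (nat_lit 593) (nat_lit 625) (nat_lit 5617) (.f (nat_lit 561) (nat_lit 466) (nat_lit 5585) (.d (nat_lit 595) (nat_lit 596) (nat_lit 3632) (nat_lit 627) (nat_lit 4594))))))))))))))
noncomputable def s10041 : Cert := .r (nat_lit 18869812124986400861704490948459027756867024433892689860299374593630612134736493787905533600559981471712008058190913152356962472978375577626770901665172955839509703950336) (.p (nat_lit 530) (.a s3191 (.a s7177 (.a (.p (nat_lit 498) (.a (.p (nat_lit 594) (.a (.f (nat_lit 497) (nat_lit 465) (nat_lit 7633) (.f (nat_lit 529) (nat_lit 626) (nat_lit 7665) (.d (nat_lit 499) (nat_lit 467) (nat_lit 6610) (nat_lit 500) (nat_lit 1520)))) (.f (nat_lit 595) (nat_lit 627) (nat_lit 4594) (.f (nat_lit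 563) (nat_lit 466) (nat_lit 4562) (.f (nat_lit 593) (nat_lit 625) (nat_lit 5617) (.d (nat_lit 564) (nat_lit 565) (nat_lit 1585) (nat_lit 592) (nat_lit 2608))))))) (.a (.p (nat_lit 594) (.a (.f (nat_lit 595) (nat_lit 627) (nat_lit 4594) (.f (nat_lit 563) (nat_lit 466) (nat_lit 4562) (.f (nat_lit 593) (nat_lit 625) (nat_lit 5617) (.d (nat_lit 564) (nat_lit 565) (nat_lit 1585) (nat_lit 592) (nat_lit 2608))))) (.a (.f (nat_lit 467) (nat_lit 499) (nat_lit 6610) (.f (nat_lit 466) (nat_lit 435) (nat_lit 6578) (.d (nat_lit 465) (nat_lit 433) (nat_lit 7601) (nat_lit 497) (nat_lit 7633)))) (.f (nat_lit 625) (nat_lit 593) (nat_lit 5617) (.f (nat_lit 626) (nat_lit 657) (nat_lit 5649) (.d (nat_lit 499) (nat_lit 467) (nat_lit 6610) (nat_lit 531) (nat_lit 6642))))))) (.a (.p (nat_lit 594) (.a (.f (nat_lit 595) (nat_lit 627) (nat_lit 4594) (.f (nat_lit 563) (nat_lit 466) (nat_lit 4562) (.f (nat_lit 593) (nat_lit 625) (nat_lit 5617) (.d (nat_lit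 564) (nat_lit 565) (nat_lit 1585) (nat_lit 592) (nat_lit 2608))))) (.f (nat_lit 499) (nat_lit 467) (nat_lit 6610) (.f (nat_lit 529) (nat_lit 527) (nat_lit 2543) (.d (nat_lit 500) (nat_lit 501) (nat_lit 1521) (nat_lit 531) (nat_lit 2544)))))) (.a s5232 (.a s5672 (.a s5355 (.a (.p (nat_lit 594) (.a (.f (nat_lit 595) (nat_lit 627) (nat_lit 4594) (.f (nat_lit 563) (nat_lit 466) (nat_lit 4562) (.f (nat_lit 593) (nat_lit 625) (nat_lit 5617) (.d (nat_lit 564) (nat_lit 565) (nat_lit 1585) (nat_lit 592) (nat_lit 2608))))) (.a (.f (nat_lit 497) (nat_lit 465) (nat_lit 7633) (.f (nat_lit 626) (nat_lit 529) (nat_lit 7665) (.d (nat_lit 625) (nat_lit 593) (nat_lit 5617) (nat_lit 657) (nat_lit 5649)))) (.f (nat_lit 595) (nat_lit 627) (nat_lit 4594) (.f (nat_lit 466) (nat_lit 563) (nat_lit 4562) (.d (nat_lit 465) (nat_lit 433) (nat_lit 7601) (nat_lit 497) (nat_lit 7633))))))) s5447)))))))) (.a (.p (nat_lit 498) (.a (.p (nat_lit 594) (.a (.f (nat_lit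 595) (nat_lit 627) (nat_lit 4594) (.f (nat_lit 563) (nat_lit 466) (nat_lit 4562) (.f (nat_lit 593) (nat_lit 625) (nat_lit 5617) (.d (nat_lit 564) (nat_lit 565) (nat_lit 1585) (nat_lit 592) (nat_lit 2608))))) (.a (.f (nat_lit 467) (nat_lit 499) (nat_lit 6610) (.f (nat_lit 466) (nat_lit 435) (nat_lit 6578) (.d (nat_lit 465) (nat_lit 433) (nat_lit 7601) (nat_lit 497) (nat_lit 7633)))) (.f (nat_lit 625) (nat_lit 593) (nat_lit 5617) (.f (nat_lit 626) (nat_lit 657) (nat_lit 5649) (.d (nat_lit 499) (nat_lit 467) (nat_lit 6610) (nat_lit 531) (nat_lit 6642))))))) (.a (.p (nat_lit 594) (.a (.f (nat_lit 595) (nat_lit 627) (nat_lit 4594) (.f (nat_lit 563) (nat_lit 466) (nat_lit 4562) (.f (nat_lit 593) (nat_lit 625) (nat_lit 5617) (.d (nat_lit 564) (nat_lit 565) (nat_lit 1585) (nat_lit 592) (nat_lit 2608))))) (.a (.f (nat_lit 625) (nat_lit 593) (nat_lit 5617) (.f (nat_lit 626) (nat_lit 657) (nat_lit 5649) (.d (nat_lit 499) (nat_lit 467) (nat_lit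 6610) (nat_lit 531) (nat_lit 6642)))) (.f (nat_lit 467) (nat_lit 499) (nat_lit 6610) (.f (nat_lit 466) (nat_lit 435) (nat_lit 6578) (.d (nat_lit 595) (nat_lit 563) (nat_lit 4562) (nat_lit 627) (nat_lit 4594))))))) (.a (.p (nat_lit 594) (.a (.f (nat_lit 467) (nat_lit 499) (nat_lit 6610) (.f (nat_lit 466) (nat_lit 435) (nat_lit 6578) (.d (nat_lit 465) (nat_lit 433) (nat_lit 7601) (nat_lit 497) (nat_lit 7633)))) (.a (.f (nat_lit 625) (nat_lit 593) (nat_lit 5617) (.f (nat_lit 626) (nat_lit 657) (nat_lit 5649) (.d (nat_lit 499) (nat_lit 467) (nat_lit 6610) (nat_lit 531) (nat_lit 6642)))) (.f (nat_lit 595) (nat_lit 627) (nat_lit 4594) (.f (nat_lit 466) (nat_lit 563) (nat_lit 4562) (.d (nat_lit 465) (nat_lit 433) (nat_lit 7601) (nat_lit 497) (nat_lit 7633))))))) (.a (.p (nat_lit 594) (.a (.f (nat_lit 595) (nat_lit 627) (nat_lit 4594) (.f (nat_lit 563) (nat_lit 466) (nat_lit 4562) (.f (nat_lit 593) (nat_lit 625) (nat_lit 5617) (.d (nat_lit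 564) (nat_lit 565) (nat_lit 1585) (nat_lit 592) (nat_lit 2608))))) (.a (.f (nat_lit 467) (nat_lit 499) (nat_lit 6610) (.f (nat_lit 466) (nat_lit 435) (nat_lit 6578) (.d (nat_lit 465) (nat_lit 433) (nat_lit 7601) (nat_lit 497) (nat_lit 7633)))) (.f (nat_lit 625) (nat_lit 593) (nat_lit 5617) (.f (nat_lit 626) (nat_lit 657) (nat_lit 5649) (.d (nat_lit 627) (nat_lit 595) (nat_lit 4594) (nat_lit 659) (nat_lit 4626))))))) (.a s5672 (.a s8835 (.a (.p (nat_lit 594) (.a (.f (nat_lit 467) (nat_lit 499) (nat_lit 6610) (.f (nat_lit 466) (nat_lit 435) (nat_lit 6578) (.d (nat_lit 465) (nat_lit 433) (nat_lit 7601) (nat_lit 497) (nat_lit 7633)))) (.a (.f (nat_lit 625) (nat_lit 593) (nat_lit 5617) (.f (nat_lit 626) (nat_lit 657) (nat_lit 5649) (.d (nat_lit 499) (nat_lit 467) (nat_lit 6610) (nat_lit 531) (nat_lit 6642)))) (.f (nat_lit 625) (nat_lit 593) (nat_lit 5617) (.f (nat_lit 626) (nat_lit 657) (nat_lit 5649) (.d (nat_lit 627) (nat_lit 595)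 (nat_lit 4594) (nat_lit 659) (nat_lit 4626))))))) (.a (.p (nat_lit 594) (.a (.f (nat_lit 625) (nat_lit 593) (nat_lit 5617) (.f (nat_lit 626) (nat_lit 657) (nat_lit 5649) (.d (nat_lit 499) (nat_lit 467) (nat_lit 6610) (nat_lit 531) (nat_lit 6642)))) (.a (.f (nat_lit 625) (nat_lit 593) (nat_lit 5617) (.f (nat_lit 626) (nat_lit 657) (nat_lit 5649) (.d (nat_lit 627) (nat_lit 595) (nat_lit 4594) (nat_lit 659) (nat_lit 4626)))) (.a (.f (nat_lit 499) (nat_lit 467) (nat_lit 6610) (.f (nat_lit 626) (nat_lit 531) (nat_lit 6642) (.d (nat_lit 627) (nat_lit 595) (nat_lit 4594) (nat_lit 659) (nat_lit 4626)))) (.f (nat_lit 593) (nat_lit 625) (nat_lit 5617) (.f (nat_lit 595) (nat_lit 627) (nat_lit 4594) (.f (nat_lit 596) (nat_lit 561) (nat_lit 3632) (.f (nat_lit 564) (nat_lit 565) (nat_lit 2609) (.f (nat_lit 563) (nat_lit 592) (nat_lit 2608) (.f (nat_lit 628) (nat_lit 629) (nat_lit 593) (.d (nat_lit 499) (nat_lit 467) (nat_lit 6610) (nat_lit 531)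 (nat_lit 4595)))))))))))) (.a (.p (nat_lit 594) (.a (.f (nat_lit 467) (nat_lit 499) (nat_lit 6610) (.f (nat_lit 466) (nat_lit 435) (nat_lit 6578) (.d (nat_lit 465) (nat_lit 433) (nat_lit 7601) (nat_lit 497) (nat_lit 7633)))) (.a (.f (nat_lit 625) (nat_lit 593) (nat_lit 5617) (.f (nat_lit 626) (nat_lit 657) (nat_lit 5649) (.d (nat_lit 499) (nat_lit 467) (nat_lit 6610) (nat_lit 531) (nat_lit 6642)))) (.f (nat_lit 593) (nat_lit 625) (nat_lit 5617) (.f (nat_lit 466) (nat_lit 561) (nat_lit 5585) (.d (nat_lit 465) (nat_lit 433) (nat_lit 7601) (nat_lit 497) (nat_lit 7633))))))) s5454)))))))))) (.a (.p (nat_lit 498) (.a (.p (nat_lit 594) (.a (.f (nat_lit 595) (nat_lit 627) (nat_lit 4594) (.f (nat_lit 563) (nat_lit 466) (nat_lit 4562) (.f (nat_lit 593) (nat_lit 625) (nat_lit 5617) (.d (nat_lit 564) (nat_lit 565) (nat_lit 1585) (nat_lit 592) (nat_lit 2608))))) (.f (nat_lit 499) (nat_lit 467) (nat_lit 6610) (.f (nat_lit 529) (nat_lit 527)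 (nat_lit 2543) (.d (nat_lit 500) (nat_lit 501) (nat_lit 1521) (nat_lit 531) (nat_lit 2544)))))) (.a s7112 (.a (.p (nat_lit 594) (.a (.f (nat_lit 595) (nat_lit 627) (nat_lit 4594) (.f (nat_lit 563) (nat_lit 466) (nat_lit 4562) (.f (nat_lit 593) (nat_lit 625) (nat_lit 5617) (.d (nat_lit 564) (nat_lit 565) (nat_lit 1585) (nat_lit 592) (nat_lit 2608))))) (.a (.f (nat_lit 625) (nat_lit 593) (nat_lit 5617) (.f (nat_lit 626) (nat_lit 657) (nat_lit 5649) (.d (nat_lit 499) (nat_lit 467) (nat_lit 6610) (nat_lit 531) (nat_lit 6642)))) (.f (nat_lit 467) (nat_lit 499) (nat_lit 6610) (.f (nat_lit 466) (nat_lit 435) (nat_lit 6578) (.d (nat_lit 595) (nat_lit 563) (nat_lit 4562) (nat_lit 627) (nat_lit 4594))))))) (.a (.p (nat_lit 594) (.a (.f (nat_lit 499) (nat_lit 467) (nat_lit 6610) (.f (nat_lit 529) (nat_lit 527) (nat_lit 2543) (.d (nat_lit 500) (nat_lit 501) (nat_lit 1521) (nat_lit 531) (nat_lit 2544)))) (.a (.f (nat_lit 625) (nat_lit 593) (nat_lit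 5617) (.f (nat_lit 626) (nat_lit 657) (nat_lit 5649) (.d (nat_lit 499) (nat_lit 467) (nat_lit 6610) (nat_lit 531) (nat_lit 6642)))) (.f (nat_lit 625) (nat_lit 593) (nat_lit 5617) (.f (nat_lit 626) (nat_lit 657) (nat_lit 5649) (.d (nat_lit 627) (nat_lit 595) (nat_lit 4594) (nat_lit 659) (nat_lit 4626))))))) (.a s8835 (.a (.p (nat_lit 466) (.a (.f (nat_lit 433) (nat_lit 465) (nat_lit 7601) (.f (nat_lit 434) (nat_lit 401) (nat_lit 7569) (.d (nat_lit 435) (nat_lit 403) (nat_lit 6546) (nat_lit 467) (nat_lit 6578)))) (.a (.f (nat_lit 563) (nat_lit 595) (nat_lit 4562) (.f (nat_lit 529) (nat_lit 527) (nat_lit 527) (.d (nat_lit 531) (nat_lit 434) (nat_lit 4530) (nat_lit 564) (nat_lit 528)))) (.f (nat_lit 563) (nat_lit 595) (nat_lit 4562) (.f (nat_lit 529) (nat_lit 527) (nat_lit 527) (.d (nat_lit 564) (nat_lit 531) (nat_lit 528) (nat_lit 565) (nat_lit 3601))))))) (.a (.p (nat_lit 594) (.a (.f (nat_lit 593) (nat_lit 625) (nat_lit 5617) (.f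 (nat_lit 561) (nat_lit 466) (nat_lit 5585) (.f (nat_lit 563) (nat_lit 527) (nat_lit 3599) (.d (nat_lit 564) (nat_lit 565) (nat_lit 1585) (nat_lit 592) (nat_lit 1584))))) (.a (.f (nat_lit 625) (nat_lit 593) (nat_lit 5617) (.f (nat_lit 626) (nat_lit 657) (nat_lit 5649) (.d (nat_lit 499) (nat_lit 467) (nat_lit 6610) (nat_lit 531) (nat_lit 6642)))) (.f (nat_lit 499) (nat_lit 467) (nat_lit 6610) (.f (nat_lit 529) (nat_lit 527) (nat_lit 2543) (.d (nat_lit 500) (nat_lit 501) (nat_lit 1521) (nat_lit 531) (nat_lit 2544))))))) s10020)))))))) (.a s10022 (.a (.p (nat_lit 498) (.a (.p (nat_lit 594) (.a (.f (nat_lit 497) (nat_lit 465) (nat_lit 7633) (.f (nat_lit 529) (nat_lit 626) (nat_lit 7665) (.d (nat_lit 499) (nat_lit 467) (nat_lit 6610) (nat_lit 500) (nat_lit 1520)))) (.f (nat_lit 595) (nat_lit 627) (nat_lit 4594) (.f (nat_lit 563) (nat_lit 466) (nat_lit 4562) (.f (nat_lit 593) (nat_lit 625) (nat_lit 5617) (.d (nat_lit 564) (nat_lit 565)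 (nat_lit 1585) (nat_lit 592) (nat_lit 2608))))))) (.a (.p (nat_lit 594) (.a (.f (nat_lit 595) (nat_lit 627) (nat_lit 4594) (.f (nat_lit 563) (nat_lit 466) (nat_lit 4562) (.f (nat_lit 593) (nat_lit 625) (nat_lit 5617) (.d (nat_lit 564) (nat_lit 565) (nat_lit 1585) (nat_lit 592) (nat_lit 2608))))) (.a (.f (nat_lit 467) (nat_lit 499) (nat_lit 6610) (.f (nat_lit 466) (nat_lit 435) (nat_lit 6578) (.d (nat_lit 465) (nat_lit 433) (nat_lit 7601) (nat_lit 497) (nat_lit 7633)))) (.f (nat_lit 625) (nat_lit 593) (nat_lit 5617) (.f (nat_lit 626) (nat_lit 657) (nat_lit 5649) (.d (nat_lit 627) (nat_lit 595) (nat_lit 4594) (nat_lit 659) (nat_lit 4626))))))) (.a (.p (nat_lit 594) (.a (.f (nat_lit 595) (nat_lit 627) (nat_lit 4594) (.f (nat_lit 563) (nat_lit 466) (nat_lit 4562) (.f (nat_lit 593) (nat_lit 625) (nat_lit 5617) (.d (nat_lit 564) (nat_lit 565) (nat_lit 1585) (nat_lit 592) (nat_lit 2608))))) (.a (.f (nat_lit 593) (nat_lit 625) (nat_lit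 5617) (.f (nat_lit 561) (nat_lit 466) (nat_lit 5585) (.d (nat_lit 595) (nat_lit 596) (nat_lit 3632) (nat_lit 627) (nat_lit 4594)))) (.a (.f (nat_lit 467) (nat_lit 499) (nat_lit 6610) (.f (nat_lit 466) (nat_lit 435) (nat_lit 6578) (.d (nat_lit 595) (nat_lit 563) (nat_lit 4562) (nat_lit 627) (nat_lit 4594)))) (.a (.f (nat_lit 625) (nat_lit 593) (nat_lit 5617) (.f (nat_lit 626) (nat_lit 657) (nat_lit 5649) (.d (nat_lit 627) (nat_lit 595) (nat_lit 4594) (nat_lit 659) (nat_lit 4626)))) (.f (nat_lit 593) (nat_lit 625) (nat_lit 5617) (.f (nat_lit 466) (nat_lit 561) (nat_lit 5585) (.d (nat_lit 467) (nat_lit 435) (nat_lit 6578) (nat_lit 499) (nat_lit 6610))))))))) (.a s5236 (.a s6582 (.a s7120 (.a (.p (nat_lit 594) (.a (.f (nat_lit 497) (nat_lit 465) (nat_lit 7633) (.f (nat_lit 529) (nat_lit 626) (nat_lit 7665) (.d (nat_lit 499) (nat_lit 467) (nat_lit 6610) (nat_lit 500) (nat_lit 1520)))) (.a (.f (nat_lit 467) (nat_lit 499) (nat_lit 6610)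 (.f (nat_lit 466) (nat_lit 435) (nat_lit 6578) (.d (nat_lit 465) (nat_lit 433) (nat_lit 7601) (nat_lit 497) (nat_lit 7633)))) (.f (nat_lit 625) (nat_lit 593) (nat_lit 5617) (.f (nat_lit 626) (nat_lit 657) (nat_lit 5649) (.d (nat_lit 627) (nat_lit 595) (nat_lit 4594) (nat_lit 659) (nat_lit 4626))))))) (.a s6583 (.a s5373 s7176)))))))))) (.a (.p (nat_lit 563) (.a (.d (nat_lit 527) (nat_lit 529) (nat_lit 527) (nat_lit 561) (nat_lit 3599)) (.a (.p (nat_lit 561) (.a (.f (nat_lit 564) (nat_lit 529) (nat_lit 3600) (.d (nat_lit 532) (nat_lit 531) (nat_lit 2576) (nat_lit 533) (nat_lit 2577))) (.a (.f (nat_lit 531) (nat_lit 532) (nat_lit 2576) (.f (nat_lit 595) (nat_lit 596) (nat_lit 560) (.f (nat_lit 627) (nat_lit 659) (nat_lit 7698) (.f (nat_lit 626) (nat_lit 658) (nat_lit 5650) (.f (nat_lit 594) (nat_lit 499) (nat_lit 6642) (.f (nat_lit 592) (nat_lit 591) (nat_lit 1583) (.d (nat_lit 593) (nat_lit 564) (nat_lit 2608) (nat_lit 628) (nat_lit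 592)))))))) (.a (.f (nat_lit 564) (nat_lit 529) (nat_lit 3600) (.d (nat_lit 592) (nat_lit 591) (nat_lit 1583) (nat_lit 593) (nat_lit 1584))) (.f (nat_lit 531) (nat_lit 532) (nat_lit 2576) (.f (nat_lit 595) (nat_lit 596) (nat_lit 560) (.f (nat_lit 627) (nat_lit 659) (nat_lit 7698) (.f (nat_lit 626) (nat_lit 658) (nat_lit 5650) (.f (nat_lit 594) (nat_lit 499) (nat_lit 6642) (.f (nat_lit 592) (nat_lit 591) (nat_lit 1583) (.d (nat_lit 628) (nat_lit 593) (nat_lit 592) (nat_lit 660) (nat_lit 4627)))))))))))) (.a (.f (nat_lit 529) (nat_lit 527) (nat_lit 527) (.d (nat_lit 564) (nat_lit 531) (nat_lit 528) (nat_lit 565) (nat_lit 3601))) (.f (nat_lit 561) (nat_lit 527) (nat_lit 3599) (.f (nat_lit 531) (nat_lit 532) (nat_lit 2576) (.f (nat_lit 595) (nat_lit 596) (nat_lit 560) (.f (nat_lit 627) (nat_lit 659) (nat_lit 7698) (.f (nat_lit 626) (nat_lit 658) (nat_lit 5650) (.f (nat_lit 594) (nat_lit 499) (nat_lit 6642) (.f (nat_lit 592) (nat_lit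 591) (nat_lit 1583) (.d (nat_lit 593) (nat_lit 564) (nat_lit 2608) (nat_lit 628) (nat_lit 592))))))))))))) (.a (.p (nat_lit 594) (.a s3736 (.a s3449 (.a s4383 (.a s3499 (.a (.p (nat_lit 529) (.a (.f (nat_lit 626) (nat_lit 497) (nat_lit 7665) (.f (nat_lit 657) (nat_lit 625) (nat_lit 5649) (.f (nat_lit 658) (nat_lit 689) (nat_lit 5681) (.d (nat_lit 659) (nat_lit 627) (nat_lit 4626) (nat_lit 691) (nat_lit 4658))))) (.f (nat_lit 563) (nat_lit 527) (nat_lit 527) (.d (nat_lit 564) (nat_lit 531) (nat_lit 528) (nat_lit 561) (nat_lit 3600))))) (.a s3982 (.a (.p (nat_lit 498) (.a (.f (nat_lit 467) (nat_lit 499) (nat_lit 6610) (.f (nat_lit 466) (nat_lit 435) (nat_lit 6578) (.d (nat_lit 465) (nat_lit 433) (nat_lit 7601) (nat_lit 497) (nat_lit 7633)))) (.a (.f (nat_lit 499) (nat_lit 467) (nat_lit 6610) (.f (nat_lit 529) (nat_lit 527) (nat_lit 2543) (.d (nat_lit 500) (nat_lit 501) (nat_lit 1521) (nat_lit 531) (nat_lit 2544)))) (.f (nat_lit 595)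 (nat_lit 627) (nat_lit 4594) (.f (nat_lit 466) (nat_lit 563) (nat_lit 4562) (.d (nat_lit 465) (nat_lit 433) (nat_lit 7601) (nat_lit 497) (nat_lit 7633))))))) s4424)))))))) (.a (.p (nat_lit 594) (.a s3695 (.a (.p (nat_lit 498) (.a (.f (nat_lit 467) (nat_lit 499) (nat_lit 6610) (.f (nat_lit 466) (nat_lit 435) (nat_lit 6578) (.d (nat_lit 465) (nat_lit 433) (nat_lit 7601) (nat_lit 497) (nat_lit 7633)))) (.a (.f (nat_lit 625) (nat_lit 593) (nat_lit 5617) (.f (nat_lit 626) (nat_lit 657) (nat_lit 5649) (.d (nat_lit 499) (nat_lit 467) (nat_lit 6610) (nat_lit 531) (nat_lit 6642)))) (.f (nat_lit 625) (nat_lit 593) (nat_lit 5617) (.f (nat_lit 626) (nat_lit 657) (nat_lit 5649) (.d (nat_lit 627) (nat_lit 595) (nat_lit 4594) (nat_lit 659) (nat_lit 4626))))))) (.a (.p (nat_lit 498) (.a (.f (nat_lit 499) (nat_lit 467) (nat_lit 6610) (.f (nat_lit 529) (nat_lit 527) (nat_lit 2543) (.d (nat_lit 500) (nat_lit 501) (nat_lit 1521) (nat_lit 531) (nat_lit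 2544)))) (.a (.f (nat_lit 625) (nat_lit 593) (nat_lit 5617) (.f (nat_lit 626) (nat_lit 657) (nat_lit 5649) (.d (nat_lit 499) (nat_lit 467) (nat_lit 6610) (nat_lit 531) (nat_lit 6642)))) (.f (nat_lit 625) (nat_lit 593) (nat_lit 5617) (.f (nat_lit 626) (nat_lit 657) (nat_lit 5649) (.d (nat_lit 627) (nat_lit 595) (nat_lit 4594) (nat_lit 659) (nat_lit 4626))))))) (.a (.p (nat_lit 498) (.a (.f (nat_lit 497) (nat_lit 465) (nat_lit 7633) (.f (nat_lit 529) (nat_lit 626) (nat_lit 7665) (.d (nat_lit 499) (nat_lit 467) (nat_lit 6610) (nat_lit 500) (nat_lit 1520)))) (.a (.f (nat_lit 467) (nat_lit 499) (nat_lit 6610) (.f (nat_lit 466) (nat_lit 435) (nat_lit 6578) (.d (nat_lit 465) (nat_lit 433) (nat_lit 7601) (nat_lit 497) (nat_lit 7633)))) (.f (nat_lit 625) (nat_lit 593) (nat_lit 5617) (.f (nat_lit 626) (nat_lit 657) (nat_lit 5649) (.d (nat_lit 627) (nat_lit 595) (nat_lit 4594) (nat_lit 659) (nat_lit 4626))))))) (.a s4780 (.a (.p (nat_lit 498)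 (.a (.f (nat_lit 593) (nat_lit 625) (nat_lit 5617) (.f (nat_lit 561) (nat_lit 466) (nat_lit 5585) (.d (nat_lit 595) (nat_lit 596) (nat_lit 3632) (nat_lit 627) (nat_lit 4594)))) (.a (.f (nat_lit 497) (nat_lit 465) (nat_lit 7633) (.f (nat_lit 626) (nat_lit 529) (nat_lit 7665) (.d (nat_lit 625) (nat_lit 593) (nat_lit 5617) (nat_lit 657) (nat_lit 5649)))) (.f (nat_lit 497) (nat_lit 465) (nat_lit 7633) (.f (nat_lit 626) (nat_lit 529) (nat_lit 7665) (.d (nat_lit 627) (nat_lit 595) (nat_lit 4594) (nat_lit 659) (nat_lit 4626))))))) (.a s3982 (.p (nat_lit 498) (.a (.f (nat_lit 467) (nat_lit 499) (nat_lit 6610) (.f (nat_lit 466) (nat_lit 435) (nat_lit 6578) (.d (nat_lit 465) (nat_lit 433) (nat_lit 7601) (nat_lit 497) (nat_lit 7633)))) (.a (.f (nat_lit 499) (nat_lit 467) (nat_lit 6610) (.f (nat_lit 529) (nat_lit 527) (nat_lit 2543) (.d (nat_lit 500) (nat_lit 501) (nat_lit 1521) (nat_lit 531) (nat_lit 2544)))) (.f (nat_lit 593) (nat_lit 625)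 (nat_lit 5617) (.f (nat_lit 561) (nat_lit 466) (nat_lit 5585) (.d (nat_lit 595) (nat_lit 596) (nat_lit 3632) (nat_lit 627) (nat_lit 4594))))))))))))))) (.a (.p (nat_lit 563) (.a (.d (nat_lit 527) (nat_lit 529) (nat_lit 527) (nat_lit 561) (nat_lit 3599)) (.a (.p (nat_lit 561) (.a (.f (nat_lit 564) (nat_lit 529) (nat_lit 3600) (.d (nat_lit 532) (nat_lit 531) (nat_lit 2576) (nat_lit 533) (nat_lit 2577))) (.a (.f (nat_lit 592) (nat_lit 591) (nat_lit 1583) (.f (nat_lit 564) (nat_lit 593) (nat_lit 1584) (.d (nat_lit 596) (nat_lit 595) (nat_lit 560) (nat_lit 597) (nat_lit 561)))) (.f (nat_lit 531) (nat_lit 532) (nat_lit 2576) (.f (nat_lit 595) (nat_lit 596) (nat_lit 560) (.d (nat_lit 498) (nat_lit 466) (nat_lit 4562) (nat_lit 627) (nat_lit 7666))))))) (.a (.f (nat_lit 529) (nat_lit 527) (nat_lit 527) (.d (nat_lit 564) (nat_lit 531) (nat_lit 528) (nat_lit 565) (nat_lit 3601))) (.f (nat_lit 561) (nat_lit 527) (nat_lit 3599) (.f (nat_lit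 531) (nat_lit 532) (nat_lit 2576) (.f (nat_lit 595) (nat_lit 596) (nat_lit 560) (.d (nat_lit 498) (nat_lit 466) (nat_lit 4562) (nat_lit 627) (nat_lit 7666))))))))) (.a (.p (nat_lit 594) (.a s3695 (.a s3908 (.a (.p (nat_lit 498) (.a (.f (nat_lit 497) (nat_lit 465) (nat_lit 7633) (.f (nat_lit 529) (nat_lit 626) (nat_lit 7665) (.d (nat_lit 499) (nat_lit 467) (nat_lit 6610) (nat_lit 500) (nat_lit 1520)))) (.a (.f (nat_lit 467) (nat_lit 499) (nat_lit 6610) (.f (nat_lit 466) (nat_lit 435) (nat_lit 6578) (.d (nat_lit 465) (nat_lit 433) (nat_lit 7601) (nat_lit 497) (nat_lit 7633)))) (.f (nat_lit 593) (nat_lit 625) (nat_lit 5617) (.f (nat_lit 561) (nat_lit 466) (nat_lit 5585) (.f (nat_lit 563) (nat_lit 527) (nat_lit 3599) (.d (nat_lit 564) (nat_lit 529) (nat_lit 3600) (nat_lit 565) (nat_lit 1585)))))))) (.a (.p (nat_lit 529) (.a (.f (nat_lit 626) (nat_lit 497) (nat_lit 7665) (.f (nat_lit 657) (nat_lit 625) (nat_lit 5649) (.f (nat_lit 658)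 (nat_lit 689) (nat_lit 5681) (.d (nat_lit 659) (nat_lit 627) (nat_lit 4626) (nat_lit 691) (nat_lit 4658))))) (.f (nat_lit 563) (nat_lit 527) (nat_lit 527) (.d (nat_lit 564) (nat_lit 531) (nat_lit 528) (nat_lit 561) (nat_lit 3600))))) (.a s4424 (.p (nat_lit 498) (.a (.f (nat_lit 593) (nat_lit 625) (nat_lit 5617) (.f (nat_lit 561) (nat_lit 466) (nat_lit 5585) (.f (nat_lit 563) (nat_lit 527) (nat_lit 3599) (.d (nat_lit 564) (nat_lit 565) (nat_lit 1585) (nat_lit 592) (nat_lit 1584))))) (.a (.f (nat_lit 467) (nat_lit 499) (nat_lit 6610) (.f (nat_lit 466) (nat_lit 435) (nat_lit 6578) (.d (nat_lit 465) (nat_lit 433) (nat_lit 7601) (nat_lit 497) (nat_lit 7633)))) (.f (nat_lit 499) (nat_lit 467) (nat_lit 6610) (.f (nat_lit 529) (nat_lit 527) (nat_lit 2543) (.d (nat_lit 500) (nat_lit 501) (nat_lit 1521) (nat_lit 531) (nat_lit 2544))))))))))))) (.a (.p (nat_lit 594) (.a s3695 (.a (.p (nat_lit 498) (.a (.f (nat_lit 467) (nat_lit 499) (nat_lit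 6610) (.f (nat_lit 466) (nat_lit 435) (nat_lit 6578) (.d (nat_lit 465) (nat_lit 433) (nat_lit 7601) (nat_lit 497) (nat_lit 7633)))) (.a (.f (nat_lit 625) (nat_lit 593) (nat_lit 5617) (.f (nat_lit 626) (nat_lit 657) (nat_lit 5649) (.d (nat_lit 499) (nat_lit 467) (nat_lit 6610) (nat_lit 531) (nat_lit 6642)))) (.f (nat_lit 595) (nat_lit 627) (nat_lit 4594) (.f (nat_lit 466) (nat_lit 563) (nat_lit 4562) (.d (nat_lit 465) (nat_lit 433) (nat_lit 7601) (nat_lit 497) (nat_lit 7633))))))) (.a s3908 (.a s3488 (.a s4811 (.a s3449 (.a (.p (nat_lit 498) (.a (.f (nat_lit 593) (nat_lit 625) (nat_lit 5617) (.f (nat_lit 561) (nat_lit 466) (nat_lit 5585) (.d (nat_lit 595) (nat_lit 596) (nat_lit 3632) (nat_lit 627) (nat_lit 4594)))) (.a (.f (nat_lit 497) (nat_lit 465) (nat_lit 7633) (.f (nat_lit 626) (nat_lit 529) (nat_lit 7665) (.d (nat_lit 625) (nat_lit 593) (nat_lit 5617) (nat_lit 657) (nat_lit 5649)))) (.f (nat_lit 497) (nat_lit 465) (nat_lit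 7633) (.f (nat_lit 626) (nat_lit 529) (nat_lit 7665) (.d (nat_lit 627) (nat_lit 595) (nat_lit 4594) (nat_lit 659) (nat_lit 4626))))))) (.p (nat_lit 498) (.a (.f (nat_lit 467) (nat_lit 499) (nat_lit 6610) (.f (nat_lit 466) (nat_lit 435) (nat_lit 6578) (.d (nat_lit 465) (nat_lit 433) (nat_lit 7601) (nat_lit 497) (nat_lit 7633)))) (.a (.f (nat_lit 499) (nat_lit 467) (nat_lit 6610) (.f (nat_lit 529) (nat_lit 527) (nat_lit 2543) (.d (nat_lit 500) (nat_lit 501) (nat_lit 1521) (nat_lit 531) (nat_lit 2544)))) (.f (nat_lit 593) (nat_lit 625) (nat_lit 5617) (.f (nat_lit 561) (nat_lit 466) (nat_lit 5585) (.d (nat_lit 595) (nat_lit 596) (nat_lit 3632) (nat_lit 627) (nat_lit 4594))))))))))))))) (.p (nat_lit 594) (.a s3695 (.a s3460 (.a (.p (nat_lit 498) (.a (.f (nat_lit 593) (nat_lit 625) (nat_lit 5617) (.f (nat_lit 561) (nat_lit 466) (nat_lit 5585) (.f (nat_lit 563) (nat_lit 527) (nat_lit 3599) (.d (nat_lit 564) (nat_lit 565) (nat_lit 1585)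 (nat_lit 592) (nat_lit 1584))))) (.a (.f (nat_lit 625) (nat_lit 593) (nat_lit 5617) (.f (nat_lit 626) (nat_lit 657) (nat_lit 5649) (.d (nat_lit 499) (nat_lit 467) (nat_lit 6610) (nat_lit 531) (nat_lit 6642)))) (.f (nat_lit 499) (nat_lit 467) (nat_lit 6610) (.f (nat_lit 529) (nat_lit 527) (nat_lit 2543) (.d (nat_lit 500) (nat_lit 501) (nat_lit 1521) (nat_lit 531) (nat_lit 2544))))))) (.a (.p (nat_lit 498) (.a (.f (nat_lit 497) (nat_lit 465) (nat_lit 7633) (.f (nat_lit 529) (nat_lit 626) (nat_lit 7665) (.d (nat_lit 499) (nat_lit 467) (nat_lit 6610) (nat_lit 500) (nat_lit 1520)))) (.a (.f (nat_lit 467) (nat_lit 499) (nat_lit 6610) (.f (nat_lit 466) (nat_lit 435) (nat_lit 6578) (.d (nat_lit 465) (nat_lit 433) (nat_lit 7601) (nat_lit 497) (nat_lit 7633)))) (.f (nat_lit 593) (nat_lit 625) (nat_lit 5617) (.f (nat_lit 561) (nat_lit 466) (nat_lit 5585) (.f (nat_lit 563) (nat_lit 527) (nat_lit 3599) (.d (nat_lit 564) (nat_lit 529) (nat_lit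 3600) (nat_lit 565) (nat_lit 1585)))))))) (.a (.p (nat_lit 529) (.a (.f (nat_lit 563) (nat_lit 527) (nat_lit 527) (.d (nat_lit 564) (nat_lit 531) (nat_lit 528) (nat_lit 561) (nat_lit 3600))) (.a (.f (nat_lit 497) (nat_lit 626) (nat_lit 7665) (.d (nat_lit 465) (nat_lit 433) (nat_lit 4529) (nat_lit 561) (nat_lit 4561))) (.f (nat_lit 563) (nat_lit 527) (nat_lit 527) (.d (nat_lit 564) (nat_lit 531) (nat_lit 528) (nat_lit 565) (nat_lit 3601)))))) (.p (nat_lit 498) (.a (.f (nat_lit 593) (nat_lit 625) (nat_lit 5617) (.f (nat_lit 561) (nat_lit 466) (nat_lit 5585) (.f (nat_lit 563) (nat_lit 527) (nat_lit 3599) (.d (nat_lit 564) (nat_lit 565) (nat_lit 1585) (nat_lit 592) (nat_lit 1584))))) (.a (.f (nat_lit 467) (nat_lit 499) (nat_lit 6610) (.f (nat_lit 466) (nat_lit 435) (nat_lit 6578) (.d (nat_lit 465) (nat_lit 433) (nat_lit 7601) (nat_lit 497) (nat_lit 7633)))) (.f (nat_lit 499) (nat_lit 467) (nat_lit 6610) (.f (nat_lit 529) (nat_lit 527)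 (nat_lit 2543) (.d (nat_lit 500) (nat_lit 501) (nat_lit 1521) (nat_lit 531) (nat_lit 2544)))))))))))))))))))))))))))
noncomputable def s10042 : Cert := .r (nat_lit 18869812124986400861704490948459027756867024433892689860299374593630612134736493787905533600559981471712008058190913152356962472978375577626770901665172955839509703950336) (.p (nat_lit 594) (.a (.p (nat_lit 561) (.a (.f (nat_lit 563) (nat_lit 527) (nat_lit 3599) (.d (nat_lit 595) (nat_lit 559) (nat_lit 559) (nat_lit 596) (nat_lit 560))) (.a (.f (nat_lit 559) (nat_lit 595) (nat_lit 559) (.f (nat_lit 593) (nat_lit 558) (nat_lit 558) (.f (nat_lit 625) (nat_lit 657) (nat_lit 7696) (.d (nat_lit 496) (nat_lit 464) (nat_lit 4560) (nat_lit 529) (nat_lit 7664))))) (.f (nat_lit 563) (nat_lit 527) (nat_lit 3599) (.f (nat_lit 564) (nat_lit 529) (nat_lit 3600) (.d (nat_lit 532) (nat_lit 531) (nat_lit 2576) (nat_lit 533) (nat_lit 2577))))))) (.a s3461 (.a s3984 (.a s4412 (.a (.p (nat_lit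 561) (.a (.f (nat_lit 563) (nat_lit 527) (nat_lit 3599) (.d (nat_lit 595) (nat_lit 559) (nat_lit 559) (nat_lit 596) (nat_lit 560))) (.a (.f (nat_lit 559) (nat_lit 595) (nat_lit 559) (.f (nat_lit 530) (nat_lit 531) (nat_lit 2575) (.f (nat_lit 529) (nat_lit 558) (nat_lit 2574) (.d (nat_lit 497) (nat_lit 465) (nat_lit 4561) (nat_lit 626) (nat_lit 7665))))) (.f (nat_lit 563) (nat_lit 527) (nat_lit 3599) (.f (nat_lit 564) (nat_lit 529) (nat_lit 3600) (.d (nat_lit 532) (nat_lit 531) (nat_lit 2576) (nat_lit 533) (nat_lit 2577))))))) (.a s3586 s4427)))))))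
noncomputable def s10050 : Cert := .r (nat_lit 64836180782635327105257550133865756107099233344784774323566786510389197141567267213334914537603630284999823986032247621314213099342709661479114454765656505907541824002709199519744) (.p (nat_lit 498) (.a (.f (nat_lit 467) (nat_lit 499) (nat_lit 6610) (.f (nat_lit 466) (nat_lit 435) (nat_lit 6578) (.d (nat_lit 465) (nat_lit 433) (nat_lit 7601) (nat_lit 497) (nat_lit 7633)))) (.a (.f (nat_lit 499) (nat_lit 467) (nat_lit 6610) (.f (nat_lit 531) (nat_lit 626) (nat_lit 6642) (.f (nat_lit 561) (nat_lit 559) (nat_lit 2575) (.d (nat_lit 532) (nat_lit 533) (nat_lit 1553) (nat_lit 563) (nat_lit 2576))))) (.f (nat_lit 465) (nat_lit 497) (nat_lit 7633) (.f (nat_lit 466) (nat_lit 433) (nat_lit 7601) (.f (nat_lit 561) (nat_lit 593) (nat_lit 5585) (.f (nat_lit 531) (nat_lit 559) (nat_lit 2575) (.d (nat_lit 532) (nat_lit 533) (nat_lit 1553) (nat_lit 563) (nat_lit 2576)))))))))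
noncomputable def s10052 : Cert := .r (nat_lit 18869812124986400861704490948459027756867024433892689860299374593630612134736493787905533600559981471712008058190913152356962472978375577626770901665172955839509703950336) (.p (nat_lit 594) (.a (.p (nat_lit 561) (.a (.f (nat_lit 563) (nat_lit 527) (nat_lit 3599) (.d (nat_lit 595) (nat_lit 559) (nat_lit 559) (nat_lit 596) (nat_lit 560))) (.a (.f (nat_lit 559) (nat_lit 595) (nat_lit 559) (.f (nat_lit 530) (nat_lit 531) (nat_lit 2575) (.d (nat_lit 558) (nat_lit 529) (nat_lit 2574) (nat_lit 593) (nat_lit 558)))) (.f (nat_lit 563) (nat_lit 527) (nat_lit 3599) (.f (nat_lit 564) (nat_lit 529) (nat_lit 3600) (.d (nat_lit 532) (nat_lit 531) (nat_lit 2576) (nat_lit 533) (nat_lit 2577))))))) (.a s3834 (.a s4005 (.a (.p (nat_lit 530) (.a s3449 (.a (.p (nat_lit 595) (.a (.f (nat_lit 561) (nat_lit 559) (nat_lit 559) (.d (nat_lit 596) (nat_lit 593) (nat_lit 3632) (nat_lit 597) (nat_lit 3633))) (.f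 (nat_lit 627) (nat_lit 498) (nat_lit 4594) (.d (nat_lit 659) (nat_lit 626) (nat_lit 4626) (nat_lit 691) (nat_lit 7730))))) (.a (.p (nat_lit 626) (.a (.f (nat_lit 531) (nat_lit 499) (nat_lit 6642) (.f (nat_lit 561) (nat_lit 559) (nat_lit 2575) (.d (nat_lit 532) (nat_lit 533) (nat_lit 1553) (nat_lit 563) (nat_lit 2576)))) (.a (.f (nat_lit 531) (nat_lit 499) (nat_lit 6642) (.f (nat_lit 658) (nat_lit 563) (nat_lit 6674) (.d (nat_lit 659) (nat_lit 627) (nat_lit 4626) (nat_lit 691) (nat_lit 4658)))) (.a (.f (nat_lit 659) (nat_lit 627) (nat_lit 4626) (.f (nat_lit 658) (nat_lit 691) (nat_lit 4658) (.f (nat_lit 689) (nat_lit 657) (nat_lit 5681) (.f (nat_lit 690) (nat_lit 721) (nat_lit 5713) (.f (nat_lit 561) (nat_lit 593) (nat_lit 7729) (.d (nat_lit 595) (nat_lit 559) (nat_lit 559) (nat_lit 563) (nat_lit 6706))))))) (.f (nat_lit 531) (nat_lit 499) (nat_lit 6642) (.f (nat_lit 561) (nat_lit 559) (nat_lit 2575) (.f (nat_lit 659) (nat_lit 627)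 (nat_lit 4626) (.f (nat_lit 658) (nat_lit 691) (nat_lit 4658) (.f (nat_lit 689) (nat_lit 657) (nat_lit 5681) (.d (nat_lit 690) (nat_lit 593) (nat_lit 7729) (nat_lit 721) (nat_lit 5713))))))))))) (.a (.p (nat_lit 498) (.a (.f (nat_lit 595) (nat_lit 627) (nat_lit 4594) (.f (nat_lit 561) (nat_lit 559) (nat_lit 559) (.d (nat_lit 563) (nat_lit 466) (nat_lit 4562) (nat_lit 596) (nat_lit 560)))) (.a (.f (nat_lit 467) (nat_lit 499) (nat_lit 6610) (.f (nat_lit 466) (nat_lit 435) (nat_lit 6578) (.d (nat_lit 465) (nat_lit 433) (nat_lit 7601) (nat_lit 497) (nat_lit 7633)))) (.f (nat_lit 595) (nat_lit 627) (nat_lit 4594) (.f (nat_lit 561) (nat_lit 559) (nat_lit 559) (.d (nat_lit 596) (nat_lit 563) (nat_lit 560) (nat_lit 597) (nat_lit 3633))))))) s10050))))) (.a s4412 (.a (.p (nat_lit 561) (.a (.f (nat_lit 563) (nat_lit 527) (nat_lit 3599) (.d (nat_lit 595) (nat_lit 559) (nat_lit 559) (nat_lit 596) (nat_lit 560))) (.a (.f (nat_lit 559) (nat_lit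 595) (nat_lit 559) (.f (nat_lit 558) (nat_lit 593) (nat_lit 558) (.d (nat_lit 590) (nat_lit 589) (nat_lit 1581) (nat_lit 591) (nat_lit 1582)))) (.f (nat_lit 563) (nat_lit 527) (nat_lit 3599) (.f (nat_lit 564) (nat_lit 529) (nat_lit 3600) (.d (nat_lit 532) (nat_lit 531) (nat_lit 2576) (nat_lit 533) (nat_lit 2577))))))) (.a s4787 (.a s4799 s4839)))))))))
noncomputable def s10072 : Cert := .r (nat_lit 18869812124986400861704490948459027756867024433892689860299374593630612134736493787905533600559981471712008058190913152356962472978375577626770901665172955839509703950336) (.p (nat_lit 594) (.a (.p (nat_lit 561) (.a (.f (nat_lit 563) (nat_lit 527) (nat_lit 3599) (.d (nat_lit 595) (nat_lit 559) (nat_lit 559) (nat_lit 596) (nat_lit 560))) (.a (.f (nat_lit 559) (nat_lit 595) (nat_lit 559) (.f (nat_lit 530) (nat_lit 531) (nat_lit 2575) (.d (nat_lit 558) (nat_lit 529) (nat_lit 2574) (nat_lit 593) (nat_lit 558)))) (.f (nat_lit 563) (nat_lit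 527) (nat_lit 3599) (.f (nat_lit 564) (nat_lit 529) (nat_lit 3600) (.d (nat_lit 532) (nat_lit 531) (nat_lit 2576) (nat_lit 533) (nat_lit 2577))))))) (.a s3834 (.a s4005 (.a s4047 (.a s4412 (.a (.p (nat_lit 561) (.a (.f (nat_lit 563) (nat_lit 527) (nat_lit 3599) (.d (nat_lit 595) (nat_lit 559) (nat_lit 559) (nat_lit 596) (nat_lit 560))) (.a (.f (nat_lit 559) (nat_lit 595) (nat_lit 559) (.f (nat_lit 558) (nat_lit 593) (nat_lit 558) (.d (nat_lit 590) (nat_lit 589) (nat_lit 1581) (nat_lit 591) (nat_lit 1582)))) (.f (nat_lit 563) (nat_lit 527) (nat_lit 3599) (.f (nat_lit 564) (nat_lit 529) (nat_lit 3600) (.d (nat_lit 532) (nat_lit 531) (nat_lit 2576) (nat_lit 533) (nat_lit 2577))))))) (.a s4787 (.a s4799 s4839)))))))))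
noncomputable def s10089 : Cert := .r (nat_lit 64836180782635327101742773731878883933028500135655100996324835636715824771957301922231916427704030386313073450013582889165837387910271462164107996909801584275503921517658290257920) (.p (nat_lit 530) (.a s3695 (.a s3460 (.a (.p (nat_lit 529) (.a (.f (nat_lit 531) (nat_lit 559) (nat_lit 1551) (.d (nat_lit 499) (nat_lit 500) (nat_lit 2544) (nat_lit 626) (nat_lit 6642))) (.a (.f (nat_lit 527) (nat_lit 563) (nat_lit 527) (.f (nat_lit 495) (nat_lit 494) (nat_lit 3566) (.f (nat_lit 559) (nat_lit 558) (nat_lit 1550) (.d (nat_lit 463) (nat_lit 431) (nat_lit 4527) (nat_lit 592) (nat_lit 4559))))) (.f (nat_lit 563) (nat_lit 527) (nat_lit 527) (.d (nat_lit 564) (nat_lit 531) (nat_lit 528) (nat_lit 565) (nat_lit 3601)))))) (.a (.p (nat_lit 529) (.a (.f (nat_lit 527) (nat_lit 563) (nat_lit 527) (.f (nat_lit 495) (nat_lit 494) (nat_lit 3566) (.f (nat_lit 559) (nat_lit 558) (nat_lit 1550) (.d (nat_lit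 463) (nat_lit 431) (nat_lit 4527) (nat_lit 592) (nat_lit 4559))))) (.f (nat_lit 497) (nat_lit 626) (nat_lit 7665) (.d (nat_lit 465) (nat_lit 433) (nat_lit 4529) (nat_lit 498) (nat_lit 7633))))) s4007)))))
noncomputable def s10092 : Cert := .r (nat_lit 3773962425700235452738272624505952193199339552226928146794549392648115485167898379561026699849346401546134558067857772757880134458676407096525164659442171664912122642432) (.p (nat_lit 562) (.a s3192 (.a s9338 (.a s9415 (.a (.p (nat_lit 592) (.a s9384 (.a s9417 (.a (.p (nat_lit 624) (.a (.f (nat_lit 527) (nat_lit 495) (nat_lit 7663) (.f (nat_lit 656) (nat_lit 559) (nat_lit 7695) (.d (nat_lit 657) (nat_lit 625) (nat_lit 4624) (nat_lit 689) (nat_lit 4656)))) (.a (.f (nat_lit 657) (nat_lit 625) (nat_lit 4624) (.f (nat_lit 656) (nat_lit 689) (nat_lit 4656) (.f (nat_lit 687) (nat_lit 655) (nat_lit 5679) (.f (nat_lit 688) (nat_lit 719) (nat_lit 5711) (.f (nat_lit 561) (nat_lit 593) (nat_lit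 6704) (.d (nat_lit 591) (nat_lit 559) (nat_lit 7727) (nat_lit 563) (nat_lit 1583))))))) (.a (.f (nat_lit 657) (nat_lit 625) (nat_lit 4624) (.f (nat_lit 656) (nat_lit 689) (nat_lit 4656) (.f (nat_lit 687) (nat_lit 655) (nat_lit 5679) (.f (nat_lit 688) (nat_lit 719) (nat_lit 5711) (.f (nat_lit 561) (nat_lit 593) (nat_lit 6704) (.d (nat_lit 527) (nat_lit 495) (nat_lit 7663) (nat_lit 563) (nat_lit 3599))))))) (.a (.f (nat_lit 527) (nat_lit 495) (nat_lit 7663) (.f (nat_lit 561) (nat_lit 563) (nat_lit 3599) (.f (nat_lit 559) (nat_lit 656) (nat_lit 7695) (.f (nat_lit 590) (nat_lit 591) (nat_lit 1582) (.f (nat_lit 558) (nat_lit 589) (nat_lit 1581) (.d (nat_lit 557) (nat_lit 556) (nat_lit 2572) (nat_lit 593) (nat_lit 557))))))) (.p (nat_lit 591) (.a (.f (nat_lit 561) (nat_lit 563) (nat_lit 1583) (.d (nat_lit 590) (nat_lit 559) (nat_lit 1582) (nat_lit 589) (nat_lit 2605))) (.a (.f (nat_lit 625) (nat_lit 657) (nat_lit 4624) (.f (nat_lit 590)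 (nat_lit 589) (nat_lit 589) (.d (nat_lit 626) (nat_lit 593) (nat_lit 590) (nat_lit 627) (nat_lit 3663)))) (.f (nat_lit 563) (nat_lit 561) (nat_lit 1583) (.f (nat_lit 594) (nat_lit 593) (nat_lit 2607) (.f (nat_lit 625) (nat_lit 657) (nat_lit 4624) (.f (nat_lit 626) (nat_lit 627) (nat_lit 3663) (.f (nat_lit 531) (nat_lit 658) (nat_lit 6674) (.d (nat_lit 499) (nat_lit 467) (nat_lit 5586) (nat_lit 530) (nat_lit 6642))))))))))))))) (.a (.p (nat_lit 496) (.a (.f (nat_lit 463) (nat_lit 495) (nat_lit 7631) (.f (nat_lit 464) (nat_lit 431) (nat_lit 7599) (.d (nat_lit 465) (nat_lit 433) (nat_lit 6576) (nat_lit 497) (nat_lit 6608)))) (.a (.f (nat_lit 463) (nat_lit 495) (nat_lit 7631) (.f (nat_lit 464) (nat_lit 431) (nat_lit 7599) (.f (nat_lit 433) (nat_lit 465) (nat_lit 6576) (.f (nat_lit 432) (nat_lit 401) (nat_lit 6544) (.d (nat_lit 559) (nat_lit 527) (nat_lit 5551) (nat_lit 591) (nat_lit 5583)))))) (.a (.f (nat_lit 495) (nat_lit 463) (nat_lit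 7631) (.f (nat_lit 527) (nat_lit 624) (nat_lit 7663) (.f (nat_lit 497) (nat_lit 465) (nat_lit 6608) (.f (nat_lit 498) (nat_lit 499) (nat_lit 1519) (.f (nat_lit 563) (nat_lit 561) (nat_lit 3599) (.f (nat_lit 530) (nat_lit 531) (nat_lit 495) (.d (nat_lit 466) (nat_lit 467) (nat_lit 2511) (nat_lit 595) (nat_lit 4562)))))))) (.a (.p (nat_lit 464) (.a (.d (nat_lit 463) (nat_lit 431) (nat_lit 7599) (nat_lit 495) (nat_lit 7631)) (.a (.f (nat_lit 559) (nat_lit 591) (nat_lit 5583) (.f (nat_lit 432) (nat_lit 527) (nat_lit 5551) (.d (nat_lit 431) (nat_lit 399) (nat_lit 7567) (nat_lit 463) (nat_lit 7599)))) (.a (.f (nat_lit 559) (nat_lit 591) (nat_lit 5583) (.f (nat_lit 432) (nat_lit 527) (nat_lit 5551) (.f (nat_lit 399) (nat_lit 431) (nat_lit 7567) (.f (nat_lit 400) (nat_lit 367) (nat_lit 7535) (.d (nat_lit 401) (nat_lit 369) (nat_lit 6512) (nat_lit 433) (nat_lit 6544)))))) (.f (nat_lit 559) (nat_lit 591) (nat_lit 5583) (.f (nat_lit 527) (nat_lit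 432) (nat_lit 5551) (.d (nat_lit 495) (nat_lit 463) (nat_lit 4559) (nat_lit 624) (nat_lit 7663)))))))) (.a (.f (nat_lit 465) (nat_lit 497) (nat_lit 6608) (.f (nat_lit 464) (nat_lit 433) (nat_lit 6576) (.f (nat_lit 431) (nat_lit 463) (nat_lit 7599) (.f (nat_lit 432) (nat_lit 399) (nat_lit 7567) (.d (nat_lit 559) (nat_lit 527) (nat_lit 5551) (nat_lit 591) (nat_lit 5583)))))) (.f (nat_lit 465) (nat_lit 497) (nat_lit 6608) (.f (nat_lit 464) (nat_lit 433) (nat_lit 6576) (.f (nat_lit 559) (nat_lit 591) (nat_lit 5583) (.f (nat_lit 527) (nat_lit 432) (nat_lit 5551) (.d (nat_lit 624) (nat_lit 495) (nat_lit 7663) (nat_lit 656) (nat_lit 7695)))))))))))) (.a (.p (nat_lit 496) (.a (.f (nat_lit 593) (nat_lit 625) (nat_lit 4592) (.f (nat_lit 561) (nat_lit 464) (nat_lit 4560) (.d (nat_lit 563) (nat_lit 564) (nat_lit 1584) (nat_lit 591) (nat_lit 1583)))) (.a (.f (nat_lit 463) (nat_lit 495) (nat_lit 7631) (.f (nat_lit 464) (nat_lit 431) (nat_lit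 7599) (.d (nat_lit 465) (nat_lit 433) (nat_lit 6576) (nat_lit 497) (nat_lit 6608)))) (.f (nat_lit 495) (nat_lit 463) (nat_lit 7631) (.f (nat_lit 624) (nat_lit 527) (nat_lit 7663) (.d (nat_lit 625) (nat_lit 593) (nat_lit 4592) (nat_lit 657) (nat_lit 4624))))))) (.a s9450 (.p (nat_lit 496) (.a (.f (nat_lit 593) (nat_lit 625) (nat_lit 4592) (.f (nat_lit 561) (nat_lit 464) (nat_lit 4560) (.d (nat_lit 563) (nat_lit 527) (nat_lit 3599) (nat_lit 564) (nat_lit 1584)))) (.a (.f (nat_lit 593) (nat_lit 625) (nat_lit 4592) (.f (nat_lit 561) (nat_lit 464) (nat_lit 4560) (.f (nat_lit 563) (nat_lit 564) (nat_lit 1584) (.f (nat_lit 595) (nat_lit 596) (nat_lit 560) (.f (nat_lit 594) (nat_lit 559) (nat_lit 559) (.f (nat_lit 531) (nat_lit 532) (nat_lit 2576) (.d (nat_lit 499) (nat_lit 467) (nat_lit 5586) (nat_lit 626) (nat_lit 5618)))))))) (.a (.f (nat_lit 463) (nat_lit 495) (nat_lit 7631) (.f (nat_lit 464) (nat_lit 431) (nat_lit 7599) (.d (nat_lit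 465) (nat_lit 433) (nat_lit 6576) (nat_lit 497) (nat_lit 6608)))) (.f (nat_lit 495) (nat_lit 463) (nat_lit 7631) (.f (nat_lit 624) (nat_lit 527) (nat_lit 7663) (.d (nat_lit 625) (nat_lit 593) (nat_lit 4592) (nat_lit 657) (nat_lit 4624))))))))))))))) (.a s9508 (.a s9587 (.a (.p (nat_lit 594) (.a (.p (nat_lit 561) (.a (.f (nat_lit 563) (nat_lit 527) (nat_lit 3599) (.d (nat_lit 595) (nat_lit 559) (nat_lit 559) (nat_lit 596) (nat_lit 560))) (.a (.f (nat_lit 559) (nat_lit 595) (nat_lit 559) (.f (nat_lit 593) (nat_lit 558) (nat_lit 558) (.f (nat_lit 625) (nat_lit 657) (nat_lit 7696) (.d (nat_lit 496) (nat_lit 464) (nat_lit 4560) (nat_lit 529) (nat_lit 7664))))) (.f (nat_lit 563) (nat_lit 527) (nat_lit 3599) (.f (nat_lit 564) (nat_lit 529) (nat_lit 3600) (.d (nat_lit 532) (nat_lit 531) (nat_lit 2576) (nat_lit 533) (nat_lit 2577))))))) (.a s9523 (.a (.p (nat_lit 561) (.a (.f (nat_lit 563) (nat_lit 527) (nat_lit 3599) (.d (nat_lit 595) (nat_lit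 559) (nat_lit 559) (nat_lit 596) (nat_lit 560))) (.a (.f (nat_lit 559) (nat_lit 595) (nat_lit 559) (.f (nat_lit 530) (nat_lit 531) (nat_lit 2575) (.d (nat_lit 558) (nat_lit 529) (nat_lit 2574) (nat_lit 593) (nat_lit 558)))) (.f (nat_lit 563) (nat_lit 527) (nat_lit 3599) (.f (nat_lit 564) (nat_lit 529) (nat_lit 3600) (.d (nat_lit 532) (nat_lit 531) (nat_lit 2576) (nat_lit 533) (nat_lit 2577))))))) (.a (.p (nat_lit 592) (.a (.p (nat_lit 593) (.a (.f (nat_lit 559) (nat_lit 595) (nat_lit 3631) (.d (nat_lit 558) (nat_lit 557) (nat_lit 557) (nat_lit 591) (nat_lit 3630))) (.a (.f (nat_lit 591) (nat_lit 563) (nat_lit 2607) (.f (nat_lit 626) (nat_lit 627) (nat_lit 591) (.f (nat_lit 625) (nat_lit 590) (nat_lit 590) (.d (nat_lit 657) (nat_lit 530) (nat_lit 5649) (nat_lit 689) (nat_lit 7728))))) (.f (nat_lit 595) (nat_lit 559) (nat_lit 3631) (.f (nat_lit 563) (nat_lit 564) (nat_lit 2608) (.f (nat_lit 627) (nat_lit 628) (nat_lit 592) (.d (nat_lit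 659) (nat_lit 530) (nat_lit 7698) (nat_lit 691) (nat_lit 7730)))))))) (.a s3954 (.a (.p (nat_lit 496) (.a (.f (nat_lit 465) (nat_lit 497) (nat_lit 6608) (.f (nat_lit 464) (nat_lit 433) (nat_lit 6576) (.d (nat_lit 463) (nat_lit 431) (nat_lit 7599) (nat_lit 495) (nat_lit 7631)))) (.a (.f (nat_lit 463) (nat_lit 495) (nat_lit 7631) (.f (nat_lit 464) (nat_lit 431) (nat_lit 7599) (.f (nat_lit 433) (nat_lit 465) (nat_lit 6576) (.f (nat_lit 432) (nat_lit 401) (nat_lit 6544) (.d (nat_lit 559) (nat_lit 527) (nat_lit 5551) (nat_lit 591) (nat_lit 5583)))))) (.a (.f (nat_lit 495) (nat_lit 463) (nat_lit 7631) (.f (nat_lit 624) (nat_lit 527) (nat_lit 7663) (.d (nat_lit 497) (nat_lit 465) (nat_lit 6608) (nat_lit 529) (nat_lit 6640)))) (.a (.f (nat_lit 463) (nat_lit 495) (nat_lit 7631) (.f (nat_lit 464) (nat_lit 431) (nat_lit 7599) (.f (nat_lit 559) (nat_lit 591) (nat_lit 5583) (.f (nat_lit 527) (nat_lit 432) (nat_lit 5551) (.f (nat_lit 624) (nat_lit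 656) (nat_lit 7695) (.f (nat_lit 529) (nat_lit 497) (nat_lit 6640) (.d (nat_lit 530) (nat_lit 531) (nat_lit 1551) (nat_lit 558) (nat_lit 1550)))))))) (.a (.f (nat_lit 465) (nat_lit 497) (nat_lit 6608) (.f (nat_lit 464) (nat_lit 433) (nat_lit 6576) (.f (nat_lit 559) (nat_lit 591) (nat_lit 5583) (.f (nat_lit 431) (nat_lit 463) (nat_lit 7599) (.d (nat_lit 432) (nat_lit 399) (nat_lit 7567) (nat_lit 527) (nat_lit 5551)))))) (.f (nat_lit 497) (nat_lit 465) (nat_lit 6608) (.f (nat_lit 529) (nat_lit 624) (nat_lit 6640) (.f (nat_lit 530) (nat_lit 626) (nat_lit 7665) (.d (nat_lit 495) (nat_lit 494) (nat_lit 494) (nat_lit 531) (nat_lit 3567))))))))))) (.a (.p (nat_lit 496) (.a (.f (nat_lit 465) (nat_lit 497) (nat_lit 6608) (.f (nat_lit 464) (nat_lit 433) (nat_lit 6576) (.d (nat_lit 463) (nat_lit 431) (nat_lit 7599) (nat_lit 495) (nat_lit 7631)))) (.f (nat_lit 593) (nat_lit 625) (nat_lit 4592) (.f (nat_lit 563) (nat_lit 591) (nat_lit 2607)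 (.d (nat_lit 564) (nat_lit 565) (nat_lit 1585) (nat_lit 595) (nat_lit 2608)))))) (.p (nat_lit 496) (.a (.f (nat_lit 465) (nat_lit 497) (nat_lit 6608) (.f (nat_lit 464) (nat_lit 433) (nat_lit 6576) (.d (nat_lit 463) (nat_lit 431) (nat_lit 7599) (nat_lit 495) (nat_lit 7631)))) (.f (nat_lit 593) (nat_lit 625) (nat_lit 4592) (.f (nat_lit 595) (nat_lit 559) (nat_lit 3631) (.f (nat_lit 563) (nat_lit 564) (nat_lit 2608) (.f (nat_lit 627) (nat_lit 628) (nat_lit 592) (.d (nat_lit 659) (nat_lit 530) (nat_lit 7698) (nat_lit 691) (nat_lit 7730))))))))))))) (.a (.p (nat_lit 561) (.a (.f (nat_lit 563) (nat_lit 527) (nat_lit 3599) (.d (nat_lit 595) (nat_lit 559) (nat_lit 559) (nat_lit 596) (nat_lit 560))) (.a (.f (nat_lit 559) (nat_lit 595) (nat_lit 559) (.f (nat_lit 593) (nat_lit 558) (nat_lit 558) (.f (nat_lit 625) (nat_lit 657) (nat_lit 7696) (.d (nat_lit 496) (nat_lit 464) (nat_lit 4560) (nat_lit 592) (nat_lit 4592))))) (.f (nat_lit 563) (nat_lit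 527) (nat_lit 3599) (.f (nat_lit 592) (nat_lit 591) (nat_lit 1583) (.f (nat_lit 593) (nat_lit 564) (nat_lit 1584) (.d (nat_lit 496) (nat_lit 464) (nat_lit 4560) (nat_lit 625) (nat_lit 4592)))))))) (.a (.p (nat_lit 561) (.a (.f (nat_lit 563) (nat_lit 527) (nat_lit 3599) (.d (nat_lit 595) (nat_lit 559) (nat_lit 559) (nat_lit 596) (nat_lit 560))) (.a (.f (nat_lit 559) (nat_lit 595) (nat_lit 559) (.f (nat_lit 530) (nat_lit 531) (nat_lit 2575) (.f (nat_lit 529) (nat_lit 558) (nat_lit 2574) (.d (nat_lit 497) (nat_lit 465) (nat_lit 4561) (nat_lit 626) (nat_lit 7665))))) (.f (nat_lit 563) (nat_lit 527) (nat_lit 3599) (.f (nat_lit 564) (nat_lit 529) (nat_lit 3600) (.d (nat_lit 532) (nat_lit 531) (nat_lit 2576) (nat_lit 533) (nat_lit 2577))))))) (.a s9583 (.a (.p (nat_lit 592) (.a (.p (nat_lit 563) (.a (.d (nat_lit 561) (nat_lit 527) (nat_lit 3599) (nat_lit 591) (nat_lit 1583)) (.a (.d (nat_lit 591) (nat_lit 561) (nat_lit 1583) (nat_lit 593)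 (nat_lit 2607)) (.a (.f (nat_lit 593) (nat_lit 591) (nat_lit 2607) (.d (nat_lit 564) (nat_lit 565) (nat_lit 1585) (nat_lit 595) (nat_lit 2608))) (.f (nat_lit 561) (nat_lit 527) (nat_lit 3599) (.d (nat_lit 564) (nat_lit 529) (nat_lit 3600) (nat_lit 593) (nat_lit 1584))))))) (.a (.p (nat_lit 496) (.a (.f (nat_lit 465) (nat_lit 497) (nat_lit 6608) (.f (nat_lit 464) (nat_lit 433) (nat_lit 6576) (.d (nat_lit 463) (nat_lit 431) (nat_lit 7599) (nat_lit 495) (nat_lit 7631)))) (.a (.f (nat_lit 593) (nat_lit 625) (nat_lit 4592) (.f (nat_lit 561) (nat_lit 464) (nat_lit 4560) (.d (nat_lit 563) (nat_lit 564) (nat_lit 1584) (nat_lit 591) (nat_lit 1583)))) (.f (nat_lit 593) (nat_lit 625) (nat_lit 4592) (.f (nat_lit 563) (nat_lit 591) (nat_lit 2607) (.d (nat_lit 564) (nat_lit 561) (nat_lit 1584) (nat_lit 565) (nat_lit 1585))))))) (.a (.p (nat_lit 496) (.a (.f (nat_lit 465) (nat_lit 497) (nat_lit 6608) (.f (nat_lit 464) (nat_lit 433) (nat_lit 6576)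 (.d (nat_lit 463) (nat_lit 431) (nat_lit 7599) (nat_lit 495) (nat_lit 7631)))) (.f (nat_lit 593) (nat_lit 625) (nat_lit 4592) (.f (nat_lit 563) (nat_lit 591) (nat_lit 2607) (.d (nat_lit 564) (nat_lit 565) (nat_lit 1585) (nat_lit 595) (nat_lit 2608)))))) (.a (.p (nat_lit 496) (.a (.f (nat_lit 465) (nat_lit 497) (nat_lit 6608) (.f (nat_lit 464) (nat_lit 433) (nat_lit 6576) (.d (nat_lit 463) (nat_lit 431) (nat_lit 7599) (nat_lit 495) (nat_lit 7631)))) (.a (.f (nat_lit 463) (nat_lit 495) (nat_lit 7631) (.f (nat_lit 464) (nat_lit 431) (nat_lit 7599) (.f (nat_lit 433) (nat_lit 465) (nat_lit 6576) (.f (nat_lit 432) (nat_lit 401) (nat_lit 6544) (.f (nat_lit 561) (nat_lit 529) (nat_lit 4528) (.f (nat_lit 563) (nat_lit 591) (nat_lit 1583) (.f (nat_lit 595) (nat_lit 596) (nat_lit 560) (.f (nat_lit 531) (nat_lit 532) (nat_lit 2576) (.d (nat_lit 499) (nat_lit 467) (nat_lit 5586) (nat_lit 626) (nat_lit 5618)))))))))) (.a (.f (nat_lit 495) (nat_lit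 463) (nat_lit 7631) (.f (nat_lit 624) (nat_lit 527) (nat_lit 7663) (.d (nat_lit 497) (nat_lit 465) (nat_lit 6608) (nat_lit 529) (nat_lit 6640)))) (.a (.f (nat_lit 495) (nat_lit 463) (nat_lit 7631) (.f (nat_lit 624) (nat_lit 527) (nat_lit 7663) (.f (nat_lit 529) (nat_lit 497) (nat_lit 6640) (.f (nat_lit 561) (nat_lit 656) (nat_lit 6672) (.d (nat_lit 563) (nat_lit 564) (nat_lit 3600) (nat_lit 591) (nat_lit 1583)))))) (.a (.f (nat_lit 465) (nat_lit 497) (nat_lit 6608) (.f (nat_lit 464) (nat_lit 433) (nat_lit 6576) (.f (nat_lit 431) (nat_lit 463) (nat_lit 7599) (.f (nat_lit 432) (nat_lit 399) (nat_lit 7567) (.f (nat_lit 561) (nat_lit 529) (nat_lit 4528) (.d (nat_lit 563) (nat_lit 527) (nat_lit 3599) (nat_lit 591) (nat_lit 1583))))))) (.f (nat_lit 497) (nat_lit 465) (nat_lit 6608) (.f (nat_lit 529) (nat_lit 624) (nat_lit 6640) (.f (nat_lit 530) (nat_lit 626) (nat_lit 7665) (.d (nat_lit 495) (nat_lit 494) (nat_lit 494) (nat_lit 531) (nat_lit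 3567))))))))))) (.a (.p (nat_lit 496) (.a (.f (nat_lit 465) (nat_lit 497) (nat_lit 6608) (.f (nat_lit 464) (nat_lit 433) (nat_lit 6576) (.d (nat_lit 463) (nat_lit 431) (nat_lit 7599) (nat_lit 495) (nat_lit 7631)))) (.a (.f (nat_lit 593) (nat_lit 625) (nat_lit 4592) (.f (nat_lit 561) (nat_lit 464) (nat_lit 4560) (.f (nat_lit 595) (nat_lit 596) (nat_lit 3632) (.f (nat_lit 627) (nat_lit 628) (nat_lit 592) (.d (nat_lit 591) (nat_lit 590) (nat_lit 2606) (nat_lit 626) (nat_lit 591)))))) (.f (nat_lit 495) (nat_lit 463) (nat_lit 7631) (.f (nat_lit 624) (nat_lit 527) (nat_lit 7663) (.d (nat_lit 497) (nat_lit 465) (nat_lit 6608) (nat_lit 529) (nat_lit 6640))))))) (.p (nat_lit 496) (.a (.f (nat_lit 465) (nat_lit 497) (nat_lit 6608) (.f (nat_lit 464) (nat_lit 433) (nat_lit 6576) (.d (nat_lit 463) (nat_lit 431) (nat_lit 7599) (nat_lit 495) (nat_lit 7631)))) (.a (.f (nat_lit 593) (nat_lit 625) (nat_lit 4592) (.f (nat_lit 561) (nat_lit 464) (nat_lit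 4560) (.f (nat_lit 563) (nat_lit 564) (nat_lit 1584) (.f (nat_lit 595) (nat_lit 596) (nat_lit 560) (.f (nat_lit 531) (nat_lit 532) (nat_lit 2576) (.d (nat_lit 499) (nat_lit 467) (nat_lit 5586) (nat_lit 626) (nat_lit 5618))))))) (.f (nat_lit 495) (nat_lit 463) (nat_lit 7631) (.f (nat_lit 624) (nat_lit 527) (nat_lit 7663) (.d (nat_lit 497) (nat_lit 465) (nat_lit 6608) (nat_lit 529) (nat_lit 6640))))))))))))) s4553))))))))) (.a s9644 (.a s9678 (.a (.p (nat_lit 594) (.a s3816 (.a s3984 (.a (.p (nat_lit 496) (.a (.p (nat_lit 592) (.a (.f (nat_lit 465) (nat_lit 497) (nat_lit 6608) (.f (nat_lit 464) (nat_lit 433) (nat_lit 6576) (.d (nat_lit 463) (nat_lit 431) (nat_lit 7599) (nat_lit 495) (nat_lit 7631)))) (.a (.f (nat_lit 593) (nat_lit 625) (nat_lit 4592) (.f (nat_lit 561) (nat_lit 464) (nat_lit 4560) (.d (nat_lit 559) (nat_lit 558) (nat_lit 558) (nat_lit 595) (nat_lit 559)))) (.f (nat_lit 593) (nat_lit 625) (nat_lit 4592) (.f (nat_lit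 559) (nat_lit 595) (nat_lit 3631) (.d (nat_lit 558) (nat_lit 557) (nat_lit 557) (nat_lit 561) (nat_lit 558))))))) (.a (.p (nat_lit 592) (.a (.f (nat_lit 465) (nat_lit 497) (nat_lit 6608) (.f (nat_lit 464) (nat_lit 433) (nat_lit 6576) (.d (nat_lit 463) (nat_lit 431) (nat_lit 7599) (nat_lit 495) (nat_lit 7631)))) (.f (nat_lit 593) (nat_lit 625) (nat_lit 4592) (.f (nat_lit 559) (nat_lit 595) (nat_lit 3631) (.d (nat_lit 558) (nat_lit 557) (nat_lit 557) (nat_lit 591) (nat_lit 3630)))))) (.a (.p (nat_lit 592) (.a (.f (nat_lit 593) (nat_lit 625) (nat_lit 4592) (.f (nat_lit 561) (nat_lit 464) (nat_lit 4560) (.d (nat_lit 559) (nat_lit 558) (nat_lit 558) (nat_lit 595) (nat_lit 559)))) (.a (.f (nat_lit 593) (nat_lit 625) (nat_lit 4592) (.f (nat_lit 559) (nat_lit 595) (nat_lit 3631) (.d (nat_lit 558) (nat_lit 557) (nat_lit 557) (nat_lit 591) (nat_lit 3630)))) (.a (.f (nat_lit 463) (nat_lit 495) (nat_lit 7631) (.f (nat_lit 464) (nat_lit 431)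 (nat_lit 7599) (.f (nat_lit 433) (nat_lit 465) (nat_lit 6576) (.f (nat_lit 432) (nat_lit 401) (nat_lit 6544) (.d (nat_lit 559) (nat_lit 527) (nat_lit 5551) (nat_lit 591) (nat_lit 5583)))))) (.f (nat_lit 593) (nat_lit 625) (nat_lit 4592) (.f (nat_lit 561) (nat_lit 464) (nat_lit 4560) (.f (nat_lit 595) (nat_lit 596) (nat_lit 3632) (.f (nat_lit 627) (nat_lit 628) (nat_lit 592) (.d (nat_lit 591) (nat_lit 590) (nat_lit 2606) (nat_lit 626) (nat_lit 591)))))))))) (.a (.p (nat_lit 561) (.a (.f (nat_lit 559) (nat_lit 595) (nat_lit 559) (.d (nat_lit 591) (nat_lit 464) (nat_lit 5583) (nat_lit 590) (nat_lit 1582))) (.a (.f (nat_lit 559) (nat_lit 595) (nat_lit 559) (.f (nat_lit 530) (nat_lit 531) (nat_lit 2575) (.f (nat_lit 593) (nat_lit 558) (nat_lit 558) (.d (nat_lit 498) (nat_lit 466) (nat_lit 5585) (nat_lit 625) (nat_lit 5617))))) (.f (nat_lit 464) (nat_lit 593) (nat_lit 4560) (.f (nat_lit 433) (nat_lit 465) (nat_lit 6576) (.f (nat_lit 432)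 (nat_lit 401) (nat_lit 6544) (.d (nat_lit 431) (nat_lit 399) (nat_lit 7567) (nat_lit 463) (nat_lit 7599)))))))) (.a (.p (nat_lit 592) (.a (.f (nat_lit 593) (nat_lit 625) (nat_lit 4592) (.f (nat_lit 559) (nat_lit 595) (nat_lit 3631) (.d (nat_lit 558) (nat_lit 557) (nat_lit 557) (nat_lit 561) (nat_lit 558)))) (.a (.f (nat_lit 593) (nat_lit 625) (nat_lit 4592) (.f (nat_lit 559) (nat_lit 595) (nat_lit 3631) (.d (nat_lit 558) (nat_lit 557) (nat_lit 557) (nat_lit 591) (nat_lit 3630)))) (.a (.f (nat_lit 495) (nat_lit 463) (nat_lit 7631) (.f (nat_lit 624) (nat_lit 527) (nat_lit 7663) (.f (nat_lit 657) (nat_lit 625) (nat_lit 4624) (.f (nat_lit 656) (nat_lit 689) (nat_lit 4656) (.f (nat_lit 687) (nat_lit 655) (nat_lit 5679) (.f (nat_lit 688) (nat_lit 719) (nat_lit 5711) (.f (nat_lit 559) (nat_lit 591) (nat_lit 7727) (.f (nat_lit 659) (nat_lit 658) (nat_lit 1679) (.f (nat_lit 595) (nat_lit 561) (nat_lit 559) (.f (nat_lit 627) (nat_lit 691)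 (nat_lit 7730) (.d (nat_lit 530) (nat_lit 498) (nat_lit 4594) (nat_lit 626) (nat_lit 4626)))))))))))) (.a (.f (nat_lit 593) (nat_lit 625) (nat_lit 4592) (.f (nat_lit 495) (nat_lit 463) (nat_lit 7631) (.f (nat_lit 497) (nat_lit 465) (nat_lit 6608) (.f (nat_lit 527) (nat_lit 624) (nat_lit 7663) (.f (nat_lit 498) (nat_lit 499) (nat_lit 1519) (.f (nat_lit 530) (nat_lit 531) (nat_lit 495) (.d (nat_lit 466) (nat_lit 467) (nat_lit 2511) (nat_lit 561) (nat_lit 5585)))))))) (.f (nat_lit 495) (nat_lit 463) (nat_lit 7631) (.f (nat_lit 497) (nat_lit 465) (nat_lit 6608) (.f (nat_lit 527) (nat_lit 624) (nat_lit 7663) (.f (nat_lit 498) (nat_lit 499) (nat_lit 1519) (.f (nat_lit 530) (nat_lit 531) (nat_lit 495) (.f (nat_lit 595) (nat_lit 627) (nat_lit 4594) (.d (nat_lit 559) (nat_lit 561) (nat_lit 559) (nat_lit 593) (nat_lit 3631))))))))))))) (.a (.p (nat_lit 592) (.a (.f (nat_lit 465) (nat_lit 497) (nat_lit 6608) (.f (nat_lit 464) (nat_lit 433)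 (nat_lit 6576) (.d (nat_lit 463) (nat_lit 431) (nat_lit 7599) (nat_lit 495) (nat_lit 7631)))) (.a (.f (nat_lit 463) (nat_lit 495) (nat_lit 7631) (.f (nat_lit 464) (nat_lit 431) (nat_lit 7599) (.f (nat_lit 433) (nat_lit 465) (nat_lit 6576) (.f (nat_lit 432) (nat_lit 401) (nat_lit 6544) (.d (nat_lit 559) (nat_lit 527) (nat_lit 5551) (nat_lit 591) (nat_lit 5583)))))) (.a (.f (nat_lit 495) (nat_lit 463) (nat_lit 7631) (.f (nat_lit 624) (nat_lit 527) (nat_lit 7663) (.f (nat_lit 657) (nat_lit 625) (nat_lit 4624) (.f (nat_lit 656) (nat_lit 689) (nat_lit 4656) (.f (nat_lit 687) (nat_lit 655) (nat_lit 5679) (.f (nat_lit 688) (nat_lit 719) (nat_lit 5711) (.f (nat_lit 559) (nat_lit 591) (nat_lit 7727) (.f (nat_lit 659) (nat_lit 658) (nat_lit 1679) (.f (nat_lit 595) (nat_lit 561) (nat_lit 559) (.f (nat_lit 627) (nat_lit 691) (nat_lit 7730) (.d (nat_lit 530) (nat_lit 498) (nat_lit 4594) (nat_lit 626) (nat_lit 4626)))))))))))) (.a (.f (nat_lit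 465) (nat_lit 497) (nat_lit 6608) (.f (nat_lit 464) (nat_lit 433) (nat_lit 6576) (.f (nat_lit 559) (nat_lit 591) (nat_lit 5583) (.f (nat_lit 431) (nat_lit 463) (nat_lit 7599) (.d (nat_lit 432) (nat_lit 399) (nat_lit 7567) (nat_lit 527) (nat_lit 5551)))))) (.f (nat_lit 465) (nat_lit 497) (nat_lit 6608) (.f (nat_lit 464) (nat_lit 433) (nat_lit 6576) (.f (nat_lit 559) (nat_lit 591) (nat_lit 5583) (.f (nat_lit 527) (nat_lit 432) (nat_lit 5551) (.d (nat_lit 624) (nat_lit 495) (nat_lit 7663) (nat_lit 656) (nat_lit 7695))))))))))) (.a (.p (nat_lit 592) (.a (.f (nat_lit 465) (nat_lit 497) (nat_lit 6608) (.f (nat_lit 464) (nat_lit 433) (nat_lit 6576) (.d (nat_lit 463) (nat_lit 431) (nat_lit 7599) (nat_lit 495) (nat_lit 7631)))) (.a (.f (nat_lit 593) (nat_lit 625) (nat_lit 4592) (.f (nat_lit 561) (nat_lit 464) (nat_lit 4560) (.f (nat_lit 595) (nat_lit 596) (nat_lit 3632) (.f (nat_lit 627) (nat_lit 628) (nat_lit 592) (.d (nat_lit 591) (nat_lit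 590) (nat_lit 2606) (nat_lit 626) (nat_lit 591)))))) (.f (nat_lit 593) (nat_lit 625) (nat_lit 4592) (.f (nat_lit 495) (nat_lit 463) (nat_lit 7631) (.f (nat_lit 497) (nat_lit 465) (nat_lit 6608) (.f (nat_lit 527) (nat_lit 624) (nat_lit 7663) (.f (nat_lit 498) (nat_lit 499) (nat_lit 1519) (.f (nat_lit 530) (nat_lit 531) (nat_lit 495) (.d (nat_lit 466) (nat_lit 467) (nat_lit 2511) (nat_lit 561) (nat_lit 5585))))))))))) (.a (.p (nat_lit 592) (.a (.f (nat_lit 593) (nat_lit 625) (nat_lit 4592) (.f (nat_lit 561) (nat_lit 464) (nat_lit 4560) (.d (nat_lit 559) (nat_lit 558) (nat_lit 558) (nat_lit 595) (nat_lit 559)))) (.a (.f (nat_lit 593) (nat_lit 625) (nat_lit 4592) (.f (nat_lit 559) (nat_lit 595) (nat_lit 3631) (.d (nat_lit 558) (nat_lit 557) (nat_lit 557) (nat_lit 591) (nat_lit 3630)))) (.a (.f (nat_lit 495) (nat_lit 463) (nat_lit 7631) (.f (nat_lit 624) (nat_lit 527) (nat_lit 7663) (.f (nat_lit 657) (nat_lit 625) (nat_lit 4624) (.f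 (nat_lit 656) (nat_lit 689) (nat_lit 4656) (.f (nat_lit 687) (nat_lit 655) (nat_lit 5679) (.f (nat_lit 688) (nat_lit 719) (nat_lit 5711) (.f (nat_lit 559) (nat_lit 591) (nat_lit 7727) (.f (nat_lit 659) (nat_lit 658) (nat_lit 1679) (.f (nat_lit 595) (nat_lit 561) (nat_lit 559) (.f (nat_lit 627) (nat_lit 691) (nat_lit 7730) (.d (nat_lit 530) (nat_lit 498) (nat_lit 4594) (nat_lit 626) (nat_lit 4626)))))))))))) (.a (.f (nat_lit 593) (nat_lit 625) (nat_lit 4592) (.f (nat_lit 561) (nat_lit 464) (nat_lit 4560) (.f (nat_lit 595) (nat_lit 596) (nat_lit 3632) (.f (nat_lit 627) (nat_lit 628) (nat_lit 592) (.d (nat_lit 591) (nat_lit 590) (nat_lit 2606) (nat_lit 626) (nat_lit 591)))))) (.a (.f (nat_lit 463) (nat_lit 495) (nat_lit 7631) (.f (nat_lit 464) (nat_lit 431) (nat_lit 7599) (.f (nat_lit 559) (nat_lit 591) (nat_lit 5583) (.d (nat_lit 561) (nat_lit 593) (nat_lit 4560) (nat_lit 595) (nat_lit 559))))) (.f (nat_lit 593) (nat_lit 625) (nat_lit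 4592) (.f (nat_lit 464) (nat_lit 561) (nat_lit 4560) (.d (nat_lit 463) (nat_lit 431) (nat_lit 7599) (nat_lit 495) (nat_lit 7631)))))))))) (.a (.p (nat_lit 592) (.a (.f (nat_lit 465) (nat_lit 497) (nat_lit 6608) (.f (nat_lit 464) (nat_lit 433) (nat_lit 6576) (.d (nat_lit 463) (nat_lit 431) (nat_lit 7599) (nat_lit 495) (nat_lit 7631)))) (.a (.f (nat_lit 463) (nat_lit 495) (nat_lit 7631) (.f (nat_lit 464) (nat_lit 431) (nat_lit 7599) (.f (nat_lit 433) (nat_lit 465) (nat_lit 6576) (.f (nat_lit 432) (nat_lit 401) (nat_lit 6544) (.d (nat_lit 559) (nat_lit 527) (nat_lit 5551) (nat_lit 591) (nat_lit 5583)))))) (.a (.f (nat_lit 495) (nat_lit 463) (nat_lit 7631) (.f (nat_lit 497) (nat_lit 465) (nat_lit 6608) (.f (nat_lit 527) (nat_lit 624) (nat_lit 7663) (.f (nat_lit 498) (nat_lit 499) (nat_lit 1519) (.f (nat_lit 530) (nat_lit 531) (nat_lit 495) (.f (nat_lit 595) (nat_lit 627) (nat_lit 4594) (.d (nat_lit 559) (nat_lit 561) (nat_lit 559) (nat_lit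 593) (nat_lit 3631)))))))) (.a (.f (nat_lit 463) (nat_lit 495) (nat_lit 7631) (.f (nat_lit 464) (nat_lit 431) (nat_lit 7599) (.f (nat_lit 559) (nat_lit 591) (nat_lit 5583) (.d (nat_lit 561) (nat_lit 593) (nat_lit 4560) (nat_lit 595) (nat_lit 559))))) (.f (nat_lit 465) (nat_lit 497) (nat_lit 6608) (.f (nat_lit 464) (nat_lit 433) (nat_lit 6576) (.f (nat_lit 559) (nat_lit 591) (nat_lit 5583) (.d (nat_lit 561) (nat_lit 593) (nat_lit 4560) (nat_lit 595) (nat_lit 559)))))))))) (.a (.p (nat_lit 592) (.a (.f (nat_lit 465) (nat_lit 497) (nat_lit 6608) (.f (nat_lit 464) (nat_lit 433) (nat_lit 6576) (.d (nat_lit 463) (nat_lit 431) (nat_lit 7599) (nat_lit 495) (nat_lit 7631)))) (.a (.f (nat_lit 593) (nat_lit 625) (nat_lit 4592) (.f (nat_lit 464) (nat_lit 561) (nat_lit 4560) (.d (nat_lit 463) (nat_lit 431) (nat_lit 7599) (nat_lit 495) (nat_lit 7631)))) (.a (.f (nat_lit 593) (nat_lit 625) (nat_lit 4592) (.f (nat_lit 495) (nat_lit 463) (nat_lit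 7631) (.f (nat_lit 497) (nat_lit 465) (nat_lit 6608) (.f (nat_lit 527) (nat_lit 624) (nat_lit 7663) (.f (nat_lit 498) (nat_lit 499) (nat_lit 1519) (.f (nat_lit 530) (nat_lit 531) (nat_lit 495) (.d (nat_lit 466) (nat_lit 467) (nat_lit 2511) (nat_lit 561) (nat_lit 5585)))))))) (.a (.f (nat_lit 465) (nat_lit 497) (nat_lit 6608) (.f (nat_lit 464) (nat_lit 433) (nat_lit 6576) (.f (nat_lit 559) (nat_lit 591) (nat_lit 5583) (.f (nat_lit 431) (nat_lit 463) (nat_lit 7599) (.d (nat_lit 432) (nat_lit 399) (nat_lit 7567) (nat_lit 527) (nat_lit 5551)))))) (.f (nat_lit 465) (nat_lit 497) (nat_lit 6608) (.f (nat_lit 464) (nat_lit 433) (nat_lit 6576) (.f (nat_lit 559) (nat_lit 591) (nat_lit 5583) (.f (nat_lit 527) (nat_lit 432) (nat_lit 5551) (.d (nat_lit 624) (nat_lit 495) (nat_lit 7663) (nat_lit 656) (nat_lit 7695))))))))))) s9721))))))))))) (.a s9473 (.a s9583 (.a s9728 (.a s9677 (.a s4782 (.a s8126 (.a s4787 (.a s4793 (.a s9729 s4796)))))))))))))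 (.a (.p (nat_lit 498) (.a (.p (nat_lit 530) (.a (.p (nat_lit 561) (.a (.f (nat_lit 531) (nat_lit 559) (nat_lit 2575) (.d (nat_lit 532) (nat_lit 529) (nat_lit 1552) (nat_lit 533) (nat_lit 1553))) (.a (.f (nat_lit 466) (nat_lit 593) (nat_lit 5585) (.f (nat_lit 563) (nat_lit 595) (nat_lit 4562) (.d (nat_lit 531) (nat_lit 434) (nat_lit 4530) (nat_lit 532) (nat_lit 2576)))) (.f (nat_lit 466) (nat_lit 593) (nat_lit 5585) (.f (nat_lit 529) (nat_lit 434) (nat_lit 5553) (.d (nat_lit 563) (nat_lit 564) (nat_lit 3600) (nat_lit 595) (nat_lit 4562))))))) (.a (.p (nat_lit 466) (.a (.f (nat_lit 433) (nat_lit 465) (nat_lit 7601) (.f (nat_lit 434) (nat_lit 401) (nat_lit 7569) (.d (nat_lit 435) (nat_lit 403) (nat_lit 6546) (nat_lit 467) (nat_lit 6578)))) (.a (.f (nat_lit 563) (nat_lit 595) (nat_lit 4562) (.f (nat_lit 529) (nat_lit 527) (nat_lit 527) (.d (nat_lit 531) (nat_lit 434) (nat_lit 4530) (nat_lit 564) (nat_lit 528)))) (.f (nat_lit 563) (nat_lit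 595) (nat_lit 4562) (.f (nat_lit 529) (nat_lit 527) (nat_lit 527) (.d (nat_lit 564) (nat_lit 531) (nat_lit 528) (nat_lit 565) (nat_lit 3601))))))) (.a (.p (nat_lit 561) (.a (.f (nat_lit 466) (nat_lit 593) (nat_lit 5585) (.f (nat_lit 563) (nat_lit 595) (nat_lit 4562) (.d (nat_lit 531) (nat_lit 434) (nat_lit 4530) (nat_lit 532) (nat_lit 2576)))) (.a (.f (nat_lit 466) (nat_lit 593) (nat_lit 5585) (.f (nat_lit 435) (nat_lit 467) (nat_lit 6578) (.f (nat_lit 434) (nat_lit 403) (nat_lit 6546) (.d (nat_lit 433) (nat_lit 401) (nat_lit 7569) (nat_lit 465) (nat_lit 7601))))) (.f (nat_lit 531) (nat_lit 559) (nat_lit 2575) (.d (nat_lit 532) (nat_lit 533) (nat_lit 1553) (nat_lit 563) (nat_lit 2576)))))) (.a s8835 (.a (.p (nat_lit 561) (.a (.f (nat_lit 531) (nat_lit 559) (nat_lit 2575) (.d (nat_lit 532) (nat_lit 529) (nat_lit 1552) (nat_lit 533) (nat_lit 1553))) (.f (nat_lit 466) (nat_lit 593) (nat_lit 5585) (.f (nat_lit 435) (nat_lit 467) (nat_lit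 6578) (.f (nat_lit 434) (nat_lit 403) (nat_lit 6546) (.d (nat_lit 433) (nat_lit 401) (nat_lit 7569) (nat_lit 465) (nat_lit 7601))))))) (.p (nat_lit 561) (.a (.f (nat_lit 531) (nat_lit 559) (nat_lit 2575) (.d (nat_lit 532) (nat_lit 529) (nat_lit 1552) (nat_lit 533) (nat_lit 1553))) (.a (.f (nat_lit 531) (nat_lit 559) (nat_lit 2575) (.d (nat_lit 532) (nat_lit 533) (nat_lit 1553) (nat_lit 563) (nat_lit 2576))) (.f (nat_lit 563) (nat_lit 527) (nat_lit 3599) (.f (nat_lit 564) (nat_lit 529) (nat_lit 3600) (.d (nat_lit 596) (nat_lit 595) (nat_lit 560) (nat_lit 597) (nat_lit 561))))))))))))) (.a (.p (nat_lit 561) (.a (.p (nat_lit 530) (.a (.f (nat_lit 531) (nat_lit 559) (nat_lit 2575) (.d (nat_lit 532) (nat_lit 529) (nat_lit 1552) (nat_lit 533) (nat_lit 1553))) (.a (.f (nat_lit 466) (nat_lit 593) (nat_lit 5585) (.f (nat_lit 563) (nat_lit 595) (nat_lit 4562) (.d (nat_lit 531) (nat_lit 434) (nat_lit 4530) (nat_lit 532) (nat_lit 2576)))) (.f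 (nat_lit 466) (nat_lit 593) (nat_lit 5585) (.f (nat_lit 529) (nat_lit 434) (nat_lit 5553) (.d (nat_lit 563) (nat_lit 564) (nat_lit 3600) (nat_lit 595) (nat_lit 4562))))))) (.a (.p (nat_lit 530) (.a (.f (nat_lit 466) (nat_lit 593) (nat_lit 5585) (.f (nat_lit 563) (nat_lit 595) (nat_lit 4562) (.d (nat_lit 531) (nat_lit 434) (nat_lit 4530) (nat_lit 532) (nat_lit 2576)))) (.a (.f (nat_lit 466) (nat_lit 593) (nat_lit 5585) (.f (nat_lit 435) (nat_lit 467) (nat_lit 6578) (.f (nat_lit 434) (nat_lit 403) (nat_lit 6546) (.d (nat_lit 433) (nat_lit 401) (nat_lit 7569) (nat_lit 465) (nat_lit 7601))))) (.f (nat_lit 531) (nat_lit 559) (nat_lit 2575) (.d (nat_lit 532) (nat_lit 533) (nat_lit 1553) (nat_lit 563) (nat_lit 2576)))))) (.a (.p (nat_lit 593) (.a (.f (nat_lit 625) (nat_lit 657) (nat_lit 7696) (.d (nat_lit 496) (nat_lit 464) (nat_lit 4560) (nat_lit 529) (nat_lit 7664))) (.a (.f (nat_lit 625) (nat_lit 657) (nat_lit 7696) (.d (nat_lit 530)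 (nat_lit 466) (nat_lit 5585) (nat_lit 529) (nat_lit 6641))) (.a (.f (nat_lit 625) (nat_lit 657) (nat_lit 7696) (.d (nat_lit 496) (nat_lit 464) (nat_lit 4560) (nat_lit 592) (nat_lit 4592))) (.f (nat_lit 466) (nat_lit 530) (nat_lit 5585) (.f (nat_lit 497) (nat_lit 529) (nat_lit 6609) (.f (nat_lit 496) (nat_lit 464) (nat_lit 4560) (.f (nat_lit 592) (nat_lit 465) (nat_lit 6608) (.d (nat_lit 495) (nat_lit 463) (nat_lit 7631) (nat_lit 467) (nat_lit 2511)))))))))) (.a (.p (nat_lit 563) (.a (.f (nat_lit 564) (nat_lit 529) (nat_lit 3600) (.d (nat_lit 532) (nat_lit 531) (nat_lit 2576) (nat_lit 533) (nat_lit 2577))) (.a (.f (nat_lit 592) (nat_lit 591) (nat_lit 1583) (.f (nat_lit 593) (nat_lit 564) (nat_lit 1584) (.d (nat_lit 496) (nat_lit 464) (nat_lit 4560) (nat_lit 625) (nat_lit 4592)))) (.f (nat_lit 592) (nat_lit 591) (nat_lit 1583) (.f (nat_lit 531) (nat_lit 532) (nat_lit 2576) (.f (nat_lit 595) (nat_lit 596) (nat_lit 560) (.f (nat_lit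 499) (nat_lit 466) (nat_lit 7634) (.f (nat_lit 500) (nat_lit 468) (nat_lit 6611) (.f (nat_lit 497) (nat_lit 529) (nat_lit 1520) (.d (nat_lit 465) (nat_lit 464) (nat_lit 3536) (nat_lit 496) (nat_lit 6608))))))))))) (.a (.p (nat_lit 563) (.a (.f (nat_lit 564) (nat_lit 529) (nat_lit 3600) (.d (nat_lit 532) (nat_lit 531) (nat_lit 2576) (nat_lit 533) (nat_lit 2577))) (.a (.f (nat_lit 595) (nat_lit 596) (nat_lit 560) (.f (nat_lit 530) (nat_lit 466) (nat_lit 4562) (.d (nat_lit 531) (nat_lit 532) (nat_lit 2576) (nat_lit 627) (nat_lit 7666)))) (.f (nat_lit 564) (nat_lit 529) (nat_lit 3600) (.d (nat_lit 596) (nat_lit 595) (nat_lit 560) (nat_lit 597) (nat_lit 561)))))) (.p (nat_lit 563) (.a (.f (nat_lit 564) (nat_lit 529) (nat_lit 3600) (.d (nat_lit 532) (nat_lit 531) (nat_lit 2576) (nat_lit 533) (nat_lit 2577))) (.a (.f (nat_lit 531) (nat_lit 532) (nat_lit 2576) (.f (nat_lit 595) (nat_lit 596) (nat_lit 560) (.d (nat_lit 530) (nat_lit 559)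 (nat_lit 2575) (nat_lit 627) (nat_lit 7666)))) (.f (nat_lit 564) (nat_lit 529) (nat_lit 3600) (.d (nat_lit 596) (nat_lit 595) (nat_lit 560) (nat_lit 597) (nat_lit 561)))))))))))) (.a (.p (nat_lit 496) (.a s6378 (.a s9763 (.a s6383 (.a (.p (nat_lit 592) (.a (.f (nat_lit 495) (nat_lit 463) (nat_lit 7631) (.f (nat_lit 624) (nat_lit 527) (nat_lit 7663) (.d (nat_lit 625) (nat_lit 593) (nat_lit 4592) (nat_lit 657) (nat_lit 4624)))) (.a (.f (nat_lit 497) (nat_lit 465) (nat_lit 6608) (.f (nat_lit 495) (nat_lit 463) (nat_lit 7631) (.f (nat_lit 529) (nat_lit 624) (nat_lit 6640) (.d (nat_lit 494) (nat_lit 493) (nat_lit 493) (nat_lit 530) (nat_lit 494))))) (.a (.f (nat_lit 497) (nat_lit 465) (nat_lit 6608) (.f (nat_lit 495) (nat_lit 463) (nat_lit 7631) (.f (nat_lit 530) (nat_lit 531) (nat_lit 495) (.f (nat_lit 529) (nat_lit 494) (nat_lit 494) (.d (nat_lit 499) (nat_lit 500) (nat_lit 1520) (nat_lit 527) (nat_lit 1519)))))) (.f (nat_lit 497)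 (nat_lit 465) (nat_lit 6608) (.f (nat_lit 529) (nat_lit 624) (nat_lit 6640) (.f (nat_lit 499) (nat_lit 500) (nat_lit 1520) (.f (nat_lit 531) (nat_lit 532) (nat_lit 496) (.f (nat_lit 530) (nat_lit 559) (nat_lit 1551) (.d (nat_lit 467) (nat_lit 435) (nat_lit 5554) (nat_lit 468) (nat_lit 2512))))))))))) (.a s6418 (.a (.p (nat_lit 592) (.a (.f (nat_lit 495) (nat_lit 463) (nat_lit 7631) (.f (nat_lit 624) (nat_lit 527) (nat_lit 7663) (.d (nat_lit 625) (nat_lit 593) (nat_lit 4592) (nat_lit 657) (nat_lit 4624)))) (.a (.f (nat_lit 463) (nat_lit 495) (nat_lit 7631) (.f (nat_lit 464) (nat_lit 431) (nat_lit 7599) (.f (nat_lit 497) (nat_lit 499) (nat_lit 3535) (.f (nat_lit 624) (nat_lit 529) (nat_lit 6640) (.d (nat_lit 625) (nat_lit 593) (nat_lit 4592) (nat_lit 657) (nat_lit 4624)))))) (.a (.f (nat_lit 495) (nat_lit 463) (nat_lit 7631) (.f (nat_lit 527) (nat_lit 624) (nat_lit 7663) (.f (nat_lit 497) (nat_lit 499) (nat_lit 1519) (.f (nat_lit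 530) (nat_lit 531) (nat_lit 495) (.d (nat_lit 529) (nat_lit 494) (nat_lit 494) (nat_lit 563) (nat_lit 527)))))) (.a (.f (nat_lit 463) (nat_lit 495) (nat_lit 7631) (.f (nat_lit 464) (nat_lit 431) (nat_lit 7599) (.f (nat_lit 497) (nat_lit 499) (nat_lit 3535) (.f (nat_lit 559) (nat_lit 591) (nat_lit 5583) (.f (nat_lit 432) (nat_lit 527) (nat_lit 5551) (.f (nat_lit 400) (nat_lit 529) (nat_lit 4496) (.d (nat_lit 401) (nat_lit 369) (nat_lit 6512) (nat_lit 433) (nat_lit 6544)))))))) (.f (nat_lit 625) (nat_lit 593) (nat_lit 4592) (.f (nat_lit 624) (nat_lit 657) (nat_lit 4624) (.f (nat_lit 497) (nat_lit 529) (nat_lit 6640) (.f (nat_lit 499) (nat_lit 527) (nat_lit 1519) (.f (nat_lit 467) (nat_lit 468) (nat_lit 2512) (.f (nat_lit 531) (nat_lit 532) (nat_lit 496) (.f (nat_lit 435) (nat_lit 530) (nat_lit 5554) (.f (nat_lit 402) (nat_lit 434) (nat_lit 7570) (.f (nat_lit 403) (nat_lit 370) (nat_lit 7538) (.d (nat_lit 404) (nat_lit 372) (nat_lit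 6515) (nat_lit 436) (nat_lit 6547)))))))))))))))) (.p (nat_lit 592) (.a (.f (nat_lit 497) (nat_lit 465) (nat_lit 6608) (.f (nat_lit 529) (nat_lit 624) (nat_lit 6640) (.f (nat_lit 499) (nat_lit 500) (nat_lit 1520) (.f (nat_lit 531) (nat_lit 532) (nat_lit 496) (.f (nat_lit 530) (nat_lit 559) (nat_lit 1551) (.d (nat_lit 467) (nat_lit 435) (nat_lit 5554) (nat_lit 468) (nat_lit 2512))))))) (.a (.f (nat_lit 497) (nat_lit 465) (nat_lit 6608) (.f (nat_lit 499) (nat_lit 527) (nat_lit 1519) (.f (nat_lit 467) (nat_lit 468) (nat_lit 2512) (.f (nat_lit 531) (nat_lit 532) (nat_lit 496) (.d (nat_lit 495) (nat_lit 466) (nat_lit 2511) (nat_lit 530) (nat_lit 495)))))) (.f (nat_lit 625) (nat_lit 593) (nat_lit 4592) (.f (nat_lit 624) (nat_lit 657) (nat_lit 4624) (.f (nat_lit 527) (nat_lit 495) (nat_lit 7663) (.f (nat_lit 559) (nat_lit 656) (nat_lit 7695) (.d (nat_lit 464) (nat_lit 432) (nat_lit 5551) (nat_lit 591) (nat_lit 5583)))))))))))))))) (.a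 (.p (nat_lit 496) (.a s6378 (.a s9763 (.a s6383 (.a (.p (nat_lit 592) (.a (.f (nat_lit 495) (nat_lit 463) (nat_lit 7631) (.f (nat_lit 624) (nat_lit 527) (nat_lit 7663) (.d (nat_lit 625) (nat_lit 593) (nat_lit 4592) (nat_lit 657) (nat_lit 4624)))) (.a (.f (nat_lit 593) (nat_lit 625) (nat_lit 4592) (.f (nat_lit 497) (nat_lit 465) (nat_lit 6608) (.f (nat_lit 495) (nat_lit 463) (nat_lit 7631) (.f (nat_lit 530) (nat_lit 531) (nat_lit 495) (.d (nat_lit 466) (nat_lit 467) (nat_lit 2511) (nat_lit 561) (nat_lit 5585)))))) (.a (.f (nat_lit 497) (nat_lit 465) (nat_lit 6608) (.f (nat_lit 495) (nat_lit 463) (nat_lit 7631) (.d (nat_lit 527) (nat_lit 499) (nat_lit 1519) (nat_lit 624) (nat_lit 7663)))) (.f (nat_lit 497) (nat_lit 465) (nat_lit 6608) (.f (nat_lit 499) (nat_lit 527) (nat_lit 1519) (.f (nat_lit 531) (nat_lit 532) (nat_lit 496) (.f (nat_lit 467) (nat_lit 468) (nat_lit 2512) (.f (nat_lit 435) (nat_lit 530) (nat_lit 5554) (.f (nat_lit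 402) (nat_lit 434) (nat_lit 7570) (.f (nat_lit 403) (nat_lit 370) (nat_lit 7538) (.d (nat_lit 404) (nat_lit 372) (nat_lit 6515) (nat_lit 436) (nat_lit 6547))))))))))))) (.a s6418 (.a (.p (nat_lit 592) (.a (.f (nat_lit 593) (nat_lit 625) (nat_lit 4592) (.f (nat_lit 561) (nat_lit 464) (nat_lit 4560) (.d (nat_lit 563) (nat_lit 527) (nat_lit 3599) (nat_lit 564) (nat_lit 1584)))) (.a (.f (nat_lit 593) (nat_lit 625) (nat_lit 4592) (.f (nat_lit 561) (nat_lit 464) (nat_lit 4560) (.d (nat_lit 563) (nat_lit 564) (nat_lit 1584) (nat_lit 591) (nat_lit 1583)))) (.a (.f (nat_lit 495) (nat_lit 463) (nat_lit 7631) (.f (nat_lit 624) (nat_lit 527) (nat_lit 7663) (.d (nat_lit 625) (nat_lit 593) (nat_lit 4592) (nat_lit 657) (nat_lit 4624)))) (.f (nat_lit 495) (nat_lit 463) (nat_lit 7631) (.f (nat_lit 527) (nat_lit 624) (nat_lit 7663) (.f (nat_lit 497) (nat_lit 499) (nat_lit 1519) (.f (nat_lit 563) (nat_lit 561) (nat_lit 3599) (.f (nat_lit 530) (nat_lit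 531) (nat_lit 495) (.d (nat_lit 466) (nat_lit 467) (nat_lit 2511) (nat_lit 595) (nat_lit 4562))))))))))) (.p (nat_lit 592) (.a (.f (nat_lit 593) (nat_lit 625) (nat_lit 4592) (.f (nat_lit 561) (nat_lit 464) (nat_lit 4560) (.d (nat_lit 563) (nat_lit 527) (nat_lit 3599) (nat_lit 564) (nat_lit 1584)))) (.a (.f (nat_lit 593) (nat_lit 625) (nat_lit 4592) (.f (nat_lit 561) (nat_lit 464) (nat_lit 4560) (.d (nat_lit 563) (nat_lit 564) (nat_lit 1584) (nat_lit 591) (nat_lit 1583)))) (.f (nat_lit 497) (nat_lit 465) (nat_lit 6608) (.f (nat_lit 499) (nat_lit 527) (nat_lit 1519) (.f (nat_lit 467) (nat_lit 468) (nat_lit 2512) (.f (nat_lit 531) (nat_lit 532) (nat_lit 496) (.d (nat_lit 495) (nat_lit 466) (nat_lit 2511) (nat_lit 530) (nat_lit 495)))))))))))))))) (.a s5341 (.a (.p (nat_lit 592) (.a s9864 (.a s9873 (.a s9887 (.a s9898 (.a s9899 (.a (.p (nat_lit 496) (.a (.f (nat_lit 463) (nat_lit 495) (nat_lit 7631) (.f (nat_lit 464) (nat_lit 431) (nat_lit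 7599) (.f (nat_lit 465) (nat_lit 433) (nat_lit 6576) (.f (nat_lit 466) (nat_lit 499) (nat_lit 463) (.f (nat_lit 435) (nat_lit 434) (nat_lit 2479) (.d (nat_lit 467) (nat_lit 436) (nat_lit 2480) (nat_lit 530) (nat_lit 6578))))))) (.a (.f (nat_lit 497) (nat_lit 465) (nat_lit 6608) (.f (nat_lit 495) (nat_lit 463) (nat_lit 7631) (.f (nat_lit 529) (nat_lit 624) (nat_lit 6640) (.d (nat_lit 494) (nat_lit 493) (nat_lit 493) (nat_lit 530) (nat_lit 494))))) (.a (.f (nat_lit 495) (nat_lit 463) (nat_lit 7631) (.f (nat_lit 624) (nat_lit 527) (nat_lit 7663) (.f (nat_lit 657) (nat_lit 625) (nat_lit 4624) (.f (nat_lit 656) (nat_lit 689) (nat_lit 4656) (.f (nat_lit 561) (nat_lit 529) (nat_lit 6672) (.f (nat_lit 591) (nat_lit 563) (nat_lit 1583) (.d (nat_lit 559) (nat_lit 464) (nat_lit 5583) (nat_lit 590) (nat_lit 1582)))))))) (.f (nat_lit 497) (nat_lit 465) (nat_lit 6608) (.f (nat_lit 499) (nat_lit 527) (nat_lit 1519) (.f (nat_lit 500) (nat_lit 529)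 (nat_lit 1520) (.d (nat_lit 468) (nat_lit 467) (nat_lit 2512) (nat_lit 469) (nat_lit 2513))))))))) (.a (.p (nat_lit 496) (.a (.f (nat_lit 463) (nat_lit 495) (nat_lit 7631) (.f (nat_lit 464) (nat_lit 431) (nat_lit 7599) (.f (nat_lit 465) (nat_lit 433) (nat_lit 6576) (.f (nat_lit 466) (nat_lit 499) (nat_lit 463) (.f (nat_lit 435) (nat_lit 434) (nat_lit 2479) (.d (nat_lit 467) (nat_lit 436) (nat_lit 2480) (nat_lit 530) (nat_lit 6578))))))) (.a (.f (nat_lit 497) (nat_lit 465) (nat_lit 6608) (.f (nat_lit 499) (nat_lit 527) (nat_lit 1519) (.f (nat_lit 500) (nat_lit 529) (nat_lit 1520) (.d (nat_lit 468) (nat_lit 467) (nat_lit 2512) (nat_lit 469) (nat_lit 2513))))) (.f (nat_lit 593) (nat_lit 625) (nat_lit 4592) (.f (nat_lit 561) (nat_lit 464) (nat_lit 4560) (.d (nat_lit 563) (nat_lit 527) (nat_lit 3599) (nat_lit 564) (nat_lit 1584))))))) (.a (.p (nat_lit 496) (.a (.f (nat_lit 593) (nat_lit 625) (nat_lit 4592) (.f (nat_lit 561) (nat_lit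 464) (nat_lit 4560) (.d (nat_lit 563) (nat_lit 527) (nat_lit 3599) (nat_lit 564) (nat_lit 1584)))) (.a (.f (nat_lit 593) (nat_lit 625) (nat_lit 4592) (.f (nat_lit 561) (nat_lit 464) (nat_lit 4560) (.d (nat_lit 563) (nat_lit 564) (nat_lit 1584) (nat_lit 591) (nat_lit 1583)))) (.f (nat_lit 497) (nat_lit 465) (nat_lit 6608) (.f (nat_lit 499) (nat_lit 527) (nat_lit 1519) (.f (nat_lit 500) (nat_lit 529) (nat_lit 1520) (.d (nat_lit 468) (nat_lit 467) (nat_lit 2512) (nat_lit 469) (nat_lit 2513)))))))) (.p (nat_lit 496) (.a (.f (nat_lit 463) (nat_lit 495) (nat_lit 7631) (.f (nat_lit 464) (nat_lit 431) (nat_lit 7599) (.f (nat_lit 465) (nat_lit 433) (nat_lit 6576) (.f (nat_lit 466) (nat_lit 499) (nat_lit 463) (.f (nat_lit 435) (nat_lit 434) (nat_lit 2479) (.d (nat_lit 467) (nat_lit 436) (nat_lit 2480) (nat_lit 530) (nat_lit 6578))))))) (.a (.f (nat_lit 497) (nat_lit 465) (nat_lit 6608) (.f (nat_lit 495) (nat_lit 463) (nat_lit 7631) (.f (nat_lit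 529) (nat_lit 624) (nat_lit 6640) (.d (nat_lit 494) (nat_lit 493) (nat_lit 493) (nat_lit 530) (nat_lit 494))))) (.a (.f (nat_lit 495) (nat_lit 463) (nat_lit 7631) (.f (nat_lit 527) (nat_lit 624) (nat_lit 7663) (.f (nat_lit 561) (nat_lit 563) (nat_lit 3599) (.f (nat_lit 464) (nat_lit 593) (nat_lit 4560) (.d (nat_lit 432) (nat_lit 400) (nat_lit 5519) (nat_lit 529) (nat_lit 4528)))))) (.f (nat_lit 497) (nat_lit 465) (nat_lit 6608) (.f (nat_lit 499) (nat_lit 527) (nat_lit 1519) (.f (nat_lit 500) (nat_lit 529) (nat_lit 1520) (.d (nat_lit 468) (nat_lit 467) (nat_lit 2512) (nat_lit 469) (nat_lit 2513)))))))))))))))))) (.a (.p (nat_lit 496) (.a (.p (nat_lit 561) (.a (.f (nat_lit 464) (nat_lit 593) (nat_lit 4560) (.f (nat_lit 559) (nat_lit 591) (nat_lit 5583) (.d (nat_lit 432) (nat_lit 527) (nat_lit 5551) (nat_lit 529) (nat_lit 4528)))) (.a (.f (nat_lit 464) (nat_lit 593) (nat_lit 4560) (.f (nat_lit 432) (nat_lit 529) (nat_lit 4528) (.d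 (nat_lit 431) (nat_lit 399) (nat_lit 7567) (nat_lit 463) (nat_lit 7599)))) (.a (.f (nat_lit 464) (nat_lit 593) (nat_lit 4560) (.f (nat_lit 559) (nat_lit 591) (nat_lit 5583) (.d (nat_lit 527) (nat_lit 432) (nat_lit 5551) (nat_lit 563) (nat_lit 3599)))) (.f (nat_lit 563) (nat_lit 527) (nat_lit 3599) (.f (nat_lit 564) (nat_lit 529) (nat_lit 3600) (.d (nat_lit 532) (nat_lit 531) (nat_lit 2576) (nat_lit 533) (nat_lit 2577)))))))) (.a s6744 (.a s6378 (.a (.p (nat_lit 592) (.a (.f (nat_lit 495) (nat_lit 463) (nat_lit 7631) (.f (nat_lit 624) (nat_lit 527) (nat_lit 7663) (.d (nat_lit 625) (nat_lit 593) (nat_lit 4592) (nat_lit 657) (nat_lit 4624)))) (.a (.f (nat_lit 497) (nat_lit 465) (nat_lit 6608) (.f (nat_lit 529) (nat_lit 624) (nat_lit 6640) (.f (nat_lit 593) (nat_lit 625) (nat_lit 4592) (.f (nat_lit 561) (nat_lit 466) (nat_lit 6609) (.d (nat_lit 563) (nat_lit 564) (nat_lit 1584) (nat_lit 591) (nat_lit 1583)))))) (.f (nat_lit 497) (nat_lit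 465) (nat_lit 6608) (.f (nat_lit 499) (nat_lit 527) (nat_lit 1519) (.f (nat_lit 500) (nat_lit 529) (nat_lit 1520) (.d (nat_lit 468) (nat_lit 467) (nat_lit 2512) (nat_lit 469) (nat_lit 2513)))))))) (.p (nat_lit 592) (.a (.f (nat_lit 593) (nat_lit 625) (nat_lit 4592) (.f (nat_lit 561) (nat_lit 464) (nat_lit 4560) (.d (nat_lit 563) (nat_lit 527) (nat_lit 3599) (nat_lit 564) (nat_lit 1584)))) (.a (.f (nat_lit 593) (nat_lit 625) (nat_lit 4592) (.f (nat_lit 561) (nat_lit 464) (nat_lit 4560) (.d (nat_lit 563) (nat_lit 564) (nat_lit 1584) (nat_lit 591) (nat_lit 1583)))) (.f (nat_lit 497) (nat_lit 465) (nat_lit 6608) (.f (nat_lit 499) (nat_lit 527) (nat_lit 1519) (.f (nat_lit 500) (nat_lit 529) (nat_lit 1520) (.d (nat_lit 468) (nat_lit 467) (nat_lit 2512) (nat_lit 469) (nat_lit 2513))))))))))))) (.a (.p (nat_lit 592) (.a s9914 (.a s9918 (.a (.p (nat_lit 496) (.a (.f (nat_lit 463) (nat_lit 495) (nat_lit 7631) (.f (nat_lit 464) (nat_lit 431)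 (nat_lit 7599) (.f (nat_lit 465) (nat_lit 433) (nat_lit 6576) (.f (nat_lit 466) (nat_lit 499) (nat_lit 463) (.f (nat_lit 435) (nat_lit 434) (nat_lit 2479) (.d (nat_lit 467) (nat_lit 436) (nat_lit 2480) (nat_lit 530) (nat_lit 6578))))))) (.a (.f (nat_lit 497) (nat_lit 465) (nat_lit 6608) (.f (nat_lit 495) (nat_lit 463) (nat_lit 7631) (.f (nat_lit 529) (nat_lit 624) (nat_lit 6640) (.d (nat_lit 494) (nat_lit 493) (nat_lit 493) (nat_lit 530) (nat_lit 494))))) (.a (.f (nat_lit 497) (nat_lit 465) (nat_lit 6608) (.f (nat_lit 463) (nat_lit 495) (nat_lit 7631) (.d (nat_lit 464) (nat_lit 431) (nat_lit 7599) (nat_lit 499) (nat_lit 3535)))) (.a (.f (nat_lit 495) (nat_lit 463) (nat_lit 7631) (.f (nat_lit 527) (nat_lit 624) (nat_lit 7663) (.f (nat_lit 497) (nat_lit 499) (nat_lit 1519) (.f (nat_lit 530) (nat_lit 531) (nat_lit 495) (.d (nat_lit 529) (nat_lit 494) (nat_lit 494) (nat_lit 563) (nat_lit 527)))))) (.f (nat_lit 497) (nat_lit 465) (nat_lit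 6608) (.f (nat_lit 529) (nat_lit 624) (nat_lit 6640) (.f (nat_lit 499) (nat_lit 500) (nat_lit 1520) (.f (nat_lit 531) (nat_lit 532) (nat_lit 496) (.f (nat_lit 530) (nat_lit 559) (nat_lit 1551) (.d (nat_lit 467) (nat_lit 435) (nat_lit 5554) (nat_lit 468) (nat_lit 2512)))))))))))) (.a s9926 (.a (.p (nat_lit 624) (.a (.f (nat_lit 527) (nat_lit 495) (nat_lit 7663) (.f (nat_lit 656) (nat_lit 559) (nat_lit 7695) (.f (nat_lit 687) (nat_lit 655) (nat_lit 5679) (.f (nat_lit 688) (nat_lit 719) (nat_lit 5711) (.d (nat_lit 689) (nat_lit 657) (nat_lit 4656) (nat_lit 721) (nat_lit 4688)))))) (.a (.f (nat_lit 657) (nat_lit 625) (nat_lit 4624) (.f (nat_lit 656) (nat_lit 689) (nat_lit 4656) (.f (nat_lit 561) (nat_lit 529) (nat_lit 6672) (.f (nat_lit 591) (nat_lit 563) (nat_lit 1583) (.d (nat_lit 559) (nat_lit 590) (nat_lit 1582) (nat_lit 688) (nat_lit 7727)))))) (.a (.f (nat_lit 527) (nat_lit 495) (nat_lit 7663) (.f (nat_lit 561) (nat_lit 563) (nat_lit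 3599) (.f (nat_lit 656) (nat_lit 529) (nat_lit 6672) (.d (nat_lit 657) (nat_lit 625) (nat_lit 4624) (nat_lit 689) (nat_lit 4656))))) (.f (nat_lit 527) (nat_lit 495) (nat_lit 7663) (.f (nat_lit 563) (nat_lit 561) (nat_lit 3599) (.f (nat_lit 530) (nat_lit 529) (nat_lit 527) (.f (nat_lit 466) (nat_lit 595) (nat_lit 4562) (.f (nat_lit 434) (nat_lit 531) (nat_lit 4530) (.d (nat_lit 433) (nat_lit 401) (nat_lit 7569) (nat_lit 465) (nat_lit 7601))))))))))) (.a (.p (nat_lit 496) (.a (.f (nat_lit 495) (nat_lit 463) (nat_lit 7631) (.f (nat_lit 624) (nat_lit 527) (nat_lit 7663) (.f (nat_lit 657) (nat_lit 625) (nat_lit 4624) (.f (nat_lit 656) (nat_lit 689) (nat_lit 4656) (.f (nat_lit 561) (nat_lit 529) (nat_lit 6672) (.f (nat_lit 591) (nat_lit 563) (nat_lit 1583) (.d (nat_lit 559) (nat_lit 464) (nat_lit 5583) (nat_lit 590) (nat_lit 1582)))))))) (.a (.f (nat_lit 463) (nat_lit 495) (nat_lit 7631) (.f (nat_lit 464) (nat_lit 431) (nat_lit 7599)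 (.f (nat_lit 497) (nat_lit 499) (nat_lit 3535) (.f (nat_lit 529) (nat_lit 624) (nat_lit 6640) (.d (nat_lit 432) (nat_lit 400) (nat_lit 4496) (nat_lit 561) (nat_lit 4528)))))) (.a (.f (nat_lit 497) (nat_lit 465) (nat_lit 6608) (.f (nat_lit 463) (nat_lit 495) (nat_lit 7631) (.d (nat_lit 464) (nat_lit 431) (nat_lit 7599) (nat_lit 499) (nat_lit 3535)))) (.f (nat_lit 497) (nat_lit 465) (nat_lit 6608) (.f (nat_lit 499) (nat_lit 527) (nat_lit 1519) (.f (nat_lit 500) (nat_lit 529) (nat_lit 1520) (.d (nat_lit 468) (nat_lit 467) (nat_lit 2512) (nat_lit 469) (nat_lit 2513))))))))) (.a s9947 (.p (nat_lit 624) (.a (.f (nat_lit 529) (nat_lit 497) (nat_lit 6640) (.f (nat_lit 561) (nat_lit 656) (nat_lit 6672) (.d (nat_lit 563) (nat_lit 564) (nat_lit 3600) (nat_lit 591) (nat_lit 1583)))) (.a (.f (nat_lit 497) (nat_lit 529) (nat_lit 6640) (.f (nat_lit 496) (nat_lit 465) (nat_lit 6608) (.f (nat_lit 499) (nat_lit 527) (nat_lit 1519) (.f (nat_lit 467)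 (nat_lit 468) (nat_lit 2512) (.f (nat_lit 531) (nat_lit 532) (nat_lit 496) (.f (nat_lit 435) (nat_lit 530) (nat_lit 5554) (.f (nat_lit 402) (nat_lit 434) (nat_lit 7570) (.f (nat_lit 403) (nat_lit 370) (nat_lit 7538) (.d (nat_lit 404) (nat_lit 372) (nat_lit 6515) (nat_lit 436) (nat_lit 6547)))))))))) (.f (nat_lit 657) (nat_lit 625) (nat_lit 4624) (.f (nat_lit 656) (nat_lit 689) (nat_lit 4656) (.f (nat_lit 687) (nat_lit 655) (nat_lit 5679) (.f (nat_lit 688) (nat_lit 719) (nat_lit 5711) (.d (nat_lit 559) (nat_lit 527) (nat_lit 7695) (nat_lit 591) (nat_lit 7727))))))))))))))))) (.a (.p (nat_lit 592) (.a s9914 (.a (.p (nat_lit 624) (.a (.f (nat_lit 527) (nat_lit 495) (nat_lit 7663) (.f (nat_lit 656) (nat_lit 559) (nat_lit 7695) (.f (nat_lit 687) (nat_lit 655) (nat_lit 5679) (.f (nat_lit 688) (nat_lit 719) (nat_lit 5711) (.d (nat_lit 689) (nat_lit 657) (nat_lit 4656) (nat_lit 721) (nat_lit 4688)))))) (.a (.f (nat_lit 529) (nat_lit 497)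 (nat_lit 6640) (.f (nat_lit 561) (nat_lit 656) (nat_lit 6672) (.f (nat_lit 625) (nat_lit 657) (nat_lit 4624) (.f (nat_lit 530) (nat_lit 593) (nat_lit 6641) (.d (nat_lit 531) (nat_lit 532) (nat_lit 1552) (nat_lit 559) (nat_lit 1551)))))) (.a (.f (nat_lit 529) (nat_lit 497) (nat_lit 6640) (.f (nat_lit 656) (nat_lit 561) (nat_lit 6672) (.d (nat_lit 657) (nat_lit 625) (nat_lit 4624) (nat_lit 689) (nat_lit 4656)))) (.f (nat_lit 529) (nat_lit 497) (nat_lit 6640) (.f (nat_lit 527) (nat_lit 495) (nat_lit 7663) (.f (nat_lit 530) (nat_lit 499) (nat_lit 2543) (.d (nat_lit 559) (nat_lit 531) (nat_lit 1551) (nat_lit 558) (nat_lit 1550))))))))) (.a (.p (nat_lit 496) (.a (.f (nat_lit 463) (nat_lit 495) (nat_lit 7631) (.f (nat_lit 464) (nat_lit 431) (nat_lit 7599) (.f (nat_lit 465) (nat_lit 433) (nat_lit 6576) (.f (nat_lit 466) (nat_lit 499) (nat_lit 463) (.f (nat_lit 435) (nat_lit 434) (nat_lit 2479) (.d (nat_lit 467) (nat_lit 436) (nat_lit 2480)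 (nat_lit 530) (nat_lit 6578))))))) (.a (.f (nat_lit 495) (nat_lit 463) (nat_lit 7631) (.f (nat_lit 624) (nat_lit 527) (nat_lit 7663) (.d (nat_lit 625) (nat_lit 593) (nat_lit 4592) (nat_lit 657) (nat_lit 4624)))) (.f (nat_lit 497) (nat_lit 465) (nat_lit 6608) (.f (nat_lit 529) (nat_lit 624) (nat_lit 6640) (.f (nat_lit 499) (nat_lit 500) (nat_lit 1520) (.f (nat_lit 531) (nat_lit 532) (nat_lit 496) (.f (nat_lit 530) (nat_lit 559) (nat_lit 1551) (.d (nat_lit 467) (nat_lit 435) (nat_lit 5554) (nat_lit 468) (nat_lit 2512)))))))))) (.a (.p (nat_lit 496) (.a (.f (nat_lit 463) (nat_lit 495) (nat_lit 7631) (.f (nat_lit 464) (nat_lit 431) (nat_lit 7599) (.f (nat_lit 465) (nat_lit 433) (nat_lit 6576) (.f (nat_lit 466) (nat_lit 499) (nat_lit 463) (.f (nat_lit 435) (nat_lit 434) (nat_lit 2479) (.d (nat_lit 467) (nat_lit 436) (nat_lit 2480) (nat_lit 530) (nat_lit 6578))))))) (.a (.f (nat_lit 495) (nat_lit 463) (nat_lit 7631) (.f (nat_lit 624)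 (nat_lit 527) (nat_lit 7663) (.d (nat_lit 625) (nat_lit 593) (nat_lit 4592) (nat_lit 657) (nat_lit 4624)))) (.a (.f (nat_lit 465) (nat_lit 497) (nat_lit 6608) (.f (nat_lit 464) (nat_lit 433) (nat_lit 6576) (.f (nat_lit 463) (nat_lit 431) (nat_lit 7599) (.f (nat_lit 466) (nat_lit 499) (nat_lit 463) (.f (nat_lit 435) (nat_lit 434) (nat_lit 2479) (.d (nat_lit 467) (nat_lit 436) (nat_lit 2480) (nat_lit 530) (nat_lit 6578))))))) (.f (nat_lit 497) (nat_lit 465) (nat_lit 6608) (.f (nat_lit 499) (nat_lit 527) (nat_lit 1519) (.f (nat_lit 467) (nat_lit 468) (nat_lit 2512) (.f (nat_lit 531) (nat_lit 532) (nat_lit 496) (.d (nat_lit 495) (nat_lit 466) (nat_lit 2511) (nat_lit 530) (nat_lit 495)))))))))) (.a (.p (nat_lit 496) (.a (.f (nat_lit 463) (nat_lit 495) (nat_lit 7631) (.f (nat_lit 464) (nat_lit 431) (nat_lit 7599) (.f (nat_lit 465) (nat_lit 433) (nat_lit 6576) (.f (nat_lit 466) (nat_lit 499) (nat_lit 463) (.f (nat_lit 435) (nat_lit 434)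 (nat_lit 2479) (.d (nat_lit 467) (nat_lit 436) (nat_lit 2480) (nat_lit 530) (nat_lit 6578))))))) (.a (.f (nat_lit 495) (nat_lit 463) (nat_lit 7631) (.f (nat_lit 624) (nat_lit 527) (nat_lit 7663) (.d (nat_lit 625) (nat_lit 593) (nat_lit 4592) (nat_lit 657) (nat_lit 4624)))) (.a (.f (nat_lit 593) (nat_lit 625) (nat_lit 4592) (.f (nat_lit 464) (nat_lit 561) (nat_lit 4560) (.f (nat_lit 559) (nat_lit 591) (nat_lit 5583) (.f (nat_lit 432) (nat_lit 527) (nat_lit 5551) (.d (nat_lit 431) (nat_lit 399) (nat_lit 7567) (nat_lit 463) (nat_lit 7599)))))) (.f (nat_lit 625) (nat_lit 593) (nat_lit 4592) (.f (nat_lit 624) (nat_lit 657) (nat_lit 4624) (.f (nat_lit 527) (nat_lit 495) (nat_lit 7663) (.f (nat_lit 559) (nat_lit 656) (nat_lit 7695) (.d (nat_lit 464) (nat_lit 432) (nat_lit 5551) (nat_lit 591) (nat_lit 5583)))))))))) (.a (.p (nat_lit 496) (.a (.f (nat_lit 495) (nat_lit 463) (nat_lit 7631) (.f (nat_lit 624) (nat_lit 527) (nat_lit 7663) (.d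 (nat_lit 625) (nat_lit 593) (nat_lit 4592) (nat_lit 657) (nat_lit 4624)))) (.a (.f (nat_lit 463) (nat_lit 495) (nat_lit 7631) (.f (nat_lit 464) (nat_lit 431) (nat_lit 7599) (.f (nat_lit 497) (nat_lit 499) (nat_lit 3535) (.f (nat_lit 529) (nat_lit 624) (nat_lit 6640) (.d (nat_lit 432) (nat_lit 400) (nat_lit 4496) (nat_lit 561) (nat_lit 4528)))))) (.a (.f (nat_lit 497) (nat_lit 465) (nat_lit 6608) (.f (nat_lit 463) (nat_lit 495) (nat_lit 7631) (.d (nat_lit 464) (nat_lit 431) (nat_lit 7599) (nat_lit 499) (nat_lit 3535)))) (.f (nat_lit 497) (nat_lit 465) (nat_lit 6608) (.f (nat_lit 499) (nat_lit 527) (nat_lit 1519) (.f (nat_lit 500) (nat_lit 529) (nat_lit 1520) (.d (nat_lit 468) (nat_lit 467) (nat_lit 2512) (nat_lit 469) (nat_lit 2513))))))))) (.a s9947 (.a (.p (nat_lit 496) (.a (.f (nat_lit 495) (nat_lit 463) (nat_lit 7631) (.f (nat_lit 624) (nat_lit 527) (nat_lit 7663) (.d (nat_lit 625) (nat_lit 593) (nat_lit 4592) (nat_lit 657) (nat_lit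 4624)))) (.a (.f (nat_lit 497) (nat_lit 465) (nat_lit 6608) (.f (nat_lit 495) (nat_lit 463) (nat_lit 7631) (.f (nat_lit 529) (nat_lit 624) (nat_lit 6640) (.d (nat_lit 494) (nat_lit 493) (nat_lit 493) (nat_lit 530) (nat_lit 494))))) (.a (.f (nat_lit 593) (nat_lit 625) (nat_lit 4592) (.f (nat_lit 497) (nat_lit 465) (nat_lit 6608) (.f (nat_lit 495) (nat_lit 463) (nat_lit 7631) (.f (nat_lit 530) (nat_lit 531) (nat_lit 495) (.d (nat_lit 466) (nat_lit 467) (nat_lit 2511) (nat_lit 561) (nat_lit 5585)))))) (.a (.f (nat_lit 593) (nat_lit 625) (nat_lit 4592) (.f (nat_lit 464) (nat_lit 561) (nat_lit 4560) (.f (nat_lit 559) (nat_lit 591) (nat_lit 5583) (.f (nat_lit 432) (nat_lit 527) (nat_lit 5551) (.d (nat_lit 431) (nat_lit 399) (nat_lit 7567) (nat_lit 463) (nat_lit 7599)))))) (.f (nat_lit 625) (nat_lit 593) (nat_lit 4592) (.f (nat_lit 624) (nat_lit 657) (nat_lit 4624) (.f (nat_lit 527) (nat_lit 495) (nat_lit 7663) (.f (nat_lit 559) (nat_lit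 656) (nat_lit 7695) (.d (nat_lit 464) (nat_lit 432) (nat_lit 5551) (nat_lit 591) (nat_lit 5583))))))))))) (.p (nat_lit 496) (.a (.f (nat_lit 497) (nat_lit 465) (nat_lit 6608) (.f (nat_lit 529) (nat_lit 624) (nat_lit 6640) (.f (nat_lit 499) (nat_lit 500) (nat_lit 1520) (.f (nat_lit 531) (nat_lit 532) (nat_lit 496) (.f (nat_lit 530) (nat_lit 559) (nat_lit 1551) (.d (nat_lit 467) (nat_lit 435) (nat_lit 5554) (nat_lit 468) (nat_lit 2512))))))) (.a (.f (nat_lit 465) (nat_lit 497) (nat_lit 6608) (.f (nat_lit 464) (nat_lit 433) (nat_lit 6576) (.f (nat_lit 463) (nat_lit 431) (nat_lit 7599) (.f (nat_lit 466) (nat_lit 499) (nat_lit 463) (.f (nat_lit 435) (nat_lit 434) (nat_lit 2479) (.d (nat_lit 467) (nat_lit 436) (nat_lit 2480) (nat_lit 530) (nat_lit 6578))))))) (.f (nat_lit 593) (nat_lit 625) (nat_lit 4592) (.f (nat_lit 464) (nat_lit 561) (nat_lit 4560) (.f (nat_lit 559) (nat_lit 591) (nat_lit 5583) (.f (nat_lit 432) (nat_lit 527) (nat_lit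 5551) (.d (nat_lit 431) (nat_lit 399) (nat_lit 7567) (nat_lit 463) (nat_lit 7599)))))))))))))))))) (.a (.p (nat_lit 592) (.a (.p (nat_lit 496) (.a (.f (nat_lit 463) (nat_lit 495) (nat_lit 7631) (.f (nat_lit 464) (nat_lit 431) (nat_lit 7599) (.f (nat_lit 465) (nat_lit 433) (nat_lit 6576) (.f (nat_lit 466) (nat_lit 499) (nat_lit 463) (.f (nat_lit 435) (nat_lit 434) (nat_lit 2479) (.d (nat_lit 467) (nat_lit 436) (nat_lit 2480) (nat_lit 530) (nat_lit 6578))))))) (.a (.f (nat_lit 593) (nat_lit 625) (nat_lit 4592) (.f (nat_lit 497) (nat_lit 465) (nat_lit 6608) (.f (nat_lit 495) (nat_lit 463) (nat_lit 7631) (.f (nat_lit 530) (nat_lit 531) (nat_lit 495) (.d (nat_lit 466) (nat_lit 467) (nat_lit 2511) (nat_lit 561) (nat_lit 5585)))))) (.f (nat_lit 593) (nat_lit 625) (nat_lit 4592) (.f (nat_lit 561) (nat_lit 464) (nat_lit 4560) (.d (nat_lit 563) (nat_lit 564) (nat_lit 1584) (nat_lit 591) (nat_lit 1583))))))) (.a (.p (nat_lit 624) (.a (.f (nat_lit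 657) (nat_lit 625) (nat_lit 4624) (.f (nat_lit 656) (nat_lit 689) (nat_lit 4656) (.f (nat_lit 561) (nat_lit 529) (nat_lit 6672) (.f (nat_lit 593) (nat_lit 688) (nat_lit 6704) (.d (nat_lit 563) (nat_lit 564) (nat_lit 1584) (nat_lit 591) (nat_lit 1583)))))) (.a (.f (nat_lit 529) (nat_lit 497) (nat_lit 6640) (.f (nat_lit 527) (nat_lit 495) (nat_lit 7663) (.d (nat_lit 530) (nat_lit 499) (nat_lit 2543) (nat_lit 563) (nat_lit 527)))) (.a (.f (nat_lit 657) (nat_lit 625) (nat_lit 4624) (.f (nat_lit 656) (nat_lit 689) (nat_lit 4656) (.f (nat_lit 687) (nat_lit 655) (nat_lit 5679) (.f (nat_lit 688) (nat_lit 719) (nat_lit 5711) (.f (nat_lit 561) (nat_lit 593) (nat_lit 6704) (.d (nat_lit 527) (nat_lit 495) (nat_lit 7663) (nat_lit 563) (nat_lit 3599))))))) (.f (nat_lit 529) (nat_lit 497) (nat_lit 6640) (.f (nat_lit 656) (nat_lit 561) (nat_lit 6672) (.d (nat_lit 657) (nat_lit 625) (nat_lit 4624) (nat_lit 689) (nat_lit 4656)))))))) (.a s9898 (.a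 s9899 (.a s9873 (.a s9926 (.a (.p (nat_lit 496) (.a (.f (nat_lit 593) (nat_lit 625) (nat_lit 4592) (.f (nat_lit 561) (nat_lit 464) (nat_lit 4560) (.d (nat_lit 563) (nat_lit 527) (nat_lit 3599) (nat_lit 564) (nat_lit 1584)))) (.a (.f (nat_lit 593) (nat_lit 625) (nat_lit 4592) (.f (nat_lit 561) (nat_lit 464) (nat_lit 4560) (.d (nat_lit 563) (nat_lit 564) (nat_lit 1584) (nat_lit 591) (nat_lit 1583)))) (.a (.f (nat_lit 495) (nat_lit 463) (nat_lit 7631) (.f (nat_lit 624) (nat_lit 527) (nat_lit 7663) (.d (nat_lit 625) (nat_lit 593) (nat_lit 4592) (nat_lit 657) (nat_lit 4624)))) (.f (nat_lit 497) (nat_lit 465) (nat_lit 6608) (.f (nat_lit 495) (nat_lit 463) (nat_lit 7631) (.f (nat_lit 529) (nat_lit 624) (nat_lit 6640) (.d (nat_lit 494) (nat_lit 493) (nat_lit 493) (nat_lit 530) (nat_lit 494))))))))) (.p (nat_lit 496) (.a (.f (nat_lit 593) (nat_lit 625) (nat_lit 4592) (.f (nat_lit 561) (nat_lit 464) (nat_lit 4560) (.d (nat_lit 563) (nat_lit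 527) (nat_lit 3599) (nat_lit 564) (nat_lit 1584)))) (.a (.f (nat_lit 593) (nat_lit 625) (nat_lit 4592) (.f (nat_lit 561) (nat_lit 464) (nat_lit 4560) (.d (nat_lit 563) (nat_lit 564) (nat_lit 1584) (nat_lit 591) (nat_lit 1583)))) (.f (nat_lit 497) (nat_lit 465) (nat_lit 6608) (.f (nat_lit 499) (nat_lit 527) (nat_lit 1519) (.f (nat_lit 500) (nat_lit 529) (nat_lit 1520) (.d (nat_lit 468) (nat_lit 467) (nat_lit 2512) (nat_lit 469) (nat_lit 2513)))))))))))))))) (.a (.p (nat_lit 530) (.a (.p (nat_lit 561) (.a (.f (nat_lit 531) (nat_lit 559) (nat_lit 2575) (.d (nat_lit 532) (nat_lit 529) (nat_lit 1552) (nat_lit 533) (nat_lit 1553))) (.a (.f (nat_lit 466) (nat_lit 593) (nat_lit 5585) (.f (nat_lit 563) (nat_lit 595) (nat_lit 4562) (.d (nat_lit 531) (nat_lit 434) (nat_lit 4530) (nat_lit 532) (nat_lit 2576)))) (.f (nat_lit 466) (nat_lit 593) (nat_lit 5585) (.f (nat_lit 529) (nat_lit 434) (nat_lit 5553) (.d (nat_lit 563) (nat_lit 564) (nat_lit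 3600) (nat_lit 595) (nat_lit 4562))))))) (.a s5248 (.a (.p (nat_lit 561) (.a (.f (nat_lit 466) (nat_lit 593) (nat_lit 5585) (.f (nat_lit 563) (nat_lit 595) (nat_lit 4562) (.d (nat_lit 531) (nat_lit 434) (nat_lit 4530) (nat_lit 532) (nat_lit 2576)))) (.a (.f (nat_lit 563) (nat_lit 527) (nat_lit 3599) (.d (nat_lit 466) (nat_lit 593) (nat_lit 5585) (nat_lit 595) (nat_lit 4562))) (.a (.f (nat_lit 563) (nat_lit 527) (nat_lit 3599) (.d (nat_lit 595) (nat_lit 466) (nat_lit 4562) (nat_lit 596) (nat_lit 560))) (.a (.f (nat_lit 593) (nat_lit 466) (nat_lit 5585) (.f (nat_lit 625) (nat_lit 657) (nat_lit 7696) (.d (nat_lit 496) (nat_lit 464) (nat_lit 4560) (nat_lit 592) (nat_lit 4592)))) (.f (nat_lit 531) (nat_lit 559) (nat_lit 2575) (.d (nat_lit 532) (nat_lit 533) (nat_lit 1553) (nat_lit 563) (nat_lit 2576)))))))) s5358)))) (.p (nat_lit 592) (.a s9864 (.a (.p (nat_lit 496) (.a (.f (nat_lit 593) (nat_lit 625) (nat_lit 4592) (.f (nat_lit 561)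 (nat_lit 464) (nat_lit 4560) (.d (nat_lit 563) (nat_lit 564) (nat_lit 1584) (nat_lit 591) (nat_lit 1583)))) (.f (nat_lit 497) (nat_lit 465) (nat_lit 6608) (.f (nat_lit 495) (nat_lit 463) (nat_lit 7631) (.f (nat_lit 529) (nat_lit 624) (nat_lit 6640) (.d (nat_lit 494) (nat_lit 493) (nat_lit 493) (nat_lit 530) (nat_lit 494))))))) (.a s9887 (.a (.p (nat_lit 496) (.a (.f (nat_lit 495) (nat_lit 463) (nat_lit 7631) (.f (nat_lit 624) (nat_lit 527) (nat_lit 7663) (.d (nat_lit 625) (nat_lit 593) (nat_lit 4592) (nat_lit 657) (nat_lit 4624)))) (.a (.f (nat_lit 497) (nat_lit 465) (nat_lit 6608) (.f (nat_lit 495) (nat_lit 463) (nat_lit 7631) (.f (nat_lit 529) (nat_lit 624) (nat_lit 6640) (.d (nat_lit 494) (nat_lit 493) (nat_lit 493) (nat_lit 530) (nat_lit 494))))) (.a (.f (nat_lit 497) (nat_lit 465) (nat_lit 6608) (.f (nat_lit 463) (nat_lit 495) (nat_lit 7631) (.d (nat_lit 464) (nat_lit 431) (nat_lit 7599) (nat_lit 499) (nat_lit 3535)))) (.f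 (nat_lit 497) (nat_lit 465) (nat_lit 6608) (.f (nat_lit 529) (nat_lit 624) (nat_lit 6640) (.f (nat_lit 499) (nat_lit 500) (nat_lit 1520) (.f (nat_lit 531) (nat_lit 532) (nat_lit 496) (.f (nat_lit 530) (nat_lit 559) (nat_lit 1551) (.d (nat_lit 467) (nat_lit 435) (nat_lit 5554) (nat_lit 468) (nat_lit 2512))))))))))) (.a (.p (nat_lit 496) (.a (.f (nat_lit 593) (nat_lit 625) (nat_lit 4592) (.f (nat_lit 561) (nat_lit 464) (nat_lit 4560) (.d (nat_lit 563) (nat_lit 527) (nat_lit 3599) (nat_lit 564) (nat_lit 1584)))) (.a (.f (nat_lit 593) (nat_lit 625) (nat_lit 4592) (.f (nat_lit 561) (nat_lit 464) (nat_lit 4560) (.d (nat_lit 563) (nat_lit 564) (nat_lit 1584) (nat_lit 591) (nat_lit 1583)))) (.a (.f (nat_lit 495) (nat_lit 463) (nat_lit 7631) (.f (nat_lit 624) (nat_lit 527) (nat_lit 7663) (.d (nat_lit 625) (nat_lit 593) (nat_lit 4592) (nat_lit 657) (nat_lit 4624)))) (.f (nat_lit 497) (nat_lit 465) (nat_lit 6608) (.f (nat_lit 463) (nat_lit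 495) (nat_lit 7631) (.d (nat_lit 464) (nat_lit 431) (nat_lit 7599) (nat_lit 499) (nat_lit 3535)))))))) (.a s9918 (.p (nat_lit 496) (.a (.f (nat_lit 593) (nat_lit 625) (nat_lit 4592) (.f (nat_lit 561) (nat_lit 464) (nat_lit 4560) (.d (nat_lit 563) (nat_lit 527) (nat_lit 3599) (nat_lit 564) (nat_lit 1584)))) (.a (.f (nat_lit 593) (nat_lit 625) (nat_lit 4592) (.f (nat_lit 561) (nat_lit 464) (nat_lit 4560) (.d (nat_lit 563) (nat_lit 564) (nat_lit 1584) (nat_lit 591) (nat_lit 1583)))) (.f (nat_lit 497) (nat_lit 465) (nat_lit 6608) (.f (nat_lit 499) (nat_lit 527) (nat_lit 1519) (.f (nat_lit 500) (nat_lit 529) (nat_lit 1520) (.d (nat_lit 468) (nat_lit 467) (nat_lit 2512) (nat_lit 469) (nat_lit 2513))))))))))))))))))))))))))) (.a s10041 (.a s8127 (.a s10042 (.a s10052 (.a s3412 (.a (.p (nat_lit 594) (.a s4553 (.a (.p (nat_lit 530) (.a s3695 (.a (.p (nat_lit 626) (.a (.f (nat_lit 531) (nat_lit 499) (nat_lit 6642) (.f (nat_lit 561) (nat_lit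 559) (nat_lit 2575) (.d (nat_lit 532) (nat_lit 533) (nat_lit 1553) (nat_lit 563) (nat_lit 2576)))) (.a (.f (nat_lit 531) (nat_lit 499) (nat_lit 6642) (.f (nat_lit 658) (nat_lit 563) (nat_lit 6674) (.d (nat_lit 657) (nat_lit 625) (nat_lit 5649) (nat_lit 689) (nat_lit 5681)))) (.f (nat_lit 657) (nat_lit 625) (nat_lit 5649) (.f (nat_lit 658) (nat_lit 689) (nat_lit 5681) (.d (nat_lit 659) (nat_lit 627) (nat_lit 4626) (nat_lit 691) (nat_lit 4658))))))) (.a s9584 (.a (.p (nat_lit 498) (.a (.f (nat_lit 593) (nat_lit 625) (nat_lit 5617) (.f (nat_lit 561) (nat_lit 466) (nat_lit 5585) (.d (nat_lit 559) (nat_lit 531) (nat_lit 2575) (nat_lit 558) (nat_lit 558)))) (.a (.f (nat_lit 497) (nat_lit 465) (nat_lit 7633) (.f (nat_lit 626) (nat_lit 529) (nat_lit 7665) (.d (nat_lit 625) (nat_lit 593) (nat_lit 5617) (nat_lit 657) (nat_lit 5649)))) (.f (nat_lit 497) (nat_lit 465) (nat_lit 7633) (.f (nat_lit 529) (nat_lit 626) (nat_lit 7665) (.f (nat_lit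 559) (nat_lit 531) (nat_lit 1551) (.d (nat_lit 558) (nat_lit 557) (nat_lit 2573) (nat_lit 561) (nat_lit 2574)))))))) (.a s3730 s3836)))))) (.a s4029 (.a (.p (nat_lit 530) (.a (.p (nat_lit 626) (.a (.f (nat_lit 531) (nat_lit 499) (nat_lit 6642) (.f (nat_lit 561) (nat_lit 559) (nat_lit 2575) (.d (nat_lit 532) (nat_lit 533) (nat_lit 1553) (nat_lit 563) (nat_lit 2576)))) (.a (.f (nat_lit 531) (nat_lit 499) (nat_lit 6642) (.f (nat_lit 658) (nat_lit 563) (nat_lit 6674) (.d (nat_lit 657) (nat_lit 625) (nat_lit 5649) (nat_lit 689) (nat_lit 5681)))) (.f (nat_lit 657) (nat_lit 625) (nat_lit 5649) (.f (nat_lit 658) (nat_lit 689) (nat_lit 5681) (.d (nat_lit 659) (nat_lit 627) (nat_lit 4626) (nat_lit 691) (nat_lit 4658))))))) (.a s3908 (.a s9585 (.a (.p (nat_lit 498) (.a (.f (nat_lit 593) (nat_lit 625) (nat_lit 5617) (.f (nat_lit 561) (nat_lit 466) (nat_lit 5585) (.d (nat_lit 559) (nat_lit 531) (nat_lit 2575) (nat_lit 558) (nat_lit 558)))) (.a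 (.f (nat_lit 467) (nat_lit 499) (nat_lit 6610) (.f (nat_lit 466) (nat_lit 435) (nat_lit 6578) (.d (nat_lit 465) (nat_lit 433) (nat_lit 7601) (nat_lit 497) (nat_lit 7633)))) (.f (nat_lit 625) (nat_lit 593) (nat_lit 5617) (.f (nat_lit 626) (nat_lit 657) (nat_lit 5649) (.d (nat_lit 499) (nat_lit 467) (nat_lit 6610) (nat_lit 531) (nat_lit 6642))))))) (.a (.p (nat_lit 561) (.a (.f (nat_lit 531) (nat_lit 559) (nat_lit 2575) (.d (nat_lit 532) (nat_lit 533) (nat_lit 1553) (nat_lit 563) (nat_lit 2576))) (.a (.f (nat_lit 563) (nat_lit 527) (nat_lit 3599) (.f (nat_lit 592) (nat_lit 591) (nat_lit 1583) (.f (nat_lit 593) (nat_lit 564) (nat_lit 1584) (.d (nat_lit 498) (nat_lit 466) (nat_lit 5585) (nat_lit 625) (nat_lit 5617))))) (.f (nat_lit 559) (nat_lit 531) (nat_lit 2575) (.f (nat_lit 593) (nat_lit 558) (nat_lit 558) (.d (nat_lit 498) (nat_lit 466) (nat_lit 5585) (nat_lit 625) (nat_lit 5617))))))) s4838)))))) (.a s9507 (.a s9586 (.a (.p (nat_lit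 592) (.a s4640 (.a (.p (nat_lit 496) (.a (.f (nat_lit 465) (nat_lit 497) (nat_lit 6608) (.f (nat_lit 464) (nat_lit 433) (nat_lit 6576) (.d (nat_lit 463) (nat_lit 431) (nat_lit 7599) (nat_lit 495) (nat_lit 7631)))) (.a (.f (nat_lit 593) (nat_lit 625) (nat_lit 4592) (.f (nat_lit 561) (nat_lit 464) (nat_lit 4560) (.d (nat_lit 563) (nat_lit 564) (nat_lit 1584) (nat_lit 591) (nat_lit 1583)))) (.f (nat_lit 593) (nat_lit 625) (nat_lit 4592) (.f (nat_lit 563) (nat_lit 591) (nat_lit 2607) (.d (nat_lit 564) (nat_lit 561) (nat_lit 1584) (nat_lit 565) (nat_lit 1585))))))) (.a (.p (nat_lit 496) (.a (.f (nat_lit 465) (nat_lit 497) (nat_lit 6608) (.f (nat_lit 464) (nat_lit 433) (nat_lit 6576) (.d (nat_lit 463) (nat_lit 431) (nat_lit 7599) (nat_lit 495) (nat_lit 7631)))) (.a (.f (nat_lit 593) (nat_lit 625) (nat_lit 4592) (.f (nat_lit 591) (nat_lit 563) (nat_lit 2607) (.d (nat_lit 559) (nat_lit 464) (nat_lit 5583) (nat_lit 558) (nat_lit 3630))))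 (.f (nat_lit 495) (nat_lit 463) (nat_lit 7631) (.f (nat_lit 624) (nat_lit 527) (nat_lit 7663) (.d (nat_lit 497) (nat_lit 465) (nat_lit 6608) (nat_lit 529) (nat_lit 6640))))))) (.a (.p (nat_lit 496) (.a (.f (nat_lit 593) (nat_lit 625) (nat_lit 4592) (.f (nat_lit 561) (nat_lit 464) (nat_lit 4560) (.d (nat_lit 563) (nat_lit 564) (nat_lit 1584) (nat_lit 591) (nat_lit 1583)))) (.a (.f (nat_lit 593) (nat_lit 625) (nat_lit 4592) (.f (nat_lit 591) (nat_lit 563) (nat_lit 2607) (.d (nat_lit 559) (nat_lit 464) (nat_lit 5583) (nat_lit 558) (nat_lit 3630)))) (.a (.f (nat_lit 593) (nat_lit 625) (nat_lit 4592) (.f (nat_lit 563) (nat_lit 591) (nat_lit 2607) (.d (nat_lit 564) (nat_lit 561) (nat_lit 1584) (nat_lit 565) (nat_lit 1585)))) (.a (.f (nat_lit 463) (nat_lit 495) (nat_lit 7631) (.f (nat_lit 464) (nat_lit 431) (nat_lit 7599) (.f (nat_lit 433) (nat_lit 465) (nat_lit 6576) (.f (nat_lit 432) (nat_lit 401) (nat_lit 6544) (.f (nat_lit 561) (nat_lit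 529) (nat_lit 4528) (.d (nat_lit 591) (nat_lit 559) (nat_lit 5583) (nat_lit 563) (nat_lit 1583))))))) (.a (.f (nat_lit 593) (nat_lit 625) (nat_lit 4592) (.f (nat_lit 561) (nat_lit 464) (nat_lit 4560) (.f (nat_lit 559) (nat_lit 558) (nat_lit 558) (.f (nat_lit 591) (nat_lit 590) (nat_lit 1582) (.f (nat_lit 626) (nat_lit 627) (nat_lit 591) (.d (nat_lit 658) (nat_lit 529) (nat_lit 7697) (nat_lit 690) (nat_lit 7729))))))) (.f (nat_lit 593) (nat_lit 625) (nat_lit 4592) (.f (nat_lit 561) (nat_lit 464) (nat_lit 4560) (.d (nat_lit 563) (nat_lit 527) (nat_lit 3599) (nat_lit 564) (nat_lit 1584)))))))))) (.a (.p (nat_lit 496) (.a (.f (nat_lit 465) (nat_lit 497) (nat_lit 6608) (.f (nat_lit 464) (nat_lit 433) (nat_lit 6576) (.d (nat_lit 463) (nat_lit 431) (nat_lit 7599) (nat_lit 495) (nat_lit 7631)))) (.a (.f (nat_lit 593) (nat_lit 625) (nat_lit 4592) (.f (nat_lit 561) (nat_lit 464) (nat_lit 4560) (.f (nat_lit 559) (nat_lit 558) (nat_lit 558)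 (.f (nat_lit 591) (nat_lit 590) (nat_lit 1582) (.f (nat_lit 626) (nat_lit 627) (nat_lit 591) (.d (nat_lit 658) (nat_lit 529) (nat_lit 7697) (nat_lit 690) (nat_lit 7729))))))) (.f (nat_lit 495) (nat_lit 463) (nat_lit 7631) (.f (nat_lit 624) (nat_lit 527) (nat_lit 7663) (.d (nat_lit 497) (nat_lit 465) (nat_lit 6608) (nat_lit 529) (nat_lit 6640))))))) (.a (.p (nat_lit 496) (.a (.f (nat_lit 593) (nat_lit 625) (nat_lit 4592) (.f (nat_lit 561) (nat_lit 464) (nat_lit 4560) (.d (nat_lit 563) (nat_lit 564) (nat_lit 1584) (nat_lit 591) (nat_lit 1583)))) (.a (.f (nat_lit 593) (nat_lit 625) (nat_lit 4592) (.f (nat_lit 591) (nat_lit 563) (nat_lit 2607) (.d (nat_lit 559) (nat_lit 464) (nat_lit 5583) (nat_lit 558) (nat_lit 3630)))) (.a (.f (nat_lit 593) (nat_lit 625) (nat_lit 4592) (.f (nat_lit 563) (nat_lit 591) (nat_lit 2607) (.d (nat_lit 564) (nat_lit 561) (nat_lit 1584) (nat_lit 565) (nat_lit 1585)))) (.a (.f (nat_lit 465) (nat_lit 497) (nat_lit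 6608) (.f (nat_lit 464) (nat_lit 433) (nat_lit 6576) (.f (nat_lit 559) (nat_lit 591) (nat_lit 5583) (.f (nat_lit 431) (nat_lit 463) (nat_lit 7599) (.d (nat_lit 432) (nat_lit 399) (nat_lit 7567) (nat_lit 527) (nat_lit 5551)))))) (.f (nat_lit 593) (nat_lit 625) (nat_lit 4592) (.f (nat_lit 561) (nat_lit 464) (nat_lit 4560) (.d (nat_lit 563) (nat_lit 527) (nat_lit 3599) (nat_lit 564) (nat_lit 1584))))))))) (.a (.p (nat_lit 496) (.a (.f (nat_lit 465) (nat_lit 497) (nat_lit 6608) (.f (nat_lit 464) (nat_lit 433) (nat_lit 6576) (.d (nat_lit 463) (nat_lit 431) (nat_lit 7599) (nat_lit 495) (nat_lit 7631)))) (.a (.f (nat_lit 463) (nat_lit 495) (nat_lit 7631) (.f (nat_lit 464) (nat_lit 431) (nat_lit 7599) (.f (nat_lit 433) (nat_lit 465) (nat_lit 6576) (.f (nat_lit 432) (nat_lit 401) (nat_lit 6544) (.f (nat_lit 561) (nat_lit 529) (nat_lit 4528) (.d (nat_lit 591) (nat_lit 559) (nat_lit 5583) (nat_lit 563) (nat_lit 1583))))))) (.a (.f (nat_lit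 495) (nat_lit 463) (nat_lit 7631) (.f (nat_lit 624) (nat_lit 527) (nat_lit 7663) (.d (nat_lit 497) (nat_lit 465) (nat_lit 6608) (nat_lit 529) (nat_lit 6640)))) (.a (.f (nat_lit 463) (nat_lit 495) (nat_lit 7631) (.f (nat_lit 464) (nat_lit 431) (nat_lit 7599) (.f (nat_lit 561) (nat_lit 593) (nat_lit 4560) (.d (nat_lit 563) (nat_lit 527) (nat_lit 3599) (nat_lit 591) (nat_lit 1583))))) (.a (.f (nat_lit 465) (nat_lit 497) (nat_lit 6608) (.f (nat_lit 464) (nat_lit 433) (nat_lit 6576) (.f (nat_lit 559) (nat_lit 591) (nat_lit 5583) (.f (nat_lit 431) (nat_lit 463) (nat_lit 7599) (.d (nat_lit 432) (nat_lit 399) (nat_lit 7567) (nat_lit 527) (nat_lit 5551)))))) (.f (nat_lit 465) (nat_lit 497) (nat_lit 6608) (.f (nat_lit 464) (nat_lit 433) (nat_lit 6576) (.f (nat_lit 559) (nat_lit 591) (nat_lit 5583) (.f (nat_lit 527) (nat_lit 432) (nat_lit 5551) (.d (nat_lit 624) (nat_lit 495) (nat_lit 7663) (nat_lit 656) (nat_lit 7695)))))))))))) (.p (nat_lit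 496) (.a (.f (nat_lit 465) (nat_lit 497) (nat_lit 6608) (.f (nat_lit 464) (nat_lit 433) (nat_lit 6576) (.d (nat_lit 463) (nat_lit 431) (nat_lit 7599) (nat_lit 495) (nat_lit 7631)))) (.a (.f (nat_lit 593) (nat_lit 625) (nat_lit 4592) (.f (nat_lit 561) (nat_lit 464) (nat_lit 4560) (.d (nat_lit 563) (nat_lit 527) (nat_lit 3599) (nat_lit 564) (nat_lit 1584)))) (.f (nat_lit 495) (nat_lit 463) (nat_lit 7631) (.f (nat_lit 624) (nat_lit 527) (nat_lit 7663) (.d (nat_lit 497) (nat_lit 465) (nat_lit 6608) (nat_lit 529) (nat_lit 6640))))))))))))))) (.a s4742 (.a s9729 (.a s4806 (.a s4839 s4842)))))))))))) (.a s10072 (.a (.p (nat_lit 594) (.a s4047 (.a s3816 (.a s3984 (.a s9583 (.a s9728 (.a s9675 (.a s4812 (.a s4787 (.a s4793 s9729)))))))))) (.p (nat_lit 594) (.a (.p (nat_lit 561) (.a (.f (nat_lit 563) (nat_lit 527) (nat_lit 3599) (.d (nat_lit 595) (nat_lit 559) (nat_lit 559) (nat_lit 596) (nat_lit 560))) (.a (.f (nat_lit 559) (nat_lit 595)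 (nat_lit 559) (.f (nat_lit 593) (nat_lit 558) (nat_lit 558) (.f (nat_lit 625) (nat_lit 657) (nat_lit 7696) (.d (nat_lit 496) (nat_lit 464) (nat_lit 4560) (nat_lit 529) (nat_lit 7664))))) (.f (nat_lit 563) (nat_lit 527) (nat_lit 3599) (.f (nat_lit 564) (nat_lit 529) (nat_lit 3600) (.d (nat_lit 532) (nat_lit 531) (nat_lit 2576) (nat_lit 533) (nat_lit 2577))))))) (.a (.p (nat_lit 530) (.a s3706 (.a s10050 (.a (.p (nat_lit 559) (.a (.f (nat_lit 561) (nat_lit 595) (nat_lit 559) (.d (nat_lit 558) (nat_lit 529) (nat_lit 2574) (nat_lit 593) (nat_lit 558))) (.a (.f (nat_lit 531) (nat_lit 529) (nat_lit 1551) (.f (nat_lit 499) (nat_lit 626) (nat_lit 6642) (.d (nat_lit 467) (nat_lit 435) (nat_lit 5554) (nat_lit 498) (nat_lit 6610)))) (.d (nat_lit 561) (nat_lit 531) (nat_lit 2575) (nat_lit 595) (nat_lit 559))))) (.a (.p (nat_lit 498) (.a (.f (nat_lit 497) (nat_lit 465) (nat_lit 7633) (.f (nat_lit 529) (nat_lit 626) (nat_lit 7665) (.d (nat_lit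 499) (nat_lit 467) (nat_lit 6610) (nat_lit 500) (nat_lit 1520)))) (.a (.f (nat_lit 467) (nat_lit 499) (nat_lit 6610) (.f (nat_lit 466) (nat_lit 435) (nat_lit 6578) (.d (nat_lit 465) (nat_lit 433) (nat_lit 7601) (nat_lit 497) (nat_lit 7633)))) (.a (.f (nat_lit 467) (nat_lit 499) (nat_lit 6610) (.f (nat_lit 466) (nat_lit 435) (nat_lit 6578) (.f (nat_lit 561) (nat_lit 593) (nat_lit 5585) (.f (nat_lit 529) (nat_lit 434) (nat_lit 5553) (.f (nat_lit 559) (nat_lit 558) (nat_lit 2574) (.f (nat_lit 591) (nat_lit 590) (nat_lit 1582) (.d (nat_lit 563) (nat_lit 564) (nat_lit 3600) (nat_lit 592) (nat_lit 1583)))))))) (.a (.f (nat_lit 465) (nat_lit 497) (nat_lit 7633) (.f (nat_lit 466) (nat_lit 433) (nat_lit 7601) (.f (nat_lit 561) (nat_lit 593) (nat_lit 5585) (.f (nat_lit 434) (nat_lit 529) (nat_lit 5553) (.d (nat_lit 435) (nat_lit 403) (nat_lit 6546) (nat_lit 467) (nat_lit 6578)))))) (.f (nat_lit 465) (nat_lit 497) (nat_lit 7633) (.f (nat_lit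 466) (nat_lit 433) (nat_lit 7601) (.f (nat_lit 561) (nat_lit 593) (nat_lit 5585) (.f (nat_lit 529) (nat_lit 434) (nat_lit 5553) (.f (nat_lit 559) (nat_lit 558) (nat_lit 2574) (.f (nat_lit 591) (nat_lit 590) (nat_lit 1582) (.d (nat_lit 563) (nat_lit 564) (nat_lit 3600) (nat_lit 592) (nat_lit 1583))))))))))))) (.a (.p (nat_lit 529) (.a (.f (nat_lit 531) (nat_lit 559) (nat_lit 1551) (.d (nat_lit 499) (nat_lit 500) (nat_lit 2544) (nat_lit 626) (nat_lit 6642))) (.a (.f (nat_lit 497) (nat_lit 626) (nat_lit 7665) (.d (nat_lit 465) (nat_lit 433) (nat_lit 4529) (nat_lit 561) (nat_lit 4561))) (.f (nat_lit 531) (nat_lit 559) (nat_lit 1551) (.f (nat_lit 563) (nat_lit 564) (nat_lit 528) (.d (nat_lit 499) (nat_lit 467) (nat_lit 5586) (nat_lit 500) (nat_lit 2544))))))) (.a (.p (nat_lit 498) (.a (.f (nat_lit 497) (nat_lit 465) (nat_lit 7633) (.f (nat_lit 529) (nat_lit 626) (nat_lit 7665) (.d (nat_lit 499) (nat_lit 467) (nat_lit 6610) (nat_lit 500)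 (nat_lit 1520)))) (.a (.f (nat_lit 467) (nat_lit 499) (nat_lit 6610) (.f (nat_lit 466) (nat_lit 435) (nat_lit 6578) (.d (nat_lit 465) (nat_lit 433) (nat_lit 7601) (nat_lit 497) (nat_lit 7633)))) (.a (.f (nat_lit 499) (nat_lit 467) (nat_lit 6610) (.f (nat_lit 531) (nat_lit 626) (nat_lit 6642) (.f (nat_lit 529) (nat_lit 500) (nat_lit 2544) (.f (nat_lit 532) (nat_lit 561) (nat_lit 1552) (.d (nat_lit 564) (nat_lit 563) (nat_lit 528) (nat_lit 565) (nat_lit 529)))))) (.a (.f (nat_lit 465) (nat_lit 497) (nat_lit 7633) (.f (nat_lit 466) (nat_lit 433) (nat_lit 7601) (.f (nat_lit 561) (nat_lit 593) (nat_lit 5585) (.f (nat_lit 434) (nat_lit 529) (nat_lit 5553) (.d (nat_lit 435) (nat_lit 403) (nat_lit 6546) (nat_lit 467) (nat_lit 6578)))))) (.f (nat_lit 497) (nat_lit 465) (nat_lit 7633) (.f (nat_lit 626) (nat_lit 529) (nat_lit 7665) (.f (nat_lit 531) (nat_lit 499) (nat_lit 6642) (.f (nat_lit 563) (nat_lit 658) (nat_lit 6674) (.d (nat_lit 532)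 (nat_lit 533) (nat_lit 3569) (nat_lit 561) (nat_lit 2576))))))))))) (.a (.p (nat_lit 529) (.a (.f (nat_lit 559) (nat_lit 531) (nat_lit 1551) (.d (nat_lit 558) (nat_lit 557) (nat_lit 2573) (nat_lit 561) (nat_lit 2574))) (.f (nat_lit 497) (nat_lit 626) (nat_lit 7665) (.d (nat_lit 465) (nat_lit 433) (nat_lit 4529) (nat_lit 498) (nat_lit 7633))))) (.p (nat_lit 498) (.a (.f (nat_lit 467) (nat_lit 499) (nat_lit 6610) (.f (nat_lit 466) (nat_lit 435) (nat_lit 6578) (.d (nat_lit 465) (nat_lit 433) (nat_lit 7601) (nat_lit 497) (nat_lit 7633)))) (.a (.f (nat_lit 467) (nat_lit 499) (nat_lit 6610) (.f (nat_lit 466) (nat_lit 435) (nat_lit 6578) (.f (nat_lit 561) (nat_lit 593) (nat_lit 5585) (.f (nat_lit 529) (nat_lit 434) (nat_lit 5553) (.f (nat_lit 559) (nat_lit 558) (nat_lit 2574) (.f (nat_lit 591) (nat_lit 590) (nat_lit 1582) (.d (nat_lit 563) (nat_lit 564) (nat_lit 3600) (nat_lit 592) (nat_lit 1583)))))))) (.a (.f (nat_lit 465) (nat_lit 497)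 (nat_lit 7633) (.f (nat_lit 466) (nat_lit 433) (nat_lit 7601) (.f (nat_lit 435) (nat_lit 467) (nat_lit 6578) (.f (nat_lit 434) (nat_lit 403) (nat_lit 6546) (.f (nat_lit 529) (nat_lit 561) (nat_lit 5553) (.d (nat_lit 531) (nat_lit 559) (nat_lit 1551) (nat_lit 563) (nat_lit 4530))))))) (.a (.f (nat_lit 497) (nat_lit 465) (nat_lit 7633) (.f (nat_lit 499) (nat_lit 467) (nat_lit 6610) (.f (nat_lit 500) (nat_lit 529) (nat_lit 1520) (.f (nat_lit 533) (nat_lit 532) (nat_lit 497) (.f (nat_lit 501) (nat_lit 534) (nat_lit 498) (.d (nat_lit 469) (nat_lit 468) (nat_lit 2513) (nat_lit 470) (nat_lit 2514))))))) (.f (nat_lit 465) (nat_lit 497) (nat_lit 7633) (.f (nat_lit 466) (nat_lit 433) (nat_lit 7601) (.f (nat_lit 561) (nat_lit 593) (nat_lit 5585) (.f (nat_lit 531) (nat_lit 559) (nat_lit 2575) (.d (nat_lit 532) (nat_lit 533) (nat_lit 1553) (nat_lit 563) (nat_lit 2576))))))))))))))))))) (.a s10089 (.a s4047 (.a s4412 (.a (.p (nat_lit 561) (.a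 (.f (nat_lit 563) (nat_lit 527) (nat_lit 3599) (.d (nat_lit 595) (nat_lit 559) (nat_lit 559) (nat_lit 596) (nat_lit 560))) (.a (.f (nat_lit 559) (nat_lit 595) (nat_lit 559) (.f (nat_lit 530) (nat_lit 531) (nat_lit 2575) (.f (nat_lit 529) (nat_lit 558) (nat_lit 2574) (.d (nat_lit 497) (nat_lit 465) (nat_lit 4561) (nat_lit 626) (nat_lit 7665))))) (.f (nat_lit 563) (nat_lit 527) (nat_lit 3599) (.f (nat_lit 564) (nat_lit 529) (nat_lit 3600) (.d (nat_lit 532) (nat_lit 531) (nat_lit 2576) (nat_lit 533) (nat_lit 2577))))))) (.a s4796 (.a (.p (nat_lit 530) (.a s3695 (.a s3460 (.a (.p (nat_lit 498) (.a (.f (nat_lit 593) (nat_lit 625) (nat_lit 5617) (.f (nat_lit 561) (nat_lit 466) (nat_lit 5585) (.f (nat_lit 563) (nat_lit 527) (nat_lit 3599) (.d (nat_lit 564) (nat_lit 565) (nat_lit 1585) (nat_lit 592) (nat_lit 1584))))) (.a (.f (nat_lit 625) (nat_lit 593) (nat_lit 5617) (.f (nat_lit 626) (nat_lit 657) (nat_lit 5649) (.d (nat_lit 499) (nat_lit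 467) (nat_lit 6610) (nat_lit 531) (nat_lit 6642)))) (.f (nat_lit 499) (nat_lit 467) (nat_lit 6610) (.f (nat_lit 529) (nat_lit 527) (nat_lit 2543) (.d (nat_lit 500) (nat_lit 501) (nat_lit 1521) (nat_lit 531) (nat_lit 2544))))))) (.a (.p (nat_lit 498) (.a (.f (nat_lit 497) (nat_lit 465) (nat_lit 7633) (.f (nat_lit 529) (nat_lit 626) (nat_lit 7665) (.d (nat_lit 499) (nat_lit 467) (nat_lit 6610) (nat_lit 500) (nat_lit 1520)))) (.a (.f (nat_lit 467) (nat_lit 499) (nat_lit 6610) (.f (nat_lit 466) (nat_lit 435) (nat_lit 6578) (.d (nat_lit 465) (nat_lit 433) (nat_lit 7601) (nat_lit 497) (nat_lit 7633)))) (.f (nat_lit 593) (nat_lit 625) (nat_lit 5617) (.f (nat_lit 561) (nat_lit 466) (nat_lit 5585) (.f (nat_lit 563) (nat_lit 527) (nat_lit 3599) (.d (nat_lit 564) (nat_lit 529) (nat_lit 3600) (nat_lit 565) (nat_lit 1585)))))))) (.a (.p (nat_lit 529) (.a (.f (nat_lit 563) (nat_lit 527) (nat_lit 527) (.d (nat_lit 564) (nat_lit 531) (nat_lit 528)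 (nat_lit 561) (nat_lit 3600))) (.a (.f (nat_lit 497) (nat_lit 626) (nat_lit 7665) (.d (nat_lit 465) (nat_lit 433) (nat_lit 4529) (nat_lit 561) (nat_lit 4561))) (.f (nat_lit 563) (nat_lit 527) (nat_lit 527) (.d (nat_lit 564) (nat_lit 531) (nat_lit 528) (nat_lit 565) (nat_lit 3601)))))) (.p (nat_lit 498) (.a (.f (nat_lit 593) (nat_lit 625) (nat_lit 5617) (.f (nat_lit 561) (nat_lit 466) (nat_lit 5585) (.f (nat_lit 563) (nat_lit 527) (nat_lit 3599) (.d (nat_lit 564) (nat_lit 565) (nat_lit 1585) (nat_lit 592) (nat_lit 1584))))) (.a (.f (nat_lit 467) (nat_lit 499) (nat_lit 6610) (.f (nat_lit 466) (nat_lit 435) (nat_lit 6578) (.d (nat_lit 465) (nat_lit 433) (nat_lit 7601) (nat_lit 497) (nat_lit 7633)))) (.f (nat_lit 499) (nat_lit 467) (nat_lit 6610) (.f (nat_lit 529) (nat_lit 527) (nat_lit 2543) (.d (nat_lit 500) (nat_lit 501) (nat_lit 1521) (nat_lit 531) (nat_lit 2544))))))))))))) s4839)))))))))))))))))))))))))))))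
noncomputable def s10141 : Cert := .r (nat_lit 81045225973576705845931866949422482179170868230352120136932872080819937316538974369105772087653654582751346444588976596909568446798598709460541101730559254928086662937195436834816) (.p (nat_lit 496) (.a (.f (nat_lit 465) (nat_lit 497) (nat_lit 6608) (.f (nat_lit 464) (nat_lit 433) (nat_lit 6576) (.d (nat_lit 463) (nat_lit 431) (nat_lit 7599) (nat_lit 495) (nat_lit 7631)))) (.a (.f (nat_lit 591) (nat_lit 623) (nat_lit 5615) (.f (nat_lit 464) (nat_lit 559) (nat_lit 5583) (.d (nat_lit 463) (nat_lit 431) (nat_lit 7599) (nat_lit 495) (nat_lit 7631)))) (.f (nat_lit 623) (nat_lit 591) (nat_lit 5615) (.f (nat_lit 624) (nat_lit 655) (nat_lit 5647) (.f (nat_lit 625) (nat_lit 657) (nat_lit 4624) (.f (nat_lit 626) (nat_lit 595) (nat_lit 2639) (.f (nat_lit 659) (nat_lit 658) (nat_lit 623) (.d (nat_lit 627) (nat_lit 530) (nat_lit 4626) (nat_lit 660) (nat_lit 624))))))))))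
noncomputable def s10165 : Cert := .r (nat_lit 81045225973576705845931866949422482179170868230352120136932872080819937316538974369105772087653654582751346444588976596909568446798598709460541101730559254928086662937195436834816) (.p (nat_lit 496) (.a (.f (nat_lit 465) (nat_lit 497) (nat_lit 6608) (.f (nat_lit 464) (nat_lit 433) (nat_lit 6576) (.d (nat_lit 463) (nat_lit 431) (nat_lit 7599) (nat_lit 495) (nat_lit 7631)))) (.f (nat_lit 593) (nat_lit 625) (nat_lit 4592) (.f (nat_lit 595) (nat_lit 559) (nat_lit 3631) (.f (nat_lit 563) (nat_lit 564) (nat_lit 2608) (.f (nat_lit 627) (nat_lit 628) (nat_lit 592) (.f (nat_lit 659) (nat_lit 691) (nat_lit 7730) (.f (nat_lit 658) (nat_lit 690) (nat_lit 5682) (.f (nat_lit 531) (nat_lit 626) (nat_lit 6674) (.f (nat_lit 499) (nat_lit 467) (nat_lit 5586) (.d (nat_lit 500) (nat_lit 468) (nat_lit 6611) (nat_lit 532) (nat_lit 6643))))))))))))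
noncomputable def s10203 : Cert := .r (nat_lit 18869812124986400861909077861452536623742848789944414807312914721508303684079199498411541962835273631392212438961282162178892890736348082064846980199290792905342736924672) (.p (nat_lit 464) (.a (.f (nat_lit 433) (nat_lit 465) (nat_lit 6576) (.f (nat_lit 432) (nat_lit 401) (nat_lit 6544) (.d (nat_lit 431) (nat_lit 399) (nat_lit 7567) (nat_lit 463) (nat_lit 7599)))) (.a (.f (nat_lit 431) (nat_lit 463) (nat_lit 7599) (.f (nat_lit 432) (nat_lit 399) (nat_lit 7567) (.f (nat_lit 529) (nat_lit 561) (nat_lit 4528) (.f (nat_lit 400) (nat_lit 497) (nat_lit 4496) (.d (nat_lit 401) (nat_lit 369) (nat_lit 6512) (nat_lit 433) (nat_lit 6544)))))) (.a (.f (nat_lit 463) (nat_lit 431) (nat_lit 7599) (.f (nat_lit 495) (nat_lit 592) (nat_lit 7631) (.f (nat_lit 465) (nat_lit 433) (nat_lit 6576) (.d (nat_lit 466) (nat_lit 467) (nat_lit 1487) (nat_lit 494) (nat_lit 1486))))) (.a (.f (nat_lit 463) (nat_lit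 431) (nat_lit 7599) (.f (nat_lit 592) (nat_lit 495) (nat_lit 7631) (.f (nat_lit 497) (nat_lit 465) (nat_lit 6608) (.f (nat_lit 529) (nat_lit 624) (nat_lit 6640) (.d (nat_lit 432) (nat_lit 400) (nat_lit 4496) (nat_lit 561) (nat_lit 4528)))))) (.a (.f (nat_lit 433) (nat_lit 465) (nat_lit 6576) (.f (nat_lit 432) (nat_lit 401) (nat_lit 6544) (.f (nat_lit 529) (nat_lit 561) (nat_lit 4528) (.f (nat_lit 399) (nat_lit 431) (nat_lit 7567) (.d (nat_lit 400) (nat_lit 367) (nat_lit 7535) (nat_lit 497) (nat_lit 4496)))))) (.f (nat_lit 433) (nat_lit 465) (nat_lit 6576) (.f (nat_lit 432) (nat_lit 401) (nat_lit 6544) (.f (nat_lit 529) (nat_lit 561) (nat_lit 4528) (.f (nat_lit 497) (nat_lit 400) (nat_lit 4496) (.f (nat_lit 592) (nat_lit 624) (nat_lit 6640) (.f (nat_lit 495) (nat_lit 463) (nat_lit 7631) (.d (nat_lit 494) (nat_lit 493) (nat_lit 493) (nat_lit 530) (nat_lit 494))))))))))))))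
noncomputable def s10204 : Cert := .r (nat_lit 18869812124986400861909077861452536623742848789944414807312914721508303684079199498411541962835273631392212438961282162178892890736348082064846980199290792905342736924672) (.p (nat_lit 592) (.a (.f (nat_lit 591) (nat_lit 623) (nat_lit 5615) (.f (nat_lit 561) (nat_lit 563) (nat_lit 1583) (.d (nat_lit 464) (nat_lit 559) (nat_lit 5583) (nat_lit 593) (nat_lit 4560)))) (.a (.f (nat_lit 497) (nat_lit 465) (nat_lit 6608) (.f (nat_lit 624) (nat_lit 529) (nat_lit 6640) (.d (nat_lit 623) (nat_lit 591) (nat_lit 5615) (nat_lit 655) (nat_lit 5647)))) (.a (.f (nat_lit 593) (nat_lit 625) (nat_lit 4592) (.f (nat_lit 561) (nat_lit 464) (nat_lit 4560) (.d (nat_lit 563) (nat_lit 564) (nat_lit 1584) (nat_lit 591) (nat_lit 1583)))) (.f (nat_lit 497) (nat_lit 465) (nat_lit 6608) (.f (nat_lit 624) (nat_lit 529) (nat_lit 6640) (.d (nat_lit 625) (nat_lit 593) (nat_lit 4592) (nat_lit 657) (nat_lit 4624))))))))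
noncomputable def s10207 : Cert := .r (nat_lit 3773962425700235452738272624505952193199339552226928146794549392648115485167898379561026699849346401546134558067857772757880134458676407096525164659442171664912122642432) (.p (nat_lit 562) (.a s3192 (.a s3224 (.a (.p (nat_lit 594) (.a s3975 (.a s3707 (.a (.p (nat_lit 592) (.a s3761 (.a s10141 (.a (.p (nat_lit 593) (.a (.f (nat_lit 559) (nat_lit 595) (nat_lit 3631) (.d (nat_lit 558) (nat_lit 557) (nat_lit 557) (nat_lit 591) (nat_lit 3630))) (.a (.f (nat_lit 591) (nat_lit 563) (nat_lit 2607) (.f (nat_lit 626) (nat_lit 627) (nat_lit 591) (.f (nat_lit 625) (nat_lit 590) (nat_lit 590) (.d (nat_lit 657) (nat_lit 530) (nat_lit 5649) (nat_lit 689) (nat_lit 7728))))) (.f (nat_lit 595) (nat_lit 559) (nat_lit 3631) (.f (nat_lit 563) (nat_lit 564) (nat_lit 2608) (.f (nat_lit 627) (nat_lit 628) (nat_lit 592) (.d (nat_lit 659) (nat_lit 530) (nat_lit 7698) (nat_lit 691) (nat_lit 7730)))))))) (.a (.p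 (nat_lit 496) (.a (.f (nat_lit 465) (nat_lit 497) (nat_lit 6608) (.f (nat_lit 464) (nat_lit 433) (nat_lit 6576) (.d (nat_lit 463) (nat_lit 431) (nat_lit 7599) (nat_lit 495) (nat_lit 7631)))) (.f (nat_lit 623) (nat_lit 591) (nat_lit 5615) (.f (nat_lit 624) (nat_lit 655) (nat_lit 5647) (.f (nat_lit 625) (nat_lit 657) (nat_lit 4624) (.f (nat_lit 626) (nat_lit 595) (nat_lit 2639) (.f (nat_lit 659) (nat_lit 658) (nat_lit 623) (.d (nat_lit 627) (nat_lit 530) (nat_lit 4626) (nat_lit 660) (nat_lit 624))))))))) (.a s4001 (.a (.p (nat_lit 496) (.a (.f (nat_lit 465) (nat_lit 497) (nat_lit 6608) (.f (nat_lit 464) (nat_lit 433) (nat_lit 6576) (.d (nat_lit 463) (nat_lit 431) (nat_lit 7599) (nat_lit 495) (nat_lit 7631)))) (.f (nat_lit 593) (nat_lit 625) (nat_lit 4592) (.f (nat_lit 595) (nat_lit 559) (nat_lit 3631) (.f (nat_lit 563) (nat_lit 564) (nat_lit 2608) (.f (nat_lit 627) (nat_lit 628) (nat_lit 592) (.d (nat_lit 530) (nat_lit 498) (nat_lit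 4594) (nat_lit 659) (nat_lit 7698)))))))) (.p (nat_lit 496) (.a (.f (nat_lit 465) (nat_lit 497) (nat_lit 6608) (.f (nat_lit 464) (nat_lit 433) (nat_lit 6576) (.d (nat_lit 463) (nat_lit 431) (nat_lit 7599) (nat_lit 495) (nat_lit 7631)))) (.a (.f (nat_lit 591) (nat_lit 623) (nat_lit 5615) (.f (nat_lit 464) (nat_lit 559) (nat_lit 5583) (.d (nat_lit 463) (nat_lit 431) (nat_lit 7599) (nat_lit 495) (nat_lit 7631)))) (.f (nat_lit 593) (nat_lit 625) (nat_lit 4592) (.d (nat_lit 591) (nat_lit 563) (nat_lit 2607) (nat_lit 623) (nat_lit 5615))))))))))))) (.a s9471 (.a s3968 (.a (.p (nat_lit 592) (.a s3761 (.a s10141 (.a (.p (nat_lit 593) (.a (.f (nat_lit 559) (nat_lit 595) (nat_lit 3631) (.d (nat_lit 558) (nat_lit 557) (nat_lit 557) (nat_lit 591) (nat_lit 3630))) (.a (.f (nat_lit 591) (nat_lit 563) (nat_lit 2607) (.f (nat_lit 626) (nat_lit 627) (nat_lit 591) (.f (nat_lit 625) (nat_lit 590) (nat_lit 590) (.d (nat_lit 657) (nat_lit 530) (nat_lit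 5649) (nat_lit 689) (nat_lit 7728))))) (.f (nat_lit 595) (nat_lit 559) (nat_lit 3631) (.f (nat_lit 563) (nat_lit 564) (nat_lit 2608) (.f (nat_lit 627) (nat_lit 628) (nat_lit 592) (.d (nat_lit 659) (nat_lit 530) (nat_lit 7698) (nat_lit 691) (nat_lit 7730)))))))) (.a (.p (nat_lit 496) (.a (.f (nat_lit 465) (nat_lit 497) (nat_lit 6608) (.f (nat_lit 464) (nat_lit 433) (nat_lit 6576) (.d (nat_lit 463) (nat_lit 431) (nat_lit 7599) (nat_lit 495) (nat_lit 7631)))) (.f (nat_lit 623) (nat_lit 591) (nat_lit 5615) (.f (nat_lit 624) (nat_lit 655) (nat_lit 5647) (.f (nat_lit 625) (nat_lit 657) (nat_lit 4624) (.f (nat_lit 626) (nat_lit 595) (nat_lit 2639) (.f (nat_lit 659) (nat_lit 658) (nat_lit 623) (.d (nat_lit 627) (nat_lit 530) (nat_lit 4626) (nat_lit 660) (nat_lit 624))))))))) (.a s4001 (.a (.p (nat_lit 496) (.a (.f (nat_lit 465) (nat_lit 497) (nat_lit 6608) (.f (nat_lit 464) (nat_lit 433) (nat_lit 6576) (.d (nat_lit 463) (nat_lit 431) (nat_lit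 7599) (nat_lit 495) (nat_lit 7631)))) (.f (nat_lit 593) (nat_lit 625) (nat_lit 4592) (.f (nat_lit 595) (nat_lit 559) (nat_lit 3631) (.f (nat_lit 563) (nat_lit 564) (nat_lit 2608) (.f (nat_lit 627) (nat_lit 628) (nat_lit 592) (.d (nat_lit 659) (nat_lit 530) (nat_lit 7698) (nat_lit 691) (nat_lit 7730)))))))) (.p (nat_lit 496) (.a (.f (nat_lit 465) (nat_lit 497) (nat_lit 6608) (.f (nat_lit 464) (nat_lit 433) (nat_lit 6576) (.d (nat_lit 463) (nat_lit 431) (nat_lit 7599) (nat_lit 495) (nat_lit 7631)))) (.a (.f (nat_lit 591) (nat_lit 623) (nat_lit 5615) (.f (nat_lit 464) (nat_lit 559) (nat_lit 5583) (.d (nat_lit 463) (nat_lit 431) (nat_lit 7599) (nat_lit 495) (nat_lit 7631)))) (.f (nat_lit 593) (nat_lit 625) (nat_lit 4592) (.d (nat_lit 591) (nat_lit 563) (nat_lit 2607) (nat_lit 623) (nat_lit 5615))))))))))))) (.a (.p (nat_lit 592) (.a s3761 (.a (.p (nat_lit 496) (.a (.f (nat_lit 465) (nat_lit 497) (nat_lit 6608) (.f (nat_lit 464) (nat_lit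 433) (nat_lit 6576) (.d (nat_lit 463) (nat_lit 431) (nat_lit 7599) (nat_lit 495) (nat_lit 7631)))) (.a (.f (nat_lit 591) (nat_lit 623) (nat_lit 5615) (.f (nat_lit 464) (nat_lit 559) (nat_lit 5583) (.d (nat_lit 463) (nat_lit 431) (nat_lit 7599) (nat_lit 495) (nat_lit 7631)))) (.f (nat_lit 497) (nat_lit 465) (nat_lit 6608) (.f (nat_lit 624) (nat_lit 529) (nat_lit 6640) (.d (nat_lit 623) (nat_lit 591) (nat_lit 5615) (nat_lit 655) (nat_lit 5647))))))) (.a s3929 (.a (.p (nat_lit 496) (.a (.f (nat_lit 593) (nat_lit 625) (nat_lit 4592) (.d (nat_lit 591) (nat_lit 563) (nat_lit 2607) (nat_lit 623) (nat_lit 5615))) (.f (nat_lit 495) (nat_lit 463) (nat_lit 7631) (.f (nat_lit 624) (nat_lit 527) (nat_lit 7663) (.d (nat_lit 497) (nat_lit 465) (nat_lit 6608) (nat_lit 529) (nat_lit 6640)))))) (.a s3954 s10165)))))) (.a s3984 (.a s3985 (.a s4005 (.a s9302 (.a s4029 s10089))))))))))))) (.a s3276 (.a s7244 (.a s3327 (.a s7310 (.a s7917 (.a s3361 (.a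 (.p (nat_lit 496) (.a (.p (nat_lit 592) (.a (.f (nat_lit 591) (nat_lit 623) (nat_lit 5615) (.f (nat_lit 561) (nat_lit 563) (nat_lit 1583) (.d (nat_lit 590) (nat_lit 559) (nat_lit 1582) (nat_lit 589) (nat_lit 2605)))) (.f (nat_lit 497) (nat_lit 465) (nat_lit 6608) (.f (nat_lit 495) (nat_lit 463) (nat_lit 7631) (.f (nat_lit 529) (nat_lit 624) (nat_lit 6640) (.d (nat_lit 494) (nat_lit 493) (nat_lit 493) (nat_lit 530) (nat_lit 494))))))) (.a (.p (nat_lit 592) (.a (.f (nat_lit 497) (nat_lit 465) (nat_lit 6608) (.f (nat_lit 495) (nat_lit 463) (nat_lit 7631) (.f (nat_lit 529) (nat_lit 624) (nat_lit 6640) (.d (nat_lit 494) (nat_lit 493) (nat_lit 493) (nat_lit 530) (nat_lit 494))))) (.a (.f (nat_lit 463) (nat_lit 495) (nat_lit 7631) (.f (nat_lit 464) (nat_lit 431) (nat_lit 7599) (.d (nat_lit 465) (nat_lit 433) (nat_lit 6576) (nat_lit 497) (nat_lit 6608)))) (.a (.f (nat_lit 591) (nat_lit 623) (nat_lit 5615) (.f (nat_lit 464) (nat_lit 559)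 (nat_lit 5583) (.d (nat_lit 463) (nat_lit 431) (nat_lit 7599) (nat_lit 495) (nat_lit 7631)))) (.f (nat_lit 497) (nat_lit 465) (nat_lit 6608) (.f (nat_lit 624) (nat_lit 529) (nat_lit 6640) (.d (nat_lit 623) (nat_lit 591) (nat_lit 5615) (nat_lit 655) (nat_lit 5647)))))))) (.a (.p (nat_lit 592) (.a (.f (nat_lit 591) (nat_lit 623) (nat_lit 5615) (.f (nat_lit 561) (nat_lit 563) (nat_lit 1583) (.d (nat_lit 590) (nat_lit 559) (nat_lit 1582) (nat_lit 589) (nat_lit 2605)))) (.f (nat_lit 463) (nat_lit 495) (nat_lit 7631) (.f (nat_lit 464) (nat_lit 431) (nat_lit 7599) (.d (nat_lit 465) (nat_lit 433) (nat_lit 6576) (nat_lit 497) (nat_lit 6608)))))) (.a (.p (nat_lit 592) (.a (.f (nat_lit 591) (nat_lit 623) (nat_lit 5615) (.f (nat_lit 561) (nat_lit 563) (nat_lit 1583) (.d (nat_lit 464) (nat_lit 559) (nat_lit 5583) (nat_lit 593) (nat_lit 4560)))) (.a (.f (nat_lit 591) (nat_lit 623) (nat_lit 5615) (.f (nat_lit 464) (nat_lit 559) (nat_lit 5583)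 (.d (nat_lit 463) (nat_lit 431) (nat_lit 7599) (nat_lit 495) (nat_lit 7631)))) (.a (.f (nat_lit 591) (nat_lit 623) (nat_lit 5615) (.f (nat_lit 561) (nat_lit 563) (nat_lit 1583) (.d (nat_lit 590) (nat_lit 559) (nat_lit 1582) (nat_lit 589) (nat_lit 2605)))) (.a (.f (nat_lit 593) (nat_lit 625) (nat_lit 4592) (.f (nat_lit 561) (nat_lit 464) (nat_lit 4560) (.d (nat_lit 563) (nat_lit 564) (nat_lit 1584) (nat_lit 591) (nat_lit 1583)))) (.f (nat_lit 593) (nat_lit 625) (nat_lit 4592) (.f (nat_lit 464) (nat_lit 561) (nat_lit 4560) (.d (nat_lit 463) (nat_lit 431) (nat_lit 7599) (nat_lit 495) (nat_lit 7631))))))))) (.a (.p (nat_lit 464) (.a (.f (nat_lit 561) (nat_lit 593) (nat_lit 4560) (.f (nat_lit 529) (nat_lit 432) (nat_lit 4528) (.f (nat_lit 559) (nat_lit 591) (nat_lit 5583) (.d (nat_lit 530) (nat_lit 531) (nat_lit 2575) (nat_lit 558) (nat_lit 2574))))) (.a (.f (nat_lit 433) (nat_lit 465) (nat_lit 6576) (.f (nat_lit 432) (nat_lit 401) (nat_lit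 6544) (.d (nat_lit 431) (nat_lit 399) (nat_lit 7567) (nat_lit 463) (nat_lit 7599)))) (.f (nat_lit 561) (nat_lit 593) (nat_lit 4560) (.f (nat_lit 559) (nat_lit 591) (nat_lit 5583) (.f (nat_lit 530) (nat_lit 531) (nat_lit 2575) (.f (nat_lit 529) (nat_lit 558) (nat_lit 2574) (.f (nat_lit 465) (nat_lit 433) (nat_lit 6576) (.f (nat_lit 463) (nat_lit 431) (nat_lit 7599) (.f (nat_lit 563) (nat_lit 564) (nat_lit 3600) (.f (nat_lit 595) (nat_lit 596) (nat_lit 560) (.f (nat_lit 466) (nat_lit 498) (nat_lit 4562) (.d (nat_lit 434) (nat_lit 435) (nat_lit 2479) (nat_lit 497) (nat_lit 6577)))))))))))))) (.a (.p (nat_lit 592) (.a (.f (nat_lit 593) (nat_lit 625) (nat_lit 4592) (.f (nat_lit 561) (nat_lit 464) (nat_lit 4560) (.d (nat_lit 563) (nat_lit 564) (nat_lit 1584) (nat_lit 591) (nat_lit 1583)))) (.f (nat_lit 497) (nat_lit 465) (nat_lit 6608) (.f (nat_lit 495) (nat_lit 463) (nat_lit 7631) (.f (nat_lit 529) (nat_lit 624) (nat_lit 6640) (.d (nat_lit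 494) (nat_lit 493) (nat_lit 493) (nat_lit 530) (nat_lit 494))))))) (.a s10203 s10204)))))))) (.a s10041 (.a s3412 (.p (nat_lit 496) (.a (.p (nat_lit 592) (.a (.f (nat_lit 591) (nat_lit 623) (nat_lit 5615) (.f (nat_lit 593) (nat_lit 625) (nat_lit 4592) (.f (nat_lit 559) (nat_lit 464) (nat_lit 5583) (.d (nat_lit 558) (nat_lit 557) (nat_lit 557) (nat_lit 594) (nat_lit 3630))))) (.f (nat_lit 497) (nat_lit 465) (nat_lit 6608) (.f (nat_lit 495) (nat_lit 463) (nat_lit 7631) (.f (nat_lit 529) (nat_lit 624) (nat_lit 6640) (.d (nat_lit 494) (nat_lit 493) (nat_lit 493) (nat_lit 530) (nat_lit 494))))))) (.a (.p (nat_lit 592) (.a (.f (nat_lit 591) (nat_lit 623) (nat_lit 5615) (.f (nat_lit 593) (nat_lit 625) (nat_lit 4592) (.f (nat_lit 559) (nat_lit 464) (nat_lit 5583) (.d (nat_lit 558) (nat_lit 557) (nat_lit 557) (nat_lit 594) (nat_lit 3630))))) (.a (.f (nat_lit 495) (nat_lit 463) (nat_lit 7631) (.f (nat_lit 624) (nat_lit 527) (nat_lit 7663)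 (.d (nat_lit 623) (nat_lit 591) (nat_lit 5615) (nat_lit 655) (nat_lit 5647)))) (.f (nat_lit 463) (nat_lit 495) (nat_lit 7631) (.f (nat_lit 464) (nat_lit 431) (nat_lit 7599) (.d (nat_lit 465) (nat_lit 433) (nat_lit 6576) (nat_lit 497) (nat_lit 6608))))))) (.a (.p (nat_lit 592) (.a (.f (nat_lit 591) (nat_lit 623) (nat_lit 5615) (.f (nat_lit 561) (nat_lit 563) (nat_lit 1583) (.d (nat_lit 590) (nat_lit 559) (nat_lit 1582) (nat_lit 589) (nat_lit 2605)))) (.a (.f (nat_lit 495) (nat_lit 463) (nat_lit 7631) (.f (nat_lit 624) (nat_lit 527) (nat_lit 7663) (.d (nat_lit 623) (nat_lit 591) (nat_lit 5615) (nat_lit 655) (nat_lit 5647)))) (.f (nat_lit 495) (nat_lit 463) (nat_lit 7631) (.f (nat_lit 624) (nat_lit 527) (nat_lit 7663) (.d (nat_lit 625) (nat_lit 593) (nat_lit 4592) (nat_lit 657) (nat_lit 4624))))))) (.a (.p (nat_lit 561) (.a (.f (nat_lit 464) (nat_lit 593) (nat_lit 4560) (.f (nat_lit 431) (nat_lit 463) (nat_lit 7599) (.f (nat_lit 432)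 (nat_lit 399) (nat_lit 7567) (.d (nat_lit 433) (nat_lit 401) (nat_lit 6544) (nat_lit 465) (nat_lit 6576))))) (.f (nat_lit 563) (nat_lit 527) (nat_lit 3599) (.f (nat_lit 564) (nat_lit 529) (nat_lit 3600) (.d (nat_lit 532) (nat_lit 531) (nat_lit 2576) (nat_lit 533) (nat_lit 2577)))))) (.a (.p (nat_lit 592) (.a (.f (nat_lit 591) (nat_lit 623) (nat_lit 5615) (.f (nat_lit 561) (nat_lit 563) (nat_lit 1583) (.d (nat_lit 590) (nat_lit 559) (nat_lit 1582) (nat_lit 589) (nat_lit 2605)))) (.f (nat_lit 497) (nat_lit 465) (nat_lit 6608) (.f (nat_lit 495) (nat_lit 463) (nat_lit 7631) (.f (nat_lit 529) (nat_lit 624) (nat_lit 6640) (.d (nat_lit 494) (nat_lit 493) (nat_lit 493) (nat_lit 530) (nat_lit 494))))))) s10204)))))))))))))))))))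
noncomputable def s10367 : Cert := .r (nat_lit 18869812124986400861909077861452536623742848789944414807312914721508303684079199498411541962835273631392212438961282162178892890736348082064846980199290792905342736924672) (.p (nat_lit 464) (.a (.f (nat_lit 433) (nat_lit 465) (nat_lit 6576) (.f (nat_lit 432) (nat_lit 401) (nat_lit 6544) (.d (nat_lit 431) (nat_lit 399) (nat_lit 7567) (nat_lit 463) (nat_lit 7599)))) (.a (.f (nat_lit 559) (nat_lit 591) (nat_lit 5583) (.f (nat_lit 432) (nat_lit 527) (nat_lit 5551) (.d (nat_lit 431) (nat_lit 399) (nat_lit 7567) (nat_lit 463) (nat_lit 7599)))) (.a (.f (nat_lit 463) (nat_lit 431) (nat_lit 7599) (.f (nat_lit 495) (nat_lit 592) (nat_lit 7631) (.f (nat_lit 465) (nat_lit 433) (nat_lit 6576) (.d (nat_lit 466) (nat_lit 467) (nat_lit 1487) (nat_lit 494) (nat_lit 1486))))) (.f (nat_lit 559) (nat_lit 591) (nat_lit 5583) (.f (nat_lit 432) (nat_lit 527) (nat_lit 5551) (.d (nat_lit 433) (nat_lit 401)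 (nat_lit 6544) (nat_lit 465) (nat_lit 6576))))))))
noncomputable def s10422 : Cert := .r (nat_lit 81045225973576705845931866949422482179170868230352120136932872080819937316538974369105772087653654582751346444588976596909568446798598709460541101730559254928086662937195436834816) (.p (nat_lit 496) (.a (.f (nat_lit 497) (nat_lit 465) (nat_lit 6608) (.f (nat_lit 624) (nat_lit 529) (nat_lit 6640) (.d (nat_lit 623) (nat_lit 591) (nat_lit 5615) (nat_lit 655) (nat_lit 5647)))) (.a (.f (nat_lit 465) (nat_lit 497) (nat_lit 6608) (.f (nat_lit 464) (nat_lit 433) (nat_lit 6576) (.f (nat_lit 559) (nat_lit 591) (nat_lit 5583) (.f (nat_lit 527) (nat_lit 432) (nat_lit 5551) (.d (nat_lit 624) (nat_lit 495) (nat_lit 7663) (nat_lit 656) (nat_lit 7695)))))) (.a (.f (nat_lit 623) (nat_lit 591) (nat_lit 5615) (.f (nat_lit 624) (nat_lit 655) (nat_lit 5647) (.f (nat_lit 657) (nat_lit 625) (nat_lit 4624) (.f (nat_lit 656) (nat_lit 689) (nat_lit 4656) (.d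 (nat_lit 527) (nat_lit 495) (nat_lit 7663) (nat_lit 559) (nat_lit 7695)))))) (.a (.f (nat_lit 465) (nat_lit 497) (nat_lit 6608) (.f (nat_lit 464) (nat_lit 433) (nat_lit 6576) (.d (nat_lit 591) (nat_lit 559) (nat_lit 5583) (nat_lit 623) (nat_lit 5615)))) (.f (nat_lit 497) (nat_lit 465) (nat_lit 6608) (.f (nat_lit 624) (nat_lit 529) (nat_lit 6640) (.f (nat_lit 657) (nat_lit 625) (nat_lit 4624) (.f (nat_lit 656) (nat_lit 689) (nat_lit 4656) (.d (nat_lit 655) (nat_lit 623) (nat_lit 5647) (nat_lit 687) (nat_lit 5679)))))))))))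
noncomputable def s10434 : Cert := .r (nat_lit 18869812124986400861704490948459027756867024433892689860299374593630612134736493787905533600559981471712008058190913152356962472978375577626770901665172955839509703950336) (.p (nat_lit 594) (.a s4002 (.a s3707 (.a (.p (nat_lit 592) (.a s4168 (.a s3761 (.a s3916 (.a (.p (nat_lit 593) (.a (.f (nat_lit 559) (nat_lit 595) (nat_lit 3631) (.d (nat_lit 558) (nat_lit 557) (nat_lit 557) (nat_lit 591) (nat_lit 3630))) (.a (.f (nat_lit 591) (nat_lit 563) (nat_lit 2607) (.f (nat_lit 626) (nat_lit 627) (nat_lit 591) (.f (nat_lit 625) (nat_lit 590) (nat_lit 590) (.d (nat_lit 657) (nat_lit 530) (nat_lit 5649) (nat_lit 689) (nat_lit 7728))))) (.f (nat_lit 595) (nat_lit 559) (nat_lit 3631) (.f (nat_lit 563) (nat_lit 564) (nat_lit 2608) (.f (nat_lit 627) (nat_lit 628) (nat_lit 592) (.d (nat_lit 659) (nat_lit 530) (nat_lit 7698) (nat_lit 691) (nat_lit 7730)))))))) (.a s7393 (.a s4001 (.a s3955 s3961))))))))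 (.a s3968 (.a (.p (nat_lit 592) (.a s3916 (.a s3761 (.a s3929 (.a (.p (nat_lit 496) (.a (.f (nat_lit 593) (nat_lit 625) (nat_lit 4592) (.d (nat_lit 591) (nat_lit 563) (nat_lit 2607) (nat_lit 623) (nat_lit 5615))) (.a (.f (nat_lit 497) (nat_lit 465) (nat_lit 6608) (.f (nat_lit 624) (nat_lit 529) (nat_lit 6640) (.d (nat_lit 623) (nat_lit 591) (nat_lit 5615) (nat_lit 655) (nat_lit 5647)))) (.a (.f (nat_lit 593) (nat_lit 625) (nat_lit 4592) (.f (nat_lit 563) (nat_lit 591) (nat_lit 2607) (.d (nat_lit 564) (nat_lit 565) (nat_lit 1585) (nat_lit 595) (nat_lit 2608)))) (.f (nat_lit 497) (nat_lit 465) (nat_lit 6608) (.f (nat_lit 624) (nat_lit 529) (nat_lit 6640) (.f (nat_lit 657) (nat_lit 625) (nat_lit 4624) (.f (nat_lit 656) (nat_lit 689) (nat_lit 4656) (.d (nat_lit 655) (nat_lit 623) (nat_lit 5647) (nat_lit 687) (nat_lit 5679)))))))))) (.a s3949 (.a s3954 (.a s3955 s3961)))))))) (.a (.p (nat_lit 530) (.a (.p (nat_lit 529) (.a (.f (nat_lit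 531) (nat_lit 559) (nat_lit 1551) (.d (nat_lit 499) (nat_lit 500) (nat_lit 2544) (nat_lit 626) (nat_lit 6642))) (.a (.f (nat_lit 626) (nat_lit 497) (nat_lit 7665) (.f (nat_lit 657) (nat_lit 625) (nat_lit 5649) (.f (nat_lit 658) (nat_lit 689) (nat_lit 5681) (.d (nat_lit 659) (nat_lit 627) (nat_lit 4626) (nat_lit 691) (nat_lit 4658))))) (.f (nat_lit 531) (nat_lit 559) (nat_lit 1551) (.f (nat_lit 563) (nat_lit 564) (nat_lit 528) (.d (nat_lit 499) (nat_lit 467) (nat_lit 5586) (nat_lit 500) (nat_lit 2544))))))) (.a s3449 (.a (.p (nat_lit 498) (.a (.f (nat_lit 499) (nat_lit 467) (nat_lit 6610) (.f (nat_lit 531) (nat_lit 626) (nat_lit 6642) (.d (nat_lit 529) (nat_lit 500) (nat_lit 2544) (nat_lit 559) (nat_lit 1551)))) (.a (.f (nat_lit 467) (nat_lit 499) (nat_lit 6610) (.f (nat_lit 466) (nat_lit 435) (nat_lit 6578) (.d (nat_lit 595) (nat_lit 563) (nat_lit 4562) (nat_lit 627) (nat_lit 4594)))) (.a (.f (nat_lit 595) (nat_lit 627) (nat_lit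 4594) (.f (nat_lit 466) (nat_lit 563) (nat_lit 4562) (.f (nat_lit 433) (nat_lit 465) (nat_lit 7601) (.f (nat_lit 434) (nat_lit 401) (nat_lit 7569) (.d (nat_lit 435) (nat_lit 403) (nat_lit 6546) (nat_lit 467) (nat_lit 6578)))))) (.f (nat_lit 627) (nat_lit 595) (nat_lit 4594) (.f (nat_lit 626) (nat_lit 659) (nat_lit 4626) (.f (nat_lit 531) (nat_lit 499) (nat_lit 6642) (.f (nat_lit 529) (nat_lit 559) (nat_lit 1551) (.d (nat_lit 563) (nat_lit 564) (nat_lit 528) (nat_lit 658) (nat_lit 6674)))))))))) (.a s3499 (.a (.p (nat_lit 498) (.a (.f (nat_lit 497) (nat_lit 465) (nat_lit 7633) (.f (nat_lit 529) (nat_lit 626) (nat_lit 7665) (.d (nat_lit 499) (nat_lit 467) (nat_lit 6610) (nat_lit 500) (nat_lit 1520)))) (.a (.f (nat_lit 467) (nat_lit 499) (nat_lit 6610) (.f (nat_lit 466) (nat_lit 435) (nat_lit 6578) (.d (nat_lit 465) (nat_lit 433) (nat_lit 7601) (nat_lit 497) (nat_lit 7633)))) (.a (.f (nat_lit 499) (nat_lit 467) (nat_lit 6610) (.f (nat_lit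 531) (nat_lit 626) (nat_lit 6642) (.d (nat_lit 529) (nat_lit 500) (nat_lit 2544) (nat_lit 559) (nat_lit 1551)))) (.f (nat_lit 497) (nat_lit 465) (nat_lit 7633) (.f (nat_lit 626) (nat_lit 529) (nat_lit 7665) (.d (nat_lit 627) (nat_lit 595) (nat_lit 4594) (nat_lit 659) (nat_lit 4626)))))))) (.a (.p (nat_lit 498) (.a (.f (nat_lit 497) (nat_lit 465) (nat_lit 7633) (.f (nat_lit 529) (nat_lit 626) (nat_lit 7665) (.f (nat_lit 531) (nat_lit 559) (nat_lit 1551) (.f (nat_lit 563) (nat_lit 564) (nat_lit 528) (.d (nat_lit 466) (nat_lit 434) (nat_lit 4530) (nat_lit 595) (nat_lit 4562)))))) (.a (.f (nat_lit 595) (nat_lit 627) (nat_lit 4594) (.f (nat_lit 466) (nat_lit 563) (nat_lit 4562) (.d (nat_lit 465) (nat_lit 433) (nat_lit 7601) (nat_lit 497) (nat_lit 7633)))) (.a (.f (nat_lit 595) (nat_lit 627) (nat_lit 4594) (.f (nat_lit 466) (nat_lit 563) (nat_lit 4562) (.f (nat_lit 433) (nat_lit 465) (nat_lit 7601) (.f (nat_lit 434) (nat_lit 401) (nat_lit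 7569) (.d (nat_lit 435) (nat_lit 403) (nat_lit 6546) (nat_lit 467) (nat_lit 6578)))))) (.a (.f (nat_lit 497) (nat_lit 465) (nat_lit 7633) (.f (nat_lit 626) (nat_lit 529) (nat_lit 7665) (.d (nat_lit 627) (nat_lit 595) (nat_lit 4594) (nat_lit 659) (nat_lit 4626)))) (.a (.f (nat_lit 627) (nat_lit 595) (nat_lit 4594) (.f (nat_lit 626) (nat_lit 659) (nat_lit 4626) (.f (nat_lit 529) (nat_lit 497) (nat_lit 7665) (.f (nat_lit 531) (nat_lit 559) (nat_lit 1551) (.d (nat_lit 563) (nat_lit 564) (nat_lit 528) (nat_lit 658) (nat_lit 6674)))))) (.f (nat_lit 497) (nat_lit 465) (nat_lit 7633) (.f (nat_lit 529) (nat_lit 626) (nat_lit 7665) (.f (nat_lit 531) (nat_lit 559) (nat_lit 1551) (.d (nat_lit 496) (nat_lit 495) (nat_lit 495) (nat_lit 532) (nat_lit 3568))))))))))) (.a s9325 (.a s3706 (.p (nat_lit 498) (.a (.f (nat_lit 497) (nat_lit 465) (nat_lit 7633) (.f (nat_lit 529) (nat_lit 626) (nat_lit 7665) (.f (nat_lit 531) (nat_lit 559) (nat_lit 1551)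 (.f (nat_lit 563) (nat_lit 564) (nat_lit 528) (.d (nat_lit 466) (nat_lit 434) (nat_lit 4530) (nat_lit 595) (nat_lit 4562)))))) (.a (.f (nat_lit 595) (nat_lit 627) (nat_lit 4594) (.f (nat_lit 466) (nat_lit 563) (nat_lit 4562) (.d (nat_lit 465) (nat_lit 433) (nat_lit 7601) (nat_lit 497) (nat_lit 7633)))) (.a (.f (nat_lit 627) (nat_lit 595) (nat_lit 4594) (.f (nat_lit 626) (nat_lit 659) (nat_lit 4626) (.f (nat_lit 531) (nat_lit 499) (nat_lit 6642) (.f (nat_lit 529) (nat_lit 559) (nat_lit 1551) (.d (nat_lit 563) (nat_lit 564) (nat_lit 528) (nat_lit 658) (nat_lit 6674)))))) (.a (.f (nat_lit 497) (nat_lit 465) (nat_lit 7633) (.f (nat_lit 626) (nat_lit 529) (nat_lit 7665) (.d (nat_lit 627) (nat_lit 595) (nat_lit 4594) (nat_lit 659) (nat_lit 4626)))) (.f (nat_lit 497) (nat_lit 465) (nat_lit 7633) (.f (nat_lit 529) (nat_lit 626) (nat_lit 7665) (.f (nat_lit 531) (nat_lit 559) (nat_lit 1551) (.d (nat_lit 496) (nat_lit 495) (nat_lit 495) (nat_lit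 532) (nat_lit 3568))))))))))))))))))) (.a s3984 (.a s3985 (.a s8456 (.a (.p (nat_lit 592) (.a s3761 (.a s10422 (.a (.p (nat_lit 593) (.a (.f (nat_lit 559) (nat_lit 595) (nat_lit 3631) (.d (nat_lit 558) (nat_lit 557) (nat_lit 557) (nat_lit 591) (nat_lit 3630))) (.a (.f (nat_lit 563) (nat_lit 591) (nat_lit 2607) (.d (nat_lit 564) (nat_lit 565) (nat_lit 1585) (nat_lit 595) (nat_lit 2608))) (.a (.f (nat_lit 595) (nat_lit 559) (nat_lit 3631) (.f (nat_lit 563) (nat_lit 564) (nat_lit 2608) (.f (nat_lit 627) (nat_lit 628) (nat_lit 592) (.d (nat_lit 659) (nat_lit 530) (nat_lit 7698) (nat_lit 691) (nat_lit 7730))))) (.f (nat_lit 591) (nat_lit 563) (nat_lit 2607) (.f (nat_lit 559) (nat_lit 558) (nat_lit 3630) (.d (nat_lit 623) (nat_lit 622) (nat_lit 1614) (nat_lit 655) (nat_lit 6671)))))))) (.a s4000 (.a (.p (nat_lit 496) (.a (.f (nat_lit 593) (nat_lit 625) (nat_lit 4592) (.f (nat_lit 595) (nat_lit 559) (nat_lit 3631) (.f (nat_lit 563) (nat_lit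 564) (nat_lit 2608) (.f (nat_lit 627) (nat_lit 628) (nat_lit 592) (.d (nat_lit 530) (nat_lit 498) (nat_lit 4594) (nat_lit 659) (nat_lit 7698)))))) (.a (.f (nat_lit 593) (nat_lit 625) (nat_lit 4592) (.f (nat_lit 559) (nat_lit 595) (nat_lit 3631) (.d (nat_lit 558) (nat_lit 557) (nat_lit 557) (nat_lit 591) (nat_lit 3630)))) (.a (.f (nat_lit 465) (nat_lit 497) (nat_lit 6608) (.f (nat_lit 464) (nat_lit 433) (nat_lit 6576) (.f (nat_lit 559) (nat_lit 591) (nat_lit 5583) (.f (nat_lit 527) (nat_lit 432) (nat_lit 5551) (.d (nat_lit 624) (nat_lit 495) (nat_lit 7663) (nat_lit 656) (nat_lit 7695)))))) (.f (nat_lit 593) (nat_lit 625) (nat_lit 4592) (.f (nat_lit 563) (nat_lit 591) (nat_lit 2607) (.d (nat_lit 564) (nat_lit 565) (nat_lit 1585) (nat_lit 595) (nat_lit 2608)))))))) s3955)))))) (.p (nat_lit 592) (.a s3961 (.a (.p (nat_lit 496) (.a (.f (nat_lit 593) (nat_lit 625) (nat_lit 4592) (.d (nat_lit 591) (nat_lit 563) (nat_lit 2607) (nat_lit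 623) (nat_lit 5615))) (.f (nat_lit 497) (nat_lit 465) (nat_lit 6608) (.f (nat_lit 529) (nat_lit 624) (nat_lit 6640) (.f (nat_lit 530) (nat_lit 626) (nat_lit 7665) (.d (nat_lit 495) (nat_lit 494) (nat_lit 494) (nat_lit 531) (nat_lit 3567))))))) (.a s10422 (.a (.p (nat_lit 593) (.a (.f (nat_lit 591) (nat_lit 563) (nat_lit 2607) (.f (nat_lit 559) (nat_lit 558) (nat_lit 3630) (.d (nat_lit 623) (nat_lit 622) (nat_lit 1614) (nat_lit 655) (nat_lit 6671)))) (.f (nat_lit 625) (nat_lit 496) (nat_lit 4592) (.f (nat_lit 657) (nat_lit 689) (nat_lit 7728) (.d (nat_lit 530) (nat_lit 498) (nat_lit 5617) (nat_lit 626) (nat_lit 5649)))))) (.a (.p (nat_lit 496) (.a (.f (nat_lit 497) (nat_lit 465) (nat_lit 6608) (.f (nat_lit 529) (nat_lit 624) (nat_lit 6640) (.f (nat_lit 530) (nat_lit 626) (nat_lit 7665) (.d (nat_lit 495) (nat_lit 494) (nat_lit 494) (nat_lit 531) (nat_lit 3567))))) (.a (.f (nat_lit 465) (nat_lit 497) (nat_lit 6608) (.f (nat_lit 464)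 (nat_lit 433) (nat_lit 6576) (.f (nat_lit 559) (nat_lit 591) (nat_lit 5583) (.f (nat_lit 527) (nat_lit 432) (nat_lit 5551) (.d (nat_lit 624) (nat_lit 495) (nat_lit 7663) (nat_lit 656) (nat_lit 7695)))))) (.f (nat_lit 591) (nat_lit 623) (nat_lit 5615) (.f (nat_lit 559) (nat_lit 464) (nat_lit 5583) (.d (nat_lit 593) (nat_lit 558) (nat_lit 3630) (nat_lit 563) (nat_lit 2607))))))) (.a (.p (nat_lit 496) (.a (.f (nat_lit 593) (nat_lit 625) (nat_lit 4592) (.f (nat_lit 591) (nat_lit 563) (nat_lit 2607) (.d (nat_lit 559) (nat_lit 464) (nat_lit 5583) (nat_lit 558) (nat_lit 3630)))) (.f (nat_lit 497) (nat_lit 465) (nat_lit 6608) (.f (nat_lit 529) (nat_lit 624) (nat_lit 6640) (.f (nat_lit 530) (nat_lit 626) (nat_lit 7665) (.d (nat_lit 495) (nat_lit 494) (nat_lit 494) (nat_lit 531) (nat_lit 3567))))))) s4647))))))))))))))))))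
noncomputable def s10439 : Cert := .r (nat_lit 18869812124986400861909077861452536623742848789944414807312914721508303684079199498411541962835273631392212438961282162178892890736348082064846980199290792905342736924672) (.p (nat_lit 592) (.a (.f (nat_lit 591) (nat_lit 623) (nat_lit 5615) (.f (nat_lit 593) (nat_lit 625) (nat_lit 4592) (.f (nat_lit 559) (nat_lit 464) (nat_lit 5583) (.d (nat_lit 558) (nat_lit 557) (nat_lit 557) (nat_lit 594) (nat_lit 3630))))) (.a (.f (nat_lit 591) (nat_lit 623) (nat_lit 5615) (.f (nat_lit 593) (nat_lit 625) (nat_lit 4592) (.f (nat_lit 590) (nat_lit 561) (nat_lit 2606) (.f (nat_lit 557) (nat_lit 558) (nat_lit 3629) (.f (nat_lit 589) (nat_lit 556) (nat_lit 3628) (.d (nat_lit 621) (nat_lit 620) (nat_lit 1612) (nat_lit 622) (nat_lit 1613))))))) (.a (.f (nat_lit 465) (nat_lit 497) (nat_lit 6608) (.f (nat_lit 464) (nat_lit 433) (nat_lit 6576) (.f (nat_lit 559) (nat_lit 591) (nat_lit 5583) (.f (nat_lit 527)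 (nat_lit 432) (nat_lit 5551) (.d (nat_lit 624) (nat_lit 495) (nat_lit 7663) (nat_lit 656) (nat_lit 7695)))))) (.f (nat_lit 593) (nat_lit 625) (nat_lit 4592) (.f (nat_lit 464) (nat_lit 561) (nat_lit 4560) (.d (nat_lit 465) (nat_lit 433) (nat_lit 6576) (nat_lit 497) (nat_lit 6608))))))))
noncomputable def s10537 : Cert := .r (nat_lit 16209045209811190869175494080066436846575431319067340998707626092457647649723050778981172289879191246099423105008219289016120250533011391306698700199832886454227045522378982424576) (.p (nat_lit 496) (.a (.f (nat_lit 625) (nat_lit 593) (nat_lit 4592) (.f (nat_lit 624) (nat_lit 657) (nat_lit 4624) (.d (nat_lit 623) (nat_lit 591) (nat_lit 5615) (nat_lit 655) (nat_lit 5647)))) (.a (.f (nat_lit 497) (nat_lit 465) (nat_lit 6608) (.f (nat_lit 529) (nat_lit 624) (nat_lit 6640) (.f (nat_lit 499) (nat_lit 500) (nat_lit 1520) (.f (nat_lit 531) (nat_lit 532) (nat_lit 496) (.f (nat_lit 467) (nat_lit 468) (nat_lit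 2512) (.d (nat_lit 530) (nat_lit 435) (nat_lit 5554) (nat_lit 594) (nat_lit 6610))))))) (.f (nat_lit 497) (nat_lit 465) (nat_lit 6608) (.f (nat_lit 499) (nat_lit 527) (nat_lit 1519) (.f (nat_lit 500) (nat_lit 529) (nat_lit 1520) (.d (nat_lit 468) (nat_lit 467) (nat_lit 2512) (nat_lit 469) (nat_lit 2513))))))))
noncomputable def s10584 : Cert := .r (nat_lit 16209045209811190869175494080066436846575431319067340998707626092457647649723050778981172289879191246099423105008219289016120250533011391306698700199832886454227045522378982424576) (.p (nat_lit 624) (.a (.f (nat_lit 497) (nat_lit 529) (nat_lit 6640) (.f (nat_lit 496) (nat_lit 465) (nat_lit 6608) (.f (nat_lit 499) (nat_lit 527) (nat_lit 1519) (.f (nat_lit 467) (nat_lit 468) (nat_lit 2512) (.f (nat_lit 531) (nat_lit 532) (nat_lit 496) (.f (nat_lit 435) (nat_lit 530) (nat_lit 5554) (.f (nat_lit 402) (nat_lit 434) (nat_lit 7570) (.f (nat_lit 403) (nat_lit 370) (nat_lit 7538) (.d (nat_lit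 404) (nat_lit 372) (nat_lit 6515) (nat_lit 436) (nat_lit 6547)))))))))) (.a (.f (nat_lit 529) (nat_lit 497) (nat_lit 6640) (.f (nat_lit 656) (nat_lit 561) (nat_lit 6672) (.d (nat_lit 655) (nat_lit 623) (nat_lit 5647) (nat_lit 687) (nat_lit 5679)))) (.a (.f (nat_lit 623) (nat_lit 655) (nat_lit 5647) (.f (nat_lit 496) (nat_lit 591) (nat_lit 5615) (.f (nat_lit 497) (nat_lit 465) (nat_lit 6608) (.d (nat_lit 527) (nat_lit 495) (nat_lit 7663) (nat_lit 499) (nat_lit 1519))))) (.f (nat_lit 655) (nat_lit 623) (nat_lit 5647) (.f (nat_lit 656) (nat_lit 687) (nat_lit 5679) (.f (nat_lit 561) (nat_lit 529) (nat_lit 6672) (.f (nat_lit 688) (nat_lit 593) (nat_lit 6704) (.d (nat_lit 689) (nat_lit 657) (nat_lit 4656) (nat_lit 721) (nat_lit 4688))))))))))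
noncomputable def s10603 : Cert := .r (nat_lit 16209045209811190869175494080066436846575431319067340998707626092457647649723050778981172289879191246099423105008219289016120250533011391306698700199832886454227045522378982424576) (.p (nat_lit 496) (.a (.f (nat_lit 625) (nat_lit 593) (nat_lit 4592) (.f (nat_lit 624) (nat_lit 657) (nat_lit 4624) (.d (nat_lit 623) (nat_lit 591) (nat_lit 5615) (nat_lit 655) (nat_lit 5647)))) (.a (.f (nat_lit 497) (nat_lit 465) (nat_lit 6608) (.f (nat_lit 529) (nat_lit 624) (nat_lit 6640) (.f (nat_lit 499) (nat_lit 500) (nat_lit 1520) (.f (nat_lit 531) (nat_lit 532) (nat_lit 496) (.f (nat_lit 530) (nat_lit 495) (nat_lit 3567) (.d (nat_lit 467) (nat_lit 435) (nat_lit 5554) (nat_lit 468) (nat_lit 2512))))))) (.f (nat_lit 593) (nat_lit 625) (nat_lit 4592) (.f (nat_lit 561) (nat_lit 464) (nat_lit 4560) (.d (nat_lit 563) (nat_lit 564) (nat_lit 1584) (nat_lit 591) (nat_lit 1583)))))))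
noncomputable def s10604 : Cert := .r (nat_lit 16209045209811190869175494080066436846575431319067340998707626092457647649723050778981172289879191246099423105008219289016120250533011391306698700199832886454227045522378982424576) (.p (nat_lit 496) (.a (.f (nat_lit 625) (nat_lit 593) (nat_lit 4592) (.f (nat_lit 624) (nat_lit 657) (nat_lit 4624) (.d (nat_lit 623) (nat_lit 591) (nat_lit 5615) (nat_lit 655) (nat_lit 5647)))) (.a (.f (nat_lit 623) (nat_lit 591) (nat_lit 5615) (.f (nat_lit 624) (nat_lit 655) (nat_lit 5647) (.f (nat_lit 657) (nat_lit 625) (nat_lit 4624) (.f (nat_lit 656) (nat_lit 689) (nat_lit 4656) (.f (nat_lit 561) (nat_lit 529) (nat_lit 6672) (.d (nat_lit 527) (nat_lit 495) (nat_lit 7663) (nat_lit 563) (nat_lit 3599))))))) (.a (.f (nat_lit 593) (nat_lit 625) (nat_lit 4592) (.f (nat_lit 561) (nat_lit 464) (nat_lit 4560) (.d (nat_lit 563) (nat_lit 527) (nat_lit 3599) (nat_lit 564) (nat_lit 1584)))) (.f (nat_lit 591) (nat_lit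 623) (nat_lit 5615) (.f (nat_lit 561) (nat_lit 563) (nat_lit 1583) (.d (nat_lit 590) (nat_lit 589) (nat_lit 2605) (nat_lit 593) (nat_lit 2606))))))))
noncomputable def s10615 : Cert := .r (nat_lit 18869812124986400861704490948459027756867024433892689860299374593630612134736493787905533600559981471712008058190913152356962472978375577626770901665172955839509703950336) (.p (nat_lit 498) (.a (.p (nat_lit 530) (.a (.p (nat_lit 594) (.a (.f (nat_lit 595) (nat_lit 627) (nat_lit 4594) (.f (nat_lit 563) (nat_lit 466) (nat_lit 4562) (.f (nat_lit 593) (nat_lit 625) (nat_lit 5617) (.d (nat_lit 564) (nat_lit 565) (nat_lit 1585) (nat_lit 592) (nat_lit 2608))))) (.f (nat_lit 499) (nat_lit 467) (nat_lit 6610) (.f (nat_lit 529) (nat_lit 527) (nat_lit 2543) (.d (nat_lit 500) (nat_lit 501) (nat_lit 1521) (nat_lit 531) (nat_lit 2544)))))) (.a s7112 (.a (.p (nat_lit 594) (.a (.f (nat_lit 595) (nat_lit 627) (nat_lit 4594) (.f (nat_lit 563) (nat_lit 466)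 (nat_lit 4562) (.f (nat_lit 593) (nat_lit 625) (nat_lit 5617) (.d (nat_lit 564) (nat_lit 565) (nat_lit 1585) (nat_lit 592) (nat_lit 2608))))) (.a (.f (nat_lit 625) (nat_lit 593) (nat_lit 5617) (.f (nat_lit 626) (nat_lit 657) (nat_lit 5649) (.d (nat_lit 499) (nat_lit 467) (nat_lit 6610) (nat_lit 531) (nat_lit 6642)))) (.f (nat_lit 467) (nat_lit 499) (nat_lit 6610) (.f (nat_lit 466) (nat_lit 435) (nat_lit 6578) (.d (nat_lit 595) (nat_lit 563) (nat_lit 4562) (nat_lit 627) (nat_lit 4594))))))) (.a (.p (nat_lit 594) (.a (.f (nat_lit 499) (nat_lit 467) (nat_lit 6610) (.f (nat_lit 529) (nat_lit 527) (nat_lit 2543) (.d (nat_lit 500) (nat_lit 501) (nat_lit 1521) (nat_lit 531) (nat_lit 2544)))) (.a (.f (nat_lit 625) (nat_lit 593) (nat_lit 5617) (.f (nat_lit 626) (nat_lit 657) (nat_lit 5649) (.d (nat_lit 499) (nat_lit 467) (nat_lit 6610) (nat_lit 531) (nat_lit 6642)))) (.f (nat_lit 625) (nat_lit 593) (nat_lit 5617) (.f (nat_lit 626) (nat_lit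 657) (nat_lit 5649) (.d (nat_lit 627) (nat_lit 595) (nat_lit 4594) (nat_lit 659) (nat_lit 4626))))))) (.a s8835 (.a (.p (nat_lit 466) (.a (.f (nat_lit 433) (nat_lit 465) (nat_lit 7601) (.f (nat_lit 434) (nat_lit 401) (nat_lit 7569) (.d (nat_lit 435) (nat_lit 403) (nat_lit 6546) (nat_lit 467) (nat_lit 6578)))) (.a (.f (nat_lit 563) (nat_lit 595) (nat_lit 4562) (.f (nat_lit 529) (nat_lit 527) (nat_lit 527) (.d (nat_lit 531) (nat_lit 434) (nat_lit 4530) (nat_lit 564) (nat_lit 528)))) (.f (nat_lit 563) (nat_lit 595) (nat_lit 4562) (.f (nat_lit 529) (nat_lit 527) (nat_lit 527) (.d (nat_lit 564) (nat_lit 531) (nat_lit 528) (nat_lit 565) (nat_lit 3601))))))) (.a (.p (nat_lit 594) (.a (.f (nat_lit 593) (nat_lit 625) (nat_lit 5617) (.f (nat_lit 561) (nat_lit 466) (nat_lit 5585) (.f (nat_lit 563) (nat_lit 527) (nat_lit 3599) (.d (nat_lit 564) (nat_lit 565) (nat_lit 1585) (nat_lit 592) (nat_lit 1584))))) (.a (.f (nat_lit 625) (nat_lit 593)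 (nat_lit 5617) (.f (nat_lit 626) (nat_lit 657) (nat_lit 5649) (.d (nat_lit 499) (nat_lit 467) (nat_lit 6610) (nat_lit 531) (nat_lit 6642)))) (.f (nat_lit 499) (nat_lit 467) (nat_lit 6610) (.f (nat_lit 529) (nat_lit 527) (nat_lit 2543) (.d (nat_lit 500) (nat_lit 501) (nat_lit 1521) (nat_lit 531) (nat_lit 2544))))))) s10020)))))))) (.a (.p (nat_lit 530) (.a s5232 (.a (.p (nat_lit 594) (.a (.f (nat_lit 467) (nat_lit 499) (nat_lit 6610) (.f (nat_lit 466) (nat_lit 435) (nat_lit 6578) (.d (nat_lit 465) (nat_lit 433) (nat_lit 7601) (nat_lit 497) (nat_lit 7633)))) (.a (.f (nat_lit 625) (nat_lit 593) (nat_lit 5617) (.f (nat_lit 626) (nat_lit 657) (nat_lit 5649) (.d (nat_lit 499) (nat_lit 467) (nat_lit 6610) (nat_lit 531) (nat_lit 6642)))) (.f (nat_lit 595) (nat_lit 627) (nat_lit 4594) (.f (nat_lit 466) (nat_lit 563) (nat_lit 4562) (.d (nat_lit 465) (nat_lit 433) (nat_lit 7601) (nat_lit 497) (nat_lit 7633))))))) (.a (.p (nat_lit 594) (.a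 (.f (nat_lit 625) (nat_lit 593) (nat_lit 5617) (.f (nat_lit 626) (nat_lit 657) (nat_lit 5649) (.d (nat_lit 499) (nat_lit 467) (nat_lit 6610) (nat_lit 531) (nat_lit 6642)))) (.a (.f (nat_lit 467) (nat_lit 499) (nat_lit 6610) (.f (nat_lit 466) (nat_lit 435) (nat_lit 6578) (.d (nat_lit 595) (nat_lit 563) (nat_lit 4562) (nat_lit 627) (nat_lit 4594)))) (.f (nat_lit 625) (nat_lit 593) (nat_lit 5617) (.f (nat_lit 626) (nat_lit 657) (nat_lit 5649) (.d (nat_lit 627) (nat_lit 595) (nat_lit 4594) (nat_lit 659) (nat_lit 4626))))))) (.a s5236 (.a s5612 (.a s5627 (.a (.p (nat_lit 466) (.a (.f (nat_lit 433) (nat_lit 465) (nat_lit 7601) (.f (nat_lit 434) (nat_lit 401) (nat_lit 7569) (.d (nat_lit 435) (nat_lit 403) (nat_lit 6546) (nat_lit 467) (nat_lit 6578)))) (.a (.f (nat_lit 563) (nat_lit 595) (nat_lit 4562) (.f (nat_lit 434) (nat_lit 531) (nat_lit 4530) (.d (nat_lit 435) (nat_lit 403) (nat_lit 6546) (nat_lit 467) (nat_lit 6578)))) (.f (nat_lit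 465) (nat_lit 433) (nat_lit 7601) (.f (nat_lit 594) (nat_lit 497) (nat_lit 7633) (.d (nat_lit 595) (nat_lit 563) (nat_lit 4562) (nat_lit 627) (nat_lit 4594))))))) (.a s5447 s5454))))))))) (.a (.p (nat_lit 530) (.a s5232 (.a (.p (nat_lit 594) (.a (.f (nat_lit 467) (nat_lit 499) (nat_lit 6610) (.f (nat_lit 466) (nat_lit 435) (nat_lit 6578) (.d (nat_lit 465) (nat_lit 433) (nat_lit 7601) (nat_lit 497) (nat_lit 7633)))) (.a (.f (nat_lit 625) (nat_lit 593) (nat_lit 5617) (.f (nat_lit 626) (nat_lit 657) (nat_lit 5649) (.d (nat_lit 499) (nat_lit 467) (nat_lit 6610) (nat_lit 531) (nat_lit 6642)))) (.f (nat_lit 595) (nat_lit 627) (nat_lit 4594) (.f (nat_lit 466) (nat_lit 563) (nat_lit 4562) (.d (nat_lit 465) (nat_lit 433) (nat_lit 7601) (nat_lit 497) (nat_lit 7633))))))) (.a (.p (nat_lit 594) (.a (.f (nat_lit 499) (nat_lit 467) (nat_lit 6610) (.f (nat_lit 529) (nat_lit 527) (nat_lit 2543) (.d (nat_lit 500) (nat_lit 501) (nat_lit 1521) (nat_lit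 531) (nat_lit 2544)))) (.a (.f (nat_lit 625) (nat_lit 593) (nat_lit 5617) (.f (nat_lit 626) (nat_lit 657) (nat_lit 5649) (.d (nat_lit 499) (nat_lit 467) (nat_lit 6610) (nat_lit 531) (nat_lit 6642)))) (.f (nat_lit 625) (nat_lit 593) (nat_lit 5617) (.f (nat_lit 626) (nat_lit 657) (nat_lit 5649) (.d (nat_lit 627) (nat_lit 595) (nat_lit 4594) (nat_lit 659) (nat_lit 4626))))))) (.a s5236 (.a s5672 (.a s5355 (.a (.p (nat_lit 466) (.a (.f (nat_lit 433) (nat_lit 465) (nat_lit 7601) (.f (nat_lit 434) (nat_lit 401) (nat_lit 7569) (.d (nat_lit 435) (nat_lit 403) (nat_lit 6546) (nat_lit 467) (nat_lit 6578)))) (.a (.f (nat_lit 563) (nat_lit 595) (nat_lit 4562) (.f (nat_lit 434) (nat_lit 531) (nat_lit 4530) (.d (nat_lit 435) (nat_lit 403) (nat_lit 6546) (nat_lit 467) (nat_lit 6578)))) (.f (nat_lit 465) (nat_lit 433) (nat_lit 7601) (.f (nat_lit 594) (nat_lit 497) (nat_lit 7633) (.d (nat_lit 595) (nat_lit 563) (nat_lit 4562) (nat_lit 627) (nat_lit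 4594))))))) s5454)))))))) (.a (.p (nat_lit 530) (.a (.p (nat_lit 594) (.a (.f (nat_lit 467) (nat_lit 499) (nat_lit 6610) (.f (nat_lit 466) (nat_lit 435) (nat_lit 6578) (.d (nat_lit 465) (nat_lit 433) (nat_lit 7601) (nat_lit 497) (nat_lit 7633)))) (.a (.f (nat_lit 625) (nat_lit 593) (nat_lit 5617) (.f (nat_lit 626) (nat_lit 657) (nat_lit 5649) (.d (nat_lit 499) (nat_lit 467) (nat_lit 6610) (nat_lit 531) (nat_lit 6642)))) (.f (nat_lit 595) (nat_lit 627) (nat_lit 4594) (.f (nat_lit 466) (nat_lit 563) (nat_lit 4562) (.d (nat_lit 465) (nat_lit 433) (nat_lit 7601) (nat_lit 497) (nat_lit 7633))))))) (.a (.p (nat_lit 594) (.a (.f (nat_lit 625) (nat_lit 593) (nat_lit 5617) (.f (nat_lit 626) (nat_lit 657) (nat_lit 5649) (.d (nat_lit 499) (nat_lit 467) (nat_lit 6610) (nat_lit 531) (nat_lit 6642)))) (.a (.f (nat_lit 467) (nat_lit 499) (nat_lit 6610) (.f (nat_lit 466) (nat_lit 435) (nat_lit 6578) (.d (nat_lit 595) (nat_lit 563) (nat_lit 4562)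 (nat_lit 627) (nat_lit 4594)))) (.f (nat_lit 625) (nat_lit 593) (nat_lit 5617) (.f (nat_lit 626) (nat_lit 657) (nat_lit 5649) (.d (nat_lit 627) (nat_lit 595) (nat_lit 4594) (nat_lit 659) (nat_lit 4626))))))) (.a s5676 (.a s5672 (.a (.p (nat_lit 466) (.a (.f (nat_lit 433) (nat_lit 465) (nat_lit 7601) (.f (nat_lit 434) (nat_lit 401) (nat_lit 7569) (.d (nat_lit 435) (nat_lit 403) (nat_lit 6546) (nat_lit 467) (nat_lit 6578)))) (.f (nat_lit 561) (nat_lit 593) (nat_lit 5585) (.d (nat_lit 563) (nat_lit 527) (nat_lit 3599) (nat_lit 595) (nat_lit 4562))))) (.a (.p (nat_lit 594) (.a (.f (nat_lit 467) (nat_lit 499) (nat_lit 6610) (.f (nat_lit 466) (nat_lit 435) (nat_lit 6578) (.d (nat_lit 465) (nat_lit 433) (nat_lit 7601) (nat_lit 497) (nat_lit 7633)))) (.a (.f (nat_lit 625) (nat_lit 593) (nat_lit 5617) (.f (nat_lit 626) (nat_lit 657) (nat_lit 5649) (.d (nat_lit 499) (nat_lit 467) (nat_lit 6610) (nat_lit 531) (nat_lit 6642)))) (.f (nat_lit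 625) (nat_lit 593) (nat_lit 5617) (.f (nat_lit 626) (nat_lit 657) (nat_lit 5649) (.d (nat_lit 627) (nat_lit 595) (nat_lit 4594) (nat_lit 659) (nat_lit 4626))))))) (.a s5701 (.a s5719 s5454))))))))) (.a s6584 (.a (.p (nat_lit 496) (.a (.p (nat_lit 592) (.a (.f (nat_lit 593) (nat_lit 625) (nat_lit 4592) (.f (nat_lit 561) (nat_lit 464) (nat_lit 4560) (.d (nat_lit 563) (nat_lit 527) (nat_lit 3599) (nat_lit 564) (nat_lit 1584)))) (.a (.f (nat_lit 593) (nat_lit 625) (nat_lit 4592) (.f (nat_lit 561) (nat_lit 464) (nat_lit 4560) (.d (nat_lit 563) (nat_lit 564) (nat_lit 1584) (nat_lit 591) (nat_lit 1583)))) (.f (nat_lit 497) (nat_lit 465) (nat_lit 6608) (.f (nat_lit 499) (nat_lit 527) (nat_lit 1519) (.f (nat_lit 500) (nat_lit 529) (nat_lit 1520) (.d (nat_lit 468) (nat_lit 467) (nat_lit 2512) (nat_lit 469) (nat_lit 2513)))))))) (.a (.p (nat_lit 592) (.a (.f (nat_lit 625) (nat_lit 593) (nat_lit 4592) (.f (nat_lit 624) (nat_lit 657) (nat_lit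 4624) (.d (nat_lit 623) (nat_lit 591) (nat_lit 5615) (nat_lit 655) (nat_lit 5647)))) (.a (.f (nat_lit 497) (nat_lit 465) (nat_lit 6608) (.f (nat_lit 529) (nat_lit 624) (nat_lit 6640) (.f (nat_lit 499) (nat_lit 500) (nat_lit 1520) (.f (nat_lit 467) (nat_lit 468) (nat_lit 2512) (.f (nat_lit 531) (nat_lit 532) (nat_lit 496) (.f (nat_lit 563) (nat_lit 594) (nat_lit 5586) (.d (nat_lit 466) (nat_lit 434) (nat_lit 7602) (nat_lit 495) (nat_lit 2511)))))))) (.f (nat_lit 593) (nat_lit 625) (nat_lit 4592) (.f (nat_lit 561) (nat_lit 464) (nat_lit 4560) (.d (nat_lit 563) (nat_lit 564) (nat_lit 1584) (nat_lit 591) (nat_lit 1583))))))) (.a (.p (nat_lit 592) (.a (.f (nat_lit 625) (nat_lit 593) (nat_lit 4592) (.f (nat_lit 624) (nat_lit 657) (nat_lit 4624) (.d (nat_lit 623) (nat_lit 591) (nat_lit 5615) (nat_lit 655) (nat_lit 5647)))) (.a (.f (nat_lit 623) (nat_lit 591) (nat_lit 5615) (.f (nat_lit 624) (nat_lit 655) (nat_lit 5647) (.f (nat_lit 527)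 (nat_lit 495) (nat_lit 7663) (.d (nat_lit 497) (nat_lit 499) (nat_lit 1519) (nat_lit 529) (nat_lit 6640))))) (.f (nat_lit 497) (nat_lit 465) (nat_lit 6608) (.f (nat_lit 499) (nat_lit 527) (nat_lit 1519) (.f (nat_lit 500) (nat_lit 529) (nat_lit 1520) (.d (nat_lit 468) (nat_lit 467) (nat_lit 2512) (nat_lit 469) (nat_lit 2513)))))))) (.a (.p (nat_lit 592) (.a (.f (nat_lit 625) (nat_lit 593) (nat_lit 4592) (.f (nat_lit 624) (nat_lit 657) (nat_lit 4624) (.d (nat_lit 623) (nat_lit 591) (nat_lit 5615) (nat_lit 655) (nat_lit 5647)))) (.f (nat_lit 497) (nat_lit 465) (nat_lit 6608) (.f (nat_lit 499) (nat_lit 527) (nat_lit 1519) (.f (nat_lit 467) (nat_lit 468) (nat_lit 2512) (.f (nat_lit 531) (nat_lit 532) (nat_lit 496) (.f (nat_lit 563) (nat_lit 594) (nat_lit 5586) (.d (nat_lit 466) (nat_lit 434) (nat_lit 7602) (nat_lit 495) (nat_lit 2511))))))))) (.a (.p (nat_lit 592) (.a (.f (nat_lit 625) (nat_lit 593) (nat_lit 4592) (.f (nat_lit 624) (nat_lit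 657) (nat_lit 4624) (.d (nat_lit 623) (nat_lit 591) (nat_lit 5615) (nat_lit 655) (nat_lit 5647)))) (.a (.f (nat_lit 623) (nat_lit 591) (nat_lit 5615) (.f (nat_lit 624) (nat_lit 655) (nat_lit 5647) (.f (nat_lit 657) (nat_lit 625) (nat_lit 4624) (.f (nat_lit 656) (nat_lit 689) (nat_lit 4656) (.f (nat_lit 561) (nat_lit 529) (nat_lit 6672) (.d (nat_lit 527) (nat_lit 495) (nat_lit 7663) (nat_lit 563) (nat_lit 3599))))))) (.a (.f (nat_lit 593) (nat_lit 625) (nat_lit 4592) (.f (nat_lit 561) (nat_lit 464) (nat_lit 4560) (.d (nat_lit 563) (nat_lit 527) (nat_lit 3599) (nat_lit 564) (nat_lit 1584)))) (.f (nat_lit 591) (nat_lit 623) (nat_lit 5615) (.f (nat_lit 561) (nat_lit 563) (nat_lit 1583) (.d (nat_lit 590) (nat_lit 589) (nat_lit 2605) (nat_lit 593) (nat_lit 2606)))))))) (.a (.p (nat_lit 561) (.a (.f (nat_lit 563) (nat_lit 527) (nat_lit 3599) (.f (nat_lit 564) (nat_lit 529) (nat_lit 3600) (.d (nat_lit 532) (nat_lit 531) (nat_lit 2576) (nat_lit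 533) (nat_lit 2577)))) (.a (.f (nat_lit 464) (nat_lit 593) (nat_lit 4560) (.f (nat_lit 529) (nat_lit 432) (nat_lit 4528) (.f (nat_lit 465) (nat_lit 433) (nat_lit 6576) (.f (nat_lit 497) (nat_lit 594) (nat_lit 4561) (.f (nat_lit 466) (nat_lit 434) (nat_lit 6577) (.d (nat_lit 467) (nat_lit 468) (nat_lit 1488) (nat_lit 495) (nat_lit 2511))))))) (.f (nat_lit 563) (nat_lit 527) (nat_lit 3599) (.f (nat_lit 596) (nat_lit 595) (nat_lit 560) (.f (nat_lit 564) (nat_lit 597) (nat_lit 561) (.d (nat_lit 532) (nat_lit 531) (nat_lit 2576) (nat_lit 533) (nat_lit 2577)))))))) (.p (nat_lit 592) (.a (.f (nat_lit 623) (nat_lit 591) (nat_lit 5615) (.f (nat_lit 624) (nat_lit 655) (nat_lit 5647) (.f (nat_lit 527) (nat_lit 495) (nat_lit 7663) (.d (nat_lit 497) (nat_lit 499) (nat_lit 1519) (nat_lit 529) (nat_lit 6640))))) (.a (.f (nat_lit 497) (nat_lit 465) (nat_lit 6608) (.f (nat_lit 529) (nat_lit 624) (nat_lit 6640) (.f (nat_lit 499) (nat_lit 500) (nat_lit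 1520) (.f (nat_lit 467) (nat_lit 468) (nat_lit 2512) (.f (nat_lit 531) (nat_lit 532) (nat_lit 496) (.f (nat_lit 563) (nat_lit 594) (nat_lit 5586) (.d (nat_lit 466) (nat_lit 434) (nat_lit 7602) (nat_lit 495) (nat_lit 2511)))))))) (.a (.f (nat_lit 497) (nat_lit 465) (nat_lit 6608) (.f (nat_lit 499) (nat_lit 527) (nat_lit 1519) (.f (nat_lit 467) (nat_lit 468) (nat_lit 2512) (.f (nat_lit 531) (nat_lit 532) (nat_lit 496) (.f (nat_lit 563) (nat_lit 594) (nat_lit 5586) (.d (nat_lit 466) (nat_lit 434) (nat_lit 7602) (nat_lit 495) (nat_lit 2511))))))) (.a (.f (nat_lit 623) (nat_lit 591) (nat_lit 5615) (.f (nat_lit 624) (nat_lit 655) (nat_lit 5647) (.f (nat_lit 657) (nat_lit 625) (nat_lit 4624) (.f (nat_lit 656) (nat_lit 689) (nat_lit 4656) (.f (nat_lit 561) (nat_lit 529) (nat_lit 6672) (.d (nat_lit 527) (nat_lit 495) (nat_lit 7663) (nat_lit 563) (nat_lit 3599))))))) (.f (nat_lit 497) (nat_lit 465) (nat_lit 6608) (.f (nat_lit 499) (nat_lit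 527) (nat_lit 1519) (.f (nat_lit 500) (nat_lit 529) (nat_lit 1520) (.d (nat_lit 468) (nat_lit 467) (nat_lit 2512) (nat_lit 469) (nat_lit 2513))))))))))))))))) (.a s6808 (.a (.p (nat_lit 592) (.a s10537 (.a (.p (nat_lit 496) (.a (.f (nat_lit 625) (nat_lit 593) (nat_lit 4592) (.f (nat_lit 624) (nat_lit 657) (nat_lit 4624) (.d (nat_lit 623) (nat_lit 591) (nat_lit 5615) (nat_lit 655) (nat_lit 5647)))) (.a (.f (nat_lit 497) (nat_lit 465) (nat_lit 6608) (.f (nat_lit 529) (nat_lit 624) (nat_lit 6640) (.f (nat_lit 499) (nat_lit 500) (nat_lit 1520) (.f (nat_lit 531) (nat_lit 532) (nat_lit 496) (.f (nat_lit 467) (nat_lit 468) (nat_lit 2512) (.d (nat_lit 530) (nat_lit 435) (nat_lit 5554) (nat_lit 594) (nat_lit 6610))))))) (.f (nat_lit 497) (nat_lit 465) (nat_lit 6608) (.f (nat_lit 593) (nat_lit 625) (nat_lit 4592) (.f (nat_lit 561) (nat_lit 464) (nat_lit 4560) (.d (nat_lit 466) (nat_lit 529) (nat_lit 6609) (nat_lit 530) (nat_lit 5585))))))))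 (.a (.p (nat_lit 624) (.a (.f (nat_lit 655) (nat_lit 623) (nat_lit 5647) (.f (nat_lit 656) (nat_lit 687) (nat_lit 5679) (.d (nat_lit 657) (nat_lit 625) (nat_lit 4624) (nat_lit 689) (nat_lit 4656)))) (.a (.f (nat_lit 529) (nat_lit 497) (nat_lit 6640) (.f (nat_lit 656) (nat_lit 561) (nat_lit 6672) (.d (nat_lit 655) (nat_lit 623) (nat_lit 5647) (nat_lit 687) (nat_lit 5679)))) (.a (.f (nat_lit 529) (nat_lit 497) (nat_lit 6640) (.f (nat_lit 656) (nat_lit 561) (nat_lit 6672) (.d (nat_lit 657) (nat_lit 625) (nat_lit 4624) (nat_lit 689) (nat_lit 4656)))) (.f (nat_lit 625) (nat_lit 657) (nat_lit 4624) (.f (nat_lit 529) (nat_lit 497) (nat_lit 6640) (.f (nat_lit 527) (nat_lit 495) (nat_lit 7663) (.f (nat_lit 530) (nat_lit 499) (nat_lit 2543) (.d (nat_lit 593) (nat_lit 561) (nat_lit 6641) (nat_lit 594) (nat_lit 5617)))))))))) (.a (.p (nat_lit 496) (.a (.f (nat_lit 625) (nat_lit 593) (nat_lit 4592) (.f (nat_lit 624) (nat_lit 657) (nat_lit 4624)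 (.d (nat_lit 623) (nat_lit 591) (nat_lit 5615) (nat_lit 655) (nat_lit 5647)))) (.f (nat_lit 497) (nat_lit 465) (nat_lit 6608) (.f (nat_lit 499) (nat_lit 527) (nat_lit 1519) (.f (nat_lit 467) (nat_lit 468) (nat_lit 2512) (.f (nat_lit 531) (nat_lit 532) (nat_lit 496) (.d (nat_lit 495) (nat_lit 466) (nat_lit 2511) (nat_lit 530) (nat_lit 495)))))))) (.a (.p (nat_lit 624) (.a (.f (nat_lit 623) (nat_lit 655) (nat_lit 5647) (.f (nat_lit 625) (nat_lit 657) (nat_lit 4624) (.d (nat_lit 496) (nat_lit 591) (nat_lit 5615) (nat_lit 593) (nat_lit 4592)))) (.a (.f (nat_lit 655) (nat_lit 623) (nat_lit 5647) (.f (nat_lit 656) (nat_lit 687) (nat_lit 5679) (.d (nat_lit 657) (nat_lit 625) (nat_lit 4624) (nat_lit 689) (nat_lit 4656)))) (.a (.f (nat_lit 655) (nat_lit 623) (nat_lit 5647) (.f (nat_lit 656) (nat_lit 687) (nat_lit 5679) (.f (nat_lit 561) (nat_lit 529) (nat_lit 6672) (.f (nat_lit 688) (nat_lit 593) (nat_lit 6704) (.d (nat_lit 689) (nat_lit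 657) (nat_lit 4656) (nat_lit 721) (nat_lit 4688)))))) (.a (.f (nat_lit 625) (nat_lit 657) (nat_lit 4624) (.f (nat_lit 593) (nat_lit 496) (nat_lit 4592) (.f (nat_lit 530) (nat_lit 594) (nat_lit 5617) (.d (nat_lit 561) (nat_lit 466) (nat_lit 5585) (nat_lit 529) (nat_lit 6641))))) (.f (nat_lit 623) (nat_lit 655) (nat_lit 5647) (.f (nat_lit 496) (nat_lit 591) (nat_lit 5615) (.f (nat_lit 593) (nat_lit 625) (nat_lit 4592) (.f (nat_lit 561) (nat_lit 464) (nat_lit 4560) (.d (nat_lit 656) (nat_lit 529) (nat_lit 6672) (nat_lit 688) (nat_lit 6704))))))))))) (.a (.p (nat_lit 496) (.a (.f (nat_lit 625) (nat_lit 593) (nat_lit 4592) (.f (nat_lit 624) (nat_lit 657) (nat_lit 4624) (.d (nat_lit 623) (nat_lit 591) (nat_lit 5615) (nat_lit 655) (nat_lit 5647)))) (.a (.f (nat_lit 623) (nat_lit 591) (nat_lit 5615) (.f (nat_lit 624) (nat_lit 655) (nat_lit 5647) (.f (nat_lit 527) (nat_lit 495) (nat_lit 7663) (.d (nat_lit 497) (nat_lit 499) (nat_lit 1519)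 (nat_lit 529) (nat_lit 6640))))) (.f (nat_lit 497) (nat_lit 465) (nat_lit 6608) (.f (nat_lit 499) (nat_lit 527) (nat_lit 1519) (.f (nat_lit 500) (nat_lit 529) (nat_lit 1520) (.d (nat_lit 468) (nat_lit 467) (nat_lit 2512) (nat_lit 469) (nat_lit 2513)))))))) (.a (.p (nat_lit 624) (.a (.f (nat_lit 655) (nat_lit 623) (nat_lit 5647) (.f (nat_lit 656) (nat_lit 687) (nat_lit 5679) (.d (nat_lit 657) (nat_lit 625) (nat_lit 4624) (nat_lit 689) (nat_lit 4656)))) (.f (nat_lit 497) (nat_lit 529) (nat_lit 6640) (.f (nat_lit 496) (nat_lit 465) (nat_lit 6608) (.f (nat_lit 499) (nat_lit 527) (nat_lit 1519) (.f (nat_lit 467) (nat_lit 468) (nat_lit 2512) (.f (nat_lit 531) (nat_lit 532) (nat_lit 496) (.f (nat_lit 435) (nat_lit 530) (nat_lit 5554) (.f (nat_lit 402) (nat_lit 434) (nat_lit 7570) (.f (nat_lit 403) (nat_lit 370) (nat_lit 7538) (.d (nat_lit 404) (nat_lit 372) (nat_lit 6515) (nat_lit 436) (nat_lit 6547)))))))))))) (.a (.p (nat_lit 496) (.a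 (.f (nat_lit 497) (nat_lit 465) (nat_lit 6608) (.f (nat_lit 499) (nat_lit 527) (nat_lit 1519) (.f (nat_lit 500) (nat_lit 529) (nat_lit 1520) (.d (nat_lit 468) (nat_lit 467) (nat_lit 2512) (nat_lit 469) (nat_lit 2513))))) (.a (.f (nat_lit 497) (nat_lit 465) (nat_lit 6608) (.f (nat_lit 593) (nat_lit 625) (nat_lit 4592) (.f (nat_lit 561) (nat_lit 464) (nat_lit 4560) (.d (nat_lit 466) (nat_lit 529) (nat_lit 6609) (nat_lit 530) (nat_lit 5585))))) (.a (.f (nat_lit 497) (nat_lit 465) (nat_lit 6608) (.f (nat_lit 499) (nat_lit 527) (nat_lit 1519) (.f (nat_lit 467) (nat_lit 468) (nat_lit 2512) (.f (nat_lit 531) (nat_lit 532) (nat_lit 496) (.d (nat_lit 495) (nat_lit 466) (nat_lit 2511) (nat_lit 530) (nat_lit 495)))))) (.f (nat_lit 593) (nat_lit 625) (nat_lit 4592) (.f (nat_lit 561) (nat_lit 464) (nat_lit 4560) (.d (nat_lit 591) (nat_lit 590) (nat_lit 2606) (nat_lit 623) (nat_lit 5615)))))))) (.a s10584 (.p (nat_lit 624) (.a (.f (nat_lit 625)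 (nat_lit 657) (nat_lit 4624) (.f (nat_lit 496) (nat_lit 593) (nat_lit 4592) (.d (nat_lit 497) (nat_lit 465) (nat_lit 6608) (nat_lit 529) (nat_lit 6640)))) (.a (.f (nat_lit 529) (nat_lit 497) (nat_lit 6640) (.f (nat_lit 656) (nat_lit 561) (nat_lit 6672) (.d (nat_lit 657) (nat_lit 625) (nat_lit 4624) (nat_lit 689) (nat_lit 4656)))) (.a (.f (nat_lit 625) (nat_lit 657) (nat_lit 4624) (.f (nat_lit 593) (nat_lit 496) (nat_lit 4592) (.f (nat_lit 594) (nat_lit 530) (nat_lit 5617) (.f (nat_lit 595) (nat_lit 596) (nat_lit 1616) (.f (nat_lit 627) (nat_lit 628) (nat_lit 592) (.f (nat_lit 626) (nat_lit 591) (nat_lit 591) (.d (nat_lit 659) (nat_lit 660) (nat_lit 624) (nat_lit 691) (nat_lit 7730)))))))) (.f (nat_lit 497) (nat_lit 529) (nat_lit 6640) (.f (nat_lit 496) (nat_lit 465) (nat_lit 6608) (.f (nat_lit 499) (nat_lit 527) (nat_lit 1519) (.f (nat_lit 467) (nat_lit 468) (nat_lit 2512) (.f (nat_lit 531) (nat_lit 532) (nat_lit 496) (.f (nat_lit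 435) (nat_lit 530) (nat_lit 5554) (.f (nat_lit 402) (nat_lit 434) (nat_lit 7570) (.f (nat_lit 403) (nat_lit 370) (nat_lit 7538) (.d (nat_lit 404) (nat_lit 372) (nat_lit 6515) (nat_lit 436) (nat_lit 6547)))))))))))))))))))))))) (.a (.p (nat_lit 592) (.a (.p (nat_lit 624) (.a (.f (nat_lit 655) (nat_lit 623) (nat_lit 5647) (.f (nat_lit 656) (nat_lit 687) (nat_lit 5679) (.d (nat_lit 657) (nat_lit 625) (nat_lit 4624) (nat_lit 689) (nat_lit 4656)))) (.f (nat_lit 529) (nat_lit 497) (nat_lit 6640) (.f (nat_lit 527) (nat_lit 495) (nat_lit 7663) (.d (nat_lit 530) (nat_lit 499) (nat_lit 2543) (nat_lit 563) (nat_lit 527)))))) (.a s10603 (.a (.p (nat_lit 496) (.a (.f (nat_lit 625) (nat_lit 593) (nat_lit 4592) (.f (nat_lit 624) (nat_lit 657) (nat_lit 4624) (.d (nat_lit 623) (nat_lit 591) (nat_lit 5615) (nat_lit 655) (nat_lit 5647)))) (.f (nat_lit 497) (nat_lit 465) (nat_lit 6608) (.f (nat_lit 499) (nat_lit 527) (nat_lit 1519) (.f (nat_lit 467)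 (nat_lit 468) (nat_lit 2512) (.f (nat_lit 531) (nat_lit 532) (nat_lit 496) (.d (nat_lit 495) (nat_lit 466) (nat_lit 2511) (nat_lit 530) (nat_lit 495)))))))) (.a s10604 (.a (.p (nat_lit 496) (.a (.f (nat_lit 593) (nat_lit 625) (nat_lit 4592) (.f (nat_lit 561) (nat_lit 464) (nat_lit 4560) (.d (nat_lit 563) (nat_lit 527) (nat_lit 3599) (nat_lit 564) (nat_lit 1584)))) (.a (.f (nat_lit 593) (nat_lit 625) (nat_lit 4592) (.f (nat_lit 561) (nat_lit 464) (nat_lit 4560) (.d (nat_lit 563) (nat_lit 564) (nat_lit 1584) (nat_lit 591) (nat_lit 1583)))) (.f (nat_lit 497) (nat_lit 465) (nat_lit 6608) (.f (nat_lit 499) (nat_lit 527) (nat_lit 1519) (.f (nat_lit 500) (nat_lit 529) (nat_lit 1520) (.d (nat_lit 468) (nat_lit 467) (nat_lit 2512) (nat_lit 469) (nat_lit 2513)))))))) s10584)))))) (.a s6969 (.a s6986 (.a (.p (nat_lit 592) (.a (.p (nat_lit 624) (.a (.f (nat_lit 655) (nat_lit 623) (nat_lit 5647) (.f (nat_lit 656) (nat_lit 687) (nat_lit 5679)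 (.d (nat_lit 657) (nat_lit 625) (nat_lit 4624) (nat_lit 689) (nat_lit 4656)))) (.f (nat_lit 529) (nat_lit 497) (nat_lit 6640) (.f (nat_lit 527) (nat_lit 495) (nat_lit 7663) (.d (nat_lit 530) (nat_lit 499) (nat_lit 2543) (nat_lit 563) (nat_lit 527)))))) (.a s10603 (.a (.p (nat_lit 496) (.a (.f (nat_lit 625) (nat_lit 593) (nat_lit 4592) (.f (nat_lit 624) (nat_lit 657) (nat_lit 4624) (.d (nat_lit 623) (nat_lit 591) (nat_lit 5615) (nat_lit 655) (nat_lit 5647)))) (.f (nat_lit 497) (nat_lit 465) (nat_lit 6608) (.f (nat_lit 499) (nat_lit 527) (nat_lit 1519) (.f (nat_lit 467) (nat_lit 468) (nat_lit 2512) (.f (nat_lit 594) (nat_lit 530) (nat_lit 6610) (.d (nat_lit 531) (nat_lit 532) (nat_lit 496) (nat_lit 563) (nat_lit 5586)))))))) (.a s10604 (.a (.p (nat_lit 496) (.a (.f (nat_lit 593) (nat_lit 625) (nat_lit 4592) (.f (nat_lit 561) (nat_lit 464) (nat_lit 4560) (.d (nat_lit 563) (nat_lit 527) (nat_lit 3599) (nat_lit 564) (nat_lit 1584))))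 (.a (.f (nat_lit 593) (nat_lit 625) (nat_lit 4592) (.f (nat_lit 561) (nat_lit 464) (nat_lit 4560) (.d (nat_lit 563) (nat_lit 564) (nat_lit 1584) (nat_lit 591) (nat_lit 1583)))) (.f (nat_lit 497) (nat_lit 465) (nat_lit 6608) (.f (nat_lit 499) (nat_lit 527) (nat_lit 1519) (.f (nat_lit 500) (nat_lit 529) (nat_lit 1520) (.d (nat_lit 468) (nat_lit 467) (nat_lit 2512) (nat_lit 469) (nat_lit 2513)))))))) (.a s10537 s10584))))))) (.a (.p (nat_lit 530) (.a (.p (nat_lit 594) (.a (.f (nat_lit 497) (nat_lit 465) (nat_lit 7633) (.f (nat_lit 529) (nat_lit 626) (nat_lit 7665) (.d (nat_lit 499) (nat_lit 467) (nat_lit 6610) (nat_lit 500) (nat_lit 1520)))) (.f (nat_lit 595) (nat_lit 627) (nat_lit 4594) (.f (nat_lit 563) (nat_lit 466) (nat_lit 4562) (.f (nat_lit 593) (nat_lit 625) (nat_lit 5617) (.d (nat_lit 564) (nat_lit 565) (nat_lit 1585) (nat_lit 592) (nat_lit 2608))))))) (.a (.p (nat_lit 594) (.a (.f (nat_lit 595) (nat_lit 627) (nat_lit 4594)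 (.f (nat_lit 563) (nat_lit 466) (nat_lit 4562) (.f (nat_lit 593) (nat_lit 625) (nat_lit 5617) (.d (nat_lit 564) (nat_lit 565) (nat_lit 1585) (nat_lit 592) (nat_lit 2608))))) (.a (.f (nat_lit 467) (nat_lit 499) (nat_lit 6610) (.f (nat_lit 466) (nat_lit 435) (nat_lit 6578) (.d (nat_lit 465) (nat_lit 433) (nat_lit 7601) (nat_lit 497) (nat_lit 7633)))) (.f (nat_lit 625) (nat_lit 593) (nat_lit 5617) (.f (nat_lit 626) (nat_lit 657) (nat_lit 5649) (.d (nat_lit 499) (nat_lit 467) (nat_lit 6610) (nat_lit 531) (nat_lit 6642))))))) (.a (.p (nat_lit 594) (.a (.f (nat_lit 595) (nat_lit 627) (nat_lit 4594) (.f (nat_lit 563) (nat_lit 466) (nat_lit 4562) (.f (nat_lit 593) (nat_lit 625) (nat_lit 5617) (.d (nat_lit 564) (nat_lit 565) (nat_lit 1585) (nat_lit 592) (nat_lit 2608))))) (.f (nat_lit 499) (nat_lit 467) (nat_lit 6610) (.f (nat_lit 529) (nat_lit 527) (nat_lit 2543) (.d (nat_lit 500) (nat_lit 501) (nat_lit 1521) (nat_lit 531) (nat_lit 2544))))))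 (.a s3176 (.a s3188 (.a (.p (nat_lit 561) (.a (.f (nat_lit 563) (nat_lit 527) (nat_lit 3599) (.d (nat_lit 466) (nat_lit 593) (nat_lit 5585) (nat_lit 595) (nat_lit 4562))) (.a (.f (nat_lit 593) (nat_lit 466) (nat_lit 5585) (.d (nat_lit 625) (nat_lit 529) (nat_lit 6641) (nat_lit 657) (nat_lit 7696))) (.a (.f (nat_lit 563) (nat_lit 527) (nat_lit 3599) (.d (nat_lit 595) (nat_lit 466) (nat_lit 4562) (nat_lit 596) (nat_lit 560))) (.f (nat_lit 563) (nat_lit 527) (nat_lit 3599) (.f (nat_lit 529) (nat_lit 564) (nat_lit 3600) (.f (nat_lit 592) (nat_lit 591) (nat_lit 1583) (.d (nat_lit 497) (nat_lit 465) (nat_lit 5584) (nat_lit 624) (nat_lit 6640))))))))) s3190))))))) s7088))))))))))))))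
noncomputable def s10616 : Cert := .r (nat_lit 18869812124986400861704490948459027756867024433892689860299374593630612134736493787905533600559981471712008058190913152356962472978375577626770901665172955839509703950336) (.p (nat_lit 594) (.a (.p (nat_lit 561) (.a (.f (nat_lit 563) (nat_lit 527) (nat_lit 3599) (.d (nat_lit 595) (nat_lit 559) (nat_lit 559) (nat_lit 596) (nat_lit 560))) (.a (.f (nat_lit 559) (nat_lit 595) (nat_lit 559) (.f (nat_lit 593) (nat_lit 558) (nat_lit 558) (.f (nat_lit 625) (nat_lit 657) (nat_lit 7696) (.d (nat_lit 496) (nat_lit 464) (nat_lit 4560) (nat_lit 529) (nat_lit 7664))))) (.f (nat_lit 563) (nat_lit 527) (nat_lit 3599) (.f (nat_lit 564) (nat_lit 529) (nat_lit 3600) (.d (nat_lit 532) (nat_lit 531) (nat_lit 2576) (nat_lit 533) (nat_lit 2577))))))) (.a s3461 (.a s3984 (.a s3586 (.a (.p (nat_lit 561) (.a (.f (nat_lit 563) (nat_lit 527) (nat_lit 3599) (.d (nat_lit 595) (nat_lit 559) (nat_lit 559) (nat_lit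 596) (nat_lit 560))) (.a (.f (nat_lit 559) (nat_lit 595) (nat_lit 559) (.f (nat_lit 530) (nat_lit 531) (nat_lit 2575) (.f (nat_lit 529) (nat_lit 558) (nat_lit 2574) (.d (nat_lit 497) (nat_lit 465) (nat_lit 4561) (nat_lit 626) (nat_lit 7665))))) (.f (nat_lit 563) (nat_lit 527) (nat_lit 3599) (.f (nat_lit 564) (nat_lit 529) (nat_lit 3600) (.d (nat_lit 532) (nat_lit 531) (nat_lit 2576) (nat_lit 533) (nat_lit 2577))))))) s4795))))))
noncomputable def s10617 : Cert := .r (nat_lit 3773962425700235452738272624505952193199339552226928146794549392648115485167898379561026699849346401546134558067857772757880134458676407096525164659442171664912122642432) (.p (nat_lit 562) (.a s3327 (.a s7182 (.a s10434 (.a s7244 (.a s7310 (.a s7917 (.a (.p (nat_lit 496) (.a s3360 (.a (.p (nat_lit 592) (.a (.f (nat_lit 591) (nat_lit 623) (nat_lit 5615) (.f (nat_lit 593) (nat_lit 625) (nat_lit 4592) (.f (nat_lit 559) (nat_lit 464) (nat_lit 5583) (.d (nat_lit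 558) (nat_lit 557) (nat_lit 557) (nat_lit 594) (nat_lit 3630))))) (.a (.f (nat_lit 497) (nat_lit 465) (nat_lit 6608) (.f (nat_lit 624) (nat_lit 529) (nat_lit 6640) (.d (nat_lit 623) (nat_lit 591) (nat_lit 5615) (nat_lit 655) (nat_lit 5647)))) (.f (nat_lit 497) (nat_lit 465) (nat_lit 6608) (.f (nat_lit 624) (nat_lit 529) (nat_lit 6640) (.d (nat_lit 625) (nat_lit 593) (nat_lit 4592) (nat_lit 657) (nat_lit 4624))))))) (.a s10439 (.a (.p (nat_lit 592) (.a (.f (nat_lit 591) (nat_lit 623) (nat_lit 5615) (.f (nat_lit 593) (nat_lit 625) (nat_lit 4592) (.f (nat_lit 559) (nat_lit 464) (nat_lit 5583) (.d (nat_lit 558) (nat_lit 557) (nat_lit 557) (nat_lit 594) (nat_lit 3630))))) (.a (.f (nat_lit 591) (nat_lit 623) (nat_lit 5615) (.f (nat_lit 593) (nat_lit 625) (nat_lit 4592) (.f (nat_lit 590) (nat_lit 561) (nat_lit 2606) (.f (nat_lit 557) (nat_lit 558) (nat_lit 3629) (.f (nat_lit 589) (nat_lit 556) (nat_lit 3628) (.d (nat_lit 621) (nat_lit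 620) (nat_lit 1612) (nat_lit 622) (nat_lit 1613))))))) (.a (.f (nat_lit 591) (nat_lit 623) (nat_lit 5615) (.f (nat_lit 559) (nat_lit 464) (nat_lit 5583) (.f (nat_lit 561) (nat_lit 590) (nat_lit 1582) (.f (nat_lit 530) (nat_lit 531) (nat_lit 2575) (.f (nat_lit 529) (nat_lit 558) (nat_lit 2574) (.f (nat_lit 624) (nat_lit 656) (nat_lit 6672) (.f (nat_lit 594) (nat_lit 595) (nat_lit 559) (.f (nat_lit 626) (nat_lit 658) (nat_lit 7697) (.d (nat_lit 625) (nat_lit 627) (nat_lit 3663) (nat_lit 657) (nat_lit 4624)))))))))) (.a (.f (nat_lit 591) (nat_lit 623) (nat_lit 5615) (.f (nat_lit 559) (nat_lit 464) (nat_lit 5583) (.f (nat_lit 561) (nat_lit 590) (nat_lit 1582) (.f (nat_lit 594) (nat_lit 595) (nat_lit 559) (.f (nat_lit 558) (nat_lit 593) (nat_lit 558) (.d (nat_lit 529) (nat_lit 530) (nat_lit 2574) (nat_lit 557) (nat_lit 2573))))))) (.a (.f (nat_lit 593) (nat_lit 625) (nat_lit 4592) (.f (nat_lit 464) (nat_lit 561) (nat_lit 4560) (.f (nat_lit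 559) (nat_lit 591) (nat_lit 5583) (.f (nat_lit 432) (nat_lit 527) (nat_lit 5551) (.f (nat_lit 399) (nat_lit 431) (nat_lit 7567) (.f (nat_lit 400) (nat_lit 367) (nat_lit 7535) (.d (nat_lit 401) (nat_lit 369) (nat_lit 6512) (nat_lit 433) (nat_lit 6544)))))))) (.f (nat_lit 593) (nat_lit 625) (nat_lit 4592) (.f (nat_lit 464) (nat_lit 561) (nat_lit 4560) (.f (nat_lit 433) (nat_lit 465) (nat_lit 6576) (.f (nat_lit 432) (nat_lit 401) (nat_lit 6544) (.f (nat_lit 399) (nat_lit 431) (nat_lit 7567) (.f (nat_lit 400) (nat_lit 367) (nat_lit 7535) (.d (nat_lit 527) (nat_lit 495) (nat_lit 5519) (nat_lit 559) (nat_lit 5551)))))))))))))) (.a (.p (nat_lit 464) (.a (.f (nat_lit 561) (nat_lit 593) (nat_lit 4560) (.f (nat_lit 529) (nat_lit 432) (nat_lit 4528) (.f (nat_lit 559) (nat_lit 591) (nat_lit 5583) (.d (nat_lit 530) (nat_lit 531) (nat_lit 2575) (nat_lit 558) (nat_lit 2574))))) (.a (.f (nat_lit 559) (nat_lit 591) (nat_lit 5583) (.f (nat_lit 432)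 (nat_lit 527) (nat_lit 5551) (.d (nat_lit 433) (nat_lit 401) (nat_lit 6544) (nat_lit 465) (nat_lit 6576)))) (.a (.f (nat_lit 433) (nat_lit 465) (nat_lit 6576) (.f (nat_lit 432) (nat_lit 401) (nat_lit 6544) (.f (nat_lit 529) (nat_lit 561) (nat_lit 4528) (.f (nat_lit 399) (nat_lit 431) (nat_lit 7567) (.d (nat_lit 400) (nat_lit 367) (nat_lit 7535) (nat_lit 497) (nat_lit 4496)))))) (.f (nat_lit 561) (nat_lit 593) (nat_lit 4560) (.f (nat_lit 559) (nat_lit 591) (nat_lit 5583) (.f (nat_lit 530) (nat_lit 531) (nat_lit 2575) (.f (nat_lit 529) (nat_lit 558) (nat_lit 2574) (.f (nat_lit 465) (nat_lit 433) (nat_lit 6576) (.d (nat_lit 594) (nat_lit 497) (nat_lit 4561) (nat_lit 595) (nat_lit 559))))))))))) (.a (.p (nat_lit 592) (.a (.f (nat_lit 497) (nat_lit 465) (nat_lit 6608) (.f (nat_lit 624) (nat_lit 529) (nat_lit 6640) (.d (nat_lit 623) (nat_lit 591) (nat_lit 5615) (nat_lit 655) (nat_lit 5647)))) (.a (.f (nat_lit 591) (nat_lit 623) (nat_lit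 5615) (.f (nat_lit 593) (nat_lit 625) (nat_lit 4592) (.f (nat_lit 590) (nat_lit 561) (nat_lit 2606) (.f (nat_lit 557) (nat_lit 558) (nat_lit 3629) (.f (nat_lit 589) (nat_lit 556) (nat_lit 3628) (.d (nat_lit 621) (nat_lit 620) (nat_lit 1612) (nat_lit 622) (nat_lit 1613))))))) (.f (nat_lit 497) (nat_lit 465) (nat_lit 6608) (.f (nat_lit 624) (nat_lit 529) (nat_lit 6640) (.d (nat_lit 625) (nat_lit 593) (nat_lit 4592) (nat_lit 657) (nat_lit 4624))))))) (.a (.p (nat_lit 592) (.a (.f (nat_lit 497) (nat_lit 465) (nat_lit 6608) (.f (nat_lit 624) (nat_lit 529) (nat_lit 6640) (.d (nat_lit 623) (nat_lit 591) (nat_lit 5615) (nat_lit 655) (nat_lit 5647)))) (.a (.f (nat_lit 465) (nat_lit 497) (nat_lit 6608) (.f (nat_lit 464) (nat_lit 433) (nat_lit 6576) (.f (nat_lit 559) (nat_lit 591) (nat_lit 5583) (.f (nat_lit 527) (nat_lit 432) (nat_lit 5551) (.d (nat_lit 624) (nat_lit 495) (nat_lit 7663) (nat_lit 656) (nat_lit 7695)))))) (.a (.f (nat_lit 591)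 (nat_lit 623) (nat_lit 5615) (.f (nat_lit 559) (nat_lit 464) (nat_lit 5583) (.f (nat_lit 561) (nat_lit 590) (nat_lit 1582) (.f (nat_lit 530) (nat_lit 531) (nat_lit 2575) (.f (nat_lit 529) (nat_lit 558) (nat_lit 2574) (.f (nat_lit 624) (nat_lit 656) (nat_lit 6672) (.f (nat_lit 594) (nat_lit 595) (nat_lit 559) (.f (nat_lit 626) (nat_lit 658) (nat_lit 7697) (.d (nat_lit 625) (nat_lit 627) (nat_lit 3663) (nat_lit 657) (nat_lit 4624)))))))))) (.a (.f (nat_lit 591) (nat_lit 623) (nat_lit 5615) (.f (nat_lit 559) (nat_lit 464) (nat_lit 5583) (.f (nat_lit 561) (nat_lit 590) (nat_lit 1582) (.f (nat_lit 530) (nat_lit 531) (nat_lit 2575) (.f (nat_lit 529) (nat_lit 558) (nat_lit 2574) (.f (nat_lit 497) (nat_lit 465) (nat_lit 6608) (.d (nat_lit 594) (nat_lit 595) (nat_lit 559) (nat_lit 626) (nat_lit 7665)))))))) (.f (nat_lit 497) (nat_lit 465) (nat_lit 6608) (.f (nat_lit 624) (nat_lit 529) (nat_lit 6640) (.f (nat_lit 655) (nat_lit 623) (nat_lit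 5647) (.f (nat_lit 656) (nat_lit 687) (nat_lit 5679) (.d (nat_lit 657) (nat_lit 625) (nat_lit 4624) (nat_lit 689) (nat_lit 4656))))))))))) (.a s7967 (.a (.p (nat_lit 592) (.a (.f (nat_lit 593) (nat_lit 625) (nat_lit 4592) (.f (nat_lit 561) (nat_lit 464) (nat_lit 4560) (.f (nat_lit 497) (nat_lit 465) (nat_lit 6608) (.f (nat_lit 529) (nat_lit 624) (nat_lit 6640) (.f (nat_lit 594) (nat_lit 626) (nat_lit 4593) (.d (nat_lit 559) (nat_lit 558) (nat_lit 558) (nat_lit 595) (nat_lit 559))))))) (.a (.f (nat_lit 497) (nat_lit 465) (nat_lit 6608) (.f (nat_lit 624) (nat_lit 529) (nat_lit 6640) (.d (nat_lit 625) (nat_lit 593) (nat_lit 4592) (nat_lit 657) (nat_lit 4624)))) (.a (.f (nat_lit 593) (nat_lit 625) (nat_lit 4592) (.f (nat_lit 464) (nat_lit 561) (nat_lit 4560) (.d (nat_lit 465) (nat_lit 433) (nat_lit 6576) (nat_lit 497) (nat_lit 6608)))) (.a (.f (nat_lit 593) (nat_lit 625) (nat_lit 4592) (.f (nat_lit 464) (nat_lit 561) (nat_lit 4560)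 (.f (nat_lit 433) (nat_lit 465) (nat_lit 6576) (.f (nat_lit 432) (nat_lit 401) (nat_lit 6544) (.f (nat_lit 399) (nat_lit 431) (nat_lit 7567) (.f (nat_lit 400) (nat_lit 367) (nat_lit 7535) (.d (nat_lit 527) (nat_lit 495) (nat_lit 5519) (nat_lit 559) (nat_lit 5551)))))))) (.a (.f (nat_lit 497) (nat_lit 465) (nat_lit 6608) (.f (nat_lit 624) (nat_lit 529) (nat_lit 6640) (.f (nat_lit 655) (nat_lit 623) (nat_lit 5647) (.f (nat_lit 656) (nat_lit 687) (nat_lit 5679) (.d (nat_lit 657) (nat_lit 625) (nat_lit 4624) (nat_lit 689) (nat_lit 4656)))))) (.a (.f (nat_lit 625) (nat_lit 593) (nat_lit 4592) (.f (nat_lit 624) (nat_lit 657) (nat_lit 4624) (.f (nat_lit 655) (nat_lit 623) (nat_lit 5647) (.f (nat_lit 656) (nat_lit 687) (nat_lit 5679) (.d (nat_lit 529) (nat_lit 497) (nat_lit 6640) (nat_lit 561) (nat_lit 6672)))))) (.f (nat_lit 497) (nat_lit 465) (nat_lit 6608) (.f (nat_lit 624) (nat_lit 529) (nat_lit 6640) (.f (nat_lit 527) (nat_lit 495)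 (nat_lit 7663) (.f (nat_lit 656) (nat_lit 559) (nat_lit 7695) (.d (nat_lit 655) (nat_lit 623) (nat_lit 5647) (nat_lit 687) (nat_lit 5679))))))))))))) (.p (nat_lit 592) (.a (.f (nat_lit 497) (nat_lit 465) (nat_lit 6608) (.f (nat_lit 624) (nat_lit 529) (nat_lit 6640) (.d (nat_lit 623) (nat_lit 591) (nat_lit 5615) (nat_lit 655) (nat_lit 5647)))) (.a (.f (nat_lit 623) (nat_lit 591) (nat_lit 5615) (.f (nat_lit 624) (nat_lit 655) (nat_lit 5647) (.d (nat_lit 625) (nat_lit 593) (nat_lit 4592) (nat_lit 657) (nat_lit 4624)))) (.a (.f (nat_lit 593) (nat_lit 625) (nat_lit 4592) (.f (nat_lit 464) (nat_lit 561) (nat_lit 4560) (.f (nat_lit 559) (nat_lit 591) (nat_lit 5583) (.f (nat_lit 432) (nat_lit 527) (nat_lit 5551) (.f (nat_lit 399) (nat_lit 431) (nat_lit 7567) (.f (nat_lit 400) (nat_lit 367) (nat_lit 7535) (.d (nat_lit 401) (nat_lit 369) (nat_lit 6512) (nat_lit 433) (nat_lit 6544)))))))) (.f (nat_lit 497) (nat_lit 465) (nat_lit 6608) (.f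 (nat_lit 624) (nat_lit 529) (nat_lit 6640) (.d (nat_lit 625) (nat_lit 593) (nat_lit 4592) (nat_lit 657) (nat_lit 4624)))))))))))))))))) (.a (.p (nat_lit 592) (.a s3034 (.a s7635 (.a s3235 (.a s7328 (.a (.p (nat_lit 591) (.a (.f (nat_lit 561) (nat_lit 563) (nat_lit 1583) (.d (nat_lit 590) (nat_lit 559) (nat_lit 1582) (nat_lit 589) (nat_lit 2605))) (.a (.f (nat_lit 623) (nat_lit 496) (nat_lit 5615) (.d (nat_lit 655) (nat_lit 559) (nat_lit 6671) (nat_lit 687) (nat_lit 6703))) (.f (nat_lit 496) (nat_lit 623) (nat_lit 5615) (.f (nat_lit 593) (nat_lit 625) (nat_lit 4592) (.f (nat_lit 590) (nat_lit 561) (nat_lit 2606) (.f (nat_lit 557) (nat_lit 558) (nat_lit 3629) (.f (nat_lit 589) (nat_lit 556) (nat_lit 3628) (.d (nat_lit 621) (nat_lit 620) (nat_lit 1612) (nat_lit 622) (nat_lit 1613)))))))))) (.a (.p (nat_lit 624) (.a (.f (nat_lit 527) (nat_lit 495) (nat_lit 7663) (.f (nat_lit 656) (nat_lit 559) (nat_lit 7695) (.d (nat_lit 655) (nat_lit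 623) (nat_lit 5647) (nat_lit 687) (nat_lit 5679)))) (.a (.f (nat_lit 623) (nat_lit 655) (nat_lit 5647) (.f (nat_lit 496) (nat_lit 591) (nat_lit 5615) (.d (nat_lit 497) (nat_lit 465) (nat_lit 6608) (nat_lit 529) (nat_lit 6640)))) (.f (nat_lit 529) (nat_lit 497) (nat_lit 6640) (.f (nat_lit 656) (nat_lit 561) (nat_lit 6672) (.d (nat_lit 527) (nat_lit 495) (nat_lit 7663) (nat_lit 559) (nat_lit 7695))))))) (.a s3362 s7268)))))))) (.a s10615 (.a s9338 s10616)))))))))))
noncomputable def s10618 : Cert := .r (nat_lit 3773962425700235452738272624505952193199339552226928146794549392648115485167898379561026699849346401546134558067857772757880134458676407096525164659442171664912122642432) (.p (nat_lit 562) (.a s3059 (.a s7182 (.a s10434 (.a s7244 (.a s3327 (.a s7310 (.a s7917 (.a s7360 (.a s7332 (.a s10615 (.a s10042 (.a s10616 s7483)))))))))))))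
noncomputable def s10640 : Cert := .r (nat_lit 3773962425700235452738272624505952193199339552226928146794549392648115485167898379561026699849346401546134558067857772757880134458676407096525164659442171664912122642432) (.p (nat_lit 562) (.a s3192 (.a s3224 (.a s9415 (.a (.p (nat_lit 496) (.a s3206 (.a s10367 (.a (.p (nat_lit 561) (.a (.f (nat_lit 464) (nat_lit 593) (nat_lit 4560) (.f (nat_lit 431) (nat_lit 463) (nat_lit 7599) (.f (nat_lit 432) (nat_lit 399) (nat_lit 7567) (.d (nat_lit 433) (nat_lit 401) (nat_lit 6544) (nat_lit 465) (nat_lit 6576))))) (.f (nat_lit 563) (nat_lit 527) (nat_lit 3599) (.f (nat_lit 595) (nat_lit 596) (nat_lit 560) (.f (nat_lit 531) (nat_lit 532) (nat_lit 2576) (.d (nat_lit 559) (nat_lit 530) (nat_lit 2575) (nat_lit 594) (nat_lit 559))))))) (.a (.p (nat_lit 592) (.a (.f (nat_lit 591) (nat_lit 623) (nat_lit 5615) (.f (nat_lit 561) (nat_lit 563) (nat_lit 1583) (.d (nat_lit 590) (nat_lit 559) (nat_lit 1582)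 (nat_lit 589) (nat_lit 2605)))) (.f (nat_lit 495) (nat_lit 463) (nat_lit 7631) (.f (nat_lit 624) (nat_lit 527) (nat_lit 7663) (.d (nat_lit 625) (nat_lit 593) (nat_lit 4592) (nat_lit 657) (nat_lit 4624)))))) (.p (nat_lit 592) (.a (.f (nat_lit 593) (nat_lit 625) (nat_lit 4592) (.f (nat_lit 561) (nat_lit 464) (nat_lit 4560) (.d (nat_lit 563) (nat_lit 564) (nat_lit 1584) (nat_lit 591) (nat_lit 1583)))) (.a (.f (nat_lit 463) (nat_lit 495) (nat_lit 7631) (.f (nat_lit 464) (nat_lit 431) (nat_lit 7599) (.d (nat_lit 465) (nat_lit 433) (nat_lit 6576) (nat_lit 497) (nat_lit 6608)))) (.f (nat_lit 495) (nat_lit 463) (nat_lit 7631) (.f (nat_lit 624) (nat_lit 527) (nat_lit 7663) (.d (nat_lit 625) (nat_lit 593) (nat_lit 4592) (nat_lit 657) (nat_lit 4624)))))))))))) (.a s9508 (.a (.p (nat_lit 530) (.a s3133 (.a s7114 (.a (.p (nat_lit 529) (.a (.f (nat_lit 527) (nat_lit 563) (nat_lit 527) (.d (nat_lit 559) (nat_lit 531) (nat_lit 1551) (nat_lit 558)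 (nat_lit 1550))) (.a (.f (nat_lit 531) (nat_lit 559) (nat_lit 1551) (.f (nat_lit 499) (nat_lit 500) (nat_lit 2544) (.f (nat_lit 563) (nat_lit 564) (nat_lit 528) (.d (nat_lit 467) (nat_lit 435) (nat_lit 5554) (nat_lit 594) (nat_lit 5586))))) (.a (.f (nat_lit 527) (nat_lit 563) (nat_lit 527) (.f (nat_lit 498) (nat_lit 499) (nat_lit 2543) (.f (nat_lit 559) (nat_lit 558) (nat_lit 1550) (.f (nat_lit 495) (nat_lit 494) (nat_lit 3566) (.f (nat_lit 463) (nat_lit 431) (nat_lit 4527) (.f (nat_lit 462) (nat_lit 430) (nat_lit 7598) (.f (nat_lit 464) (nat_lit 432) (nat_lit 6575) (.f (nat_lit 465) (nat_lit 497) (nat_lit 462) (.d (nat_lit 433) (nat_lit 434) (nat_lit 2478) (nat_lit 466) (nat_lit 7601)))))))))) (.a (.f (nat_lit 531) (nat_lit 559) (nat_lit 1551) (.f (nat_lit 499) (nat_lit 500) (nat_lit 2544) (.f (nat_lit 498) (nat_lit 527) (nat_lit 2543) (.d (nat_lit 467) (nat_lit 435) (nat_lit 5554) (nat_lit 594) (nat_lit 6610))))) (.f (nat_lit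 563) (nat_lit 527) (nat_lit 527) (.d (nat_lit 564) (nat_lit 531) (nat_lit 528) (nat_lit 565) (nat_lit 3601)))))))) (.a (.p (nat_lit 594) (.a (.p (nat_lit 498) (.a (.f (nat_lit 497) (nat_lit 465) (nat_lit 7633) (.f (nat_lit 529) (nat_lit 626) (nat_lit 7665) (.d (nat_lit 499) (nat_lit 467) (nat_lit 6610) (nat_lit 500) (nat_lit 1520)))) (.f (nat_lit 595) (nat_lit 627) (nat_lit 4594) (.f (nat_lit 561) (nat_lit 559) (nat_lit 559) (.d (nat_lit 563) (nat_lit 466) (nat_lit 4562) (nat_lit 596) (nat_lit 560)))))) (.a s3488 (.a (.p (nat_lit 498) (.a (.f (nat_lit 595) (nat_lit 627) (nat_lit 4594) (.f (nat_lit 561) (nat_lit 559) (nat_lit 559) (.d (nat_lit 466) (nat_lit 563) (nat_lit 4562) (nat_lit 593) (nat_lit 5585)))) (.a (.f (nat_lit 467) (nat_lit 499) (nat_lit 6610) (.f (nat_lit 466) (nat_lit 435) (nat_lit 6578) (.d (nat_lit 465) (nat_lit 433) (nat_lit 7601) (nat_lit 497) (nat_lit 7633)))) (.f (nat_lit 595) (nat_lit 627) (nat_lit 4594) (.f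 (nat_lit 561) (nat_lit 559) (nat_lit 559) (.d (nat_lit 593) (nat_lit 596) (nat_lit 3632) (nat_lit 625) (nat_lit 5617))))))) (.a (.p (nat_lit 498) (.a (.f (nat_lit 595) (nat_lit 627) (nat_lit 4594) (.f (nat_lit 561) (nat_lit 559) (nat_lit 559) (.d (nat_lit 466) (nat_lit 563) (nat_lit 4562) (nat_lit 593) (nat_lit 5585)))) (.a (.f (nat_lit 467) (nat_lit 499) (nat_lit 6610) (.f (nat_lit 466) (nat_lit 435) (nat_lit 6578) (.d (nat_lit 595) (nat_lit 563) (nat_lit 4562) (nat_lit 627) (nat_lit 4594)))) (.a (.f (nat_lit 595) (nat_lit 627) (nat_lit 4594) (.f (nat_lit 561) (nat_lit 559) (nat_lit 559) (.d (nat_lit 593) (nat_lit 596) (nat_lit 3632) (nat_lit 625) (nat_lit 5617)))) (.f (nat_lit 593) (nat_lit 625) (nat_lit 5617) (.f (nat_lit 561) (nat_lit 466) (nat_lit 5585) (.f (nat_lit 563) (nat_lit 527) (nat_lit 3599) (.d (nat_lit 564) (nat_lit 529) (nat_lit 3600) (nat_lit 565) (nat_lit 1585))))))))) (.a (.p (nat_lit 561) (.a (.f (nat_lit 595)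 (nat_lit 559) (nat_lit 559) (.d (nat_lit 596) (nat_lit 563) (nat_lit 560) (nat_lit 593) (nat_lit 3632))) (.a (.f (nat_lit 559) (nat_lit 595) (nat_lit 559) (.f (nat_lit 529) (nat_lit 558) (nat_lit 2574) (.d (nat_lit 497) (nat_lit 465) (nat_lit 4561) (nat_lit 626) (nat_lit 7665)))) (.f (nat_lit 563) (nat_lit 527) (nat_lit 3599) (.f (nat_lit 529) (nat_lit 564) (nat_lit 3600) (.d (nat_lit 497) (nat_lit 465) (nat_lit 4561) (nat_lit 626) (nat_lit 7665))))))) (.a (.p (nat_lit 498) (.a (.f (nat_lit 497) (nat_lit 465) (nat_lit 7633) (.f (nat_lit 529) (nat_lit 626) (nat_lit 7665) (.d (nat_lit 499) (nat_lit 467) (nat_lit 6610) (nat_lit 500) (nat_lit 1520)))) (.a (.f (nat_lit 467) (nat_lit 499) (nat_lit 6610) (.f (nat_lit 466) (nat_lit 435) (nat_lit 6578) (.d (nat_lit 465) (nat_lit 433) (nat_lit 7601) (nat_lit 497) (nat_lit 7633)))) (.f (nat_lit 625) (nat_lit 593) (nat_lit 5617) (.f (nat_lit 626) (nat_lit 657) (nat_lit 5649) (.d (nat_lit 627)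 (nat_lit 595) (nat_lit 4594) (nat_lit 659) (nat_lit 4626))))))) (.p (nat_lit 498) (.a (.f (nat_lit 497) (nat_lit 465) (nat_lit 7633) (.f (nat_lit 529) (nat_lit 626) (nat_lit 7665) (.d (nat_lit 499) (nat_lit 467) (nat_lit 6610) (nat_lit 500) (nat_lit 1520)))) (.a (.f (nat_lit 467) (nat_lit 499) (nat_lit 6610) (.f (nat_lit 466) (nat_lit 435) (nat_lit 6578) (.d (nat_lit 465) (nat_lit 433) (nat_lit 7601) (nat_lit 497) (nat_lit 7633)))) (.f (nat_lit 593) (nat_lit 625) (nat_lit 5617) (.f (nat_lit 561) (nat_lit 466) (nat_lit 5585) (.f (nat_lit 563) (nat_lit 527) (nat_lit 3599) (.d (nat_lit 564) (nat_lit 529) (nat_lit 3600) (nat_lit 565) (nat_lit 1585))))))))))))))) (.a (.p (nat_lit 561) (.a (.f (nat_lit 563) (nat_lit 527) (nat_lit 3599) (.d (nat_lit 531) (nat_lit 532) (nat_lit 2576) (nat_lit 559) (nat_lit 2575))) (.a (.f (nat_lit 531) (nat_lit 559) (nat_lit 2575) (.d (nat_lit 532) (nat_lit 529) (nat_lit 1552) (nat_lit 533) (nat_lit 1553)))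 (.f (nat_lit 563) (nat_lit 527) (nat_lit 3599) (.f (nat_lit 564) (nat_lit 529) (nat_lit 3600) (.d (nat_lit 596) (nat_lit 595) (nat_lit 560) (nat_lit 597) (nat_lit 561))))))) (.a s3178 s10022))))))) (.a s9587 (.a s9644 (.a s9678 (.a (.p (nat_lit 496) (.a (.p (nat_lit 592) (.a (.f (nat_lit 591) (nat_lit 623) (nat_lit 5615) (.f (nat_lit 593) (nat_lit 625) (nat_lit 4592) (.f (nat_lit 559) (nat_lit 464) (nat_lit 5583) (.d (nat_lit 558) (nat_lit 557) (nat_lit 557) (nat_lit 594) (nat_lit 3630))))) (.f (nat_lit 497) (nat_lit 465) (nat_lit 6608) (.f (nat_lit 495) (nat_lit 463) (nat_lit 7631) (.f (nat_lit 529) (nat_lit 624) (nat_lit 6640) (.d (nat_lit 494) (nat_lit 493) (nat_lit 493) (nat_lit 530) (nat_lit 494))))))) (.a s7918 (.a s3220 (.a (.p (nat_lit 592) (.a (.f (nat_lit 497) (nat_lit 465) (nat_lit 6608) (.f (nat_lit 495) (nat_lit 463) (nat_lit 7631) (.f (nat_lit 529) (nat_lit 624) (nat_lit 6640) (.d (nat_lit 494) (nat_lit 493) (nat_lit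 493) (nat_lit 530) (nat_lit 494))))) (.f (nat_lit 591) (nat_lit 623) (nat_lit 5615) (.f (nat_lit 593) (nat_lit 625) (nat_lit 4592) (.f (nat_lit 590) (nat_lit 561) (nat_lit 2606) (.f (nat_lit 557) (nat_lit 558) (nat_lit 3629) (.f (nat_lit 589) (nat_lit 556) (nat_lit 3628) (.d (nat_lit 621) (nat_lit 620) (nat_lit 1612) (nat_lit 622) (nat_lit 1613))))))))) (.a s10203 s10439)))))) (.a (.p (nat_lit 592) (.a (.p (nat_lit 496) (.a (.f (nat_lit 591) (nat_lit 623) (nat_lit 5615) (.f (nat_lit 561) (nat_lit 563) (nat_lit 1583) (.d (nat_lit 464) (nat_lit 559) (nat_lit 5583) (nat_lit 593) (nat_lit 4560)))) (.f (nat_lit 495) (nat_lit 463) (nat_lit 7631) (.f (nat_lit 624) (nat_lit 527) (nat_lit 7663) (.d (nat_lit 497) (nat_lit 465) (nat_lit 6608) (nat_lit 529) (nat_lit 6640)))))) (.a (.p (nat_lit 496) (.a (.f (nat_lit 591) (nat_lit 623) (nat_lit 5615) (.f (nat_lit 561) (nat_lit 563) (nat_lit 1583) (.d (nat_lit 590) (nat_lit 559) (nat_lit 1582)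 (nat_lit 589) (nat_lit 2605)))) (.f (nat_lit 497) (nat_lit 465) (nat_lit 6608) (.f (nat_lit 495) (nat_lit 463) (nat_lit 7631) (.f (nat_lit 529) (nat_lit 624) (nat_lit 6640) (.d (nat_lit 494) (nat_lit 493) (nat_lit 493) (nat_lit 530) (nat_lit 494))))))) (.a s7268 (.a s3261 (.a (.p (nat_lit 496) (.a (.f (nat_lit 591) (nat_lit 623) (nat_lit 5615) (.f (nat_lit 561) (nat_lit 563) (nat_lit 1583) (.d (nat_lit 590) (nat_lit 559) (nat_lit 1582) (nat_lit 589) (nat_lit 2605)))) (.f (nat_lit 463) (nat_lit 495) (nat_lit 7631) (.f (nat_lit 464) (nat_lit 431) (nat_lit 7599) (.d (nat_lit 465) (nat_lit 433) (nat_lit 6576) (nat_lit 497) (nat_lit 6608)))))) (.a s3374 (.p (nat_lit 496) (.a (.f (nat_lit 591) (nat_lit 623) (nat_lit 5615) (.f (nat_lit 561) (nat_lit 563) (nat_lit 1583) (.d (nat_lit 464) (nat_lit 559) (nat_lit 5583) (nat_lit 593) (nat_lit 4560)))) (.a (.f (nat_lit 497) (nat_lit 465) (nat_lit 6608) (.f (nat_lit 624) (nat_lit 529) (nat_lit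 6640) (.d (nat_lit 625) (nat_lit 593) (nat_lit 4592) (nat_lit 657) (nat_lit 4624)))) (.f (nat_lit 591) (nat_lit 623) (nat_lit 5615) (.f (nat_lit 561) (nat_lit 563) (nat_lit 1583) (.d (nat_lit 590) (nat_lit 559) (nat_lit 1582) (nat_lit 589) (nat_lit 2605)))))))))))))) (.a s10041 (.a s8127 (.a s10042 s10052)))))))))))))))
noncomputable def s10641 : Cert := .r (nat_lit 878694100496718043517683302282418331810487718418343092402491322775749527474899974671687634004666183037093927858109549828751614463963730408009475621262727315456) (.p (nat_lit 560) (.a (.p (nat_lit 562) (.a s3059 (.a s3192 (.a s3224 (.a (.p (nat_lit 592) (.a (.p (nat_lit 496) (.a (.f (nat_lit 495) (nat_lit 463) (nat_lit 7631) (.f (nat_lit 624) (nat_lit 527) (nat_lit 7663) (.d (nat_lit 497) (nat_lit 465) (nat_lit 6608) (nat_lit 529) (nat_lit 6640)))) (.f (nat_lit 591) (nat_lit 623) (nat_lit 5615) (.f (nat_lit 593) (nat_lit 625) (nat_lit 4592) (.f (nat_lit 559) (nat_lit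 464) (nat_lit 5583) (.d (nat_lit 558) (nat_lit 557) (nat_lit 557) (nat_lit 594) (nat_lit 3630))))))) (.a s3235 (.a (.p (nat_lit 496) (.a (.f (nat_lit 591) (nat_lit 623) (nat_lit 5615) (.f (nat_lit 593) (nat_lit 625) (nat_lit 4592) (.f (nat_lit 559) (nat_lit 464) (nat_lit 5583) (.d (nat_lit 558) (nat_lit 557) (nat_lit 557) (nat_lit 594) (nat_lit 3630))))) (.f (nat_lit 497) (nat_lit 465) (nat_lit 6608) (.f (nat_lit 495) (nat_lit 463) (nat_lit 7631) (.f (nat_lit 529) (nat_lit 624) (nat_lit 6640) (.d (nat_lit 494) (nat_lit 493) (nat_lit 493) (nat_lit 530) (nat_lit 494))))))) (.a (.p (nat_lit 496) (.a (.f (nat_lit 591) (nat_lit 623) (nat_lit 5615) (.f (nat_lit 593) (nat_lit 625) (nat_lit 4592) (.f (nat_lit 559) (nat_lit 464) (nat_lit 5583) (.d (nat_lit 558) (nat_lit 557) (nat_lit 557) (nat_lit 594) (nat_lit 3630))))) (.a (.f (nat_lit 495) (nat_lit 463) (nat_lit 7631) (.f (nat_lit 624) (nat_lit 527) (nat_lit 7663) (.d (nat_lit 623) (nat_lit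 591) (nat_lit 5615) (nat_lit 655) (nat_lit 5647)))) (.f (nat_lit 463) (nat_lit 495) (nat_lit 7631) (.f (nat_lit 464) (nat_lit 431) (nat_lit 7599) (.d (nat_lit 465) (nat_lit 433) (nat_lit 6576) (nat_lit 497) (nat_lit 6608))))))) (.a (.p (nat_lit 496) (.a (.f (nat_lit 591) (nat_lit 623) (nat_lit 5615) (.f (nat_lit 593) (nat_lit 625) (nat_lit 4592) (.f (nat_lit 559) (nat_lit 464) (nat_lit 5583) (.d (nat_lit 558) (nat_lit 557) (nat_lit 557) (nat_lit 594) (nat_lit 3630))))) (.a (.f (nat_lit 495) (nat_lit 463) (nat_lit 7631) (.f (nat_lit 624) (nat_lit 527) (nat_lit 7663) (.d (nat_lit 623) (nat_lit 591) (nat_lit 5615) (nat_lit 655) (nat_lit 5647)))) (.f (nat_lit 495) (nat_lit 463) (nat_lit 7631) (.f (nat_lit 624) (nat_lit 527) (nat_lit 7663) (.d (nat_lit 625) (nat_lit 593) (nat_lit 4592) (nat_lit 657) (nat_lit 4624))))))) (.a (.p (nat_lit 496) (.a (.f (nat_lit 591) (nat_lit 623) (nat_lit 5615) (.f (nat_lit 593) (nat_lit 625) (nat_lit 4592)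 (.f (nat_lit 559) (nat_lit 464) (nat_lit 5583) (.d (nat_lit 558) (nat_lit 557) (nat_lit 557) (nat_lit 594) (nat_lit 3630))))) (.a (.f (nat_lit 591) (nat_lit 623) (nat_lit 5615) (.f (nat_lit 593) (nat_lit 625) (nat_lit 4592) (.f (nat_lit 594) (nat_lit 563) (nat_lit 2607) (.d (nat_lit 559) (nat_lit 558) (nat_lit 3630) (nat_lit 595) (nat_lit 3631))))) (.f (nat_lit 463) (nat_lit 495) (nat_lit 7631) (.f (nat_lit 464) (nat_lit 431) (nat_lit 7599) (.d (nat_lit 465) (nat_lit 433) (nat_lit 6576) (nat_lit 497) (nat_lit 6608))))))) (.a s3256 (.a (.p (nat_lit 496) (.a (.f (nat_lit 591) (nat_lit 623) (nat_lit 5615) (.f (nat_lit 593) (nat_lit 625) (nat_lit 4592) (.f (nat_lit 559) (nat_lit 464) (nat_lit 5583) (.d (nat_lit 558) (nat_lit 557) (nat_lit 557) (nat_lit 594) (nat_lit 3630))))) (.a (.f (nat_lit 591) (nat_lit 623) (nat_lit 5615) (.f (nat_lit 593) (nat_lit 625) (nat_lit 4592) (.f (nat_lit 594) (nat_lit 563) (nat_lit 2607) (.d (nat_lit 559)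 (nat_lit 558) (nat_lit 3630) (nat_lit 595) (nat_lit 3631))))) (.a (.f (nat_lit 497) (nat_lit 465) (nat_lit 6608) (.f (nat_lit 624) (nat_lit 529) (nat_lit 6640) (.d (nat_lit 623) (nat_lit 591) (nat_lit 5615) (nat_lit 655) (nat_lit 5647)))) (.f (nat_lit 497) (nat_lit 465) (nat_lit 6608) (.f (nat_lit 624) (nat_lit 529) (nat_lit 6640) (.d (nat_lit 625) (nat_lit 593) (nat_lit 4592) (nat_lit 657) (nat_lit 4624)))))))) s3261))))))))) (.a s3276 (.a (.p (nat_lit 496) (.a s3206 (.a (.p (nat_lit 592) (.a (.f (nat_lit 591) (nat_lit 623) (nat_lit 5615) (.f (nat_lit 593) (nat_lit 625) (nat_lit 4592) (.f (nat_lit 559) (nat_lit 464) (nat_lit 5583) (.d (nat_lit 558) (nat_lit 557) (nat_lit 557) (nat_lit 594) (nat_lit 3630))))) (.a (.f (nat_lit 495) (nat_lit 463) (nat_lit 7631) (.f (nat_lit 624) (nat_lit 527) (nat_lit 7663) (.d (nat_lit 623) (nat_lit 591) (nat_lit 5615) (nat_lit 655) (nat_lit 5647)))) (.f (nat_lit 495) (nat_lit 463) (nat_lit 7631)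 (.f (nat_lit 624) (nat_lit 527) (nat_lit 7663) (.d (nat_lit 625) (nat_lit 593) (nat_lit 4592) (nat_lit 657) (nat_lit 4624))))))) (.a (.p (nat_lit 561) (.a (.f (nat_lit 464) (nat_lit 593) (nat_lit 4560) (.f (nat_lit 431) (nat_lit 463) (nat_lit 7599) (.f (nat_lit 432) (nat_lit 399) (nat_lit 7567) (.d (nat_lit 433) (nat_lit 401) (nat_lit 6544) (nat_lit 465) (nat_lit 6576))))) (.f (nat_lit 563) (nat_lit 527) (nat_lit 3599) (.f (nat_lit 595) (nat_lit 596) (nat_lit 560) (.f (nat_lit 531) (nat_lit 532) (nat_lit 2576) (.d (nat_lit 559) (nat_lit 530) (nat_lit 2575) (nat_lit 594) (nat_lit 559))))))) (.a (.p (nat_lit 592) (.a (.f (nat_lit 591) (nat_lit 623) (nat_lit 5615) (.f (nat_lit 561) (nat_lit 563) (nat_lit 1583) (.d (nat_lit 590) (nat_lit 559) (nat_lit 1582) (nat_lit 589) (nat_lit 2605)))) (.a (.f (nat_lit 495) (nat_lit 463) (nat_lit 7631) (.f (nat_lit 624) (nat_lit 527) (nat_lit 7663) (.d (nat_lit 623) (nat_lit 591) (nat_lit 5615) (nat_lit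 655) (nat_lit 5647)))) (.f (nat_lit 495) (nat_lit 463) (nat_lit 7631) (.f (nat_lit 624) (nat_lit 527) (nat_lit 7663) (.d (nat_lit 625) (nat_lit 593) (nat_lit 4592) (nat_lit 657) (nat_lit 4624))))))) (.a s3290 (.p (nat_lit 592) (.a (.f (nat_lit 593) (nat_lit 625) (nat_lit 4592) (.f (nat_lit 561) (nat_lit 464) (nat_lit 4560) (.d (nat_lit 563) (nat_lit 564) (nat_lit 1584) (nat_lit 591) (nat_lit 1583)))) (.a (.f (nat_lit 495) (nat_lit 463) (nat_lit 7631) (.f (nat_lit 624) (nat_lit 527) (nat_lit 7663) (.d (nat_lit 623) (nat_lit 591) (nat_lit 5615) (nat_lit 655) (nat_lit 5647)))) (.f (nat_lit 593) (nat_lit 625) (nat_lit 4592) (.f (nat_lit 561) (nat_lit 464) (nat_lit 4560) (.d (nat_lit 563) (nat_lit 527) (nat_lit 3599) (nat_lit 564) (nat_lit 1584))))))))))))) (.a s3327 (.a (.p (nat_lit 496) (.a s3193 (.a (.p (nat_lit 592) (.a (.f (nat_lit 591) (nat_lit 623) (nat_lit 5615) (.f (nat_lit 593) (nat_lit 625) (nat_lit 4592) (.f (nat_lit 559)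 (nat_lit 464) (nat_lit 5583) (.d (nat_lit 558) (nat_lit 557) (nat_lit 557) (nat_lit 594) (nat_lit 3630))))) (.a (.f (nat_lit 495) (nat_lit 463) (nat_lit 7631) (.f (nat_lit 624) (nat_lit 527) (nat_lit 7663) (.d (nat_lit 623) (nat_lit 591) (nat_lit 5615) (nat_lit 655) (nat_lit 5647)))) (.f (nat_lit 463) (nat_lit 495) (nat_lit 7631) (.f (nat_lit 464) (nat_lit 431) (nat_lit 7599) (.d (nat_lit 465) (nat_lit 433) (nat_lit 6576) (nat_lit 497) (nat_lit 6608))))))) (.a s3206 (.a (.p (nat_lit 561) (.a (.f (nat_lit 464) (nat_lit 593) (nat_lit 4560) (.f (nat_lit 431) (nat_lit 463) (nat_lit 7599) (.f (nat_lit 432) (nat_lit 399) (nat_lit 7567) (.d (nat_lit 433) (nat_lit 401) (nat_lit 6544) (nat_lit 465) (nat_lit 6576))))) (.f (nat_lit 563) (nat_lit 527) (nat_lit 3599) (.f (nat_lit 564) (nat_lit 529) (nat_lit 3600) (.d (nat_lit 532) (nat_lit 531) (nat_lit 2576) (nat_lit 533) (nat_lit 2577)))))) (.a (.p (nat_lit 592) (.a (.f (nat_lit 591) (nat_lit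 623) (nat_lit 5615) (.f (nat_lit 561) (nat_lit 563) (nat_lit 1583) (.d (nat_lit 590) (nat_lit 559) (nat_lit 1582) (nat_lit 589) (nat_lit 2605)))) (.a (.f (nat_lit 495) (nat_lit 463) (nat_lit 7631) (.f (nat_lit 624) (nat_lit 527) (nat_lit 7663) (.d (nat_lit 623) (nat_lit 591) (nat_lit 5615) (nat_lit 655) (nat_lit 5647)))) (.f (nat_lit 495) (nat_lit 463) (nat_lit 7631) (.f (nat_lit 624) (nat_lit 527) (nat_lit 7663) (.d (nat_lit 625) (nat_lit 593) (nat_lit 4592) (nat_lit 657) (nat_lit 4624))))))) (.p (nat_lit 592) (.a (.f (nat_lit 591) (nat_lit 623) (nat_lit 5615) (.f (nat_lit 561) (nat_lit 563) (nat_lit 1583) (.d (nat_lit 590) (nat_lit 559) (nat_lit 1582) (nat_lit 589) (nat_lit 2605)))) (.a (.f (nat_lit 495) (nat_lit 463) (nat_lit 7631) (.f (nat_lit 624) (nat_lit 527) (nat_lit 7663) (.d (nat_lit 623) (nat_lit 591) (nat_lit 5615) (nat_lit 655) (nat_lit 5647)))) (.f (nat_lit 463) (nat_lit 495) (nat_lit 7631) (.f (nat_lit 464) (nat_lit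 431) (nat_lit 7599) (.d (nat_lit 465) (nat_lit 433) (nat_lit 6576) (nat_lit 497) (nat_lit 6608))))))))))))) (.a (.p (nat_lit 592) (.a s3034 (.a (.p (nat_lit 496) (.a (.f (nat_lit 591) (nat_lit 623) (nat_lit 5615) (.f (nat_lit 561) (nat_lit 563) (nat_lit 1583) (.d (nat_lit 590) (nat_lit 559) (nat_lit 1582) (nat_lit 589) (nat_lit 2605)))) (.f (nat_lit 497) (nat_lit 465) (nat_lit 6608) (.f (nat_lit 495) (nat_lit 463) (nat_lit 7631) (.f (nat_lit 529) (nat_lit 624) (nat_lit 6640) (.d (nat_lit 494) (nat_lit 493) (nat_lit 493) (nat_lit 530) (nat_lit 494))))))) (.a s3235 (.a (.p (nat_lit 496) (.a (.f (nat_lit 591) (nat_lit 623) (nat_lit 5615) (.f (nat_lit 561) (nat_lit 563) (nat_lit 1583) (.d (nat_lit 590) (nat_lit 559) (nat_lit 1582) (nat_lit 589) (nat_lit 2605)))) (.a (.f (nat_lit 495) (nat_lit 463) (nat_lit 7631) (.f (nat_lit 624) (nat_lit 527) (nat_lit 7663) (.d (nat_lit 623) (nat_lit 591) (nat_lit 5615) (nat_lit 655) (nat_lit 5647))))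 (.f (nat_lit 463) (nat_lit 495) (nat_lit 7631) (.f (nat_lit 464) (nat_lit 431) (nat_lit 7599) (.d (nat_lit 465) (nat_lit 433) (nat_lit 6576) (nat_lit 497) (nat_lit 6608))))))) (.a (.p (nat_lit 496) (.a (.f (nat_lit 591) (nat_lit 623) (nat_lit 5615) (.f (nat_lit 561) (nat_lit 563) (nat_lit 1583) (.d (nat_lit 590) (nat_lit 559) (nat_lit 1582) (nat_lit 589) (nat_lit 2605)))) (.a (.f (nat_lit 495) (nat_lit 463) (nat_lit 7631) (.f (nat_lit 624) (nat_lit 527) (nat_lit 7663) (.d (nat_lit 623) (nat_lit 591) (nat_lit 5615) (nat_lit 655) (nat_lit 5647)))) (.a (.f (nat_lit 495) (nat_lit 463) (nat_lit 7631) (.f (nat_lit 624) (nat_lit 527) (nat_lit 7663) (.f (nat_lit 657) (nat_lit 625) (nat_lit 4624) (.f (nat_lit 656) (nat_lit 689) (nat_lit 4656) (.f (nat_lit 561) (nat_lit 529) (nat_lit 6672) (.f (nat_lit 591) (nat_lit 563) (nat_lit 1583) (.d (nat_lit 559) (nat_lit 464) (nat_lit 5583) (nat_lit 590) (nat_lit 1582)))))))) (.f (nat_lit 495) (nat_lit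 463) (nat_lit 7631) (.f (nat_lit 624) (nat_lit 527) (nat_lit 7663) (.f (nat_lit 655) (nat_lit 623) (nat_lit 5647) (.f (nat_lit 656) (nat_lit 687) (nat_lit 5679) (.d (nat_lit 657) (nat_lit 625) (nat_lit 4624) (nat_lit 689) (nat_lit 4656)))))))))) (.a (.p (nat_lit 496) (.a (.f (nat_lit 591) (nat_lit 623) (nat_lit 5615) (.f (nat_lit 561) (nat_lit 563) (nat_lit 1583) (.d (nat_lit 590) (nat_lit 559) (nat_lit 1582) (nat_lit 589) (nat_lit 2605)))) (.f (nat_lit 463) (nat_lit 495) (nat_lit 7631) (.f (nat_lit 464) (nat_lit 431) (nat_lit 7599) (.d (nat_lit 465) (nat_lit 433) (nat_lit 6576) (nat_lit 497) (nat_lit 6608)))))) (.a s3256 (.a (.p (nat_lit 496) (.a (.f (nat_lit 591) (nat_lit 623) (nat_lit 5615) (.f (nat_lit 561) (nat_lit 563) (nat_lit 1583) (.d (nat_lit 590) (nat_lit 559) (nat_lit 1582) (nat_lit 589) (nat_lit 2605)))) (.a (.f (nat_lit 497) (nat_lit 465) (nat_lit 6608) (.f (nat_lit 624) (nat_lit 529) (nat_lit 6640) (.d (nat_lit 623)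 (nat_lit 591) (nat_lit 5615) (nat_lit 655) (nat_lit 5647)))) (.a (.f (nat_lit 497) (nat_lit 465) (nat_lit 6608) (.f (nat_lit 624) (nat_lit 529) (nat_lit 6640) (.f (nat_lit 657) (nat_lit 625) (nat_lit 4624) (.f (nat_lit 656) (nat_lit 689) (nat_lit 4656) (.f (nat_lit 559) (nat_lit 527) (nat_lit 7695) (.d (nat_lit 591) (nat_lit 464) (nat_lit 5583) (nat_lit 688) (nat_lit 7727))))))) (.f (nat_lit 497) (nat_lit 465) (nat_lit 6608) (.f (nat_lit 624) (nat_lit 529) (nat_lit 6640) (.f (nat_lit 655) (nat_lit 623) (nat_lit 5647) (.f (nat_lit 656) (nat_lit 687) (nat_lit 5679) (.d (nat_lit 657) (nat_lit 625) (nat_lit 4624) (nat_lit 689) (nat_lit 4656)))))))))) (.p (nat_lit 496) (.a (.f (nat_lit 495) (nat_lit 463) (nat_lit 7631) (.f (nat_lit 624) (nat_lit 527) (nat_lit 7663) (.d (nat_lit 497) (nat_lit 465) (nat_lit 6608) (nat_lit 529) (nat_lit 6640)))) (.a (.f (nat_lit 497) (nat_lit 465) (nat_lit 6608) (.f (nat_lit 495) (nat_lit 463) (nat_lit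 7631) (.f (nat_lit 529) (nat_lit 624) (nat_lit 6640) (.d (nat_lit 494) (nat_lit 493) (nat_lit 493) (nat_lit 530) (nat_lit 494))))) (.a (.f (nat_lit 463) (nat_lit 495) (nat_lit 7631) (.f (nat_lit 464) (nat_lit 431) (nat_lit 7599) (.d (nat_lit 465) (nat_lit 433) (nat_lit 6576) (nat_lit 497) (nat_lit 6608)))) (.a (.f (nat_lit 495) (nat_lit 463) (nat_lit 7631) (.f (nat_lit 624) (nat_lit 527) (nat_lit 7663) (.f (nat_lit 657) (nat_lit 625) (nat_lit 4624) (.f (nat_lit 656) (nat_lit 689) (nat_lit 4656) (.f (nat_lit 561) (nat_lit 529) (nat_lit 6672) (.f (nat_lit 591) (nat_lit 563) (nat_lit 1583) (.d (nat_lit 559) (nat_lit 464) (nat_lit 5583) (nat_lit 590) (nat_lit 1582)))))))) (.f (nat_lit 497) (nat_lit 465) (nat_lit 6608) (.f (nat_lit 624) (nat_lit 529) (nat_lit 6640) (.f (nat_lit 657) (nat_lit 625) (nat_lit 4624) (.f (nat_lit 656) (nat_lit 689) (nat_lit 4656) (.f (nat_lit 559) (nat_lit 527) (nat_lit 7695) (.d (nat_lit 591) (nat_lit 464)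 (nat_lit 5583) (nat_lit 688) (nat_lit 7727))))))))))))))))))))) (.a s3361 (.a (.p (nat_lit 592) (.a (.p (nat_lit 496) (.a (.f (nat_lit 495) (nat_lit 463) (nat_lit 7631) (.f (nat_lit 624) (nat_lit 527) (nat_lit 7663) (.d (nat_lit 497) (nat_lit 465) (nat_lit 6608) (nat_lit 529) (nat_lit 6640)))) (.f (nat_lit 593) (nat_lit 625) (nat_lit 4592) (.f (nat_lit 561) (nat_lit 464) (nat_lit 4560) (.d (nat_lit 563) (nat_lit 564) (nat_lit 1584) (nat_lit 591) (nat_lit 1583)))))) (.a s3362 (.a (.p (nat_lit 496) (.a (.f (nat_lit 593) (nat_lit 625) (nat_lit 4592) (.f (nat_lit 561) (nat_lit 464) (nat_lit 4560) (.d (nat_lit 563) (nat_lit 564) (nat_lit 1584) (nat_lit 591) (nat_lit 1583)))) (.f (nat_lit 497) (nat_lit 465) (nat_lit 6608) (.f (nat_lit 495) (nat_lit 463) (nat_lit 7631) (.f (nat_lit 529) (nat_lit 624) (nat_lit 6640) (.d (nat_lit 494) (nat_lit 493) (nat_lit 493) (nat_lit 530) (nat_lit 494))))))) (.a s3256 (.a (.p (nat_lit 496) (.a (.f (nat_lit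 593) (nat_lit 625) (nat_lit 4592) (.f (nat_lit 561) (nat_lit 464) (nat_lit 4560) (.d (nat_lit 563) (nat_lit 564) (nat_lit 1584) (nat_lit 591) (nat_lit 1583)))) (.a (.f (nat_lit 495) (nat_lit 463) (nat_lit 7631) (.f (nat_lit 624) (nat_lit 527) (nat_lit 7663) (.d (nat_lit 623) (nat_lit 591) (nat_lit 5615) (nat_lit 655) (nat_lit 5647)))) (.f (nat_lit 593) (nat_lit 625) (nat_lit 4592) (.f (nat_lit 561) (nat_lit 464) (nat_lit 4560) (.d (nat_lit 563) (nat_lit 527) (nat_lit 3599) (nat_lit 564) (nat_lit 1584))))))) (.a (.p (nat_lit 496) (.a (.f (nat_lit 593) (nat_lit 625) (nat_lit 4592) (.f (nat_lit 561) (nat_lit 464) (nat_lit 4560) (.d (nat_lit 563) (nat_lit 564) (nat_lit 1584) (nat_lit 591) (nat_lit 1583)))) (.a (.f (nat_lit 463) (nat_lit 495) (nat_lit 7631) (.f (nat_lit 464) (nat_lit 431) (nat_lit 7599) (.d (nat_lit 465) (nat_lit 433) (nat_lit 6576) (nat_lit 497) (nat_lit 6608)))) (.f (nat_lit 591) (nat_lit 623) (nat_lit 5615) (.f (nat_lit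 593) (nat_lit 625) (nat_lit 4592) (.f (nat_lit 590) (nat_lit 561) (nat_lit 2606) (.f (nat_lit 557) (nat_lit 558) (nat_lit 3629) (.f (nat_lit 589) (nat_lit 556) (nat_lit 3628) (.d (nat_lit 621) (nat_lit 620) (nat_lit 1612) (nat_lit 622) (nat_lit 1613)))))))))) (.a (.p (nat_lit 496) (.a (.f (nat_lit 593) (nat_lit 625) (nat_lit 4592) (.f (nat_lit 561) (nat_lit 464) (nat_lit 4560) (.d (nat_lit 563) (nat_lit 564) (nat_lit 1584) (nat_lit 591) (nat_lit 1583)))) (.a (.f (nat_lit 497) (nat_lit 465) (nat_lit 6608) (.f (nat_lit 624) (nat_lit 529) (nat_lit 6640) (.d (nat_lit 623) (nat_lit 591) (nat_lit 5615) (nat_lit 655) (nat_lit 5647)))) (.f (nat_lit 593) (nat_lit 625) (nat_lit 4592) (.f (nat_lit 561) (nat_lit 464) (nat_lit 4560) (.d (nat_lit 563) (nat_lit 527) (nat_lit 3599) (nat_lit 564) (nat_lit 1584))))))) s3261)))))))) (.a s3375 (.a s3391 s3412)))))))))))))) (.a s4913 (.a (.p (nat_lit 592) (.a (.p (nat_lit 496) (.a (.f (nat_lit 593)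 (nat_lit 625) (nat_lit 4592) (.f (nat_lit 591) (nat_lit 623) (nat_lit 5615) (.d (nat_lit 464) (nat_lit 559) (nat_lit 5583) (nat_lit 561) (nat_lit 4560)))) (.a (.f (nat_lit 465) (nat_lit 497) (nat_lit 6608) (.f (nat_lit 464) (nat_lit 433) (nat_lit 6576) (.d (nat_lit 463) (nat_lit 431) (nat_lit 7599) (nat_lit 495) (nat_lit 7631)))) (.f (nat_lit 497) (nat_lit 465) (nat_lit 6608) (.f (nat_lit 529) (nat_lit 624) (nat_lit 6640) (.f (nat_lit 495) (nat_lit 463) (nat_lit 7631) (.d (nat_lit 494) (nat_lit 493) (nat_lit 493) (nat_lit 530) (nat_lit 494)))))))) (.a (.p (nat_lit 594) (.a (.p (nat_lit 624) (.a (.f (nat_lit 623) (nat_lit 655) (nat_lit 5647) (.f (nat_lit 593) (nat_lit 595) (nat_lit 1615) (.d (nat_lit 622) (nat_lit 591) (nat_lit 1614) (nat_lit 621) (nat_lit 2637)))) (.a (.f (nat_lit 529) (nat_lit 497) (nat_lit 6640) (.f (nat_lit 656) (nat_lit 561) (nat_lit 6672) (.d (nat_lit 655) (nat_lit 623) (nat_lit 5647) (nat_lit 687) (nat_lit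 5679)))) (.f (nat_lit 529) (nat_lit 497) (nat_lit 6640) (.f (nat_lit 656) (nat_lit 561) (nat_lit 6672) (.d (nat_lit 657) (nat_lit 625) (nat_lit 4624) (nat_lit 689) (nat_lit 4656))))))) (.a s4948 (.a (.p (nat_lit 624) (.a (.f (nat_lit 529) (nat_lit 497) (nat_lit 6640) (.f (nat_lit 656) (nat_lit 561) (nat_lit 6672) (.d (nat_lit 655) (nat_lit 623) (nat_lit 5647) (nat_lit 687) (nat_lit 5679)))) (.a (.f (nat_lit 623) (nat_lit 655) (nat_lit 5647) (.f (nat_lit 625) (nat_lit 657) (nat_lit 4624) (.f (nat_lit 626) (nat_lit 595) (nat_lit 2639) (.d (nat_lit 591) (nat_lit 590) (nat_lit 3662) (nat_lit 627) (nat_lit 3663))))) (.f (nat_lit 529) (nat_lit 497) (nat_lit 6640) (.f (nat_lit 656) (nat_lit 561) (nat_lit 6672) (.d (nat_lit 657) (nat_lit 625) (nat_lit 4624) (nat_lit 689) (nat_lit 4656))))))) (.a s4486 (.a s4962 (.a (.p (nat_lit 529) (.a (.f (nat_lit 497) (nat_lit 624) (nat_lit 6640) (.d (nat_lit 465) (nat_lit 433) (nat_lit 5552) (nat_lit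 561) (nat_lit 5584))) (.a (.p (nat_lit 530) (.a (.f (nat_lit 531) (nat_lit 559) (nat_lit 1551) (.f (nat_lit 500) (nat_lit 499) (nat_lit 2544) (.f (nat_lit 532) (nat_lit 501) (nat_lit 2545) (.d (nat_lit 564) (nat_lit 563) (nat_lit 528) (nat_lit 565) (nat_lit 529))))) (.f (nat_lit 497) (nat_lit 624) (nat_lit 6640) (.f (nat_lit 562) (nat_lit 626) (nat_lit 7665) (.d (nat_lit 465) (nat_lit 433) (nat_lit 4529) (nat_lit 498) (nat_lit 7633)))))) (.p (nat_lit 559) (.a (.f (nat_lit 558) (nat_lit 557) (nat_lit 2573) (.d (nat_lit 530) (nat_lit 531) (nat_lit 1551) (nat_lit 561) (nat_lit 2574))) (.a (.f (nat_lit 593) (nat_lit 595) (nat_lit 3631) (.d (nat_lit 558) (nat_lit 557) (nat_lit 557) (nat_lit 591) (nat_lit 3630))) (.f (nat_lit 595) (nat_lit 593) (nat_lit 3631) (.f (nat_lit 562) (nat_lit 561) (nat_lit 559) (.f (nat_lit 530) (nat_lit 531) (nat_lit 1551) (.f (nat_lit 627) (nat_lit 498) (nat_lit 4594) (.d (nat_lit 659) (nat_lit 563) (nat_lit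 7698) (nat_lit 626) (nat_lit 4626)))))))))))) (.a (.p (nat_lit 624) (.a (.f (nat_lit 529) (nat_lit 497) (nat_lit 6640) (.f (nat_lit 656) (nat_lit 561) (nat_lit 6672) (.d (nat_lit 655) (nat_lit 623) (nat_lit 5647) (nat_lit 687) (nat_lit 5679)))) (.a (.f (nat_lit 623) (nat_lit 655) (nat_lit 5647) (.f (nat_lit 593) (nat_lit 595) (nat_lit 1615) (.d (nat_lit 622) (nat_lit 621) (nat_lit 2637) (nat_lit 625) (nat_lit 2638)))) (.f (nat_lit 529) (nat_lit 497) (nat_lit 6640) (.f (nat_lit 656) (nat_lit 561) (nat_lit 6672) (.d (nat_lit 657) (nat_lit 625) (nat_lit 4624) (nat_lit 689) (nat_lit 4656))))))) s4985)))))))) (.a s4991 (.a (.p (nat_lit 496) (.a (.f (nat_lit 593) (nat_lit 625) (nat_lit 4592) (.f (nat_lit 591) (nat_lit 623) (nat_lit 5615) (.d (nat_lit 464) (nat_lit 559) (nat_lit 5583) (nat_lit 561) (nat_lit 4560)))) (.a (.f (nat_lit 465) (nat_lit 497) (nat_lit 6608) (.f (nat_lit 464) (nat_lit 433) (nat_lit 6576) (.d (nat_lit 463) (nat_lit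 431) (nat_lit 7599) (nat_lit 495) (nat_lit 7631)))) (.f (nat_lit 623) (nat_lit 591) (nat_lit 5615) (.f (nat_lit 624) (nat_lit 655) (nat_lit 5647) (.d (nat_lit 625) (nat_lit 593) (nat_lit 4592) (nat_lit 657) (nat_lit 4624))))))) (.a s5002 (.a s5006 (.a (.p (nat_lit 496) (.a (.f (nat_lit 593) (nat_lit 625) (nat_lit 4592) (.f (nat_lit 591) (nat_lit 623) (nat_lit 5615) (.d (nat_lit 464) (nat_lit 559) (nat_lit 5583) (nat_lit 561) (nat_lit 4560)))) (.a (.f (nat_lit 465) (nat_lit 497) (nat_lit 6608) (.f (nat_lit 464) (nat_lit 433) (nat_lit 6576) (.d (nat_lit 463) (nat_lit 431) (nat_lit 7599) (nat_lit 495) (nat_lit 7631)))) (.p (nat_lit 530) (.a (.f (nat_lit 495) (nat_lit 463) (nat_lit 7631) (.f (nat_lit 529) (nat_lit 531) (nat_lit 3567) (.d (nat_lit 494) (nat_lit 493) (nat_lit 493) (nat_lit 497) (nat_lit 494)))) (.a (.f (nat_lit 591) (nat_lit 623) (nat_lit 5615) (.f (nat_lit 593) (nat_lit 625) (nat_lit 4592) (.f (nat_lit 495) (nat_lit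 463) (nat_lit 7631) (.f (nat_lit 497) (nat_lit 465) (nat_lit 6608) (.f (nat_lit 498) (nat_lit 531) (nat_lit 495) (.f (nat_lit 466) (nat_lit 467) (nat_lit 2511) (.f (nat_lit 562) (nat_lit 561) (nat_lit 5585) (.d (nat_lit 563) (nat_lit 594) (nat_lit 2607) (nat_lit 595) (nat_lit 4562))))))))) (.a (.p (nat_lit 562) (.a (.f (nat_lit 495) (nat_lit 463) (nat_lit 7631) (.f (nat_lit 531) (nat_lit 529) (nat_lit 3567) (.f (nat_lit 561) (nat_lit 559) (nat_lit 2575) (.d (nat_lit 532) (nat_lit 533) (nat_lit 1553) (nat_lit 563) (nat_lit 2576))))) (.a (.f (nat_lit 593) (nat_lit 625) (nat_lit 4592) (.f (nat_lit 591) (nat_lit 623) (nat_lit 5615) (.f (nat_lit 594) (nat_lit 563) (nat_lit 2607) (.d (nat_lit 559) (nat_lit 558) (nat_lit 3630) (nat_lit 595) (nat_lit 3631))))) (.a (.f (nat_lit 593) (nat_lit 625) (nat_lit 4592) (.f (nat_lit 591) (nat_lit 623) (nat_lit 5615) (.f (nat_lit 561) (nat_lit 590) (nat_lit 2606) (.f (nat_lit 559) (nat_lit 531) (nat_lit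 2575) (.d (nat_lit 558) (nat_lit 529) (nat_lit 2574) (nat_lit 557) (nat_lit 557)))))) (.f (nat_lit 593) (nat_lit 625) (nat_lit 4592) (.f (nat_lit 591) (nat_lit 623) (nat_lit 5615) (.d (nat_lit 561) (nat_lit 563) (nat_lit 1583) (nat_lit 590) (nat_lit 2606)))))))) (.a (.p (nat_lit 562) (.a (.f (nat_lit 593) (nat_lit 625) (nat_lit 4592) (.f (nat_lit 497) (nat_lit 465) (nat_lit 6608) (.f (nat_lit 495) (nat_lit 463) (nat_lit 7631) (.f (nat_lit 529) (nat_lit 494) (nat_lit 494) (.f (nat_lit 594) (nat_lit 626) (nat_lit 7665) (.f (nat_lit 595) (nat_lit 559) (nat_lit 3631) (.d (nat_lit 563) (nat_lit 564) (nat_lit 2608) (nat_lit 591) (nat_lit 2607)))))))) (.a (.f (nat_lit 593) (nat_lit 625) (nat_lit 4592) (.f (nat_lit 591) (nat_lit 623) (nat_lit 5615) (.f (nat_lit 594) (nat_lit 563) (nat_lit 2607) (.d (nat_lit 559) (nat_lit 558) (nat_lit 3630) (nat_lit 595) (nat_lit 3631))))) (.a (.f (nat_lit 497) (nat_lit 465) (nat_lit 6608) (.f (nat_lit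 495) (nat_lit 463) (nat_lit 7631) (.f (nat_lit 529) (nat_lit 494) (nat_lit 494) (.f (nat_lit 591) (nat_lit 623) (nat_lit 5615) (.f (nat_lit 561) (nat_lit 563) (nat_lit 1583) (.d (nat_lit 559) (nat_lit 558) (nat_lit 2574) (nat_lit 590) (nat_lit 1582))))))) (.a (.f (nat_lit 593) (nat_lit 625) (nat_lit 4592) (.f (nat_lit 591) (nat_lit 623) (nat_lit 5615) (.f (nat_lit 590) (nat_lit 561) (nat_lit 2606) (.f (nat_lit 557) (nat_lit 558) (nat_lit 3629) (.f (nat_lit 589) (nat_lit 556) (nat_lit 3628) (.d (nat_lit 621) (nat_lit 620) (nat_lit 1612) (nat_lit 622) (nat_lit 1613))))))) (.f (nat_lit 593) (nat_lit 625) (nat_lit 4592) (.f (nat_lit 497) (nat_lit 465) (nat_lit 6608) (.f (nat_lit 495) (nat_lit 463) (nat_lit 7631) (.f (nat_lit 529) (nat_lit 494) (nat_lit 494) (.f (nat_lit 594) (nat_lit 626) (nat_lit 7665) (.f (nat_lit 595) (nat_lit 559) (nat_lit 3631) (.d (nat_lit 627) (nat_lit 498) (nat_lit 4594) (nat_lit 628) (nat_lit 592)))))))))))))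 (.p (nat_lit 559) (.a (.f (nat_lit 529) (nat_lit 531) (nat_lit 1551) (.d (nat_lit 558) (nat_lit 557) (nat_lit 2573) (nat_lit 561) (nat_lit 2574))) (.a (.f (nat_lit 593) (nat_lit 625) (nat_lit 4592) (.f (nat_lit 591) (nat_lit 623) (nat_lit 5615) (.d (nat_lit 558) (nat_lit 557) (nat_lit 557) (nat_lit 594) (nat_lit 3630)))) (.f (nat_lit 591) (nat_lit 623) (nat_lit 5615) (.f (nat_lit 593) (nat_lit 625) (nat_lit 4592) (.f (nat_lit 594) (nat_lit 595) (nat_lit 3631) (.f (nat_lit 562) (nat_lit 563) (nat_lit 2607) (.d (nat_lit 531) (nat_lit 529) (nat_lit 1551) (nat_lit 561) (nat_lit 2575))))))))))))))))) (.a (.p (nat_lit 496) (.a (.f (nat_lit 465) (nat_lit 497) (nat_lit 6608) (.f (nat_lit 464) (nat_lit 433) (nat_lit 6576) (.d (nat_lit 463) (nat_lit 431) (nat_lit 7599) (nat_lit 495) (nat_lit 7631)))) (.f (nat_lit 623) (nat_lit 591) (nat_lit 5615) (.f (nat_lit 624) (nat_lit 655) (nat_lit 5647) (.d (nat_lit 625) (nat_lit 593) (nat_lit 4592)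 (nat_lit 657) (nat_lit 4624)))))) s5079))))))))) (.a (.p (nat_lit 592) (.a s4991 (.a (.p (nat_lit 624) (.a (.f (nat_lit 527) (nat_lit 495) (nat_lit 7663) (.f (nat_lit 656) (nat_lit 559) (nat_lit 7695) (.d (nat_lit 655) (nat_lit 623) (nat_lit 5647) (nat_lit 687) (nat_lit 5679)))) (.a (.f (nat_lit 655) (nat_lit 623) (nat_lit 5647) (.f (nat_lit 656) (nat_lit 687) (nat_lit 5679) (.d (nat_lit 657) (nat_lit 625) (nat_lit 4624) (nat_lit 689) (nat_lit 4656)))) (.a (.f (nat_lit 527) (nat_lit 495) (nat_lit 7663) (.f (nat_lit 656) (nat_lit 559) (nat_lit 7695) (.d (nat_lit 657) (nat_lit 625) (nat_lit 4624) (nat_lit 689) (nat_lit 4656)))) (.p (nat_lit 594) (.a (.f (nat_lit 623) (nat_lit 655) (nat_lit 5647) (.f (nat_lit 593) (nat_lit 595) (nat_lit 1615) (.d (nat_lit 622) (nat_lit 591) (nat_lit 1614) (nat_lit 621) (nat_lit 2637)))) (.a (.f (nat_lit 623) (nat_lit 655) (nat_lit 5647) (.f (nat_lit 625) (nat_lit 657) (nat_lit 4624) (.f (nat_lit 626)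 (nat_lit 595) (nat_lit 2639) (.d (nat_lit 591) (nat_lit 590) (nat_lit 3662) (nat_lit 627) (nat_lit 3663))))) (.a (.p (nat_lit 559) (.a (.f (nat_lit 593) (nat_lit 595) (nat_lit 3631) (.d (nat_lit 558) (nat_lit 557) (nat_lit 557) (nat_lit 591) (nat_lit 3630))) (.a (.f (nat_lit 529) (nat_lit 497) (nat_lit 6640) (.f (nat_lit 527) (nat_lit 495) (nat_lit 7663) (.d (nat_lit 530) (nat_lit 531) (nat_lit 1551) (nat_lit 558) (nat_lit 1550)))) (.f (nat_lit 593) (nat_lit 595) (nat_lit 3631) (.f (nat_lit 625) (nat_lit 657) (nat_lit 4624) (.f (nat_lit 529) (nat_lit 497) (nat_lit 6640) (.f (nat_lit 530) (nat_lit 531) (nat_lit 1551) (.f (nat_lit 562) (nat_lit 498) (nat_lit 5617) (.f (nat_lit 591) (nat_lit 563) (nat_lit 2607) (.d (nat_lit 590) (nat_lit 589) (nat_lit 589) (nat_lit 626) (nat_lit 590))))))))))) (.a (.f (nat_lit 623) (nat_lit 655) (nat_lit 5647) (.f (nat_lit 593) (nat_lit 595) (nat_lit 1615) (.d (nat_lit 622) (nat_lit 621) (nat_lit 2637)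 (nat_lit 625) (nat_lit 2638)))) (.f (nat_lit 623) (nat_lit 655) (nat_lit 5647) (.f (nat_lit 625) (nat_lit 657) (nat_lit 4624) (.f (nat_lit 622) (nat_lit 593) (nat_lit 2638) (.f (nat_lit 589) (nat_lit 590) (nat_lit 3661) (.f (nat_lit 621) (nat_lit 588) (nat_lit 3660) (.d (nat_lit 653) (nat_lit 652) (nat_lit 1644) (nat_lit 654) (nat_lit 1645)))))))))))))))) (.a (.p (nat_lit 496) (.a (.f (nat_lit 465) (nat_lit 497) (nat_lit 6608) (.f (nat_lit 464) (nat_lit 433) (nat_lit 6576) (.d (nat_lit 463) (nat_lit 431) (nat_lit 7599) (nat_lit 495) (nat_lit 7631)))) (.f (nat_lit 623) (nat_lit 591) (nat_lit 5615) (.f (nat_lit 624) (nat_lit 655) (nat_lit 5647) (.d (nat_lit 625) (nat_lit 593) (nat_lit 4592) (nat_lit 657) (nat_lit 4624)))))) (.a s5099 (.a s5006 (.a (.p (nat_lit 496) (.a (.f (nat_lit 465) (nat_lit 497) (nat_lit 6608) (.f (nat_lit 464) (nat_lit 433) (nat_lit 6576) (.d (nat_lit 463) (nat_lit 431) (nat_lit 7599) (nat_lit 495) (nat_lit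 7631)))) (.a (.f (nat_lit 591) (nat_lit 623) (nat_lit 5615) (.f (nat_lit 593) (nat_lit 625) (nat_lit 4592) (.f (nat_lit 559) (nat_lit 464) (nat_lit 5583) (.d (nat_lit 558) (nat_lit 557) (nat_lit 557) (nat_lit 594) (nat_lit 3630))))) (.p (nat_lit 530) (.a (.f (nat_lit 495) (nat_lit 463) (nat_lit 7631) (.f (nat_lit 529) (nat_lit 531) (nat_lit 3567) (.d (nat_lit 494) (nat_lit 493) (nat_lit 493) (nat_lit 497) (nat_lit 494)))) (.a (.f (nat_lit 495) (nat_lit 463) (nat_lit 7631) (.f (nat_lit 497) (nat_lit 465) (nat_lit 6608) (.f (nat_lit 498) (nat_lit 531) (nat_lit 495) (.f (nat_lit 467) (nat_lit 466) (nat_lit 2511) (.d (nat_lit 499) (nat_lit 468) (nat_lit 2512) (nat_lit 527) (nat_lit 1519)))))) (.a (.f (nat_lit 495) (nat_lit 463) (nat_lit 7631) (.f (nat_lit 529) (nat_lit 531) (nat_lit 3567) (.d (nat_lit 494) (nat_lit 493) (nat_lit 493) (nat_lit 527) (nat_lit 3566)))) (.a (.f (nat_lit 495) (nat_lit 463) (nat_lit 7631) (.f (nat_lit 497)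 (nat_lit 465) (nat_lit 6608) (.f (nat_lit 494) (nat_lit 529) (nat_lit 494) (.f (nat_lit 461) (nat_lit 462) (nat_lit 3533) (.f (nat_lit 493) (nat_lit 460) (nat_lit 3532) (.f (nat_lit 492) (nat_lit 527) (nat_lit 492) (.d (nat_lit 524) (nat_lit 523) (nat_lit 1515) (nat_lit 525) (nat_lit 1516)))))))) (.p (nat_lit 559) (.a (.f (nat_lit 593) (nat_lit 625) (nat_lit 4592) (.f (nat_lit 591) (nat_lit 623) (nat_lit 5615) (.d (nat_lit 558) (nat_lit 557) (nat_lit 557) (nat_lit 594) (nat_lit 3630)))) (.a (.f (nat_lit 529) (nat_lit 531) (nat_lit 1551) (.d (nat_lit 558) (nat_lit 527) (nat_lit 1550) (nat_lit 557) (nat_lit 2573))) (.f (nat_lit 591) (nat_lit 623) (nat_lit 5615) (.f (nat_lit 593) (nat_lit 625) (nat_lit 4592) (.f (nat_lit 594) (nat_lit 595) (nat_lit 3631) (.f (nat_lit 529) (nat_lit 531) (nat_lit 1551) (.f (nat_lit 562) (nat_lit 563) (nat_lit 2607) (.d (nat_lit 497) (nat_lit 465) (nat_lit 6608) (nat_lit 626) (nat_lit 7665))))))))))))))))))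 (.a s5129 (.p (nat_lit 496) (.a (.f (nat_lit 465) (nat_lit 497) (nat_lit 6608) (.f (nat_lit 464) (nat_lit 433) (nat_lit 6576) (.d (nat_lit 463) (nat_lit 431) (nat_lit 7599) (nat_lit 495) (nat_lit 7631)))) (.a (.f (nat_lit 495) (nat_lit 463) (nat_lit 7631) (.f (nat_lit 624) (nat_lit 527) (nat_lit 7663) (.d (nat_lit 625) (nat_lit 593) (nat_lit 4592) (nat_lit 657) (nat_lit 4624)))) (.f (nat_lit 497) (nat_lit 465) (nat_lit 6608) (.f (nat_lit 624) (nat_lit 529) (nat_lit 6640) (.d (nat_lit 625) (nat_lit 593) (nat_lit 4592) (nat_lit 657) (nat_lit 4624))))))))))))))) (.a (.p (nat_lit 592) (.a (.p (nat_lit 496) (.a (.f (nat_lit 593) (nat_lit 625) (nat_lit 4592) (.f (nat_lit 591) (nat_lit 623) (nat_lit 5615) (.d (nat_lit 464) (nat_lit 559) (nat_lit 5583) (nat_lit 561) (nat_lit 4560)))) (.a (.f (nat_lit 465) (nat_lit 497) (nat_lit 6608) (.f (nat_lit 464) (nat_lit 433) (nat_lit 6576) (.d (nat_lit 463) (nat_lit 431) (nat_lit 7599) (nat_lit 495)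 (nat_lit 7631)))) (.f (nat_lit 623) (nat_lit 591) (nat_lit 5615) (.f (nat_lit 624) (nat_lit 655) (nat_lit 5647) (.d (nat_lit 625) (nat_lit 593) (nat_lit 4592) (nat_lit 657) (nat_lit 4624))))))) (.a s5144 (.a (.p (nat_lit 496) (.a (.f (nat_lit 465) (nat_lit 497) (nat_lit 6608) (.f (nat_lit 464) (nat_lit 433) (nat_lit 6576) (.d (nat_lit 463) (nat_lit 431) (nat_lit 7599) (nat_lit 495) (nat_lit 7631)))) (.f (nat_lit 623) (nat_lit 591) (nat_lit 5615) (.f (nat_lit 624) (nat_lit 655) (nat_lit 5647) (.d (nat_lit 625) (nat_lit 593) (nat_lit 4592) (nat_lit 657) (nat_lit 4624)))))) (.a s5148 (.a (.p (nat_lit 496) (.a (.f (nat_lit 593) (nat_lit 625) (nat_lit 4592) (.f (nat_lit 591) (nat_lit 623) (nat_lit 5615) (.d (nat_lit 464) (nat_lit 559) (nat_lit 5583) (nat_lit 561) (nat_lit 4560)))) (.a (.f (nat_lit 465) (nat_lit 497) (nat_lit 6608) (.f (nat_lit 464) (nat_lit 433) (nat_lit 6576) (.d (nat_lit 463) (nat_lit 431) (nat_lit 7599) (nat_lit 495)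 (nat_lit 7631)))) s5165))) (.a (.p (nat_lit 496) (.a (.f (nat_lit 593) (nat_lit 625) (nat_lit 4592) (.f (nat_lit 591) (nat_lit 623) (nat_lit 5615) (.d (nat_lit 464) (nat_lit 559) (nat_lit 5583) (nat_lit 561) (nat_lit 4560)))) (.a (.f (nat_lit 591) (nat_lit 623) (nat_lit 5615) (.f (nat_lit 593) (nat_lit 625) (nat_lit 4592) (.f (nat_lit 559) (nat_lit 464) (nat_lit 5583) (.d (nat_lit 558) (nat_lit 557) (nat_lit 557) (nat_lit 594) (nat_lit 3630))))) (.a (.f (nat_lit 623) (nat_lit 591) (nat_lit 5615) (.f (nat_lit 624) (nat_lit 655) (nat_lit 5647) (.d (nat_lit 625) (nat_lit 593) (nat_lit 4592) (nat_lit 657) (nat_lit 4624)))) (.a (.f (nat_lit 591) (nat_lit 623) (nat_lit 5615) (.f (nat_lit 464) (nat_lit 559) (nat_lit 5583) (.d (nat_lit 465) (nat_lit 433) (nat_lit 6576) (nat_lit 497) (nat_lit 6608)))) (.f (nat_lit 593) (nat_lit 625) (nat_lit 4592) (.f (nat_lit 464) (nat_lit 561) (nat_lit 4560) (.d (nat_lit 465) (nat_lit 433) (nat_lit 6576)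 (nat_lit 497) (nat_lit 6608))))))))) s5168))))))) (.a (.p (nat_lit 592) (.a s5002 (.a s5144 (.a s5099 (.a s5190 (.a (.p (nat_lit 496) (.a (.f (nat_lit 593) (nat_lit 625) (nat_lit 4592) (.f (nat_lit 591) (nat_lit 623) (nat_lit 5615) (.d (nat_lit 464) (nat_lit 559) (nat_lit 5583) (nat_lit 561) (nat_lit 4560)))) (.a (.f (nat_lit 591) (nat_lit 623) (nat_lit 5615) (.f (nat_lit 593) (nat_lit 625) (nat_lit 4592) (.f (nat_lit 559) (nat_lit 464) (nat_lit 5583) (.d (nat_lit 558) (nat_lit 557) (nat_lit 557) (nat_lit 594) (nat_lit 3630))))) (.a s5165 (.a (.f (nat_lit 591) (nat_lit 623) (nat_lit 5615) (.f (nat_lit 464) (nat_lit 559) (nat_lit 5583) (.d (nat_lit 463) (nat_lit 431) (nat_lit 7599) (nat_lit 495) (nat_lit 7631)))) (.f (nat_lit 593) (nat_lit 625) (nat_lit 4592) (.f (nat_lit 464) (nat_lit 561) (nat_lit 4560) (.d (nat_lit 463) (nat_lit 431) (nat_lit 7599) (nat_lit 495) (nat_lit 7631))))))))) (.a (.p (nat_lit 496) (.a (.f (nat_lit 623)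 (nat_lit 591) (nat_lit 5615) (.f (nat_lit 624) (nat_lit 655) (nat_lit 5647) (.d (nat_lit 625) (nat_lit 593) (nat_lit 4592) (nat_lit 657) (nat_lit 4624)))) (.a (.f (nat_lit 495) (nat_lit 463) (nat_lit 7631) (.f (nat_lit 624) (nat_lit 527) (nat_lit 7663) (.d (nat_lit 623) (nat_lit 591) (nat_lit 5615) (nat_lit 655) (nat_lit 5647)))) (.f (nat_lit 593) (nat_lit 625) (nat_lit 4592) (.f (nat_lit 464) (nat_lit 561) (nat_lit 4560) (.d (nat_lit 463) (nat_lit 431) (nat_lit 7599) (nat_lit 495) (nat_lit 7631))))))) (.a (.p (nat_lit 496) (.a (.f (nat_lit 593) (nat_lit 625) (nat_lit 4592) (.f (nat_lit 591) (nat_lit 623) (nat_lit 5615) (.d (nat_lit 464) (nat_lit 559) (nat_lit 5583) (nat_lit 561) (nat_lit 4560)))) (.a (.f (nat_lit 591) (nat_lit 623) (nat_lit 5615) (.f (nat_lit 593) (nat_lit 625) (nat_lit 4592) (.f (nat_lit 559) (nat_lit 464) (nat_lit 5583) (.d (nat_lit 558) (nat_lit 557) (nat_lit 557) (nat_lit 594) (nat_lit 3630))))) (.a (.f (nat_lit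 623) (nat_lit 591) (nat_lit 5615) (.f (nat_lit 624) (nat_lit 655) (nat_lit 5647) (.d (nat_lit 625) (nat_lit 593) (nat_lit 4592) (nat_lit 657) (nat_lit 4624)))) (.a (.f (nat_lit 591) (nat_lit 623) (nat_lit 5615) (.f (nat_lit 464) (nat_lit 559) (nat_lit 5583) (.f (nat_lit 431) (nat_lit 463) (nat_lit 7599) (.f (nat_lit 432) (nat_lit 399) (nat_lit 7567) (.d (nat_lit 433) (nat_lit 401) (nat_lit 6544) (nat_lit 465) (nat_lit 6576)))))) (.a (.f (nat_lit 593) (nat_lit 625) (nat_lit 4592) (.f (nat_lit 464) (nat_lit 561) (nat_lit 4560) (.f (nat_lit 559) (nat_lit 591) (nat_lit 5583) (.f (nat_lit 432) (nat_lit 527) (nat_lit 5551) (.d (nat_lit 431) (nat_lit 399) (nat_lit 7567) (nat_lit 463) (nat_lit 7599)))))) (.f (nat_lit 593) (nat_lit 625) (nat_lit 4592) (.f (nat_lit 464) (nat_lit 561) (nat_lit 4560) (.f (nat_lit 431) (nat_lit 463) (nat_lit 7599) (.f (nat_lit 432) (nat_lit 399) (nat_lit 7567) (.d (nat_lit 433) (nat_lit 401) (nat_lit 6544) (nat_lit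 465) (nat_lit 6576)))))))))))) (.a (.p (nat_lit 496) (.a (.f (nat_lit 591) (nat_lit 623) (nat_lit 5615) (.f (nat_lit 464) (nat_lit 559) (nat_lit 5583) (.d (nat_lit 463) (nat_lit 431) (nat_lit 7599) (nat_lit 495) (nat_lit 7631)))) (.a (.f (nat_lit 495) (nat_lit 463) (nat_lit 7631) (.f (nat_lit 624) (nat_lit 527) (nat_lit 7663) (.d (nat_lit 623) (nat_lit 591) (nat_lit 5615) (nat_lit 655) (nat_lit 5647)))) (.a (.f (nat_lit 591) (nat_lit 623) (nat_lit 5615) (.f (nat_lit 464) (nat_lit 559) (nat_lit 5583) (.f (nat_lit 431) (nat_lit 463) (nat_lit 7599) (.f (nat_lit 432) (nat_lit 399) (nat_lit 7567) (.d (nat_lit 433) (nat_lit 401) (nat_lit 6544) (nat_lit 465) (nat_lit 6576)))))) (.a (.f (nat_lit 463) (nat_lit 495) (nat_lit 7631) (.f (nat_lit 464) (nat_lit 431) (nat_lit 7599) (.f (nat_lit 433) (nat_lit 465) (nat_lit 6576) (.f (nat_lit 432) (nat_lit 401) (nat_lit 6544) (.d (nat_lit 559) (nat_lit 527) (nat_lit 5551) (nat_lit 591) (nat_lit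 5583)))))) (.a (.f (nat_lit 495) (nat_lit 463) (nat_lit 7631) (.f (nat_lit 624) (nat_lit 527) (nat_lit 7663) (.f (nat_lit 655) (nat_lit 623) (nat_lit 5647) (.f (nat_lit 656) (nat_lit 687) (nat_lit 5679) (.f (nat_lit 561) (nat_lit 529) (nat_lit 6672) (.d (nat_lit 593) (nat_lit 464) (nat_lit 4560) (nat_lit 688) (nat_lit 6704))))))) (.f (nat_lit 591) (nat_lit 623) (nat_lit 5615) (.f (nat_lit 464) (nat_lit 559) (nat_lit 5583) (.f (nat_lit 561) (nat_lit 593) (nat_lit 4560) (.f (nat_lit 432) (nat_lit 529) (nat_lit 4528) (.d (nat_lit 433) (nat_lit 401) (nat_lit 6544) (nat_lit 465) (nat_lit 6576)))))))))))) (.a (.p (nat_lit 496) (.a (.f (nat_lit 593) (nat_lit 625) (nat_lit 4592) (.f (nat_lit 464) (nat_lit 561) (nat_lit 4560) (.d (nat_lit 463) (nat_lit 431) (nat_lit 7599) (nat_lit 495) (nat_lit 7631)))) (.a (.f (nat_lit 495) (nat_lit 463) (nat_lit 7631) (.f (nat_lit 624) (nat_lit 527) (nat_lit 7663) (.d (nat_lit 625) (nat_lit 593) (nat_lit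 4592) (nat_lit 657) (nat_lit 4624)))) (.a (.f (nat_lit 463) (nat_lit 495) (nat_lit 7631) (.f (nat_lit 464) (nat_lit 431) (nat_lit 7599) (.f (nat_lit 433) (nat_lit 465) (nat_lit 6576) (.f (nat_lit 432) (nat_lit 401) (nat_lit 6544) (.d (nat_lit 559) (nat_lit 527) (nat_lit 5551) (nat_lit 591) (nat_lit 5583)))))) (.a (.f (nat_lit 593) (nat_lit 625) (nat_lit 4592) (.f (nat_lit 464) (nat_lit 561) (nat_lit 4560) (.f (nat_lit 559) (nat_lit 591) (nat_lit 5583) (.f (nat_lit 432) (nat_lit 527) (nat_lit 5551) (.d (nat_lit 431) (nat_lit 399) (nat_lit 7567) (nat_lit 463) (nat_lit 7599)))))) (.f (nat_lit 593) (nat_lit 625) (nat_lit 4592) (.f (nat_lit 464) (nat_lit 561) (nat_lit 4560) (.f (nat_lit 559) (nat_lit 591) (nat_lit 5583) (.f (nat_lit 432) (nat_lit 527) (nat_lit 5551) (.d (nat_lit 433) (nat_lit 401) (nat_lit 6544) (nat_lit 465) (nat_lit 6576))))))))))) s5229)))))))))) (.a s7096 (.a (.p (nat_lit 592) (.a (.p (nat_lit 496) (.a (.f (nat_lit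 593) (nat_lit 625) (nat_lit 4592) (.f (nat_lit 591) (nat_lit 623) (nat_lit 5615) (.d (nat_lit 464) (nat_lit 559) (nat_lit 5583) (nat_lit 561) (nat_lit 4560)))) (.a (.f (nat_lit 465) (nat_lit 497) (nat_lit 6608) (.f (nat_lit 464) (nat_lit 433) (nat_lit 6576) (.d (nat_lit 463) (nat_lit 431) (nat_lit 7599) (nat_lit 495) (nat_lit 7631)))) (.f (nat_lit 497) (nat_lit 465) (nat_lit 6608) (.f (nat_lit 529) (nat_lit 624) (nat_lit 6640) (.f (nat_lit 495) (nat_lit 463) (nat_lit 7631) (.d (nat_lit 494) (nat_lit 493) (nat_lit 493) (nat_lit 530) (nat_lit 494)))))))) (.a s5144 (.a s4991 (.a s5006 (.a (.p (nat_lit 496) (.a (.f (nat_lit 593) (nat_lit 625) (nat_lit 4592) (.f (nat_lit 591) (nat_lit 623) (nat_lit 5615) (.d (nat_lit 464) (nat_lit 559) (nat_lit 5583) (nat_lit 561) (nat_lit 4560)))) (.a (.f (nat_lit 465) (nat_lit 497) (nat_lit 6608) (.f (nat_lit 464) (nat_lit 433) (nat_lit 6576) (.d (nat_lit 463) (nat_lit 431) (nat_lit 7599) (nat_lit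 495) (nat_lit 7631)))) (.p (nat_lit 530) (.a (.f (nat_lit 495) (nat_lit 463) (nat_lit 7631) (.f (nat_lit 529) (nat_lit 531) (nat_lit 3567) (.d (nat_lit 494) (nat_lit 493) (nat_lit 493) (nat_lit 497) (nat_lit 494)))) (.a (.f (nat_lit 495) (nat_lit 463) (nat_lit 7631) (.f (nat_lit 497) (nat_lit 465) (nat_lit 6608) (.f (nat_lit 498) (nat_lit 531) (nat_lit 495) (.f (nat_lit 467) (nat_lit 466) (nat_lit 2511) (.d (nat_lit 499) (nat_lit 468) (nat_lit 2512) (nat_lit 527) (nat_lit 1519)))))) (.a (.f (nat_lit 495) (nat_lit 463) (nat_lit 7631) (.f (nat_lit 529) (nat_lit 531) (nat_lit 3567) (.d (nat_lit 494) (nat_lit 493) (nat_lit 493) (nat_lit 527) (nat_lit 3566)))) (.a (.f (nat_lit 495) (nat_lit 463) (nat_lit 7631) (.f (nat_lit 497) (nat_lit 465) (nat_lit 6608) (.f (nat_lit 494) (nat_lit 529) (nat_lit 494) (.f (nat_lit 461) (nat_lit 462) (nat_lit 3533) (.f (nat_lit 493) (nat_lit 460) (nat_lit 3532) (.f (nat_lit 492) (nat_lit 527) (nat_lit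 492) (.d (nat_lit 524) (nat_lit 523) (nat_lit 1515) (nat_lit 525) (nat_lit 1516)))))))) (.p (nat_lit 559) (.a (.f (nat_lit 529) (nat_lit 531) (nat_lit 1551) (.d (nat_lit 558) (nat_lit 557) (nat_lit 2573) (nat_lit 561) (nat_lit 2574))) (.a (.f (nat_lit 593) (nat_lit 625) (nat_lit 4592) (.f (nat_lit 591) (nat_lit 623) (nat_lit 5615) (.d (nat_lit 558) (nat_lit 557) (nat_lit 557) (nat_lit 594) (nat_lit 3630)))) (.f (nat_lit 591) (nat_lit 623) (nat_lit 5615) (.f (nat_lit 593) (nat_lit 625) (nat_lit 4592) (.f (nat_lit 529) (nat_lit 531) (nat_lit 1551) (.f (nat_lit 497) (nat_lit 465) (nat_lit 6608) (.f (nat_lit 594) (nat_lit 595) (nat_lit 3631) (.d (nat_lit 626) (nat_lit 561) (nat_lit 4593) (nat_lit 627) (nat_lit 591)))))))))))))))))) (.a (.p (nat_lit 496) (.a (.f (nat_lit 465) (nat_lit 497) (nat_lit 6608) (.f (nat_lit 464) (nat_lit 433) (nat_lit 6576) (.d (nat_lit 463) (nat_lit 431) (nat_lit 7599) (nat_lit 495) (nat_lit 7631)))) (.f (nat_lit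 623) (nat_lit 591) (nat_lit 5615) (.f (nat_lit 624) (nat_lit 655) (nat_lit 5647) (.d (nat_lit 625) (nat_lit 593) (nat_lit 4592) (nat_lit 657) (nat_lit 4624)))))) (.a s5129 s5079)))))))) (.a s7484 (.a (.p (nat_lit 592) (.a s5006 (.a (.p (nat_lit 624) (.a (.f (nat_lit 527) (nat_lit 495) (nat_lit 7663) (.f (nat_lit 656) (nat_lit 559) (nat_lit 7695) (.d (nat_lit 655) (nat_lit 623) (nat_lit 5647) (nat_lit 687) (nat_lit 5679)))) (.a (.f (nat_lit 655) (nat_lit 623) (nat_lit 5647) (.f (nat_lit 656) (nat_lit 687) (nat_lit 5679) (.d (nat_lit 657) (nat_lit 625) (nat_lit 4624) (nat_lit 689) (nat_lit 4656)))) (.a (.f (nat_lit 527) (nat_lit 495) (nat_lit 7663) (.f (nat_lit 656) (nat_lit 559) (nat_lit 7695) (.d (nat_lit 657) (nat_lit 625) (nat_lit 4624) (nat_lit 689) (nat_lit 4656)))) (.f (nat_lit 625) (nat_lit 657) (nat_lit 4624) (.p (nat_lit 626) (.a (.f (nat_lit 623) (nat_lit 655) (nat_lit 5647) (.d (nat_lit 591) (nat_lit 590) (nat_lit 3662)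 (nat_lit 627) (nat_lit 3663))) (.a (.f (nat_lit 627) (nat_lit 591) (nat_lit 3663) (.f (nat_lit 596) (nat_lit 595) (nat_lit 2640) (.f (nat_lit 628) (nat_lit 597) (nat_lit 2641) (.d (nat_lit 660) (nat_lit 659) (nat_lit 624) (nat_lit 661) (nat_lit 625))))) (.a (.f (nat_lit 623) (nat_lit 655) (nat_lit 5647) (.f (nat_lit 595) (nat_lit 594) (nat_lit 2639) (.f (nat_lit 627) (nat_lit 596) (nat_lit 2640) (.d (nat_lit 659) (nat_lit 658) (nat_lit 623) (nat_lit 660) (nat_lit 624))))) (.f (nat_lit 623) (nat_lit 655) (nat_lit 5647) (.f (nat_lit 529) (nat_lit 497) (nat_lit 6640) (.f (nat_lit 527) (nat_lit 495) (nat_lit 7663) (.f (nat_lit 594) (nat_lit 595) (nat_lit 2639) (.f (nat_lit 658) (nat_lit 659) (nat_lit 623) (.f (nat_lit 562) (nat_lit 561) (nat_lit 7697) (.d (nat_lit 563) (nat_lit 530) (nat_lit 527) (nat_lit 531) (nat_lit 6674))))))))))))))))) (.a s5148 (.a s5190 (.a s7520 (.a (.p (nat_lit 496) (.a (.f (nat_lit 465) (nat_lit 497) (nat_lit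 6608) (.f (nat_lit 464) (nat_lit 433) (nat_lit 6576) (.d (nat_lit 463) (nat_lit 431) (nat_lit 7599) (nat_lit 495) (nat_lit 7631)))) (.a (.f (nat_lit 495) (nat_lit 463) (nat_lit 7631) (.f (nat_lit 624) (nat_lit 527) (nat_lit 7663) (.d (nat_lit 623) (nat_lit 591) (nat_lit 5615) (nat_lit 655) (nat_lit 5647)))) (.f (nat_lit 497) (nat_lit 465) (nat_lit 6608) (.f (nat_lit 624) (nat_lit 529) (nat_lit 6640) (.d (nat_lit 623) (nat_lit 591) (nat_lit 5615) (nat_lit 655) (nat_lit 5647))))))) (.a s7543 (.a (.p (nat_lit 496) (.a (.f (nat_lit 465) (nat_lit 497) (nat_lit 6608) (.f (nat_lit 464) (nat_lit 433) (nat_lit 6576) (.d (nat_lit 463) (nat_lit 431) (nat_lit 7599) (nat_lit 495) (nat_lit 7631)))) (.a (.f (nat_lit 463) (nat_lit 495) (nat_lit 7631) (.f (nat_lit 464) (nat_lit 431) (nat_lit 7599) (.f (nat_lit 433) (nat_lit 465) (nat_lit 6576) (.f (nat_lit 432) (nat_lit 401) (nat_lit 6544) (.d (nat_lit 559) (nat_lit 527) (nat_lit 5551) (nat_lit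 591) (nat_lit 5583)))))) (.a (.f (nat_lit 497) (nat_lit 465) (nat_lit 6608) (.f (nat_lit 529) (nat_lit 624) (nat_lit 6640) (.f (nat_lit 495) (nat_lit 463) (nat_lit 7631) (.d (nat_lit 494) (nat_lit 493) (nat_lit 493) (nat_lit 530) (nat_lit 494))))) (.a (.f (nat_lit 495) (nat_lit 463) (nat_lit 7631) (.f (nat_lit 624) (nat_lit 527) (nat_lit 7663) (.f (nat_lit 529) (nat_lit 497) (nat_lit 6640) (.f (nat_lit 656) (nat_lit 561) (nat_lit 6672) (.d (nat_lit 657) (nat_lit 625) (nat_lit 4624) (nat_lit 689) (nat_lit 4656)))))) (.f (nat_lit 497) (nat_lit 465) (nat_lit 6608) (.f (nat_lit 624) (nat_lit 529) (nat_lit 6640) (.f (nat_lit 657) (nat_lit 625) (nat_lit 4624) (.f (nat_lit 656) (nat_lit 689) (nat_lit 4656) (.f (nat_lit 559) (nat_lit 527) (nat_lit 7695) (.d (nat_lit 591) (nat_lit 464) (nat_lit 5583) (nat_lit 688) (nat_lit 7727)))))))))))) s7550))))))))) (.a (.p (nat_lit 592) (.a (.p (nat_lit 496) (.a (.f (nat_lit 593) (nat_lit 625) (nat_lit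 4592) (.f (nat_lit 591) (nat_lit 623) (nat_lit 5615) (.d (nat_lit 464) (nat_lit 559) (nat_lit 5583) (nat_lit 561) (nat_lit 4560)))) (.a (.f (nat_lit 465) (nat_lit 497) (nat_lit 6608) (.f (nat_lit 464) (nat_lit 433) (nat_lit 6576) (.d (nat_lit 463) (nat_lit 431) (nat_lit 7599) (nat_lit 495) (nat_lit 7631)))) (.f (nat_lit 497) (nat_lit 465) (nat_lit 6608) (.f (nat_lit 529) (nat_lit 624) (nat_lit 6640) (.f (nat_lit 495) (nat_lit 463) (nat_lit 7631) (.d (nat_lit 494) (nat_lit 493) (nat_lit 493) (nat_lit 530) (nat_lit 494)))))))) (.a (.p (nat_lit 624) (.a (.f (nat_lit 527) (nat_lit 495) (nat_lit 7663) (.f (nat_lit 656) (nat_lit 559) (nat_lit 7695) (.d (nat_lit 655) (nat_lit 623) (nat_lit 5647) (nat_lit 687) (nat_lit 5679)))) (.a (.f (nat_lit 655) (nat_lit 623) (nat_lit 5647) (.f (nat_lit 656) (nat_lit 687) (nat_lit 5679) (.d (nat_lit 657) (nat_lit 625) (nat_lit 4624) (nat_lit 689) (nat_lit 4656)))) (.a (.f (nat_lit 527) (nat_lit 495)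 (nat_lit 7663) (.f (nat_lit 656) (nat_lit 559) (nat_lit 7695) (.d (nat_lit 657) (nat_lit 625) (nat_lit 4624) (nat_lit 689) (nat_lit 4656)))) (.f (nat_lit 529) (nat_lit 497) (nat_lit 6640) (.p (nat_lit 530) (.a (.f (nat_lit 527) (nat_lit 495) (nat_lit 7663) (.f (nat_lit 499) (nat_lit 498) (nat_lit 2543) (.f (nat_lit 531) (nat_lit 500) (nat_lit 2544) (.d (nat_lit 563) (nat_lit 562) (nat_lit 527) (nat_lit 564) (nat_lit 528))))) (.a (.f (nat_lit 531) (nat_lit 559) (nat_lit 1551) (.f (nat_lit 532) (nat_lit 561) (nat_lit 1552) (.d (nat_lit 500) (nat_lit 499) (nat_lit 2544) (nat_lit 501) (nat_lit 2545)))) (.a (.f (nat_lit 527) (nat_lit 495) (nat_lit 7663) (.f (nat_lit 559) (nat_lit 558) (nat_lit 1550) (.f (nat_lit 623) (nat_lit 655) (nat_lit 5647) (.f (nat_lit 625) (nat_lit 657) (nat_lit 4624) (.f (nat_lit 498) (nat_lit 499) (nat_lit 2543) (.f (nat_lit 593) (nat_lit 561) (nat_lit 6641) (.f (nat_lit 622) (nat_lit 621) (nat_lit 2637) (.d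 (nat_lit 654) (nat_lit 591) (nat_lit 5646) (nat_lit 653) (nat_lit 1645))))))))) (.f (nat_lit 559) (nat_lit 531) (nat_lit 1551) (.d (nat_lit 527) (nat_lit 495) (nat_lit 7663) (nat_lit 558) (nat_lit 1550)))))))))))) (.a s5006 (.a (.p (nat_lit 496) (.a (.f (nat_lit 593) (nat_lit 625) (nat_lit 4592) (.f (nat_lit 591) (nat_lit 623) (nat_lit 5615) (.d (nat_lit 464) (nat_lit 559) (nat_lit 5583) (nat_lit 561) (nat_lit 4560)))) (.a (.f (nat_lit 465) (nat_lit 497) (nat_lit 6608) (.f (nat_lit 464) (nat_lit 433) (nat_lit 6576) (.d (nat_lit 463) (nat_lit 431) (nat_lit 7599) (nat_lit 495) (nat_lit 7631)))) (.f (nat_lit 623) (nat_lit 591) (nat_lit 5615) (.f (nat_lit 624) (nat_lit 655) (nat_lit 5647) (.d (nat_lit 625) (nat_lit 593) (nat_lit 4592) (nat_lit 657) (nat_lit 4624))))))) (.a s5190 (.a s7520 (.a (.p (nat_lit 496) (.a (.f (nat_lit 465) (nat_lit 497) (nat_lit 6608) (.f (nat_lit 464) (nat_lit 433) (nat_lit 6576) (.d (nat_lit 463) (nat_lit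 431) (nat_lit 7599) (nat_lit 495) (nat_lit 7631)))) (.f (nat_lit 623) (nat_lit 591) (nat_lit 5615) (.f (nat_lit 624) (nat_lit 655) (nat_lit 5647) (.d (nat_lit 625) (nat_lit 593) (nat_lit 4592) (nat_lit 657) (nat_lit 4624)))))) (.a s7543 s5079))))))))) (.a (.p (nat_lit 592) (.a (.p (nat_lit 496) (.a (.f (nat_lit 465) (nat_lit 497) (nat_lit 6608) (.f (nat_lit 464) (nat_lit 433) (nat_lit 6576) (.d (nat_lit 463) (nat_lit 431) (nat_lit 7599) (nat_lit 495) (nat_lit 7631)))) (.f (nat_lit 623) (nat_lit 591) (nat_lit 5615) (.f (nat_lit 624) (nat_lit 655) (nat_lit 5647) (.d (nat_lit 625) (nat_lit 593) (nat_lit 4592) (nat_lit 657) (nat_lit 4624)))))) (.a (.p (nat_lit 624) (.a (.f (nat_lit 655) (nat_lit 623) (nat_lit 5647) (.f (nat_lit 656) (nat_lit 687) (nat_lit 5679) (.d (nat_lit 657) (nat_lit 625) (nat_lit 4624) (nat_lit 689) (nat_lit 4656)))) (.a (.f (nat_lit 529) (nat_lit 497) (nat_lit 6640) (.f (nat_lit 656) (nat_lit 561) (nat_lit 6672)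 (.d (nat_lit 655) (nat_lit 623) (nat_lit 5647) (nat_lit 687) (nat_lit 5679)))) (.a (.f (nat_lit 529) (nat_lit 497) (nat_lit 6640) (.f (nat_lit 656) (nat_lit 561) (nat_lit 6672) (.d (nat_lit 657) (nat_lit 625) (nat_lit 4624) (nat_lit 689) (nat_lit 4656)))) s5143)))) (.a (.p (nat_lit 496) (.a (.f (nat_lit 623) (nat_lit 591) (nat_lit 5615) (.f (nat_lit 624) (nat_lit 655) (nat_lit 5647) (.d (nat_lit 625) (nat_lit 593) (nat_lit 4592) (nat_lit 657) (nat_lit 4624)))) (.a (.f (nat_lit 495) (nat_lit 463) (nat_lit 7631) (.f (nat_lit 624) (nat_lit 527) (nat_lit 7663) (.d (nat_lit 623) (nat_lit 591) (nat_lit 5615) (nat_lit 655) (nat_lit 5647)))) (.f (nat_lit 593) (nat_lit 625) (nat_lit 4592) (.f (nat_lit 464) (nat_lit 561) (nat_lit 4560) (.d (nat_lit 463) (nat_lit 431) (nat_lit 7599) (nat_lit 495) (nat_lit 7631))))))) (.a (.p (nat_lit 496) (.a (.f (nat_lit 465) (nat_lit 497) (nat_lit 6608) (.f (nat_lit 464) (nat_lit 433) (nat_lit 6576) (.d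 (nat_lit 463) (nat_lit 431) (nat_lit 7599) (nat_lit 495) (nat_lit 7631)))) (.a (.f (nat_lit 495) (nat_lit 463) (nat_lit 7631) (.f (nat_lit 624) (nat_lit 527) (nat_lit 7663) (.d (nat_lit 623) (nat_lit 591) (nat_lit 5615) (nat_lit 655) (nat_lit 5647)))) (.f (nat_lit 497) (nat_lit 465) (nat_lit 6608) (.f (nat_lit 624) (nat_lit 529) (nat_lit 6640) (.d (nat_lit 623) (nat_lit 591) (nat_lit 5615) (nat_lit 655) (nat_lit 5647))))))) s7580))))) (.a s8136 (.a s8542 (.a s9255 (.a s9323 (.a s10092 (.a (.p (nat_lit 592) (.a s5079 (.a (.p (nat_lit 624) (.a (.f (nat_lit 527) (nat_lit 495) (nat_lit 7663) (.f (nat_lit 656) (nat_lit 559) (nat_lit 7695) (.d (nat_lit 655) (nat_lit 623) (nat_lit 5647) (nat_lit 687) (nat_lit 5679)))) (.a (.f (nat_lit 655) (nat_lit 623) (nat_lit 5647) (.f (nat_lit 656) (nat_lit 687) (nat_lit 5679) (.d (nat_lit 657) (nat_lit 625) (nat_lit 4624) (nat_lit 689) (nat_lit 4656)))) (.a (.f (nat_lit 527) (nat_lit 495) (nat_lit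 7663) (.f (nat_lit 656) (nat_lit 559) (nat_lit 7695) (.d (nat_lit 657) (nat_lit 625) (nat_lit 4624) (nat_lit 689) (nat_lit 4656)))) (.p (nat_lit 594) (.a (.f (nat_lit 623) (nat_lit 655) (nat_lit 5647) (.f (nat_lit 593) (nat_lit 595) (nat_lit 1615) (.d (nat_lit 622) (nat_lit 621) (nat_lit 2637) (nat_lit 625) (nat_lit 2638)))) (.a (.f (nat_lit 529) (nat_lit 497) (nat_lit 6640) (.f (nat_lit 623) (nat_lit 655) (nat_lit 5647) (.f (nat_lit 625) (nat_lit 657) (nat_lit 4624) (.f (nat_lit 626) (nat_lit 595) (nat_lit 2639) (.f (nat_lit 658) (nat_lit 659) (nat_lit 623) (.f (nat_lit 562) (nat_lit 561) (nat_lit 7697) (.f (nat_lit 531) (nat_lit 563) (nat_lit 6674) (.d (nat_lit 530) (nat_lit 499) (nat_lit 6642) (nat_lit 559) (nat_lit 1551))))))))) (.a (.p (nat_lit 562) (.a (.f (nat_lit 529) (nat_lit 497) (nat_lit 6640) (.f (nat_lit 527) (nat_lit 495) (nat_lit 7663) (.d (nat_lit 563) (nat_lit 530) (nat_lit 527) (nat_lit 561) (nat_lit 3599)))) (.a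 (.f (nat_lit 529) (nat_lit 497) (nat_lit 6640) (.f (nat_lit 623) (nat_lit 655) (nat_lit 5647) (.f (nat_lit 595) (nat_lit 593) (nat_lit 1615) (.f (nat_lit 561) (nat_lit 559) (nat_lit 559) (.d (nat_lit 563) (nat_lit 564) (nat_lit 3600) (nat_lit 596) (nat_lit 560)))))) (.a (.f (nat_lit 527) (nat_lit 495) (nat_lit 7663) (.f (nat_lit 529) (nat_lit 497) (nat_lit 6640) (.f (nat_lit 530) (nat_lit 563) (nat_lit 527) (.f (nat_lit 499) (nat_lit 498) (nat_lit 2543) (.d (nat_lit 531) (nat_lit 500) (nat_lit 2544) (nat_lit 626) (nat_lit 6642)))))) (.a (.f (nat_lit 527) (nat_lit 495) (nat_lit 7663) (.f (nat_lit 561) (nat_lit 563) (nat_lit 3599) (.f (nat_lit 595) (nat_lit 559) (nat_lit 559) (.d (nat_lit 593) (nat_lit 596) (nat_lit 3632) (nat_lit 623) (nat_lit 1615))))) (.f (nat_lit 529) (nat_lit 497) (nat_lit 6640) (.f (nat_lit 527) (nat_lit 495) (nat_lit 7663) (.f (nat_lit 623) (nat_lit 655) (nat_lit 5647) (.f (nat_lit 595) (nat_lit 593) (nat_lit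 1615) (.f (nat_lit 559) (nat_lit 561) (nat_lit 559) (.d (nat_lit 530) (nat_lit 531) (nat_lit 1551) (nat_lit 558) (nat_lit 1550)))))))))))) (.a (.p (nat_lit 559) (.a (.f (nat_lit 593) (nat_lit 595) (nat_lit 3631) (.d (nat_lit 558) (nat_lit 557) (nat_lit 557) (nat_lit 561) (nat_lit 558))) (.a (.f (nat_lit 529) (nat_lit 497) (nat_lit 6640) (.f (nat_lit 527) (nat_lit 495) (nat_lit 7663) (.d (nat_lit 530) (nat_lit 531) (nat_lit 1551) (nat_lit 558) (nat_lit 1550)))) (.f (nat_lit 593) (nat_lit 595) (nat_lit 3631) (.f (nat_lit 625) (nat_lit 657) (nat_lit 4624) (.f (nat_lit 529) (nat_lit 497) (nat_lit 6640) (.f (nat_lit 527) (nat_lit 495) (nat_lit 7663) (.f (nat_lit 530) (nat_lit 531) (nat_lit 1551) (.d (nat_lit 498) (nat_lit 499) (nat_lit 2543) (nat_lit 561) (nat_lit 6641)))))))))) (.f (nat_lit 623) (nat_lit 655) (nat_lit 5647) (.f (nat_lit 625) (nat_lit 657) (nat_lit 4624) (.f (nat_lit 622) (nat_lit 593) (nat_lit 2638) (.f (nat_lit 589)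 (nat_lit 590) (nat_lit 3661) (.f (nat_lit 621) (nat_lit 588) (nat_lit 3660) (.d (nat_lit 653) (nat_lit 652) (nat_lit 1644) (nat_lit 654) (nat_lit 1645)))))))))))))))) (.a (.p (nat_lit 496) (.a (.f (nat_lit 465) (nat_lit 497) (nat_lit 6608) (.f (nat_lit 464) (nat_lit 433) (nat_lit 6576) (.d (nat_lit 463) (nat_lit 431) (nat_lit 7599) (nat_lit 495) (nat_lit 7631)))) (.a (.f (nat_lit 495) (nat_lit 463) (nat_lit 7631) (.f (nat_lit 624) (nat_lit 527) (nat_lit 7663) (.d (nat_lit 625) (nat_lit 593) (nat_lit 4592) (nat_lit 657) (nat_lit 4624)))) (.f (nat_lit 497) (nat_lit 465) (nat_lit 6608) (.f (nat_lit 624) (nat_lit 529) (nat_lit 6640) (.d (nat_lit 625) (nat_lit 593) (nat_lit 4592) (nat_lit 657) (nat_lit 4624))))))) (.a s5168 (.a s5229 (.a s7550 (.a s7580 (.a (.p (nat_lit 496) (.a (.f (nat_lit 593) (nat_lit 625) (nat_lit 4592) (.f (nat_lit 464) (nat_lit 561) (nat_lit 4560) (.d (nat_lit 465) (nat_lit 433) (nat_lit 6576) (nat_lit 497) (nat_lit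 6608)))) (.a (.f (nat_lit 497) (nat_lit 465) (nat_lit 6608) (.f (nat_lit 624) (nat_lit 529) (nat_lit 6640) (.d (nat_lit 625) (nat_lit 593) (nat_lit 4592) (nat_lit 657) (nat_lit 4624)))) (.a (.f (nat_lit 593) (nat_lit 625) (nat_lit 4592) (.f (nat_lit 464) (nat_lit 561) (nat_lit 4560) (.f (nat_lit 431) (nat_lit 463) (nat_lit 7599) (.f (nat_lit 432) (nat_lit 399) (nat_lit 7567) (.d (nat_lit 433) (nat_lit 401) (nat_lit 6544) (nat_lit 465) (nat_lit 6576)))))) (.a (.f (nat_lit 497) (nat_lit 465) (nat_lit 6608) (.f (nat_lit 624) (nat_lit 529) (nat_lit 6640) (.f (nat_lit 655) (nat_lit 623) (nat_lit 5647) (.f (nat_lit 656) (nat_lit 687) (nat_lit 5679) (.d (nat_lit 657) (nat_lit 625) (nat_lit 4624) (nat_lit 689) (nat_lit 4656)))))) (.a (.f (nat_lit 625) (nat_lit 593) (nat_lit 4592) (.f (nat_lit 624) (nat_lit 657) (nat_lit 4624) (.f (nat_lit 655) (nat_lit 623) (nat_lit 5647) (.f (nat_lit 656) (nat_lit 687) (nat_lit 5679) (.d (nat_lit 529)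 (nat_lit 497) (nat_lit 6640) (nat_lit 561) (nat_lit 6672)))))) (.f (nat_lit 465) (nat_lit 497) (nat_lit 6608) (.f (nat_lit 464) (nat_lit 433) (nat_lit 6576) (.f (nat_lit 431) (nat_lit 463) (nat_lit 7599) (.f (nat_lit 432) (nat_lit 399) (nat_lit 7567) (.d (nat_lit 561) (nat_lit 529) (nat_lit 4528) (nat_lit 593) (nat_lit 4560)))))))))))) (.p (nat_lit 496) (.a (.f (nat_lit 465) (nat_lit 497) (nat_lit 6608) (.f (nat_lit 464) (nat_lit 433) (nat_lit 6576) (.d (nat_lit 463) (nat_lit 431) (nat_lit 7599) (nat_lit 495) (nat_lit 7631)))) (.a (.f (nat_lit 495) (nat_lit 463) (nat_lit 7631) (.f (nat_lit 624) (nat_lit 527) (nat_lit 7663) (.f (nat_lit 655) (nat_lit 623) (nat_lit 5647) (.f (nat_lit 656) (nat_lit 687) (nat_lit 5679) (.f (nat_lit 561) (nat_lit 529) (nat_lit 6672) (.d (nat_lit 593) (nat_lit 464) (nat_lit 4560) (nat_lit 688) (nat_lit 6704))))))) (.a (.f (nat_lit 497) (nat_lit 465) (nat_lit 6608) (.f (nat_lit 529) (nat_lit 624) (nat_lit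 6640) (.f (nat_lit 495) (nat_lit 463) (nat_lit 7631) (.d (nat_lit 494) (nat_lit 493) (nat_lit 493) (nat_lit 530) (nat_lit 494))))) (.a (.f (nat_lit 465) (nat_lit 497) (nat_lit 6608) (.f (nat_lit 464) (nat_lit 433) (nat_lit 6576) (.f (nat_lit 431) (nat_lit 463) (nat_lit 7599) (.f (nat_lit 432) (nat_lit 399) (nat_lit 7567) (.d (nat_lit 561) (nat_lit 529) (nat_lit 4528) (nat_lit 593) (nat_lit 4560)))))) (.f (nat_lit 497) (nat_lit 465) (nat_lit 6608) (.f (nat_lit 624) (nat_lit 529) (nat_lit 6640) (.f (nat_lit 527) (nat_lit 495) (nat_lit 7663) (.f (nat_lit 656) (nat_lit 559) (nat_lit 7695) (.d (nat_lit 655) (nat_lit 623) (nat_lit 5647) (nat_lit 687) (nat_lit 5679)))))))))))))))))))) (.a s10207 (.a (.p (nat_lit 562) (.a s3059 (.a s3224 (.a (.p (nat_lit 594) (.a (.p (nat_lit 561) (.a (.f (nat_lit 563) (nat_lit 527) (nat_lit 3599) (.d (nat_lit 595) (nat_lit 559) (nat_lit 559) (nat_lit 596) (nat_lit 560))) (.a (.f (nat_lit 559) (nat_lit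 595) (nat_lit 559) (.f (nat_lit 530) (nat_lit 531) (nat_lit 2575) (.d (nat_lit 558) (nat_lit 529) (nat_lit 2574) (nat_lit 593) (nat_lit 558)))) (.f (nat_lit 563) (nat_lit 527) (nat_lit 3599) (.f (nat_lit 564) (nat_lit 529) (nat_lit 3600) (.d (nat_lit 532) (nat_lit 531) (nat_lit 2576) (nat_lit 533) (nat_lit 2577))))))) (.a s3834 (.a s4005 (.a s4062 (.a s4412 (.a s3517 (.a s4787 (.a s4799 s4839))))))))) (.a (.p (nat_lit 592) (.a (.p (nat_lit 496) (.a (.f (nat_lit 495) (nat_lit 463) (nat_lit 7631) (.f (nat_lit 624) (nat_lit 527) (nat_lit 7663) (.d (nat_lit 497) (nat_lit 465) (nat_lit 6608) (nat_lit 529) (nat_lit 6640)))) (.f (nat_lit 591) (nat_lit 623) (nat_lit 5615) (.f (nat_lit 593) (nat_lit 625) (nat_lit 4592) (.f (nat_lit 559) (nat_lit 464) (nat_lit 5583) (.d (nat_lit 558) (nat_lit 557) (nat_lit 557) (nat_lit 594) (nat_lit 3630))))))) (.a (.p (nat_lit 496) (.a (.f (nat_lit 591) (nat_lit 623) (nat_lit 5615) (.f (nat_lit 593) (nat_lit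 625) (nat_lit 4592) (.f (nat_lit 559) (nat_lit 464) (nat_lit 5583) (.d (nat_lit 558) (nat_lit 557) (nat_lit 557) (nat_lit 594) (nat_lit 3630))))) (.f (nat_lit 497) (nat_lit 465) (nat_lit 6608) (.f (nat_lit 495) (nat_lit 463) (nat_lit 7631) (.f (nat_lit 529) (nat_lit 624) (nat_lit 6640) (.d (nat_lit 494) (nat_lit 493) (nat_lit 493) (nat_lit 530) (nat_lit 494))))))) (.a (.p (nat_lit 529) (.a (.f (nat_lit 624) (nat_lit 497) (nat_lit 6640) (.f (nat_lit 527) (nat_lit 495) (nat_lit 7663) (.f (nat_lit 559) (nat_lit 656) (nat_lit 7695) (.d (nat_lit 530) (nat_lit 531) (nat_lit 1551) (nat_lit 558) (nat_lit 1550))))) (.a s9358 (.a (.p (nat_lit 530) (.a (.f (nat_lit 531) (nat_lit 559) (nat_lit 1551) (.f (nat_lit 563) (nat_lit 564) (nat_lit 528) (.f (nat_lit 499) (nat_lit 500) (nat_lit 2544) (.d (nat_lit 467) (nat_lit 435) (nat_lit 5554) (nat_lit 594) (nat_lit 5586))))) (.a (.f (nat_lit 527) (nat_lit 563) (nat_lit 527) (.d (nat_lit 495) (nat_lit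 494) (nat_lit 3566) (nat_lit 624) (nat_lit 7663))) (.f (nat_lit 559) (nat_lit 531) (nat_lit 1551) (.d (nat_lit 558) (nat_lit 527) (nat_lit 1550) (nat_lit 557) (nat_lit 2573)))))) (.a (.f (nat_lit 624) (nat_lit 497) (nat_lit 6640) (.f (nat_lit 527) (nat_lit 495) (nat_lit 7663) (.f (nat_lit 559) (nat_lit 656) (nat_lit 7695) (.d (nat_lit 530) (nat_lit 558) (nat_lit 1550) (nat_lit 563) (nat_lit 527))))) (.a (.f (nat_lit 624) (nat_lit 497) (nat_lit 6640) (.f (nat_lit 527) (nat_lit 495) (nat_lit 7663) (.f (nat_lit 656) (nat_lit 559) (nat_lit 7695) (.d (nat_lit 655) (nat_lit 623) (nat_lit 5647) (nat_lit 687) (nat_lit 5679))))) (.a s7751 (.f (nat_lit 624) (nat_lit 497) (nat_lit 6640) (.f (nat_lit 527) (nat_lit 495) (nat_lit 7663) (.f (nat_lit 530) (nat_lit 563) (nat_lit 527) (.f (nat_lit 499) (nat_lit 498) (nat_lit 2543) (.f (nat_lit 531) (nat_lit 500) (nat_lit 2544) (.f (nat_lit 623) (nat_lit 655) (nat_lit 5647) (.f (nat_lit 594) (nat_lit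 626) (nat_lit 6642) (.f (nat_lit 593) (nat_lit 595) (nat_lit 1615) (.d (nat_lit 622) (nat_lit 591) (nat_lit 1614) (nat_lit 621) (nat_lit 2637))))))))))))))))) (.a (.p (nat_lit 496) (.a (.f (nat_lit 591) (nat_lit 623) (nat_lit 5615) (.f (nat_lit 593) (nat_lit 625) (nat_lit 4592) (.f (nat_lit 559) (nat_lit 464) (nat_lit 5583) (.d (nat_lit 558) (nat_lit 557) (nat_lit 557) (nat_lit 594) (nat_lit 3630))))) (.a (.f (nat_lit 495) (nat_lit 463) (nat_lit 7631) (.f (nat_lit 624) (nat_lit 527) (nat_lit 7663) (.d (nat_lit 623) (nat_lit 591) (nat_lit 5615) (nat_lit 655) (nat_lit 5647)))) (.f (nat_lit 463) (nat_lit 495) (nat_lit 7631) (.f (nat_lit 464) (nat_lit 431) (nat_lit 7599) (.d (nat_lit 465) (nat_lit 433) (nat_lit 6576) (nat_lit 497) (nat_lit 6608))))))) (.a (.p (nat_lit 496) (.a (.f (nat_lit 591) (nat_lit 623) (nat_lit 5615) (.f (nat_lit 593) (nat_lit 625) (nat_lit 4592) (.f (nat_lit 559) (nat_lit 464) (nat_lit 5583) (.d (nat_lit 558)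 (nat_lit 557) (nat_lit 557) (nat_lit 594) (nat_lit 3630))))) (.a (.f (nat_lit 591) (nat_lit 623) (nat_lit 5615) (.f (nat_lit 593) (nat_lit 625) (nat_lit 4592) (.f (nat_lit 594) (nat_lit 563) (nat_lit 2607) (.d (nat_lit 559) (nat_lit 558) (nat_lit 3630) (nat_lit 595) (nat_lit 3631))))) (.a (.f (nat_lit 591) (nat_lit 623) (nat_lit 5615) (.f (nat_lit 464) (nat_lit 559) (nat_lit 5583) (.d (nat_lit 463) (nat_lit 431) (nat_lit 7599) (nat_lit 495) (nat_lit 7631)))) (.a (.f (nat_lit 495) (nat_lit 463) (nat_lit 7631) (.f (nat_lit 591) (nat_lit 623) (nat_lit 5615) (.f (nat_lit 593) (nat_lit 625) (nat_lit 4592) (.f (nat_lit 594) (nat_lit 563) (nat_lit 2607) (.f (nat_lit 627) (nat_lit 626) (nat_lit 591) (.f (nat_lit 595) (nat_lit 628) (nat_lit 592) (.f (nat_lit 530) (nat_lit 498) (nat_lit 4594) (.f (nat_lit 529) (nat_lit 531) (nat_lit 3567) (.d (nat_lit 494) (nat_lit 493) (nat_lit 493) (nat_lit 527) (nat_lit 3566)))))))))) (.a (.f (nat_lit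 463) (nat_lit 495) (nat_lit 7631) (.f (nat_lit 464) (nat_lit 431) (nat_lit 7599) (.f (nat_lit 433) (nat_lit 465) (nat_lit 6576) (.f (nat_lit 432) (nat_lit 401) (nat_lit 6544) (.d (nat_lit 559) (nat_lit 527) (nat_lit 5551) (nat_lit 591) (nat_lit 5583)))))) (.p (nat_lit 464) (.a (.d (nat_lit 463) (nat_lit 431) (nat_lit 7599) (nat_lit 495) (nat_lit 7631)) (.a (.f (nat_lit 431) (nat_lit 463) (nat_lit 7599) (.f (nat_lit 432) (nat_lit 399) (nat_lit 7567) (.d (nat_lit 433) (nat_lit 401) (nat_lit 6544) (nat_lit 465) (nat_lit 6576)))) (.a (.f (nat_lit 433) (nat_lit 465) (nat_lit 6576) (.f (nat_lit 432) (nat_lit 401) (nat_lit 6544) (.f (nat_lit 399) (nat_lit 431) (nat_lit 7567) (.f (nat_lit 400) (nat_lit 367) (nat_lit 7535) (.d (nat_lit 527) (nat_lit 495) (nat_lit 5519) (nat_lit 559) (nat_lit 5551)))))) (.f (nat_lit 495) (nat_lit 463) (nat_lit 7631) (.f (nat_lit 433) (nat_lit 465) (nat_lit 6576) (.f (nat_lit 432) (nat_lit 401) (nat_lit 6544)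 (.d (nat_lit 527) (nat_lit 400) (nat_lit 5519) (nat_lit 559) (nat_lit 5551))))))))))))))) (.a s3256 (.a s7875 (.a (.p (nat_lit 530) (.a (.p (nat_lit 529) (.a (.f (nat_lit 531) (nat_lit 559) (nat_lit 1551) (.f (nat_lit 563) (nat_lit 564) (nat_lit 528) (.f (nat_lit 499) (nat_lit 500) (nat_lit 2544) (.d (nat_lit 467) (nat_lit 435) (nat_lit 5554) (nat_lit 594) (nat_lit 5586))))) (.f (nat_lit 497) (nat_lit 624) (nat_lit 6640) (.d (nat_lit 465) (nat_lit 433) (nat_lit 4529) (nat_lit 496) (nat_lit 6608))))) (.a (.p (nat_lit 529) (.a (.f (nat_lit 531) (nat_lit 559) (nat_lit 1551) (.f (nat_lit 563) (nat_lit 564) (nat_lit 528) (.f (nat_lit 499) (nat_lit 500) (nat_lit 2544) (.d (nat_lit 467) (nat_lit 435) (nat_lit 5554) (nat_lit 594) (nat_lit 5586))))) (.a (.f (nat_lit 497) (nat_lit 624) (nat_lit 6640) (.f (nat_lit 465) (nat_lit 433) (nat_lit 5552) (.d (nat_lit 594) (nat_lit 498) (nat_lit 7633) (nat_lit 626) (nat_lit 7665)))) (.f (nat_lit 531)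 (nat_lit 559) (nat_lit 1551) (.f (nat_lit 563) (nat_lit 564) (nat_lit 528) (.f (nat_lit 499) (nat_lit 500) (nat_lit 2544) (.f (nat_lit 467) (nat_lit 435) (nat_lit 5554) (.f (nat_lit 466) (nat_lit 434) (nat_lit 7602) (.f (nat_lit 595) (nat_lit 498) (nat_lit 4562) (.f (nat_lit 627) (nat_lit 659) (nat_lit 7698) (.d (nat_lit 628) (nat_lit 596) (nat_lit 4595) (nat_lit 660) (nat_lit 4627)))))))))))) (.a (.p (nat_lit 496) (.a (.f (nat_lit 593) (nat_lit 625) (nat_lit 4592) (.f (nat_lit 591) (nat_lit 623) (nat_lit 5615) (.f (nat_lit 594) (nat_lit 563) (nat_lit 2607) (.d (nat_lit 559) (nat_lit 558) (nat_lit 3630) (nat_lit 595) (nat_lit 3631))))) (.a (.f (nat_lit 465) (nat_lit 497) (nat_lit 6608) (.f (nat_lit 464) (nat_lit 433) (nat_lit 6576) (.d (nat_lit 591) (nat_lit 559) (nat_lit 5583) (nat_lit 623) (nat_lit 5615)))) (.a (.f (nat_lit 593) (nat_lit 625) (nat_lit 4592) (.f (nat_lit 591) (nat_lit 623) (nat_lit 5615) (.f (nat_lit 594) (nat_lit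 563) (nat_lit 2607) (.f (nat_lit 627) (nat_lit 626) (nat_lit 591) (.d (nat_lit 595) (nat_lit 498) (nat_lit 4594) (nat_lit 628) (nat_lit 592)))))) (.a (.f (nat_lit 465) (nat_lit 497) (nat_lit 6608) (.f (nat_lit 464) (nat_lit 433) (nat_lit 6576) (.f (nat_lit 593) (nat_lit 625) (nat_lit 4592) (.f (nat_lit 591) (nat_lit 559) (nat_lit 5583) (.f (nat_lit 594) (nat_lit 563) (nat_lit 2607) (.f (nat_lit 627) (nat_lit 626) (nat_lit 591) (.d (nat_lit 595) (nat_lit 498) (nat_lit 4594) (nat_lit 628) (nat_lit 592)))))))) (.f (nat_lit 465) (nat_lit 497) (nat_lit 6608) (.f (nat_lit 464) (nat_lit 433) (nat_lit 6576) (.f (nat_lit 431) (nat_lit 463) (nat_lit 7599) (.f (nat_lit 432) (nat_lit 399) (nat_lit 7567) (.f (nat_lit 467) (nat_lit 466) (nat_lit 3503) (.f (nat_lit 559) (nat_lit 527) (nat_lit 5551) (.f (nat_lit 593) (nat_lit 625) (nat_lit 4592) (.f (nat_lit 594) (nat_lit 595) (nat_lit 3631) (.f (nat_lit 499) (nat_lit 498) (nat_lit 6610) (.d (nat_lit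 531) (nat_lit 435) (nat_lit 5554) (nat_lit 563) (nat_lit 5586)))))))))))))))) (.a (.p (nat_lit 529) (.a (.f (nat_lit 531) (nat_lit 559) (nat_lit 1551) (.f (nat_lit 563) (nat_lit 564) (nat_lit 528) (.f (nat_lit 499) (nat_lit 500) (nat_lit 2544) (.d (nat_lit 467) (nat_lit 435) (nat_lit 5554) (nat_lit 594) (nat_lit 5586))))) (.a (.f (nat_lit 527) (nat_lit 563) (nat_lit 527) (.f (nat_lit 559) (nat_lit 558) (nat_lit 1550) (.f (nat_lit 624) (nat_lit 656) (nat_lit 7695) (.f (nat_lit 623) (nat_lit 655) (nat_lit 5647) (.f (nat_lit 591) (nat_lit 496) (nat_lit 5615) (.f (nat_lit 622) (nat_lit 654) (nat_lit 5646) (.d (nat_lit 593) (nat_lit 594) (nat_lit 1614) (nat_lit 621) (nat_lit 2637)))))))) (.a (.f (nat_lit 559) (nat_lit 531) (nat_lit 1551) (.d (nat_lit 558) (nat_lit 527) (nat_lit 1550) (nat_lit 557) (nat_lit 2573))) (.f (nat_lit 563) (nat_lit 527) (nat_lit 527) (.d (nat_lit 564) (nat_lit 531) (nat_lit 528) (nat_lit 565) (nat_lit 3601)))))))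 (.a (.p (nat_lit 496) (.a (.f (nat_lit 593) (nat_lit 625) (nat_lit 4592) (.f (nat_lit 591) (nat_lit 623) (nat_lit 5615) (.f (nat_lit 594) (nat_lit 563) (nat_lit 2607) (.d (nat_lit 559) (nat_lit 558) (nat_lit 3630) (nat_lit 595) (nat_lit 3631))))) (.a (.f (nat_lit 465) (nat_lit 497) (nat_lit 6608) (.f (nat_lit 464) (nat_lit 433) (nat_lit 6576) (.d (nat_lit 591) (nat_lit 559) (nat_lit 5583) (nat_lit 623) (nat_lit 5615)))) (.a (.f (nat_lit 593) (nat_lit 625) (nat_lit 4592) (.f (nat_lit 591) (nat_lit 623) (nat_lit 5615) (.f (nat_lit 594) (nat_lit 563) (nat_lit 2607) (.f (nat_lit 627) (nat_lit 626) (nat_lit 591) (.d (nat_lit 595) (nat_lit 498) (nat_lit 4594) (nat_lit 628) (nat_lit 592)))))) (.a (.f (nat_lit 465) (nat_lit 497) (nat_lit 6608) (.f (nat_lit 464) (nat_lit 433) (nat_lit 6576) (.f (nat_lit 593) (nat_lit 625) (nat_lit 4592) (.f (nat_lit 591) (nat_lit 559) (nat_lit 5583) (.f (nat_lit 594) (nat_lit 563) (nat_lit 2607) (.f (nat_lit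 627) (nat_lit 626) (nat_lit 591) (.d (nat_lit 595) (nat_lit 498) (nat_lit 4594) (nat_lit 628) (nat_lit 592)))))))) (.f (nat_lit 497) (nat_lit 465) (nat_lit 6608) (.f (nat_lit 529) (nat_lit 624) (nat_lit 6640) (.f (nat_lit 527) (nat_lit 563) (nat_lit 527) (.f (nat_lit 559) (nat_lit 558) (nat_lit 1550) (.f (nat_lit 594) (nat_lit 626) (nat_lit 7665) (.d (nat_lit 593) (nat_lit 595) (nat_lit 3631) (nat_lit 625) (nat_lit 4592)))))))))))) (.a (.p (nat_lit 496) (.a (.f (nat_lit 497) (nat_lit 465) (nat_lit 6608) (.f (nat_lit 529) (nat_lit 624) (nat_lit 6640) (.d (nat_lit 531) (nat_lit 532) (nat_lit 3568) (nat_lit 559) (nat_lit 1551)))) (.a (.f (nat_lit 465) (nat_lit 497) (nat_lit 6608) (.f (nat_lit 464) (nat_lit 433) (nat_lit 6576) (.d (nat_lit 591) (nat_lit 559) (nat_lit 5583) (nat_lit 623) (nat_lit 5615)))) (.a (.f (nat_lit 591) (nat_lit 623) (nat_lit 5615) (.f (nat_lit 559) (nat_lit 464) (nat_lit 5583) (.f (nat_lit 593) (nat_lit 625)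 (nat_lit 4592) (.d (nat_lit 558) (nat_lit 557) (nat_lit 557) (nat_lit 594) (nat_lit 3630))))) (.f (nat_lit 497) (nat_lit 465) (nat_lit 6608) (.f (nat_lit 529) (nat_lit 624) (nat_lit 6640) (.f (nat_lit 531) (nat_lit 532) (nat_lit 3568) (.f (nat_lit 499) (nat_lit 500) (nat_lit 2544) (.f (nat_lit 498) (nat_lit 527) (nat_lit 1519) (.d (nat_lit 467) (nat_lit 435) (nat_lit 5554) (nat_lit 468) (nat_lit 2512))))))))))) (.a (.p (nat_lit 496) (.a (.f (nat_lit 497) (nat_lit 465) (nat_lit 6608) (.f (nat_lit 529) (nat_lit 624) (nat_lit 6640) (.d (nat_lit 531) (nat_lit 532) (nat_lit 3568) (nat_lit 559) (nat_lit 1551)))) (.a (.f (nat_lit 465) (nat_lit 497) (nat_lit 6608) (.f (nat_lit 464) (nat_lit 433) (nat_lit 6576) (.d (nat_lit 591) (nat_lit 559) (nat_lit 5583) (nat_lit 623) (nat_lit 5615)))) (.a (.f (nat_lit 591) (nat_lit 623) (nat_lit 5615) (.f (nat_lit 559) (nat_lit 464) (nat_lit 5583) (.f (nat_lit 529) (nat_lit 531) (nat_lit 1551) (.d (nat_lit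 527) (nat_lit 558) (nat_lit 1550) (nat_lit 563) (nat_lit 527))))) (.f (nat_lit 497) (nat_lit 465) (nat_lit 6608) (.f (nat_lit 529) (nat_lit 624) (nat_lit 6640) (.f (nat_lit 531) (nat_lit 532) (nat_lit 3568) (.f (nat_lit 499) (nat_lit 500) (nat_lit 2544) (.f (nat_lit 498) (nat_lit 527) (nat_lit 1519) (.d (nat_lit 467) (nat_lit 435) (nat_lit 5554) (nat_lit 468) (nat_lit 2512))))))))))) (.p (nat_lit 496) (.a (.f (nat_lit 593) (nat_lit 625) (nat_lit 4592) (.f (nat_lit 591) (nat_lit 623) (nat_lit 5615) (.f (nat_lit 594) (nat_lit 563) (nat_lit 2607) (.f (nat_lit 627) (nat_lit 626) (nat_lit 591) (.d (nat_lit 595) (nat_lit 498) (nat_lit 4594) (nat_lit 628) (nat_lit 592)))))) (.a (.f (nat_lit 497) (nat_lit 465) (nat_lit 6608) (.f (nat_lit 529) (nat_lit 624) (nat_lit 6640) (.f (nat_lit 531) (nat_lit 532) (nat_lit 3568) (.d (nat_lit 563) (nat_lit 527) (nat_lit 527) (nat_lit 564) (nat_lit 528))))) (.f (nat_lit 497) (nat_lit 465) (nat_lit 6608)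 (.f (nat_lit 529) (nat_lit 624) (nat_lit 6640) (.f (nat_lit 531) (nat_lit 532) (nat_lit 3568) (.f (nat_lit 499) (nat_lit 500) (nat_lit 2544) (.f (nat_lit 498) (nat_lit 527) (nat_lit 1519) (.d (nat_lit 467) (nat_lit 435) (nat_lit 5554) (nat_lit 468) (nat_lit 2512)))))))))))))))))) (.a s9414 (.a (.p (nat_lit 594) (.a (.p (nat_lit 496) (.a (.f (nat_lit 465) (nat_lit 497) (nat_lit 6608) (.f (nat_lit 464) (nat_lit 433) (nat_lit 6576) (.d (nat_lit 463) (nat_lit 431) (nat_lit 7599) (nat_lit 495) (nat_lit 7631)))) (.f (nat_lit 593) (nat_lit 625) (nat_lit 4592) (.f (nat_lit 595) (nat_lit 559) (nat_lit 3631) (.f (nat_lit 563) (nat_lit 564) (nat_lit 2608) (.f (nat_lit 627) (nat_lit 628) (nat_lit 592) (.d (nat_lit 530) (nat_lit 498) (nat_lit 4594) (nat_lit 659) (nat_lit 7698)))))))) (.a (.p (nat_lit 624) (.a (.f (nat_lit 527) (nat_lit 495) (nat_lit 7663) (.f (nat_lit 656) (nat_lit 559) (nat_lit 7695) (.d (nat_lit 655) (nat_lit 623) (nat_lit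 5647) (nat_lit 687) (nat_lit 5679)))) (.a (.f (nat_lit 623) (nat_lit 655) (nat_lit 5647) (.f (nat_lit 593) (nat_lit 595) (nat_lit 1615) (.d (nat_lit 622) (nat_lit 621) (nat_lit 2637) (nat_lit 625) (nat_lit 2638)))) (.f (nat_lit 527) (nat_lit 495) (nat_lit 7663) (.f (nat_lit 529) (nat_lit 497) (nat_lit 6640) (.f (nat_lit 530) (nat_lit 563) (nat_lit 527) (.f (nat_lit 499) (nat_lit 498) (nat_lit 2543) (.d (nat_lit 531) (nat_lit 500) (nat_lit 2544) (nat_lit 626) (nat_lit 6642))))))))) (.a (.p (nat_lit 624) (.a (.f (nat_lit 527) (nat_lit 495) (nat_lit 7663) (.f (nat_lit 656) (nat_lit 559) (nat_lit 7695) (.d (nat_lit 655) (nat_lit 623) (nat_lit 5647) (nat_lit 687) (nat_lit 5679)))) (.a (.f (nat_lit 623) (nat_lit 655) (nat_lit 5647) (.f (nat_lit 593) (nat_lit 595) (nat_lit 1615) (.d (nat_lit 622) (nat_lit 621) (nat_lit 2637) (nat_lit 625) (nat_lit 2638)))) (.f (nat_lit 527) (nat_lit 495) (nat_lit 7663) (.f (nat_lit 559) (nat_lit 656) (nat_lit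 7695) (.f (nat_lit 593) (nat_lit 595) (nat_lit 3631) (.f (nat_lit 558) (nat_lit 557) (nat_lit 557) (.f (nat_lit 530) (nat_lit 529) (nat_lit 1550) (.d (nat_lit 625) (nat_lit 496) (nat_lit 4592) (nat_lit 498) (nat_lit 5617)))))))))) (.a (.p (nat_lit 496) (.a (.f (nat_lit 465) (nat_lit 497) (nat_lit 6608) (.f (nat_lit 464) (nat_lit 433) (nat_lit 6576) (.d (nat_lit 463) (nat_lit 431) (nat_lit 7599) (nat_lit 495) (nat_lit 7631)))) (.f (nat_lit 593) (nat_lit 625) (nat_lit 4592) (.f (nat_lit 595) (nat_lit 559) (nat_lit 3631) (.f (nat_lit 563) (nat_lit 564) (nat_lit 2608) (.f (nat_lit 627) (nat_lit 628) (nat_lit 592) (.d (nat_lit 659) (nat_lit 530) (nat_lit 7698) (nat_lit 691) (nat_lit 7730)))))))) (.a s10165 (.a (.p (nat_lit 497) (.a (.f (nat_lit 465) (nat_lit 496) (nat_lit 6608) (.d (nat_lit 529) (nat_lit 433) (nat_lit 5552) (nat_lit 624) (nat_lit 6640))) (.a (.f (nat_lit 529) (nat_lit 624) (nat_lit 6640) (.f (nat_lit 530) (nat_lit 626)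 (nat_lit 7665) (.d (nat_lit 465) (nat_lit 433) (nat_lit 4529) (nat_lit 498) (nat_lit 7633)))) (.a (.f (nat_lit 496) (nat_lit 465) (nat_lit 6608) (.f (nat_lit 495) (nat_lit 463) (nat_lit 7631) (.f (nat_lit 527) (nat_lit 624) (nat_lit 7663) (.f (nat_lit 498) (nat_lit 499) (nat_lit 1519) (.f (nat_lit 530) (nat_lit 531) (nat_lit 495) (.f (nat_lit 466) (nat_lit 467) (nat_lit 2511) (.d (nat_lit 595) (nat_lit 563) (nat_lit 4562) (nat_lit 627) (nat_lit 4594)))))))) (.a (.f (nat_lit 465) (nat_lit 496) (nat_lit 6608) (.f (nat_lit 530) (nat_lit 498) (nat_lit 7633) (.d (nat_lit 529) (nat_lit 433) (nat_lit 4529) (nat_lit 626) (nat_lit 7665)))) (.f (nat_lit 624) (nat_lit 529) (nat_lit 6640) (.f (nat_lit 527) (nat_lit 495) (nat_lit 7663) (.f (nat_lit 656) (nat_lit 559) (nat_lit 7695) (.d (nat_lit 655) (nat_lit 623) (nat_lit 5647) (nat_lit 687) (nat_lit 5679)))))))))) (.a (.p (nat_lit 496) (.a (.f (nat_lit 465) (nat_lit 497) (nat_lit 6608) (.f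 (nat_lit 464) (nat_lit 433) (nat_lit 6576) (.d (nat_lit 463) (nat_lit 431) (nat_lit 7599) (nat_lit 495) (nat_lit 7631)))) (.a (.f (nat_lit 593) (nat_lit 625) (nat_lit 4592) (.f (nat_lit 495) (nat_lit 463) (nat_lit 7631) (.f (nat_lit 624) (nat_lit 527) (nat_lit 7663) (.d (nat_lit 623) (nat_lit 595) (nat_lit 1615) (nat_lit 655) (nat_lit 5647))))) (.f (nat_lit 497) (nat_lit 465) (nat_lit 6608) (.f (nat_lit 529) (nat_lit 624) (nat_lit 6640) (.f (nat_lit 530) (nat_lit 626) (nat_lit 7665) (.f (nat_lit 531) (nat_lit 532) (nat_lit 3568) (.d (nat_lit 563) (nat_lit 527) (nat_lit 527) (nat_lit 564) (nat_lit 528))))))))) (.a (.p (nat_lit 496) (.a (.f (nat_lit 593) (nat_lit 625) (nat_lit 4592) (.f (nat_lit 595) (nat_lit 559) (nat_lit 3631) (.f (nat_lit 563) (nat_lit 564) (nat_lit 2608) (.f (nat_lit 627) (nat_lit 628) (nat_lit 592) (.d (nat_lit 530) (nat_lit 498) (nat_lit 4594) (nat_lit 659) (nat_lit 7698)))))) (.a (.f (nat_lit 593) (nat_lit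 625) (nat_lit 4592) (.f (nat_lit 595) (nat_lit 559) (nat_lit 3631) (.f (nat_lit 563) (nat_lit 564) (nat_lit 2608) (.f (nat_lit 627) (nat_lit 628) (nat_lit 592) (.d (nat_lit 659) (nat_lit 530) (nat_lit 7698) (nat_lit 691) (nat_lit 7730)))))) (.a (.f (nat_lit 593) (nat_lit 625) (nat_lit 4592) (.f (nat_lit 595) (nat_lit 559) (nat_lit 3631) (.f (nat_lit 563) (nat_lit 564) (nat_lit 2608) (.f (nat_lit 627) (nat_lit 628) (nat_lit 592) (.f (nat_lit 659) (nat_lit 691) (nat_lit 7730) (.f (nat_lit 658) (nat_lit 690) (nat_lit 5682) (.f (nat_lit 531) (nat_lit 626) (nat_lit 6674) (.f (nat_lit 499) (nat_lit 467) (nat_lit 5586) (.d (nat_lit 500) (nat_lit 468) (nat_lit 6611) (nat_lit 532) (nat_lit 6643)))))))))) (.a (.f (nat_lit 497) (nat_lit 465) (nat_lit 6608) (.f (nat_lit 529) (nat_lit 624) (nat_lit 6640) (.f (nat_lit 530) (nat_lit 626) (nat_lit 7665) (.d (nat_lit 531) (nat_lit 532) (nat_lit 3568) (nat_lit 559) (nat_lit 1551))))) (.f (nat_lit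 497) (nat_lit 465) (nat_lit 6608) (.f (nat_lit 529) (nat_lit 624) (nat_lit 6640) (.f (nat_lit 530) (nat_lit 626) (nat_lit 7665) (.f (nat_lit 531) (nat_lit 532) (nat_lit 3568) (.d (nat_lit 563) (nat_lit 527) (nat_lit 527) (nat_lit 564) (nat_lit 528))))))))))) (.p (nat_lit 624) (.a (.f (nat_lit 527) (nat_lit 495) (nat_lit 7663) (.f (nat_lit 656) (nat_lit 559) (nat_lit 7695) (.d (nat_lit 655) (nat_lit 623) (nat_lit 5647) (nat_lit 687) (nat_lit 5679)))) (.a (.f (nat_lit 497) (nat_lit 529) (nat_lit 6640) (.f (nat_lit 496) (nat_lit 465) (nat_lit 6608) (.f (nat_lit 463) (nat_lit 495) (nat_lit 7631) (.f (nat_lit 464) (nat_lit 431) (nat_lit 7599) (.f (nat_lit 499) (nat_lit 498) (nat_lit 3535) (.f (nat_lit 655) (nat_lit 623) (nat_lit 5647) (.f (nat_lit 656) (nat_lit 687) (nat_lit 5679) (.f (nat_lit 625) (nat_lit 593) (nat_lit 4592) (.f (nat_lit 626) (nat_lit 627) (nat_lit 1647) (.f (nat_lit 531) (nat_lit 530) (nat_lit 6642) (.d (nat_lit 563)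 (nat_lit 467) (nat_lit 5586) (nat_lit 658) (nat_lit 6674)))))))))))) (.a (.f (nat_lit 655) (nat_lit 623) (nat_lit 5647) (.f (nat_lit 656) (nat_lit 687) (nat_lit 5679) (.f (nat_lit 529) (nat_lit 497) (nat_lit 6640) (.f (nat_lit 527) (nat_lit 559) (nat_lit 7695) (.f (nat_lit 530) (nat_lit 563) (nat_lit 527) (.f (nat_lit 499) (nat_lit 498) (nat_lit 2543) (.d (nat_lit 531) (nat_lit 500) (nat_lit 2544) (nat_lit 626) (nat_lit 6642)))))))) (.f (nat_lit 527) (nat_lit 495) (nat_lit 7663) (.f (nat_lit 529) (nat_lit 497) (nat_lit 6640) (.f (nat_lit 530) (nat_lit 563) (nat_lit 527) (.f (nat_lit 499) (nat_lit 498) (nat_lit 2543) (.d (nat_lit 531) (nat_lit 500) (nat_lit 2544) (nat_lit 626) (nat_lit 6642))))))))))))))))))) (.p (nat_lit 624) (.a (.f (nat_lit 527) (nat_lit 495) (nat_lit 7663) (.f (nat_lit 656) (nat_lit 559) (nat_lit 7695) (.d (nat_lit 655) (nat_lit 623) (nat_lit 5647) (nat_lit 687) (nat_lit 5679)))) (.a (.f (nat_lit 623) (nat_lit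 655) (nat_lit 5647) (.f (nat_lit 496) (nat_lit 591) (nat_lit 5615) (.d (nat_lit 497) (nat_lit 465) (nat_lit 6608) (nat_lit 529) (nat_lit 6640)))) (.f (nat_lit 527) (nat_lit 495) (nat_lit 7663) (.f (nat_lit 529) (nat_lit 497) (nat_lit 6640) (.f (nat_lit 530) (nat_lit 563) (nat_lit 527) (.d (nat_lit 559) (nat_lit 531) (nat_lit 1551) (nat_lit 558) (nat_lit 1550))))))))))))))))))) (.a (.p (nat_lit 496) (.a s3206 (.a (.p (nat_lit 592) (.a (.f (nat_lit 591) (nat_lit 623) (nat_lit 5615) (.f (nat_lit 593) (nat_lit 625) (nat_lit 4592) (.f (nat_lit 559) (nat_lit 464) (nat_lit 5583) (.d (nat_lit 558) (nat_lit 557) (nat_lit 557) (nat_lit 594) (nat_lit 3630))))) (.a (.f (nat_lit 495) (nat_lit 463) (nat_lit 7631) (.f (nat_lit 624) (nat_lit 527) (nat_lit 7663) (.d (nat_lit 623) (nat_lit 591) (nat_lit 5615) (nat_lit 655) (nat_lit 5647)))) (.f (nat_lit 463) (nat_lit 495) (nat_lit 7631) (.f (nat_lit 464) (nat_lit 431) (nat_lit 7599) (.d (nat_lit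 465) (nat_lit 433) (nat_lit 6576) (nat_lit 497) (nat_lit 6608))))))) (.a (.p (nat_lit 561) (.a (.f (nat_lit 464) (nat_lit 593) (nat_lit 4560) (.f (nat_lit 431) (nat_lit 463) (nat_lit 7599) (.f (nat_lit 432) (nat_lit 399) (nat_lit 7567) (.d (nat_lit 433) (nat_lit 401) (nat_lit 6544) (nat_lit 465) (nat_lit 6576))))) (.f (nat_lit 563) (nat_lit 527) (nat_lit 3599) (.f (nat_lit 595) (nat_lit 596) (nat_lit 560) (.f (nat_lit 531) (nat_lit 532) (nat_lit 2576) (.d (nat_lit 559) (nat_lit 530) (nat_lit 2575) (nat_lit 594) (nat_lit 559))))))) (.a (.p (nat_lit 592) (.a (.f (nat_lit 591) (nat_lit 623) (nat_lit 5615) (.f (nat_lit 561) (nat_lit 563) (nat_lit 1583) (.d (nat_lit 590) (nat_lit 559) (nat_lit 1582) (nat_lit 589) (nat_lit 2605)))) (.a (.f (nat_lit 495) (nat_lit 463) (nat_lit 7631) (.f (nat_lit 624) (nat_lit 527) (nat_lit 7663) (.d (nat_lit 623) (nat_lit 591) (nat_lit 5615) (nat_lit 655) (nat_lit 5647)))) (.f (nat_lit 495) (nat_lit 463)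 (nat_lit 7631) (.f (nat_lit 527) (nat_lit 624) (nat_lit 7663) (.f (nat_lit 561) (nat_lit 563) (nat_lit 3599) (.f (nat_lit 497) (nat_lit 465) (nat_lit 6608) (.f (nat_lit 498) (nat_lit 499) (nat_lit 1519) (.f (nat_lit 530) (nat_lit 531) (nat_lit 495) (.d (nat_lit 466) (nat_lit 467) (nat_lit 2511) (nat_lit 593) (nat_lit 5585))))))))))) (.a (.p (nat_lit 592) (.a (.f (nat_lit 591) (nat_lit 623) (nat_lit 5615) (.f (nat_lit 561) (nat_lit 563) (nat_lit 1583) (.d (nat_lit 590) (nat_lit 559) (nat_lit 1582) (nat_lit 589) (nat_lit 2605)))) (.a (.f (nat_lit 495) (nat_lit 463) (nat_lit 7631) (.f (nat_lit 624) (nat_lit 527) (nat_lit 7663) (.d (nat_lit 623) (nat_lit 591) (nat_lit 5615) (nat_lit 655) (nat_lit 5647)))) (.f (nat_lit 463) (nat_lit 495) (nat_lit 7631) (.f (nat_lit 464) (nat_lit 431) (nat_lit 7599) (.d (nat_lit 465) (nat_lit 433) (nat_lit 6576) (nat_lit 497) (nat_lit 6608))))))) (.p (nat_lit 592) (.a (.f (nat_lit 593) (nat_lit 625) (nat_lit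 4592) (.f (nat_lit 561) (nat_lit 464) (nat_lit 4560) (.d (nat_lit 563) (nat_lit 564) (nat_lit 1584) (nat_lit 591) (nat_lit 1583)))) (.a (.f (nat_lit 495) (nat_lit 463) (nat_lit 7631) (.f (nat_lit 624) (nat_lit 527) (nat_lit 7663) (.d (nat_lit 623) (nat_lit 591) (nat_lit 5615) (nat_lit 655) (nat_lit 5647)))) (.f (nat_lit 593) (nat_lit 625) (nat_lit 4592) (.f (nat_lit 561) (nat_lit 464) (nat_lit 4560) (.d (nat_lit 563) (nat_lit 527) (nat_lit 3599) (nat_lit 564) (nat_lit 1584))))))))))))) (.a (.p (nat_lit 496) (.a s3206 (.a s10367 (.a (.p (nat_lit 561) (.a (.f (nat_lit 464) (nat_lit 593) (nat_lit 4560) (.f (nat_lit 431) (nat_lit 463) (nat_lit 7599) (.f (nat_lit 432) (nat_lit 399) (nat_lit 7567) (.d (nat_lit 433) (nat_lit 401) (nat_lit 6544) (nat_lit 465) (nat_lit 6576))))) (.f (nat_lit 563) (nat_lit 527) (nat_lit 3599) (.f (nat_lit 595) (nat_lit 596) (nat_lit 560) (.f (nat_lit 531) (nat_lit 532) (nat_lit 2576) (.d (nat_lit 559) (nat_lit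 530) (nat_lit 2575) (nat_lit 594) (nat_lit 559))))))) (.a (.p (nat_lit 592) (.a (.f (nat_lit 591) (nat_lit 623) (nat_lit 5615) (.f (nat_lit 561) (nat_lit 563) (nat_lit 1583) (.d (nat_lit 590) (nat_lit 559) (nat_lit 1582) (nat_lit 589) (nat_lit 2605)))) (.a (.f (nat_lit 495) (nat_lit 463) (nat_lit 7631) (.f (nat_lit 624) (nat_lit 527) (nat_lit 7663) (.d (nat_lit 623) (nat_lit 591) (nat_lit 5615) (nat_lit 655) (nat_lit 5647)))) (.a (.f (nat_lit 495) (nat_lit 463) (nat_lit 7631) (.f (nat_lit 527) (nat_lit 624) (nat_lit 7663) (.f (nat_lit 563) (nat_lit 561) (nat_lit 3599) (.f (nat_lit 593) (nat_lit 625) (nat_lit 4592) (.f (nat_lit 594) (nat_lit 591) (nat_lit 2607) (.d (nat_lit 564) (nat_lit 565) (nat_lit 1585) (nat_lit 595) (nat_lit 2608))))))) (.f (nat_lit 495) (nat_lit 463) (nat_lit 7631) (.f (nat_lit 624) (nat_lit 527) (nat_lit 7663) (.f (nat_lit 655) (nat_lit 623) (nat_lit 5647) (.f (nat_lit 656) (nat_lit 687) (nat_lit 5679) (.f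 (nat_lit 561) (nat_lit 529) (nat_lit 6672) (.f (nat_lit 593) (nat_lit 688) (nat_lit 6704) (.f (nat_lit 563) (nat_lit 564) (nat_lit 1584) (.f (nat_lit 595) (nat_lit 596) (nat_lit 560) (.f (nat_lit 594) (nat_lit 559) (nat_lit 559) (.f (nat_lit 627) (nat_lit 628) (nat_lit 592) (.d (nat_lit 530) (nat_lit 498) (nat_lit 4594) (nat_lit 659) (nat_lit 7698)))))))))))))))) (.p (nat_lit 592) (.a (.f (nat_lit 593) (nat_lit 625) (nat_lit 4592) (.f (nat_lit 561) (nat_lit 464) (nat_lit 4560) (.d (nat_lit 563) (nat_lit 564) (nat_lit 1584) (nat_lit 591) (nat_lit 1583)))) (.a (.f (nat_lit 495) (nat_lit 463) (nat_lit 7631) (.f (nat_lit 624) (nat_lit 527) (nat_lit 7663) (.d (nat_lit 623) (nat_lit 591) (nat_lit 5615) (nat_lit 655) (nat_lit 5647)))) (.f (nat_lit 593) (nat_lit 625) (nat_lit 4592) (.f (nat_lit 561) (nat_lit 464) (nat_lit 4560) (.d (nat_lit 563) (nat_lit 527) (nat_lit 3599) (nat_lit 564) (nat_lit 1584)))))))))))) (.a (.p (nat_lit 561) (.a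 (.f (nat_lit 563) (nat_lit 527) (nat_lit 3599) (.f (nat_lit 529) (nat_lit 564) (nat_lit 3600) (.f (nat_lit 531) (nat_lit 532) (nat_lit 2576) (.f (nat_lit 530) (nat_lit 559) (nat_lit 1551) (.f (nat_lit 499) (nat_lit 500) (nat_lit 2544) (.d (nat_lit 467) (nat_lit 435) (nat_lit 5554) (nat_lit 594) (nat_lit 5586))))))) (.a s7249 (.a (.f (nat_lit 563) (nat_lit 527) (nat_lit 3599) (.f (nat_lit 595) (nat_lit 596) (nat_lit 560) (.f (nat_lit 531) (nat_lit 532) (nat_lit 2576) (.d (nat_lit 559) (nat_lit 530) (nat_lit 2575) (nat_lit 594) (nat_lit 559))))) (.a (.f (nat_lit 563) (nat_lit 527) (nat_lit 3599) (.f (nat_lit 564) (nat_lit 529) (nat_lit 3600) (.d (nat_lit 596) (nat_lit 595) (nat_lit 560) (nat_lit 597) (nat_lit 561)))) s7916))))) (.a (.p (nat_lit 496) (.a s3193 (.a (.p (nat_lit 592) (.a (.f (nat_lit 591) (nat_lit 623) (nat_lit 5615) (.f (nat_lit 593) (nat_lit 625) (nat_lit 4592) (.f (nat_lit 559) (nat_lit 464) (nat_lit 5583) (.d (nat_lit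 558) (nat_lit 557) (nat_lit 557) (nat_lit 594) (nat_lit 3630))))) (.a (.f (nat_lit 495) (nat_lit 463) (nat_lit 7631) (.f (nat_lit 624) (nat_lit 527) (nat_lit 7663) (.d (nat_lit 623) (nat_lit 591) (nat_lit 5615) (nat_lit 655) (nat_lit 5647)))) (.f (nat_lit 463) (nat_lit 495) (nat_lit 7631) (.f (nat_lit 464) (nat_lit 431) (nat_lit 7599) (.d (nat_lit 465) (nat_lit 433) (nat_lit 6576) (nat_lit 497) (nat_lit 6608))))))) (.a s3206 (.a (.p (nat_lit 561) (.a (.f (nat_lit 464) (nat_lit 593) (nat_lit 4560) (.f (nat_lit 431) (nat_lit 463) (nat_lit 7599) (.f (nat_lit 432) (nat_lit 399) (nat_lit 7567) (.d (nat_lit 433) (nat_lit 401) (nat_lit 6544) (nat_lit 465) (nat_lit 6576))))) (.f (nat_lit 563) (nat_lit 527) (nat_lit 3599) (.f (nat_lit 564) (nat_lit 529) (nat_lit 3600) (.d (nat_lit 532) (nat_lit 531) (nat_lit 2576) (nat_lit 533) (nat_lit 2577)))))) (.p (nat_lit 592) (.a (.f (nat_lit 495) (nat_lit 463) (nat_lit 7631) (.f (nat_lit 624) (nat_lit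 527) (nat_lit 7663) (.d (nat_lit 497) (nat_lit 465) (nat_lit 6608) (nat_lit 529) (nat_lit 6640)))) (.f (nat_lit 591) (nat_lit 623) (nat_lit 5615) (.f (nat_lit 561) (nat_lit 563) (nat_lit 1583) (.d (nat_lit 590) (nat_lit 559) (nat_lit 1582) (nat_lit 589) (nat_lit 2605))))))))))) (.a s7917 (.a (.p (nat_lit 496) (.a (.p (nat_lit 592) (.a (.f (nat_lit 591) (nat_lit 623) (nat_lit 5615) (.f (nat_lit 593) (nat_lit 625) (nat_lit 4592) (.f (nat_lit 559) (nat_lit 464) (nat_lit 5583) (.d (nat_lit 558) (nat_lit 557) (nat_lit 557) (nat_lit 594) (nat_lit 3630))))) (.f (nat_lit 497) (nat_lit 465) (nat_lit 6608) (.f (nat_lit 495) (nat_lit 463) (nat_lit 7631) (.f (nat_lit 529) (nat_lit 624) (nat_lit 6640) (.d (nat_lit 494) (nat_lit 493) (nat_lit 493) (nat_lit 530) (nat_lit 494))))))) (.a (.p (nat_lit 592) (.a (.f (nat_lit 591) (nat_lit 623) (nat_lit 5615) (.f (nat_lit 593) (nat_lit 625) (nat_lit 4592) (.f (nat_lit 559) (nat_lit 464) (nat_lit 5583)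 (.d (nat_lit 558) (nat_lit 557) (nat_lit 557) (nat_lit 594) (nat_lit 3630))))) (.a (.f (nat_lit 495) (nat_lit 463) (nat_lit 7631) (.f (nat_lit 624) (nat_lit 527) (nat_lit 7663) (.d (nat_lit 623) (nat_lit 591) (nat_lit 5615) (nat_lit 655) (nat_lit 5647)))) (.f (nat_lit 463) (nat_lit 495) (nat_lit 7631) (.f (nat_lit 464) (nat_lit 431) (nat_lit 7599) (.d (nat_lit 465) (nat_lit 433) (nat_lit 6576) (nat_lit 497) (nat_lit 6608))))))) (.a s7918 (.a s3220 (.a s3357 (.a s3358 (.a s10203 s3360)))))))) (.a s3391 (.a (.p (nat_lit 496) (.a (.p (nat_lit 592) (.a (.f (nat_lit 593) (nat_lit 625) (nat_lit 4592) (.f (nat_lit 561) (nat_lit 464) (nat_lit 4560) (.d (nat_lit 563) (nat_lit 564) (nat_lit 1584) (nat_lit 591) (nat_lit 1583)))) (.f (nat_lit 497) (nat_lit 465) (nat_lit 6608) (.f (nat_lit 495) (nat_lit 463) (nat_lit 7631) (.f (nat_lit 529) (nat_lit 624) (nat_lit 6640) (.d (nat_lit 494) (nat_lit 493) (nat_lit 493) (nat_lit 530) (nat_lit 494)))))))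 (.a s3358 (.a (.p (nat_lit 592) (.a (.f (nat_lit 593) (nat_lit 625) (nat_lit 4592) (.f (nat_lit 561) (nat_lit 464) (nat_lit 4560) (.d (nat_lit 563) (nat_lit 564) (nat_lit 1584) (nat_lit 591) (nat_lit 1583)))) (.a (.f (nat_lit 495) (nat_lit 463) (nat_lit 7631) (.f (nat_lit 624) (nat_lit 527) (nat_lit 7663) (.d (nat_lit 623) (nat_lit 591) (nat_lit 5615) (nat_lit 655) (nat_lit 5647)))) (.f (nat_lit 593) (nat_lit 625) (nat_lit 4592) (.f (nat_lit 561) (nat_lit 464) (nat_lit 4560) (.d (nat_lit 563) (nat_lit 527) (nat_lit 3599) (nat_lit 564) (nat_lit 1584))))))) (.a (.p (nat_lit 561) (.a (.f (nat_lit 464) (nat_lit 593) (nat_lit 4560) (.f (nat_lit 431) (nat_lit 463) (nat_lit 7599) (.f (nat_lit 432) (nat_lit 399) (nat_lit 7567) (.d (nat_lit 433) (nat_lit 401) (nat_lit 6544) (nat_lit 465) (nat_lit 6576))))) (.f (nat_lit 563) (nat_lit 527) (nat_lit 3599) (.f (nat_lit 564) (nat_lit 529) (nat_lit 3600) (.d (nat_lit 532) (nat_lit 531) (nat_lit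 2576) (nat_lit 533) (nat_lit 2577)))))) (.a s3357 (.p (nat_lit 592) (.a (.f (nat_lit 593) (nat_lit 625) (nat_lit 4592) (.f (nat_lit 561) (nat_lit 464) (nat_lit 4560) (.d (nat_lit 563) (nat_lit 564) (nat_lit 1584) (nat_lit 591) (nat_lit 1583)))) (.a (.f (nat_lit 497) (nat_lit 465) (nat_lit 6608) (.f (nat_lit 624) (nat_lit 529) (nat_lit 6640) (.d (nat_lit 623) (nat_lit 591) (nat_lit 5615) (nat_lit 655) (nat_lit 5647)))) (.f (nat_lit 593) (nat_lit 625) (nat_lit 4592) (.f (nat_lit 561) (nat_lit 464) (nat_lit 4560) (.d (nat_lit 563) (nat_lit 527) (nat_lit 3599) (nat_lit 564) (nat_lit 1584))))))))))))) (.a s10072 (.p (nat_lit 594) (.a (.p (nat_lit 561) (.a (.f (nat_lit 563) (nat_lit 527) (nat_lit 3599) (.d (nat_lit 595) (nat_lit 559) (nat_lit 559) (nat_lit 596) (nat_lit 560))) (.a (.f (nat_lit 559) (nat_lit 595) (nat_lit 559) (.f (nat_lit 530) (nat_lit 531) (nat_lit 2575) (.d (nat_lit 558) (nat_lit 529) (nat_lit 2574) (nat_lit 593) (nat_lit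 558)))) (.f (nat_lit 563) (nat_lit 527) (nat_lit 3599) (.f (nat_lit 564) (nat_lit 529) (nat_lit 3600) (.d (nat_lit 532) (nat_lit 531) (nat_lit 2576) (nat_lit 533) (nat_lit 2577))))))) (.a s3834 (.a s4005 (.a s4047 (.a (.p (nat_lit 561) (.a (.f (nat_lit 563) (nat_lit 527) (nat_lit 3599) (.d (nat_lit 595) (nat_lit 559) (nat_lit 559) (nat_lit 596) (nat_lit 560))) (.a (.f (nat_lit 595) (nat_lit 559) (nat_lit 559) (.d (nat_lit 596) (nat_lit 563) (nat_lit 560) (nat_lit 597) (nat_lit 3633))) (.a (.f (nat_lit 595) (nat_lit 559) (nat_lit 559) (.d (nat_lit 596) (nat_lit 593) (nat_lit 3632) (nat_lit 597) (nat_lit 3633))) (.a (.f (nat_lit 563) (nat_lit 527) (nat_lit 3599) (.f (nat_lit 564) (nat_lit 529) (nat_lit 3600) (.d (nat_lit 596) (nat_lit 595) (nat_lit 560) (nat_lit 597) (nat_lit 561)))) (.f (nat_lit 563) (nat_lit 527) (nat_lit 3599) (.f (nat_lit 529) (nat_lit 564) (nat_lit 3600) (.f (nat_lit 497) (nat_lit 465) (nat_lit 4561) (.d (nat_lit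 626) (nat_lit 530) (nat_lit 7665) (nat_lit 593) (nat_lit 4593)))))))))) (.a (.p (nat_lit 561) (.a (.f (nat_lit 563) (nat_lit 527) (nat_lit 3599) (.d (nat_lit 595) (nat_lit 559) (nat_lit 559) (nat_lit 596) (nat_lit 560))) (.a (.f (nat_lit 595) (nat_lit 559) (nat_lit 559) (.d (nat_lit 596) (nat_lit 563) (nat_lit 560) (nat_lit 597) (nat_lit 3633))) (.a (.f (nat_lit 595) (nat_lit 559) (nat_lit 559) (.d (nat_lit 596) (nat_lit 593) (nat_lit 3632) (nat_lit 597) (nat_lit 3633))) (.f (nat_lit 563) (nat_lit 527) (nat_lit 3599) (.f (nat_lit 564) (nat_lit 529) (nat_lit 3600) (.d (nat_lit 532) (nat_lit 531) (nat_lit 2576) (nat_lit 533) (nat_lit 2577)))))))) (.a s4787 (.a s4799 (.p (nat_lit 530) (.a s3730 (.a (.p (nat_lit 529) (.a (.f (nat_lit 531) (nat_lit 559) (nat_lit 1551) (.d (nat_lit 499) (nat_lit 500) (nat_lit 2544) (nat_lit 626) (nat_lit 6642))) (.a (.f (nat_lit 527) (nat_lit 563) (nat_lit 527) (.f (nat_lit 495) (nat_lit 494) (nat_lit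 3566) (.f (nat_lit 559) (nat_lit 558) (nat_lit 1550) (.d (nat_lit 463) (nat_lit 431) (nat_lit 4527) (nat_lit 592) (nat_lit 4559))))) (.f (nat_lit 563) (nat_lit 527) (nat_lit 527) (.d (nat_lit 564) (nat_lit 531) (nat_lit 528) (nat_lit 565) (nat_lit 3601)))))) (.a s4838 (.a (.p (nat_lit 498) (.a (.f (nat_lit 497) (nat_lit 465) (nat_lit 7633) (.f (nat_lit 529) (nat_lit 626) (nat_lit 7665) (.d (nat_lit 499) (nat_lit 467) (nat_lit 6610) (nat_lit 500) (nat_lit 1520)))) (.a (.f (nat_lit 467) (nat_lit 499) (nat_lit 6610) (.f (nat_lit 466) (nat_lit 435) (nat_lit 6578) (.d (nat_lit 465) (nat_lit 433) (nat_lit 7601) (nat_lit 497) (nat_lit 7633)))) (.f (nat_lit 593) (nat_lit 625) (nat_lit 5617) (.f (nat_lit 561) (nat_lit 466) (nat_lit 5585) (.f (nat_lit 563) (nat_lit 527) (nat_lit 3599) (.d (nat_lit 564) (nat_lit 529) (nat_lit 3600) (nat_lit 565) (nat_lit 1585)))))))) (.a (.p (nat_lit 529) (.a (.f (nat_lit 527) (nat_lit 563) (nat_lit 527) (.f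 (nat_lit 495) (nat_lit 494) (nat_lit 3566) (.f (nat_lit 559) (nat_lit 558) (nat_lit 1550) (.d (nat_lit 463) (nat_lit 431) (nat_lit 4527) (nat_lit 592) (nat_lit 4559))))) (.f (nat_lit 497) (nat_lit 626) (nat_lit 7665) (.d (nat_lit 465) (nat_lit 433) (nat_lit 4529) (nat_lit 498) (nat_lit 7633))))) (.p (nat_lit 498) (.a (.f (nat_lit 593) (nat_lit 625) (nat_lit 5617) (.f (nat_lit 561) (nat_lit 466) (nat_lit 5585) (.d (nat_lit 559) (nat_lit 531) (nat_lit 2575) (nat_lit 558) (nat_lit 558)))) (.a (.f (nat_lit 467) (nat_lit 499) (nat_lit 6610) (.f (nat_lit 466) (nat_lit 435) (nat_lit 6578) (.d (nat_lit 465) (nat_lit 433) (nat_lit 7601) (nat_lit 497) (nat_lit 7633)))) (.f (nat_lit 499) (nat_lit 467) (nat_lit 6610) (.f (nat_lit 529) (nat_lit 527) (nat_lit 2543) (.d (nat_lit 500) (nat_lit 501) (nat_lit 1521) (nat_lit 531) (nat_lit 2544)))))))))))))))))))))))))))))))))))) (.a s10617 (.a s10618 s10640)))))))))))))))))))))))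
end Vale.Agent.Lib.P062.Part3
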