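import Vale.Agent.Lib.P062.Part3.K_0

set_option maxRecDepth 100000
set_option linter.all false

namespace Vale.Agent.Lib.P062.Part3
open Vale.Agent.Lib.P062 Vale.Agent.Lib.P062.V2

noncomputable def s26229 : Cert := .r (nat_lit 1537714675869256576155945778994232080668353507232100411704359814857561673081074955675453359508165820314914373751691712200315325311936528214016582337209772802048) (.p (nat_lit 529) (.a (.f (nat_lit 494) (nat_lit 493) (nat_lit 3565) (.f (nat_lit 558) (nat_lit 557) (nat_lit 1549) (.d (nat_lit 530) (nat_lit 495) (nat_lit 3566) (nat_lit 559) (nat_lit 1550)))) (.a (.f (nat_lit 493) (nat_lit 494) (nat_lit 3565) (.f (nat_lit 525) (nat_lit 492) (nat_lit 3564) (.d (nat_lit 557) (nat_lit 556) (nat_lit 1548) (nat_lit 558) (nat_lit 1549)))) (.a (.f (nat_lit 494) (nat_lit 493) (nat_lit 3565) (.f (nat_lit 530) (nat_lit 495) (nat_lit 3566) (.d (nat_lit 498) (nat_lit 497) (nat_lit 2542) (nat_lit 499) (nat_lit 2543)))) (.f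 (nat_lit 558) (nat_lit 557) (nat_lit 1549) (.f (nat_lit 530) (nat_lit 559) (nat_lit 1550) (.d (nat_lit 498) (nat_lit 497) (nat_lit 2542) (nat_lit 499) (nat_lit 2543))))))))
noncomputable def s26230 : Cert := .r (nat_lit 1537714675869256576155945778994232080668353507232100411704359814857561673081074955675453359508165820314914373751691712200315325311936528214016582337209772802048) (.p (nat_lit 529) (.a (.f (nat_lit 497) (nat_lit 498) (nat_lit 2542) (.f (nat_lit 525) (nat_lit 496) (nat_lit 2541) (.d (nat_lit 493) (nat_lit 492) (nat_lit 3564) (nat_lit 494) (nat_lit 3565)))) (.a (.f (nat_lit 493) (nat_lit 494) (nat_lit 3565) (.f (nat_lit 525) (nat_lit 492) (nat_lit 3564) (.d (nat_lit 557) (nat_lit 556) (nat_lit 1548) (nat_lit 558) (nat_lit 1549)))) (.a (.f (nat_lit 494) (nat_lit 493) (nat_lit 3565) (.f (nat_lit 495) (nat_lit 530) (nat_lit 3566) (.f (nat_lit 558) (nat_lit 557) (nat_lit 1549) (.d (nat_lit 463) (nat_lit 431) (nat_lit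 5550) (nat_lit 590) (nat_lit 6606))))) (.f (nat_lit 497) (nat_lit 498) (nat_lit 2542) (.f (nat_lit 525) (nat_lit 496) (nat_lit 2541) (.d (nat_lit 557) (nat_lit 556) (nat_lit 1548) (nat_lit 558) (nat_lit 1549))))))))
noncomputable def s26260 : Cert := .r (nat_lit 3773962426359256028110811157144214669911153301084793935608306711949983977249710525167201680853112127049634195345678218651462296830240117944497962465449278380859168129024) (.p (nat_lit 496) (.a (.p (nat_lit 464) (.a (.d (nat_lit 559) (nat_lit 432) (nat_lit 5551) (nat_lit 591) (nat_lit 5583)) (.f (nat_lit 463) (nat_lit 431) (nat_lit 7599) (.f (nat_lit 495) (nat_lit 592) (nat_lit 7631) (.f (nat_lit 465) (nat_lit 433) (nat_lit 6576) (.d (nat_lit 466) (nat_lit 467) (nat_lit 1487) (nat_lit 494) (nat_lit 1486))))))) (.a s26246 (.a (.p (nat_lit 464) (.a (.d (nat_lit 559) (nat_lit 432) (nat_lit 5551) (nat_lit 591) (nat_lit 5583)) (.a (.f (nat_lit 433) (nat_lit 465) (nat_lit 6576)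 (.f (nat_lit 432) (nat_lit 401) (nat_lit 6544) (.d (nat_lit 431) (nat_lit 399) (nat_lit 7567) (nat_lit 463) (nat_lit 7599)))) (.f (nat_lit 465) (nat_lit 433) (nat_lit 6576) (.f (nat_lit 592) (nat_lit 497) (nat_lit 6608) (.d (nat_lit 593) (nat_lit 561) (nat_lit 4560) (nat_lit 625) (nat_lit 4592))))))) (.a (.p (nat_lit 464) (.a (.d (nat_lit 559) (nat_lit 432) (nat_lit 5551) (nat_lit 591) (nat_lit 5583)) (.a (.f (nat_lit 433) (nat_lit 465) (nat_lit 6576) (.f (nat_lit 432) (nat_lit 401) (nat_lit 6544) (.d (nat_lit 431) (nat_lit 399) (nat_lit 7567) (nat_lit 463) (nat_lit 7599)))) (.f (nat_lit 559) (nat_lit 591) (nat_lit 5583) (.d (nat_lit 561) (nat_lit 562) (nat_lit 3598) (nat_lit 593) (nat_lit 4560)))))) (.a (.p (nat_lit 592) (.a (.d (nat_lit 495) (nat_lit 463) (nat_lit 7631) (nat_lit 624) (nat_lit 7663)) (.a (.f (nat_lit 623) (nat_lit 591) (nat_lit 5615) (.f (nat_lit 624) (nat_lit 655) (nat_lit 5647) (.d (nat_lit 625) (nat_lit 593)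 (nat_lit 4592) (nat_lit 657) (nat_lit 4624)))) (.f (nat_lit 495) (nat_lit 463) (nat_lit 7631) (.d (nat_lit 497) (nat_lit 465) (nat_lit 6608) (nat_lit 498) (nat_lit 1518)))))) (.a (.p (nat_lit 464) (.a (.d (nat_lit 559) (nat_lit 432) (nat_lit 5551) (nat_lit 591) (nat_lit 5583)) (.f (nat_lit 465) (nat_lit 433) (nat_lit 6576) (.f (nat_lit 592) (nat_lit 497) (nat_lit 6608) (.d (nat_lit 593) (nat_lit 561) (nat_lit 4560) (nat_lit 625) (nat_lit 4592)))))) (.p (nat_lit 464) (.a (.d (nat_lit 559) (nat_lit 432) (nat_lit 5551) (nat_lit 591) (nat_lit 5583)) (.f (nat_lit 463) (nat_lit 431) (nat_lit 7599) (.f (nat_lit 592) (nat_lit 495) (nat_lit 7631) (.d (nat_lit 593) (nat_lit 561) (nat_lit 4560) (nat_lit 625) (nat_lit 4592)))))))))))))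
noncomputable def s26262 : Cert := .r (nat_lit 3773962426359256028110811157144214669911153301084793935608306711949983977249710525167201680853112127049634195345678218651462296830240117944497962465449278380859168129024) (.p (nat_lit 496) (.a (.p (nat_lit 464) (.a (.d (nat_lit 559) (nat_lit 432) (nat_lit 5551) (nat_lit 591) (nat_lit 5583)) (.f (nat_lit 463) (nat_lit 431) (nat_lit 7599) (.f (nat_lit 495) (nat_lit 592) (nat_lit 7631) (.f (nat_lit 465) (nat_lit 433) (nat_lit 6576) (.d (nat_lit 466) (nat_lit 467) (nat_lit 1487) (nat_lit 494) (nat_lit 1486))))))) (.a (.p (nat_lit 592) (.a (.d (nat_lit 495) (nat_lit 463) (nat_lit 7631) (nat_lit 624) (nat_lit 7663)) (.a (.f (nat_lit 623) (nat_lit 591) (nat_lit 5615) (.f (nat_lit 624) (nat_lit 655) (nat_lit 5647) (.d (nat_lit 625) (nat_lit 593) (nat_lit 4592) (nat_lit 657) (nat_lit 4624)))) (.f (nat_lit 495) (nat_lit 463) (nat_lit 7631) (.d (nat_lit 497) (nat_lit 465) (nat_lit 6608) (nat_lit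 498) (nat_lit 1518)))))) (.a (.f (nat_lit 525) (nat_lit 497) (nat_lit 2541) (.f (nat_lit 559) (nat_lit 524) (nat_lit 524) (.d (nat_lit 464) (nat_lit 432) (nat_lit 5551) (nat_lit 591) (nat_lit 5583)))) (.f (nat_lit 525) (nat_lit 497) (nat_lit 2541) (.d (nat_lit 524) (nat_lit 495) (nat_lit 2540) (nat_lit 559) (nat_lit 524)))))))
noncomputable def s26263 : Cert := .r (nat_lit 1537714675869256576155945778994232080668353507232100411704359814857561673081074955675453359508165820314914373751691712200315325311936528214016582337209772802048) (.p (nat_lit 560) (.a (.f (nat_lit 525) (nat_lit 561) (nat_lit 525) (.f (nat_lit 496) (nat_lit 497) (nat_lit 2541) (.d (nat_lit 524) (nat_lit 495) (nat_lit 2540) (nat_lit 559) (nat_lit 524)))) (.a (.f (nat_lit 525) (nat_lit 561) (nat_lit 525) (.f (nat_lit 496) (nat_lit 497) (nat_lit 2541) (.f (nat_lit 495) (nat_lit 524) (nat_lit 2540) (.d (nat_lit 463) (nat_lit 431) (nat_lit 4527) (nat_lit 592) (nat_lit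 7631))))) (.a (.f (nat_lit 525) (nat_lit 561) (nat_lit 525) (.f (nat_lit 524) (nat_lit 559) (nat_lit 524) (.d (nat_lit 492) (nat_lit 491) (nat_lit 3563) (nat_lit 493) (nat_lit 3564)))) (.a s26260 s26262)))))
noncomputable def s26271 : Cert := .r (nat_lit 3773962428116644229104247244179581274475989964705769372444992896754966622801209580117001630196487395058966561419866074367681396487743346872425423281468229623384622759936) (.p (nat_lit 495) (.a (.f (nat_lit 463) (nat_lit 431) (nat_lit 4527) (.d (nat_lit 592) (nat_lit 496) (nat_lit 7631) (nat_lit 559) (nat_lit 4559))) (.a (.f (nat_lit 463) (nat_lit 431) (nat_lit 4527) (.d (nat_lit 592) (nat_lit 496) (nat_lit 7631) (nat_lit 624) (nat_lit 7663))) (.a (.f (nat_lit 463) (nat_lit 431) (nat_lit 4527) (.d (nat_lit 592) (nat_lit 559) (nat_lit 4559) (nat_lit 624) (nat_lit 7663))) (.a (.f (nat_lit 494) (nat_lit 493) (nat_lit 3565) (.f (nat_lit 558) (nat_lit 557) (nat_lit 1549) (.d (nat_lit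 463) (nat_lit 431) (nat_lit 5550) (nat_lit 590) (nat_lit 6606)))) (.f (nat_lit 561) (nat_lit 562) (nat_lit 526) (.f (nat_lit 494) (nat_lit 493) (nat_lit 3565) (.f (nat_lit 558) (nat_lit 557) (nat_lit 1549) (.f (nat_lit 590) (nat_lit 622) (nat_lit 6638) (.d (nat_lit 589) (nat_lit 559) (nat_lit 1581) (nat_lit 621) (nat_lit 5613)))))))))))
noncomputable def s26272 : Cert := .r (nat_lit 3295102876862692663191312383559068744289328944068786596509342460409060728030874905018828627517498186389102229467910811857818554239863989030035533579735227432960) (.p (nat_lit 560) (.a (.f (nat_lit 561) (nat_lit 562) (nat_lit 526) (.f (nat_lit 497) (nat_lit 498) (nat_lit 2542) (.d (nat_lit 465) (nat_lit 433) (nat_lit 5552) (nat_lit 592) (nat_lit 5584)))) (.a (.f (nat_lit 561) (nat_lit 562) (nat_lit 526) (.f (nat_lit 497) (nat_lit 498) (nat_lit 2542) (.f (nat_lit 465) (nat_lit 433) (nat_lit 5552) (.f (nat_lit 464) (nat_lit 432) (nat_lit 7600) (.f (nat_lit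 496) (nat_lit 593) (nat_lit 4560) (.f (nat_lit 494) (nat_lit 493) (nat_lit 3565) (.d (nat_lit 466) (nat_lit 434) (nat_lit 6577) (nat_lit 495) (nat_lit 2510)))))))) (.a (.f (nat_lit 497) (nat_lit 498) (nat_lit 2542) (.f (nat_lit 592) (nat_lit 624) (nat_lit 6640) (.d (nat_lit 465) (nat_lit 433) (nat_lit 5552) (nat_lit 496) (nat_lit 6608)))) s26271))))
noncomputable def s26273 : Cert := .r (nat_lit 1537714675869256576155945778994232080668353507232100411704359814857561673081074955675453359508165820314914373751691712200315325311936528214016582337209772802048) (.p (nat_lit 529) (.a (.f (nat_lit 494) (nat_lit 493) (nat_lit 3565) (.f (nat_lit 558) (nat_lit 557) (nat_lit 1549) (.d (nat_lit 530) (nat_lit 495) (nat_lit 3566) (nat_lit 559) (nat_lit 1550)))) (.a (.f (nat_lit 494) (nat_lit 493) (nat_lit 3565) (.f (nat_lit 495) (nat_lit 530) (nat_lit 3566) (.f (nat_lit 558) (nat_lit 557) (nat_lit 1549) (.d (nat_lit 463) (nat_lit 431) (nat_lit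 5550) (nat_lit 590) (nat_lit 6606))))) (.a (.f (nat_lit 558) (nat_lit 557) (nat_lit 1549) (.f (nat_lit 530) (nat_lit 559) (nat_lit 1550) (.d (nat_lit 498) (nat_lit 497) (nat_lit 2542) (nat_lit 499) (nat_lit 2543)))) (.a s26272 (.f (nat_lit 494) (nat_lit 493) (nat_lit 3565) (.f (nat_lit 530) (nat_lit 495) (nat_lit 3566) (.d (nat_lit 498) (nat_lit 497) (nat_lit 2542) (nat_lit 499) (nat_lit 2543)))))))))
noncomputable def s26280 : Cert := .r (nat_lit 1537714675869256576155945778994232080668353507232100411704359814857561673081074955675453359508165820314914373751691712200315325311936528214016582337209772802048) (.p (nat_lit 529) (.a (.f (nat_lit 497) (nat_lit 498) (nat_lit 2542) (.f (nat_lit 525) (nat_lit 496) (nat_lit 2541) (.d (nat_lit 557) (nat_lit 556) (nat_lit 1548) (nat_lit 558) (nat_lit 1549)))) (.a (.f (nat_lit 558) (nat_lit 557) (nat_lit 1549) (.f (nat_lit 530) (nat_lit 559) (nat_lit 1550) (.d (nat_lit 498) (nat_lit 497) (nat_lit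 2542) (nat_lit 499) (nat_lit 2543)))) (.a (.f (nat_lit 497) (nat_lit 498) (nat_lit 2542) (.f (nat_lit 525) (nat_lit 496) (nat_lit 2541) (.d (nat_lit 561) (nat_lit 560) (nat_lit 525) (nat_lit 562) (nat_lit 526)))) (.f (nat_lit 558) (nat_lit 557) (nat_lit 1549) (.f (nat_lit 530) (nat_lit 559) (nat_lit 1550) (.d (nat_lit 562) (nat_lit 561) (nat_lit 526) (nat_lit 563) (nat_lit 527))))))))
noncomputable def s26281 : Cert := .r (nat_lit 1537714675869256576155945778994232080668353507232100411704359814857561673081074955675453359508165820314914373751691712200315325311936528214016582337209772802048) (.p (nat_lit 529) (.a (.f (nat_lit 494) (nat_lit 493) (nat_lit 3565) (.f (nat_lit 558) (nat_lit 557) (nat_lit 1549) (.d (nat_lit 530) (nat_lit 495) (nat_lit 3566) (nat_lit 559) (nat_lit 1550)))) (.a (.f (nat_lit 493) (nat_lit 494) (nat_lit 3565) (.f (nat_lit 525) (nat_lit 492) (nat_lit 3564) (.d (nat_lit 557) (nat_lit 556) (nat_lit 1548) (nat_lit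 558) (nat_lit 1549)))) (.a (.f (nat_lit 494) (nat_lit 493) (nat_lit 3565) (.f (nat_lit 530) (nat_lit 495) (nat_lit 3566) (.d (nat_lit 562) (nat_lit 561) (nat_lit 526) (nat_lit 563) (nat_lit 527)))) (.f (nat_lit 558) (nat_lit 557) (nat_lit 1549) (.f (nat_lit 530) (nat_lit 559) (nat_lit 1550) (.d (nat_lit 562) (nat_lit 561) (nat_lit 526) (nat_lit 563) (nat_lit 527))))))))
noncomputable def s26283 : Cert := .r (nat_lit 1537714675869256576155945778994232080668353507232100411704359814857561673081074955675453359508165820314914373751691712200315325311936528214016582337209772802048) (.p (nat_lit 529) (.a (.f (nat_lit 493) (nat_lit 494) (nat_lit 3565) (.f (nat_lit 525) (nat_lit 492) (nat_lit 3564) (.d (nat_lit 557) (nat_lit 556) (nat_lit 1548) (nat_lit 558) (nat_lit 1549)))) (.a (.f (nat_lit 494) (nat_lit 493) (nat_lit 3565) (.f (nat_lit 495) (nat_lit 530) (nat_lit 3566) (.f (nat_lit 558) (nat_lit 557) (nat_lit 1549) (.d (nat_lit 463)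 (nat_lit 431) (nat_lit 5550) (nat_lit 590) (nat_lit 6606))))) (.a (.f (nat_lit 494) (nat_lit 493) (nat_lit 3565) (.f (nat_lit 530) (nat_lit 495) (nat_lit 3566) (.d (nat_lit 498) (nat_lit 497) (nat_lit 2542) (nat_lit 499) (nat_lit 2543)))) (.f (nat_lit 561) (nat_lit 562) (nat_lit 526) (.f (nat_lit 497) (nat_lit 498) (nat_lit 2542) (.f (nat_lit 560) (nat_lit 525) (nat_lit 525) (.d (nat_lit 465) (nat_lit 433) (nat_lit 5552) (nat_lit 592) (nat_lit 5584)))))))))
noncomputable def s26334 : Cert := .r (nat_lit 1647551438533639788092410625217446550170526945541163362193517004875883219268441633647060393598851283579735619644920614807895529338970033782076685322784130203648) (.p (nat_lit 524) (.a (.d (nat_lit 556) (nat_lit 555) (nat_lit 1547) (nat_lit 557) (nat_lit 1548)) (.a (.f (nat_lit 523) (nat_lit 494) (nat_lit 2539) (.d (nat_lit 555) (nat_lit 554) (nat_lit 1546) (nat_lit 556) (nat_lit 1547))) (.a (.f (nat_lit 523) (nat_lit 494) (nat_lit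 2539) (.f (nat_lit 490) (nat_lit 491) (nat_lit 3562) (.f (nat_lit 522) (nat_lit 489) (nat_lit 3561) (.d (nat_lit 554) (nat_lit 553) (nat_lit 1545) (nat_lit 555) (nat_lit 1546))))) (.f (nat_lit 523) (nat_lit 494) (nat_lit 2539) (.f (nat_lit 490) (nat_lit 491) (nat_lit 3562) (.f (nat_lit 522) (nat_lit 489) (nat_lit 3561) (.d (nat_lit 557) (nat_lit 556) (nat_lit 1548) (nat_lit 558) (nat_lit 522)))))))))
noncomputable def s26335 : Cert := .r (nat_lit 1537714675971550032652700212432144258694215980738870475643205589528914528334079136813099439348268010700098878662656921079301577530974567481075500870126289289216) (.p (nat_lit 525) (.a (.f (nat_lit 492) (nat_lit 493) (nat_lit 3564) (.f (nat_lit 524) (nat_lit 491) (nat_lit 3563) (.d (nat_lit 556) (nat_lit 555) (nat_lit 1547) (nat_lit 557) (nat_lit 1548)))) (.a (.f (nat_lit 492) (nat_lit 493) (nat_lit 3564) (.f (nat_lit 524) (nat_lit 491) (nat_lit 3563) (.f (nat_lit 523) (nat_lit 494) (nat_lit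 2539) (.d (nat_lit 555) (nat_lit 554) (nat_lit 1546) (nat_lit 556) (nat_lit 1547))))) (.a (.p (nat_lit 558) (.a (.f (nat_lit 493) (nat_lit 492) (nat_lit 3564) (.f (nat_lit 590) (nat_lit 622) (nat_lit 6638) (.d (nat_lit 461) (nat_lit 429) (nat_lit 4525) (nat_lit 494) (nat_lit 7629)))) (.a (.f (nat_lit 493) (nat_lit 492) (nat_lit 3564) (.f (nat_lit 590) (nat_lit 622) (nat_lit 6638) (.d (nat_lit 461) (nat_lit 429) (nat_lit 4525) (nat_lit 557) (nat_lit 4557)))) (.a (.f (nat_lit 463) (nat_lit 431) (nat_lit 5550) (.d (nat_lit 590) (nat_lit 494) (nat_lit 6606) (nat_lit 622) (nat_lit 6638))) (.f (nat_lit 493) (nat_lit 492) (nat_lit 3564) (.f (nat_lit 557) (nat_lit 556) (nat_lit 1548) (.f (nat_lit 461) (nat_lit 429) (nat_lit 4525) (.f (nat_lit 462) (nat_lit 430) (nat_lit 6573) (.f (nat_lit 494) (nat_lit 589) (nat_lit 5581) (.d (nat_lit 460) (nat_lit 428) (nat_lit 7596) (nat_lit 459) (nat_lit 459))))))))))) (.a (.f (nat_lit 556) (nat_lit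 557) (nat_lit 1548) (.f (nat_lit 524) (nat_lit 555) (nat_lit 1547) (.f (nat_lit 491) (nat_lit 492) (nat_lit 3563) (.d (nat_lit 523) (nat_lit 490) (nat_lit 3562) (nat_lit 494) (nat_lit 2539))))) (.a (.p (nat_lit 558) (.a (.f (nat_lit 493) (nat_lit 492) (nat_lit 3564) (.f (nat_lit 590) (nat_lit 622) (nat_lit 6638) (.d (nat_lit 461) (nat_lit 429) (nat_lit 4525) (nat_lit 494) (nat_lit 7629)))) (.a (.f (nat_lit 493) (nat_lit 492) (nat_lit 3564) (.f (nat_lit 590) (nat_lit 622) (nat_lit 6638) (.d (nat_lit 461) (nat_lit 429) (nat_lit 4525) (nat_lit 557) (nat_lit 4557)))) (.a (.f (nat_lit 463) (nat_lit 431) (nat_lit 5550) (.d (nat_lit 590) (nat_lit 494) (nat_lit 6606) (nat_lit 622) (nat_lit 6638))) (.f (nat_lit 492) (nat_lit 493) (nat_lit 3564) (.f (nat_lit 524) (nat_lit 491) (nat_lit 3563) (.f (nat_lit 523) (nat_lit 494) (nat_lit 2539) (.f (nat_lit 522) (nat_lit 557) (nat_lit 522) (.d (nat_lit 554) (nat_lit 553) (nat_lit 1545) (nat_lit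 555) (nat_lit 1546)))))))))) s26334))))))
noncomputable def s26379 : Cert := .r (nat_lit 1537714675971550032652700212432144258694215980738870475643205589528914528334079136813099439348268010700098878662656921079301577530974567481075500870126289289216) (.p (nat_lit 525) (.a (.f (nat_lit 492) (nat_lit 493) (nat_lit 3564) (.f (nat_lit 524) (nat_lit 491) (nat_lit 3563) (.d (nat_lit 556) (nat_lit 555) (nat_lit 1547) (nat_lit 557) (nat_lit 1548)))) (.a (.f (nat_lit 492) (nat_lit 493) (nat_lit 3564) (.f (nat_lit 524) (nat_lit 491) (nat_lit 3563) (.f (nat_lit 523) (nat_lit 494) (nat_lit 2539) (.d (nat_lit 555) (nat_lit 554) (nat_lit 1546) (nat_lit 556) (nat_lit 1547))))) (.a (.p (nat_lit 558) (.a (.f (nat_lit 493) (nat_lit 492) (nat_lit 3564) (.f (nat_lit 590) (nat_lit 622) (nat_lit 6638) (.d (nat_lit 461) (nat_lit 429) (nat_lit 4525) (nat_lit 494) (nat_lit 7629)))) (.a (.f (nat_lit 493) (nat_lit 492) (nat_lit 3564) (.f (nat_lit 590) (nat_lit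 622) (nat_lit 6638) (.d (nat_lit 461) (nat_lit 429) (nat_lit 4525) (nat_lit 557) (nat_lit 4557)))) (.a (.f (nat_lit 557) (nat_lit 556) (nat_lit 1548) (.f (nat_lit 590) (nat_lit 622) (nat_lit 6638) (.f (nat_lit 560) (nat_lit 561) (nat_lit 525) (.f (nat_lit 592) (nat_lit 624) (nat_lit 7663) (.f (nat_lit 591) (nat_lit 593) (nat_lit 3629) (.f (nat_lit 494) (nat_lit 623) (nat_lit 4590) (.d (nat_lit 462) (nat_lit 430) (nat_lit 5549) (nat_lit 589) (nat_lit 5581)))))))) (.f (nat_lit 493) (nat_lit 492) (nat_lit 3564) (.f (nat_lit 557) (nat_lit 556) (nat_lit 1548) (.f (nat_lit 461) (nat_lit 429) (nat_lit 4525) (.f (nat_lit 462) (nat_lit 430) (nat_lit 6573) (.f (nat_lit 494) (nat_lit 589) (nat_lit 5581) (.d (nat_lit 460) (nat_lit 428) (nat_lit 7596) (nat_lit 459) (nat_lit 459))))))))))) (.a (.f (nat_lit 556) (nat_lit 557) (nat_lit 1548) (.f (nat_lit 524) (nat_lit 555) (nat_lit 1547) (.f (nat_lit 491) (nat_lit 492) (nat_lit 3563) (.d (nat_lit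 523) (nat_lit 490) (nat_lit 3562) (nat_lit 494) (nat_lit 2539))))) (.a (.f (nat_lit 560) (nat_lit 561) (nat_lit 525) (.f (nat_lit 524) (nat_lit 559) (nat_lit 524) (.d (nat_lit 492) (nat_lit 491) (nat_lit 3563) (nat_lit 493) (nat_lit 3564)))) s26334))))))
noncomputable def s26404 : Cert := .r (nat_lit 3773962426359256028213104613640969103349065479110656409115076775888829751921063380420205861990758206889736385730862723562427505709226370163536001732508196913775684616192) (.p (nat_lit 558) (.a (.f (nat_lit 463) (nat_lit 431) (nat_lit 4527) (.d (nat_lit 590) (nat_lit 494) (nat_lit 6606) (nat_lit 622) (nat_lit 6638))) (.a (.f (nat_lit 525) (nat_lit 561) (nat_lit 525) (.f (nat_lit 493) (nat_lit 492) (nat_lit 3564) (.f (nat_lit 590) (nat_lit 622) (nat_lit 6638) (.d (nat_lit 461) (nat_lit 429) (nat_lit 4525) (nat_lit 494) (nat_lit 7629))))) (.a (.f (nat_lit 525) (nat_lit 561) (nat_lit 525) (.f (nat_lit 493) (nat_lit 492) (nat_lit 3564)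 (.f (nat_lit 590) (nat_lit 622) (nat_lit 6638) (.d (nat_lit 461) (nat_lit 429) (nat_lit 4525) (nat_lit 557) (nat_lit 4557))))) (.f (nat_lit 525) (nat_lit 561) (nat_lit 525) (.f (nat_lit 492) (nat_lit 493) (nat_lit 3564) (.f (nat_lit 524) (nat_lit 491) (nat_lit 3563) (.f (nat_lit 523) (nat_lit 494) (nat_lit 2539) (.f (nat_lit 522) (nat_lit 557) (nat_lit 522) (.d (nat_lit 554) (nat_lit 553) (nat_lit 1545) (nat_lit 555) (nat_lit 1546)))))))))))
noncomputable def s26406 : Cert := .r (nat_lit 1537714675971550032652700212432144258694215980738870475643205589528914528334079136813099439348268010700098878662656921079301577530974567481075500870126289289216) (.p (nat_lit 560) (.a (.f (nat_lit 463) (nat_lit 431) (nat_lit 4527) (.d (nat_lit 592) (nat_lit 559) (nat_lit 4559) (nat_lit 624) (nat_lit 7663))) (.a s26404 (.f (nat_lit 525) (nat_lit 561) (nat_lit 525) (.f (nat_lit 524) (nat_lit 559) (nat_lit 524) (.d (nat_lit 492) (nat_lit 491) (nat_lit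 3563) (nat_lit 493) (nat_lit 3564)))))))
noncomputable def s26424 : Cert := .r (nat_lit 1537714675971550032652700212432144258694215980738870475643205589528914528334079136813099439348268010700098878662656921079301577530974567481075500870126289289216) (.p (nat_lit 560) (.a (.f (nat_lit 463) (nat_lit 431) (nat_lit 4527) (.d (nat_lit 592) (nat_lit 559) (nat_lit 4559) (nat_lit 624) (nat_lit 7663))) (.a (.p (nat_lit 590) (.a (.f (nat_lit 558) (nat_lit 622) (nat_lit 6638) (.d (nat_lit 463) (nat_lit 431) (nat_lit 5550) (nat_lit 494) (nat_lit 6606))) (.f (nat_lit 561) (nat_lit 525) (nat_lit 525) (.f (nat_lit 592) (nat_lit 624) (nat_lit 7663) (.f (nat_lit 591) (nat_lit 589) (nat_lit 2605) (.d (nat_lit 562) (nat_lit 563) (nat_lit 1583) (nat_lit 593) (nat_lit 2606))))))) (.a (.f (nat_lit 463) (nat_lit 431) (nat_lit 4527) (.f (nat_lit 525) (nat_lit 561) (nat_lit 525) (.f (nat_lit 559) (nat_lit 524) (nat_lit 524) (.f (nat_lit 558) (nat_lit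 590) (nat_lit 5582) (.f (nat_lit 557) (nat_lit 556) (nat_lit 1548) (.f (nat_lit 462) (nat_lit 430) (nat_lit 7598) (.d (nat_lit 494) (nat_lit 589) (nat_lit 5581) (nat_lit 591) (nat_lit 4558)))))))) (.f (nat_lit 525) (nat_lit 561) (nat_lit 525) (.f (nat_lit 524) (nat_lit 559) (nat_lit 524) (.d (nat_lit 556) (nat_lit 555) (nat_lit 1547) (nat_lit 557) (nat_lit 1548))))))))
noncomputable def s26425 : Cert := .r (nat_lit 1537714675869256576155945778994232080668353507232100411704359814857561673081074955675453359508165820314914373751691712200315325311936528214016582337209772802048) (.p (nat_lit 495) (.a (.p (nat_lit 560) (.a (.f (nat_lit 525) (nat_lit 561) (nat_lit 525) (.f (nat_lit 492) (nat_lit 493) (nat_lit 3564) (.f (nat_lit 524) (nat_lit 491) (nat_lit 3563) (.d (nat_lit 556) (nat_lit 555) (nat_lit 1547) (nat_lit 557) (nat_lit 1548))))) (.f (nat_lit 463) (nat_lit 431) (nat_lit 4527) (.d (nat_lit 592) (nat_lit 559) (nat_lit 4559) (nat_lit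 624) (nat_lit 7663))))) (.a s26335 (.a (.p (nat_lit 559) (.a (.p (nat_lit 592) (.a (.d (nat_lit 560) (nat_lit 463) (nat_lit 4559) (nat_lit 624) (nat_lit 7663)) (.a (.f (nat_lit 591) (nat_lit 624) (nat_lit 4591) (.d (nat_lit 494) (nat_lit 462) (nat_lit 7630) (nat_lit 623) (nat_lit 7662))) (.f (nat_lit 463) (nat_lit 560) (nat_lit 4559) (.d (nat_lit 558) (nat_lit 431) (nat_lit 5550) (nat_lit 590) (nat_lit 5582)))))) (.a (.p (nat_lit 463) (.a (.d (nat_lit 558) (nat_lit 431) (nat_lit 5550) (nat_lit 590) (nat_lit 5582)) (.a (.f (nat_lit 430) (nat_lit 462) (nat_lit 7598) (.f (nat_lit 431) (nat_lit 398) (nat_lit 7566) (.d (nat_lit 432) (nat_lit 400) (nat_lit 6543) (nat_lit 464) (nat_lit 6575)))) (.f (nat_lit 558) (nat_lit 590) (nat_lit 5582) (.f (nat_lit 462) (nat_lit 430) (nat_lit 7598) (.f (nat_lit 494) (nat_lit 591) (nat_lit 4558) (.d (nat_lit 557) (nat_lit 556) (nat_lit 2572) (nat_lit 589) (nat_lit 5581)))))))) (.a (.p (nat_lit 592)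 (.a (.d (nat_lit 560) (nat_lit 463) (nat_lit 4559) (nat_lit 624) (nat_lit 7663)) (.a (.f (nat_lit 591) (nat_lit 624) (nat_lit 4591) (.d (nat_lit 494) (nat_lit 462) (nat_lit 7630) (nat_lit 623) (nat_lit 7662))) (.f (nat_lit 463) (nat_lit 560) (nat_lit 4559) (.f (nat_lit 430) (nat_lit 462) (nat_lit 7598) (.f (nat_lit 431) (nat_lit 398) (nat_lit 7566) (.d (nat_lit 432) (nat_lit 400) (nat_lit 6543) (nat_lit 464) (nat_lit 6575)))))))) (.a (.p (nat_lit 591) (.a (.d (nat_lit 494) (nat_lit 462) (nat_lit 7630) (nat_lit 623) (nat_lit 7662)) (.a (.f (nat_lit 622) (nat_lit 590) (nat_lit 5614) (.f (nat_lit 623) (nat_lit 654) (nat_lit 5646) (.d (nat_lit 624) (nat_lit 592) (nat_lit 4591) (nat_lit 656) (nat_lit 4623)))) (.f (nat_lit 494) (nat_lit 462) (nat_lit 7630) (.f (nat_lit 590) (nat_lit 622) (nat_lit 5614) (.f (nat_lit 592) (nat_lit 624) (nat_lit 4591) (.f (nat_lit 493) (nat_lit 492) (nat_lit 492) (.f (nat_lit 558) (nat_lit 461) (nat_lit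 7629) (.d (nat_lit 557) (nat_lit 556) (nat_lit 556) (nat_lit 593) (nat_lit 3629)))))))))) (.a (.p (nat_lit 463) (.a (.d (nat_lit 558) (nat_lit 431) (nat_lit 5550) (nat_lit 590) (nat_lit 5582)) (.a (.f (nat_lit 430) (nat_lit 462) (nat_lit 7598) (.f (nat_lit 431) (nat_lit 398) (nat_lit 7566) (.d (nat_lit 432) (nat_lit 400) (nat_lit 6543) (nat_lit 464) (nat_lit 6575)))) (.f (nat_lit 558) (nat_lit 590) (nat_lit 5582) (.f (nat_lit 560) (nat_lit 592) (nat_lit 4559) (.f (nat_lit 557) (nat_lit 556) (nat_lit 2572) (.f (nat_lit 462) (nat_lit 430) (nat_lit 7598) (.d (nat_lit 589) (nat_lit 494) (nat_lit 5581) (nat_lit 588) (nat_lit 1580))))))))) (.p (nat_lit 592) (.a (.d (nat_lit 560) (nat_lit 463) (nat_lit 4559) (nat_lit 624) (nat_lit 7663)) (.a (.f (nat_lit 591) (nat_lit 624) (nat_lit 4591) (.f (nat_lit 590) (nat_lit 622) (nat_lit 5614) (.f (nat_lit 558) (nat_lit 463) (nat_lit 5582) (.d (nat_lit 557) (nat_lit 556) (nat_lit 556) (nat_lit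 593) (nat_lit 3629))))) (.a (.f (nat_lit 463) (nat_lit 560) (nat_lit 4559) (.d (nat_lit 558) (nat_lit 431) (nat_lit 5550) (nat_lit 590) (nat_lit 5582))) (.d (nat_lit 624) (nat_lit 560) (nat_lit 7663) (nat_lit 591) (nat_lit 4591)))))))))))) (.a s26379 (.a (.p (nat_lit 560) (.a (.f (nat_lit 463) (nat_lit 431) (nat_lit 4527) (.d (nat_lit 592) (nat_lit 559) (nat_lit 4559) (nat_lit 624) (nat_lit 7663))) (.f (nat_lit 525) (nat_lit 561) (nat_lit 525) (.f (nat_lit 492) (nat_lit 493) (nat_lit 3564) (.f (nat_lit 524) (nat_lit 491) (nat_lit 3563) (.f (nat_lit 523) (nat_lit 494) (nat_lit 2539) (.d (nat_lit 555) (nat_lit 554) (nat_lit 1546) (nat_lit 556) (nat_lit 1547)))))))) (.a (.p (nat_lit 560) (.a (.f (nat_lit 463) (nat_lit 431) (nat_lit 4527) (.d (nat_lit 592) (nat_lit 559) (nat_lit 4559) (nat_lit 624) (nat_lit 7663))) (.f (nat_lit 525) (nat_lit 561) (nat_lit 525) (.f (nat_lit 556) (nat_lit 557) (nat_lit 1548) (.f (nat_lit 524) (nat_lit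 555) (nat_lit 1547) (.f (nat_lit 491) (nat_lit 492) (nat_lit 3563) (.d (nat_lit 523) (nat_lit 490) (nat_lit 3562) (nat_lit 494) (nat_lit 2539)))))))) (.a s26406 s26424))))))))
noncomputable def s26427 : Cert := .r (nat_lit 3773962428116644229104247244179581274475989964705769372444992896754966622801209580117001630196487395058966561419866074367681396487743346872425423281468229623384622759936) (.p (nat_lit 495) (.a (.f (nat_lit 463) (nat_lit 431) (nat_lit 4527) (.d (nat_lit 592) (nat_lit 559) (nat_lit 4559) (nat_lit 624) (nat_lit 7663))) (.a (.f (nat_lit 494) (nat_lit 493) (nat_lit 3565) (.f (nat_lit 558) (nat_lit 557) (nat_lit 1549) (.d (nat_lit 463) (nat_lit 431) (nat_lit 5550) (nat_lit 590) (nat_lit 6606)))) (.f (nat_lit 494) (nat_lit 493) (nat_lit 3565) (.f (nat_lit 558) (nat_lit 557) (nat_lit 1549) (.f (nat_lit 590) (nat_lit 622) (nat_lit 6638) (.f (nat_lit 591) (nat_lit 623) (nat_lit 4590) (.f (nat_lit 462) (nat_lit 559) (nat_lit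 7630) (.f (nat_lit 430) (nat_lit 398) (nat_lit 4494) (.d (nat_lit 429) (nat_lit 397) (nat_lit 7565) (nat_lit 461) (nat_lit 7597)))))))))))
noncomputable def s26428 : Cert := .r (nat_lit 3295102876862692663191312383559068744289328944068786596509342460409060728030874905018828627517498186389102229467910811857818554239863989030035533579735227432960) (.p (nat_lit 560) (.a (.f (nat_lit 561) (nat_lit 562) (nat_lit 526) (.f (nat_lit 497) (nat_lit 498) (nat_lit 2542) (.d (nat_lit 465) (nat_lit 433) (nat_lit 5552) (nat_lit 592) (nat_lit 5584)))) (.a (.f (nat_lit 561) (nat_lit 562) (nat_lit 526) (.f (nat_lit 558) (nat_lit 557) (nat_lit 1549) (.f (nat_lit 494) (nat_lit 493) (nat_lit 3565) (.f (nat_lit 497) (nat_lit 498) (nat_lit 2542) (.f (nat_lit 465) (nat_lit 433) (nat_lit 5552) (.f (nat_lit 464) (nat_lit 432) (nat_lit 7600) (.f (nat_lit 466) (nat_lit 434) (nat_lit 6577) (.f (nat_lit 463) (nat_lit 495) (nat_lit 1486) (.d (nat_lit 431) (nat_lit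 430) (nat_lit 3502) (nat_lit 462) (nat_lit 6574)))))))))) s26427)))
noncomputable def s26429 : Cert := .r (nat_lit 1537714675869256576155945778994232080668353507232100411704359814857561673081074955675453359508165820314914373751691712200315325311936528214016582337209772802048) (.p (nat_lit 529) (.a (.f (nat_lit 494) (nat_lit 493) (nat_lit 3565) (.f (nat_lit 558) (nat_lit 557) (nat_lit 1549) (.d (nat_lit 530) (nat_lit 495) (nat_lit 3566) (nat_lit 559) (nat_lit 1550)))) (.a (.f (nat_lit 494) (nat_lit 493) (nat_lit 3565) (.f (nat_lit 495) (nat_lit 530) (nat_lit 3566) (.f (nat_lit 558) (nat_lit 557) (nat_lit 1549) (.d (nat_lit 463) (nat_lit 431) (nat_lit 5550) (nat_lit 590) (nat_lit 6606))))) (.a (.f (nat_lit 558) (nat_lit 557) (nat_lit 1549) (.f (nat_lit 530) (nat_lit 559) (nat_lit 1550) (.d (nat_lit 498) (nat_lit 497) (nat_lit 2542) (nat_lit 499) (nat_lit 2543)))) (.a s26428 (.f (nat_lit 494) (nat_lit 493) (nat_lit 3565) (.f (nat_lit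 530) (nat_lit 495) (nat_lit 3566) (.d (nat_lit 498) (nat_lit 497) (nat_lit 2542) (nat_lit 499) (nat_lit 2543)))))))))
noncomputable def s26461 : Cert := .r (nat_lit 1537714675869256576155945778994232080668353507232100411704359814857561673081074955675453359508165820314914373751691712200315325311936528214016582337209772802048) (.p (nat_lit 525) (.a (.f (nat_lit 492) (nat_lit 493) (nat_lit 3564) (.f (nat_lit 524) (nat_lit 491) (nat_lit 3563) (.d (nat_lit 496) (nat_lit 495) (nat_lit 2540) (nat_lit 497) (nat_lit 2541)))) (.a (.f (nat_lit 492) (nat_lit 493) (nat_lit 3564) (.f (nat_lit 524) (nat_lit 491) (nat_lit 3563) (.d (nat_lit 556) (nat_lit 555) (nat_lit 1547) (nat_lit 557) (nat_lit 1548)))) (.a s26459 (.f (nat_lit 496) (nat_lit 497) (nat_lit 2541) (.f (nat_lit 524) (nat_lit 495) (nat_lit 2540) (.d (nat_lit 556) (nat_lit 555) (nat_lit 1547) (nat_lit 557) (nat_lit 1548))))))))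
noncomputable def s26464 : Cert := .r (nat_lit 3295102876862692663191312383559068744289328944068786596509342460409060728030874905018828627517498186389102229467910811857818554239863989030035533579735227432960) (.p (nat_lit 560) (.a (.f (nat_lit 561) (nat_lit 562) (nat_lit 526) (.f (nat_lit 497) (nat_lit 498) (nat_lit 2542) (.d (nat_lit 465) (nat_lit 433) (nat_lit 5552) (nat_lit 592) (nat_lit 5584)))) (.a (.f (nat_lit 561) (nat_lit 562) (nat_lit 526) (.f (nat_lit 497) (nat_lit 498) (nat_lit 2542) (.f (nat_lit 465) (nat_lit 433) (nat_lit 5552) (.f (nat_lit 464) (nat_lit 432) (nat_lit 7600) (.f (nat_lit 496) (nat_lit 593) (nat_lit 4560) (.f (nat_lit 494) (nat_lit 493) (nat_lit 3565) (.d (nat_lit 466) (nat_lit 434) (nat_lit 6577) (nat_lit 495) (nat_lit 2510)))))))) (.a (.f (nat_lit 497) (nat_lit 498) (nat_lit 2542) (.f (nat_lit 592) (nat_lit 624) (nat_lit 6640) (.d (nat_lit 465) (nat_lit 433) (nat_lit 5552) (nat_lit 496) (nat_lit 6608))))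 (.p (nat_lit 495) (.a (.f (nat_lit 463) (nat_lit 431) (nat_lit 4527) (.d (nat_lit 592) (nat_lit 496) (nat_lit 7631) (nat_lit 624) (nat_lit 7663))) (.a (.f (nat_lit 494) (nat_lit 493) (nat_lit 3565) (.f (nat_lit 558) (nat_lit 557) (nat_lit 1549) (.d (nat_lit 463) (nat_lit 431) (nat_lit 5550) (nat_lit 590) (nat_lit 6606)))) (.f (nat_lit 561) (nat_lit 562) (nat_lit 526) (.f (nat_lit 494) (nat_lit 493) (nat_lit 3565) (.f (nat_lit 558) (nat_lit 557) (nat_lit 1549) (.f (nat_lit 590) (nat_lit 622) (nat_lit 6638) (.f (nat_lit 592) (nat_lit 624) (nat_lit 7663) (.d (nat_lit 589) (nat_lit 591) (nat_lit 2605) (nat_lit 621) (nat_lit 5613))))))))))))))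
noncomputable def s26469 : Cert := .r (nat_lit 1537714675869256576155945778994232080668353507232100411704359814857561673081074955675453359508165820314914373751691712200315325311936528214016582337209772802048) (.p (nat_lit 529) (.a (.f (nat_lit 493) (nat_lit 494) (nat_lit 3565) (.f (nat_lit 525) (nat_lit 492) (nat_lit 3564) (.d (nat_lit 557) (nat_lit 556) (nat_lit 1548) (nat_lit 558) (nat_lit 1549)))) (.a (.f (nat_lit 494) (nat_lit 493) (nat_lit 3565) (.f (nat_lit 495) (nat_lit 530) (nat_lit 3566) (.f (nat_lit 558) (nat_lit 557) (nat_lit 1549) (.d (nat_lit 463) (nat_lit 431) (nat_lit 5550) (nat_lit 590) (nat_lit 6606))))) (.a (.f (nat_lit 494) (nat_lit 493) (nat_lit 3565) (.f (nat_lit 530) (nat_lit 495) (nat_lit 3566) (.d (nat_lit 562) (nat_lit 561) (nat_lit 526) (nat_lit 563) (nat_lit 527)))) (.f (nat_lit 561) (nat_lit 562) (nat_lit 526) (.f (nat_lit 525) (nat_lit 560) (nat_lit 525) (.d (nat_lit 557) (nat_lit 556) (nat_lit 1548)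 (nat_lit 558) (nat_lit 1549))))))))
noncomputable def s26470 : Cert := .r (nat_lit 1537714675869256576155945778994232080668353507232100411704359814857561673081074955675453359508165820314914373751691712200315325311936528214016582337209772802048) (.p (nat_lit 529) (.a (.f (nat_lit 497) (nat_lit 498) (nat_lit 2542) (.f (nat_lit 525) (nat_lit 496) (nat_lit 2541) (.d (nat_lit 557) (nat_lit 556) (nat_lit 1548) (nat_lit 558) (nat_lit 1549)))) (.a (.f (nat_lit 561) (nat_lit 562) (nat_lit 526) (.f (nat_lit 497) (nat_lit 498) (nat_lit 2542) (.f (nat_lit 560) (nat_lit 525) (nat_lit 525) (.d (nat_lit 465) (nat_lit 433) (nat_lit 5552) (nat_lit 592) (nat_lit 5584))))) (.a (.f (nat_lit 498) (nat_lit 497) (nat_lit 2542) (.f (nat_lit 530) (nat_lit 499) (nat_lit 2543) (.d (nat_lit 562) (nat_lit 561) (nat_lit 526) (nat_lit 563) (nat_lit 527)))) (.f (nat_lit 561) (nat_lit 562) (nat_lit 526) (.f (nat_lit 525) (nat_lit 560) (nat_lit 525) (.d (nat_lit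 557) (nat_lit 556) (nat_lit 1548) (nat_lit 558) (nat_lit 1549))))))))
noncomputable def s26482 : Cert := .r (nat_lit 1886981213728811826968147812267413832320000285949814265322387852665394840031051572508417505734006914617835652456207319148014825937076070231264352004789479986635305123840) (.p (nat_lit 464) (.a (.d (nat_lit 432) (nat_lit 463) (nat_lit 6575) (nat_lit 496) (nat_lit 5551)) (.a (.f (nat_lit 463) (nat_lit 432) (nat_lit 6575) (.f (nat_lit 462) (nat_lit 430) (nat_lit 7598) (.f (nat_lit 494) (nat_lit 591) (nat_lit 7630) (.d (nat_lit 465) (nat_lit 466) (nat_lit 1486) (nat_lit 493) (nat_lit 1485))))) (.a (.d (nat_lit 496) (nat_lit 432) (nat_lit 5551) (nat_lit 591) (nat_lit 6607)) (.f (nat_lit 591) (nat_lit 496) (nat_lit 6607) (.f (nat_lit 494) (nat_lit 462) (nat_lit 7630) (.f (nat_lit 526) (nat_lit 623) (nat_lit 7662) (.f (nat_lit 590) (nat_lit 622) (nat_lit 5614) (.f (nat_lit 558) (nat_lit 463) (nat_lit 5582) (.d (nat_lit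 493) (nat_lit 461) (nat_lit 7629) (nat_lit 492) (nat_lit 492)))))))))))
noncomputable def s26534 : Cert := .r (nat_lit 1537714676176136945646209079307968614745940927752410603520897138871620238840087499088391599028472391470467888484587338837274081969050646015193337935959322263552) (.p (nat_lit 494) (.a (.f (nat_lit 493) (nat_lit 492) (nat_lit 492) (.f (nat_lit 461) (nat_lit 460) (nat_lit 3532) (.d (nat_lit 497) (nat_lit 462) (nat_lit 3533) (nat_lit 498) (nat_lit 1518)))) (.a (.f (nat_lit 493) (nat_lit 492) (nat_lit 492) (.f (nat_lit 461) (nat_lit 460) (nat_lit 3532) (.f (nat_lit 558) (nat_lit 590) (nat_lit 7629) (.d (nat_lit 429) (nat_lit 397) (nat_lit 4493) (nat_lit 462) (nat_lit 7597))))) (.a (.f (nat_lit 497) (nat_lit 498) (nat_lit 1518) (.f (nat_lit 462) (nat_lit 461) (nat_lit 3533) (.f (nat_lit 430) (nat_lit 398) (nat_lit 4494) (.f (nat_lit 431) (nat_lit 399) (nat_lit 6542) (.f (nat_lit 463) (nat_lit 558) (nat_lit 5550) (.f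 (nat_lit 465) (nat_lit 466) (nat_lit 2510) (.d (nat_lit 429) (nat_lit 397) (nat_lit 7565) (nat_lit 464) (nat_lit 3501)))))))) (.f (nat_lit 493) (nat_lit 492) (nat_lit 492) (.f (nat_lit 497) (nat_lit 498) (nat_lit 1518) (.d (nat_lit 465) (nat_lit 464) (nat_lit 2509) (nat_lit 466) (nat_lit 2510))))))))
noncomputable def s26611 : Cert := .r (nat_lit 1318041151051957434766788253737364031793318998147824830420274308177682856971362505420469690527305845711194406520059951380086178353059713413190969030643640434688) (.p (nat_lit 526) (.a (.d (nat_lit 497) (nat_lit 498) (nat_lit 1518) (nat_lit 525) (nat_lit 2541)) (.a (.p (nat_lit 494) (.a (.f (nat_lit 493) (nat_lit 492) (nat_lit 492) (.f (nat_lit 461) (nat_lit 460) (nat_lit 3532) (.d (nat_lit 497) (nat_lit 462) (nat_lit 3533) (nat_lit 498) (nat_lit 1518)))) (.a (.f (nat_lit 493) (nat_lit 492) (nat_lit 492) (.f (nat_lit 461) (nat_lit 460) (nat_lit 3532) (.f (nat_lit 558) (nat_lit 590) (nat_lit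 7629) (.d (nat_lit 429) (nat_lit 397) (nat_lit 4493) (nat_lit 462) (nat_lit 7597))))) (.f (nat_lit 497) (nat_lit 498) (nat_lit 1518) (.f (nat_lit 465) (nat_lit 466) (nat_lit 2510) (.f (nat_lit 560) (nat_lit 592) (nat_lit 6608) (.d (nat_lit 433) (nat_lit 401) (nat_lit 5520) (nat_lit 464) (nat_lit 6576)))))))) (.f (nat_lit 525) (nat_lit 524) (nat_lit 2540) (.f (nat_lit 493) (nat_lit 492) (nat_lit 3564) (.f (nat_lit 557) (nat_lit 556) (nat_lit 1548) (.f (nat_lit 560) (nat_lit 561) (nat_lit 525) (.f (nat_lit 592) (nat_lit 624) (nat_lit 7663) (.f (nat_lit 591) (nat_lit 623) (nat_lit 5615) (.f (nat_lit 593) (nat_lit 625) (nat_lit 4592) (.f (nat_lit 590) (nat_lit 558) (nat_lit 3629) (.d (nat_lit 622) (nat_lit 589) (nat_lit 4589) (nat_lit 621) (nat_lit 1613)))))))))))))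
noncomputable def s26643 : Cert := .r (nat_lit 1537714675971550032652700212432144258694215980738870475643205589528914528334079136813099439348268010700098878662656921079301577530974567481075500870126289289216) (.p (nat_lit 559) (.a (.p (nat_lit 463) (.a (.d (nat_lit 558) (nat_lit 431) (nat_lit 5550) (nat_lit 590) (nat_lit 5582)) (.a (.f (nat_lit 430) (nat_lit 462) (nat_lit 7598) (.f (nat_lit 431) (nat_lit 398) (nat_lit 7566) (.d (nat_lit 432) (nat_lit 400) (nat_lit 6543) (nat_lit 464) (nat_lit 6575)))) (.f (nat_lit 558) (nat_lit 590) (nat_lit 5582) (.f (nat_lit 462) (nat_lit 430) (nat_lit 7598) (.f (nat_lit 494) (nat_lit 591) (nat_lit 4558) (.d (nat_lit 557) (nat_lit 556) (nat_lit 2572) (nat_lit 589) (nat_lit 5581)))))))) (.a (.p (nat_lit 591) (.a (.d (nat_lit 494) (nat_lit 462) (nat_lit 7630) (nat_lit 623) (nat_lit 7662)) (.a (.f (nat_lit 622) (nat_lit 590) (nat_lit 5614) (.f (nat_lit 623) (nat_lit 654) (nat_lit 5646) (.d (nat_lit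 624) (nat_lit 592) (nat_lit 4591) (nat_lit 656) (nat_lit 4623)))) (.f (nat_lit 494) (nat_lit 462) (nat_lit 7630) (.f (nat_lit 590) (nat_lit 622) (nat_lit 5614) (.f (nat_lit 592) (nat_lit 624) (nat_lit 4591) (.f (nat_lit 493) (nat_lit 492) (nat_lit 492) (.f (nat_lit 558) (nat_lit 461) (nat_lit 7629) (.d (nat_lit 557) (nat_lit 556) (nat_lit 556) (nat_lit 593) (nat_lit 3629)))))))))) (.a (.p (nat_lit 464) (.a (.f (nat_lit 463) (nat_lit 432) (nat_lit 6575) (.f (nat_lit 462) (nat_lit 430) (nat_lit 7598) (.f (nat_lit 494) (nat_lit 591) (nat_lit 7630) (.d (nat_lit 465) (nat_lit 466) (nat_lit 1486) (nat_lit 493) (nat_lit 1485))))) (.a (.d (nat_lit 496) (nat_lit 432) (nat_lit 5551) (nat_lit 591) (nat_lit 6607)) (.a (.d (nat_lit 432) (nat_lit 463) (nat_lit 6575) (nat_lit 496) (nat_lit 5551)) (.f (nat_lit 591) (nat_lit 496) (nat_lit 6607) (.d (nat_lit 494) (nat_lit 462) (nat_lit 7630) (nat_lit 623) (nat_lit 7662))))))) (.a (.p (nat_lit 463)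 (.a (.d (nat_lit 558) (nat_lit 431) (nat_lit 5550) (nat_lit 590) (nat_lit 5582)) (.a (.f (nat_lit 430) (nat_lit 462) (nat_lit 7598) (.f (nat_lit 431) (nat_lit 398) (nat_lit 7566) (.d (nat_lit 432) (nat_lit 400) (nat_lit 6543) (nat_lit 464) (nat_lit 6575)))) (.f (nat_lit 558) (nat_lit 590) (nat_lit 5582) (.f (nat_lit 462) (nat_lit 430) (nat_lit 7598) (.f (nat_lit 464) (nat_lit 432) (nat_lit 6575) (.f (nat_lit 557) (nat_lit 556) (nat_lit 2572) (.f (nat_lit 494) (nat_lit 589) (nat_lit 5581) (.d (nat_lit 465) (nat_lit 466) (nat_lit 1486) (nat_lit 493) (nat_lit 1485)))))))))) (.p (nat_lit 464) (.a (.f (nat_lit 463) (nat_lit 432) (nat_lit 6575) (.d (nat_lit 558) (nat_lit 431) (nat_lit 5550) (nat_lit 590) (nat_lit 5582))) (.a (.d (nat_lit 496) (nat_lit 432) (nat_lit 5551) (nat_lit 591) (nat_lit 6607)) (.f (nat_lit 591) (nat_lit 496) (nat_lit 6607) (.f (nat_lit 590) (nat_lit 622) (nat_lit 5614) (.f (nat_lit 558) (nat_lit 463) (nat_lit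 5582) (.f (nat_lit 557) (nat_lit 556) (nat_lit 2572) (.d (nat_lit 592) (nat_lit 593) (nat_lit 3629) (nat_lit 624) (nat_lit 4591))))))))))))))
noncomputable def s26663 : Cert := .r (nat_lit 1537714675971550032652700212432144258694215980738870475643205589528914528334079136813099439348268010700098878662656921079301577530974567481075500870126289289216) (.p (nat_lit 496) (.a (.d (nat_lit 497) (nat_lit 498) (nat_lit 1518) (nat_lit 525) (nat_lit 2541)) (.a (.p (nat_lit 494) (.a (.f (nat_lit 493) (nat_lit 492) (nat_lit 492) (.f (nat_lit 464) (nat_lit 465) (nat_lit 2509) (.d (nat_lit 432) (nat_lit 400) (nat_lit 5519) (nat_lit 559) (nat_lit 5551)))) (.a (.f (nat_lit 493) (nat_lit 492) (nat_lit 492) (.f (nat_lit 461) (nat_lit 460) (nat_lit 3532) (.d (nat_lit 497) (nat_lit 462) (nat_lit 3533) (nat_lit 498) (nat_lit 1518)))) (.f (nat_lit 497) (nat_lit 498) (nat_lit 1518) (.f (nat_lit 462) (nat_lit 461) (nat_lit 3533) (.d (nat_lit 430) (nat_lit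 398) (nat_lit 4494) (nat_lit 559) (nat_lit 4526))))))) (.p (nat_lit 559) (.a (.d (nat_lit 464) (nat_lit 432) (nat_lit 5551) (nat_lit 591) (nat_lit 6607)) (.a (.f (nat_lit 591) (nat_lit 623) (nat_lit 6639) (.f (nat_lit 525) (nat_lit 524) (nat_lit 2540) (.f (nat_lit 462) (nat_lit 494) (nat_lit 7630) (.f (nat_lit 430) (nat_lit 463) (nat_lit 7598) (.f (nat_lit 493) (nat_lit 492) (nat_lit 3564) (.d (nat_lit 557) (nat_lit 461) (nat_lit 6573) (nat_lit 556) (nat_lit 1548))))))) (.f (nat_lit 464) (nat_lit 432) (nat_lit 5551) (.f (nat_lit 525) (nat_lit 524) (nat_lit 2540) (.f (nat_lit 493) (nat_lit 492) (nat_lit 3564) (.f (nat_lit 494) (nat_lit 465) (nat_lit 2509) (.f (nat_lit 462) (nat_lit 430) (nat_lit 4526) (.d (nat_lit 557) (nat_lit 556) (nat_lit 1548) (nat_lit 589) (nat_lit 6605)))))))))))))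
noncomputable def s26674 : Cert := .r (nat_lit 1537714675971550032652700212432144258694215980738870475643205589528914528334079136813099439348268010700098878662656921079301577530974567481075500870126289289216) (.p (nat_lit 525) (.a (.d (nat_lit 496) (nat_lit 497) (nat_lit 2541) (nat_lit 524) (nat_lit 2540)) (.a (.f (nat_lit 492) (nat_lit 493) (nat_lit 3564) (.f (nat_lit 524) (nat_lit 491) (nat_lit 3563) (.d (nat_lit 556) (nat_lit 555) (nat_lit 1547) (nat_lit 557) (nat_lit 1548)))) (.p (nat_lit 558) (.a (.f (nat_lit 493) (nat_lit 492) (nat_lit 3564) (.f (nat_lit 590) (nat_lit 622) (nat_lit 6638) (.d (nat_lit 461) (nat_lit 429) (nat_lit 4525) (nat_lit 557) (nat_lit 4557)))) (.a (.f (nat_lit 590) (nat_lit 622) (nat_lit 6638) (.d (nat_lit 463) (nat_lit 431) (nat_lit 5550) (nat_lit 559) (nat_lit 5582))) (.f (nat_lit 496) (nat_lit 497) (nat_lit 2541) (.f (nat_lit 463) (nat_lit 431) (nat_lit 5550) (.f (nat_lit 557) (nat_lit 556) (nat_lit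 1548) (.f (nat_lit 493) (nat_lit 492) (nat_lit 3564) (.f (nat_lit 461) (nat_lit 429) (nat_lit 4525) (.d (nat_lit 460) (nat_lit 428) (nat_lit 7596) (nat_lit 462) (nat_lit 460)))))))))))))
noncomputable def s26681 : Cert := .r (nat_lit 1537714676176136945646209079307968614745940927752410603520897138871620238840087499088391599028472391470467888484587338837274081969050646015193337935959322263552) (.p (nat_lit 559) (.a (.d (nat_lit 464) (nat_lit 432) (nat_lit 5551) (nat_lit 591) (nat_lit 6607)) (.a (.f (nat_lit 591) (nat_lit 623) (nat_lit 6639) (.f (nat_lit 494) (nat_lit 462) (nat_lit 7630) (.f (nat_lit 493) (nat_lit 492) (nat_lit 492) (.f (nat_lit 525) (nat_lit 524) (nat_lit 2540) (.f (nat_lit 461) (nat_lit 460) (nat_lit 3532) (.d (nat_lit 429) (nat_lit 397) (nat_lit 4493) (nat_lit 558) (nat_lit 4525))))))) (.f (nat_lit 464) (nat_lit 432) (nat_lit 5551) (.f (nat_lit 525) (nat_lit 524) (nat_lit 2540) (.f (nat_lit 493) (nat_lit 492)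 (nat_lit 3564) (.f (nat_lit 494) (nat_lit 465) (nat_lit 2509) (.f (nat_lit 462) (nat_lit 430) (nat_lit 4526) (.d (nat_lit 557) (nat_lit 556) (nat_lit 1548) (nat_lit 589) (nat_lit 6605))))))))))
noncomputable def s26682 : Cert := .r (nat_lit 1537714675971550032652700212432144258694215980738870475643205589528914528334079136813099439348268010700098878662656921079301577530974567481075500870126289289216) (.p (nat_lit 496) (.a (.d (nat_lit 497) (nat_lit 498) (nat_lit 1518) (nat_lit 525) (nat_lit 2541)) (.a (.p (nat_lit 494) (.a (.f (nat_lit 493) (nat_lit 492) (nat_lit 492) (.f (nat_lit 464) (nat_lit 465) (nat_lit 2509) (.d (nat_lit 432) (nat_lit 400) (nat_lit 5519) (nat_lit 559) (nat_lit 5551)))) (.a (.f (nat_lit 493) (nat_lit 492) (nat_lit 492) (.f (nat_lit 461) (nat_lit 460) (nat_lit 3532) (.d (nat_lit 497) (nat_lit 462) (nat_lit 3533) (nat_lit 498) (nat_lit 1518)))) (.f (nat_lit 497) (nat_lit 498) (nat_lit 1518) (.f (nat_lit 462)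 (nat_lit 461) (nat_lit 3533) (.d (nat_lit 430) (nat_lit 398) (nat_lit 4494) (nat_lit 559) (nat_lit 4526))))))) s26681)))
noncomputable def s26695 : Cert := .r (nat_lit 1537714675971550032652700212432144258694215980738870475643205589528914528334079136813099439348268010700098878662656921079301577530974567481075500870126289289216) (.p (nat_lit 496) (.a (.d (nat_lit 497) (nat_lit 498) (nat_lit 1518) (nat_lit 525) (nat_lit 2541)) (.a (.p (nat_lit 494) (.a (.f (nat_lit 493) (nat_lit 492) (nat_lit 492) (.f (nat_lit 464) (nat_lit 465) (nat_lit 2509) (.d (nat_lit 432) (nat_lit 400) (nat_lit 5519) (nat_lit 559) (nat_lit 5551)))) (.a (.f (nat_lit 493) (nat_lit 492) (nat_lit 492) (.f (nat_lit 461) (nat_lit 460) (nat_lit 3532) (.d (nat_lit 497) (nat_lit 462) (nat_lit 3533) (nat_lit 498) (nat_lit 1518)))) (.f (nat_lit 497) (nat_lit 498) (nat_lit 1518) (.f (nat_lit 462) (nat_lit 461) (nat_lit 3533) (.d (nat_lit 430) (nat_lit 398) (nat_lit 4494)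 (nat_lit 559) (nat_lit 4526))))))) (.p (nat_lit 559) (.a (.d (nat_lit 464) (nat_lit 432) (nat_lit 5551) (nat_lit 591) (nat_lit 6607)) (.a (.f (nat_lit 591) (nat_lit 623) (nat_lit 6639) (.f (nat_lit 494) (nat_lit 462) (nat_lit 7630) (.f (nat_lit 590) (nat_lit 622) (nat_lit 5614) (.f (nat_lit 558) (nat_lit 463) (nat_lit 6606) (.d (nat_lit 493) (nat_lit 461) (nat_lit 7629) (nat_lit 492) (nat_lit 492)))))) (.f (nat_lit 464) (nat_lit 432) (nat_lit 5551) (.f (nat_lit 525) (nat_lit 524) (nat_lit 2540) (.f (nat_lit 493) (nat_lit 492) (nat_lit 3564) (.f (nat_lit 494) (nat_lit 465) (nat_lit 2509) (.f (nat_lit 461) (nat_lit 460) (nat_lit 3532) (.d (nat_lit 429) (nat_lit 397) (nat_lit 4493) (nat_lit 558) (nat_lit 4525)))))))))))))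
noncomputable def s26711 : Cert := .r (nat_lit 1537714675971550032652700212432144258694215980738870475643205589528914528334079136813099439348268010700098878662656921079301577530974567481075500870126289289216) (.p (nat_lit 559) (.a (.p (nat_lit 463) (.a (.d (nat_lit 558) (nat_lit 431) (nat_lit 5550) (nat_lit 590) (nat_lit 5582)) (.a (.f (nat_lit 430) (nat_lit 462) (nat_lit 7598) (.f (nat_lit 431) (nat_lit 398) (nat_lit 7566) (.d (nat_lit 432) (nat_lit 400) (nat_lit 6543) (nat_lit 464) (nat_lit 6575)))) (.f (nat_lit 558) (nat_lit 590) (nat_lit 5582) (.f (nat_lit 462) (nat_lit 430) (nat_lit 7598) (.f (nat_lit 494) (nat_lit 591) (nat_lit 4558) (.d (nat_lit 557) (nat_lit 556) (nat_lit 2572) (nat_lit 589) (nat_lit 5581)))))))) (.a (.p (nat_lit 496) (.a (.f (nat_lit 591) (nat_lit 623) (nat_lit 6639) (.f (nat_lit 590) (nat_lit 622) (nat_lit 5614) (.f (nat_lit 463) (nat_lit 558) (nat_lit 5582) (.f (nat_lit 431) (nat_lit 399) (nat_lit 4495)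 (.d (nat_lit 430) (nat_lit 398) (nat_lit 7566) (nat_lit 462) (nat_lit 7598)))))) (.d (nat_lit 497) (nat_lit 498) (nat_lit 1518) (nat_lit 525) (nat_lit 2541)))) (.a (.p (nat_lit 496) (.a (.d (nat_lit 464) (nat_lit 432) (nat_lit 5551) (nat_lit 591) (nat_lit 6607)) (.d (nat_lit 497) (nat_lit 498) (nat_lit 1518) (nat_lit 525) (nat_lit 2541)))) (.p (nat_lit 463) (.a (.d (nat_lit 558) (nat_lit 431) (nat_lit 5550) (nat_lit 590) (nat_lit 5582)) (.a (.f (nat_lit 430) (nat_lit 462) (nat_lit 7598) (.f (nat_lit 431) (nat_lit 398) (nat_lit 7566) (.d (nat_lit 432) (nat_lit 400) (nat_lit 6543) (nat_lit 464) (nat_lit 6575)))) (.f (nat_lit 558) (nat_lit 590) (nat_lit 5582) (.f (nat_lit 557) (nat_lit 556) (nat_lit 2572) (.f (nat_lit 462) (nat_lit 430) (nat_lit 7598) (.f (nat_lit 494) (nat_lit 589) (nat_lit 5581) (.f (nat_lit 461) (nat_lit 429) (nat_lit 7597) (.d (nat_lit 460) (nat_lit 459) (nat_lit 459) (nat_lit 496) (nat_lit 460))))))))))))))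
noncomputable def s26725 : Cert := .r (nat_lit 1537714675971550032652700212432144258694215980738870475643205589528914528334079136813099439348268010700098878662656921079301577530974567481075500870126289289216) (.p (nat_lit 559) (.a (.p (nat_lit 464) (.a (.f (nat_lit 463) (nat_lit 432) (nat_lit 6575) (.d (nat_lit 558) (nat_lit 431) (nat_lit 5550) (nat_lit 590) (nat_lit 5582))) (.a (.d (nat_lit 496) (nat_lit 432) (nat_lit 5551) (nat_lit 591) (nat_lit 6607)) (.f (nat_lit 591) (nat_lit 496) (nat_lit 6607) (.f (nat_lit 590) (nat_lit 622) (nat_lit 5614) (.f (nat_lit 558) (nat_lit 463) (nat_lit 5582) (.f (nat_lit 557) (nat_lit 556) (nat_lit 2572) (.d (nat_lit 592) (nat_lit 593) (nat_lit 3629) (nat_lit 624) (nat_lit 4591))))))))) (.a (.p (nat_lit 463) (.a (.d (nat_lit 558) (nat_lit 431) (nat_lit 5550) (nat_lit 590) (nat_lit 5582)) (.a (.f (nat_lit 432) (nat_lit 464) (nat_lit 6575) (.f (nat_lit 431) (nat_lit 400) (nat_lit 6543) (.f (nat_lit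 398) (nat_lit 430) (nat_lit 7566) (.d (nat_lit 399) (nat_lit 366) (nat_lit 7534) (nat_lit 494) (nat_lit 5518))))) (.f (nat_lit 590) (nat_lit 558) (nat_lit 5582) (.f (nat_lit 591) (nat_lit 622) (nat_lit 5614) (.f (nat_lit 623) (nat_lit 494) (nat_lit 7662) (.d (nat_lit 624) (nat_lit 592) (nat_lit 4591) (nat_lit 656) (nat_lit 4623)))))))) (.a (.p (nat_lit 496) (.a (.d (nat_lit 464) (nat_lit 432) (nat_lit 5551) (nat_lit 591) (nat_lit 6607)) (.d (nat_lit 497) (nat_lit 498) (nat_lit 1518) (nat_lit 525) (nat_lit 2541)))) (.a (.p (nat_lit 496) (.a (.d (nat_lit 497) (nat_lit 498) (nat_lit 1518) (nat_lit 525) (nat_lit 2541)) (.f (nat_lit 591) (nat_lit 623) (nat_lit 6639) (.f (nat_lit 590) (nat_lit 622) (nat_lit 5614) (.f (nat_lit 558) (nat_lit 463) (nat_lit 5582) (.f (nat_lit 557) (nat_lit 556) (nat_lit 2572) (.d (nat_lit 592) (nat_lit 593) (nat_lit 3629) (nat_lit 624) (nat_lit 4591)))))))) (.p (nat_lit 525) (.a (.f (nat_lit 492) (nat_lit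 493) (nat_lit 3564) (.f (nat_lit 524) (nat_lit 491) (nat_lit 3563) (.d (nat_lit 523) (nat_lit 494) (nat_lit 2539) (nat_lit 558) (nat_lit 523)))) (.a (.f (nat_lit 556) (nat_lit 557) (nat_lit 1548) (.f (nat_lit 524) (nat_lit 555) (nat_lit 1547) (.d (nat_lit 492) (nat_lit 491) (nat_lit 3563) (nat_lit 493) (nat_lit 3564)))) (.a (.f (nat_lit 496) (nat_lit 497) (nat_lit 2541) (.f (nat_lit 464) (nat_lit 432) (nat_lit 5551) (.f (nat_lit 493) (nat_lit 492) (nat_lit 3564) (.f (nat_lit 494) (nat_lit 465) (nat_lit 2509) (.f (nat_lit 461) (nat_lit 460) (nat_lit 3532) (.d (nat_lit 429) (nat_lit 397) (nat_lit 4493) (nat_lit 558) (nat_lit 4525))))))) (.d (nat_lit 496) (nat_lit 497) (nat_lit 2541) (nat_lit 524) (nat_lit 2540)))))))))))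
noncomputable def s26726 : Cert := .r (nat_lit 1537714675971550032652700212432144258694215980738870475643205589528914528334079136813099439348268010700098878662656921079301577530974567481075500870126289289216) (.p (nat_lit 559) (.a (.p (nat_lit 463) (.a (.d (nat_lit 558) (nat_lit 431) (nat_lit 5550) (nat_lit 590) (nat_lit 5582)) (.a (.f (nat_lit 430) (nat_lit 462) (nat_lit 7598) (.f (nat_lit 431) (nat_lit 398) (nat_lit 7566) (.d (nat_lit 432) (nat_lit 400) (nat_lit 6543) (nat_lit 464) (nat_lit 6575)))) (.f (nat_lit 558) (nat_lit 590) (nat_lit 5582) (.f (nat_lit 462) (nat_lit 430) (nat_lit 7598) (.f (nat_lit 494) (nat_lit 591) (nat_lit 4558) (.d (nat_lit 557) (nat_lit 556) (nat_lit 2572) (nat_lit 589) (nat_lit 5581)))))))) (.a (.p (nat_lit 496) (.a (.f (nat_lit 591) (nat_lit 623) (nat_lit 6639) (.f (nat_lit 590) (nat_lit 622) (nat_lit 5614) (.f (nat_lit 463) (nat_lit 558) (nat_lit 5582) (.f (nat_lit 431) (nat_lit 399) (nat_lit 4495)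 (.d (nat_lit 430) (nat_lit 398) (nat_lit 7566) (nat_lit 462) (nat_lit 7598)))))) (.d (nat_lit 497) (nat_lit 498) (nat_lit 1518) (nat_lit 525) (nat_lit 2541)))) (.a (.p (nat_lit 464) (.a (.f (nat_lit 463) (nat_lit 432) (nat_lit 6575) (.f (nat_lit 462) (nat_lit 430) (nat_lit 7598) (.f (nat_lit 494) (nat_lit 591) (nat_lit 7630) (.d (nat_lit 465) (nat_lit 466) (nat_lit 1486) (nat_lit 493) (nat_lit 1485))))) (.a (.d (nat_lit 496) (nat_lit 432) (nat_lit 5551) (nat_lit 591) (nat_lit 6607)) (.a (.d (nat_lit 432) (nat_lit 463) (nat_lit 6575) (nat_lit 496) (nat_lit 5551)) (.f (nat_lit 591) (nat_lit 496) (nat_lit 6607) (.d (nat_lit 494) (nat_lit 462) (nat_lit 7630) (nat_lit 623) (nat_lit 7662))))))) (.a (.p (nat_lit 496) (.a (.d (nat_lit 464) (nat_lit 432) (nat_lit 5551) (nat_lit 591) (nat_lit 6607)) (.d (nat_lit 497) (nat_lit 498) (nat_lit 1518) (nat_lit 525) (nat_lit 2541)))) (.p (nat_lit 463) (.a (.d (nat_lit 558) (nat_lit 431) (nat_lit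 5550) (nat_lit 590) (nat_lit 5582)) (.a (.f (nat_lit 430) (nat_lit 462) (nat_lit 7598) (.f (nat_lit 431) (nat_lit 398) (nat_lit 7566) (.d (nat_lit 432) (nat_lit 400) (nat_lit 6543) (nat_lit 464) (nat_lit 6575)))) (.f (nat_lit 558) (nat_lit 590) (nat_lit 5582) (.f (nat_lit 462) (nat_lit 430) (nat_lit 7598) (.f (nat_lit 464) (nat_lit 432) (nat_lit 6575) (.f (nat_lit 557) (nat_lit 556) (nat_lit 2572) (.f (nat_lit 494) (nat_lit 589) (nat_lit 5581) (.d (nat_lit 465) (nat_lit 466) (nat_lit 1486) (nat_lit 493) (nat_lit 1485)))))))))))))))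
noncomputable def s26750 : Cert := .r (nat_lit 1886981213728811826968147812267413832320000285949814265322387852665394840031051572508417505734006914617835652456207319148014825937076070231264352004789479986635305123840) (.p (nat_lit 463) (.a (.d (nat_lit 560) (nat_lit 431) (nat_lit 4527) (nat_lit 592) (nat_lit 4559)) (.a (.f (nat_lit 430) (nat_lit 462) (nat_lit 7598) (.f (nat_lit 431) (nat_lit 398) (nat_lit 7566) (.d (nat_lit 432) (nat_lit 400) (nat_lit 6543) (nat_lit 464) (nat_lit 6575)))) (.f (nat_lit 560) (nat_lit 592) (nat_lit 4559) (.f (nat_lit 464) (nat_lit 432) (nat_lit 6575) (.f (nat_lit 462) (nat_lit 430) (nat_lit 7598) (.f (nat_lit 558) (nat_lit 590) (nat_lit 5582) (.f (nat_lit 557) (nat_lit 556) (nat_lit 2572) (.f (nat_lit 525) (nat_lit 524) (nat_lit 3596) (.f (nat_lit 589) (nat_lit 588) (nat_lit 1580) (.f (nat_lit 493) (nat_lit 494) (nat_lit 6605) (.d (nat_lit 492) (nat_lit 460) (nat_lit 7628) (nat_lit 461) (nat_lit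 1484)))))))))))))
noncomputable def s26837 : Cert := .r (nat_lit 1886981213948485352092327323146834657890604868902436194926973625766017670724988954377142499401928823119002198215480801112542213394263973847255284606791848891950986952704) (.p (nat_lit 463) (.a (.f (nat_lit 430) (nat_lit 462) (nat_lit 7598) (.f (nat_lit 431) (nat_lit 398) (nat_lit 7566) (.d (nat_lit 432) (nat_lit 400) (nat_lit 6543) (nat_lit 464) (nat_lit 6575)))) (.a (.f (nat_lit 430) (nat_lit 462) (nat_lit 7598) (.f (nat_lit 431) (nat_lit 398) (nat_lit 7566) (.f (nat_lit 399) (nat_lit 494) (nat_lit 5518) (.d (nat_lit 400) (nat_lit 368) (nat_lit 6511) (nat_lit 432) (nat_lit 6543))))) (.a (.d (nat_lit 560) (nat_lit 431) (nat_lit 4527) (nat_lit 592) (nat_lit 4559)) (.f (nat_lit 560) (nat_lit 592) (nat_lit 4559) (.f (nat_lit 464) (nat_lit 432) (nat_lit 6575) (.f (nat_lit 462) (nat_lit 430) (nat_lit 7598) (.f (nat_lit 561) (nat_lit 562) (nat_lit 3598) (.f (nat_lit 496)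 (nat_lit 593) (nat_lit 4560) (.d (nat_lit 461) (nat_lit 460) (nat_lit 460) (nat_lit 497) (nat_lit 461)))))))))))
noncomputable def s26838 : Cert := .r (nat_lit 1537714675971550032652700212432144258694215980738870475643205589528914528334079136813099439348268010700098878662656921079301577530974567481075500870126289289216) (.p (nat_lit 559) (.a (.p (nat_lit 592) (.a (.d (nat_lit 560) (nat_lit 463) (nat_lit 4559) (nat_lit 624) (nat_lit 7663)) (.a (.f (nat_lit 591) (nat_lit 624) (nat_lit 4591) (.d (nat_lit 494) (nat_lit 462) (nat_lit 7630) (nat_lit 623) (nat_lit 7662))) (.f (nat_lit 463) (nat_lit 560) (nat_lit 4559) (.f (nat_lit 430) (nat_lit 462) (nat_lit 7598) (.f (nat_lit 431) (nat_lit 398) (nat_lit 7566) (.d (nat_lit 432) (nat_lit 400) (nat_lit 6543) (nat_lit 464) (nat_lit 6575)))))))) (.a (.p (nat_lit 464) (.a (.f (nat_lit 463) (nat_lit 432) (nat_lit 6575) (.f (nat_lit 462) (nat_lit 430) (nat_lit 7598) (.f (nat_lit 494) (nat_lit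 591) (nat_lit 7630) (.d (nat_lit 465) (nat_lit 466) (nat_lit 1486) (nat_lit 493) (nat_lit 1485))))) (.a (.d (nat_lit 496) (nat_lit 432) (nat_lit 5551) (nat_lit 591) (nat_lit 6607)) (.a (.d (nat_lit 432) (nat_lit 463) (nat_lit 6575) (nat_lit 496) (nat_lit 5551)) (.f (nat_lit 591) (nat_lit 496) (nat_lit 6607) (.d (nat_lit 494) (nat_lit 462) (nat_lit 7630) (nat_lit 623) (nat_lit 7662))))))) (.a (.p (nat_lit 592) (.a (.d (nat_lit 560) (nat_lit 463) (nat_lit 4559) (nat_lit 624) (nat_lit 7663)) (.a (.f (nat_lit 591) (nat_lit 624) (nat_lit 4591) (.d (nat_lit 494) (nat_lit 462) (nat_lit 7630) (nat_lit 623) (nat_lit 7662))) (.f (nat_lit 463) (nat_lit 560) (nat_lit 4559) (.f (nat_lit 462) (nat_lit 430) (nat_lit 7598) (.f (nat_lit 591) (nat_lit 494) (nat_lit 7630) (.f (nat_lit 622) (nat_lit 590) (nat_lit 5614) (.d (nat_lit 623) (nat_lit 496) (nat_lit 6639) (nat_lit 654) (nat_lit 5646))))))))) (.a (.p (nat_lit 464) (.a (.f (nat_lit 463) (nat_lit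 432) (nat_lit 6575) (.d (nat_lit 560) (nat_lit 431) (nat_lit 4527) (nat_lit 592) (nat_lit 4559))) (.a (.d (nat_lit 496) (nat_lit 432) (nat_lit 5551) (nat_lit 591) (nat_lit 6607)) (.f (nat_lit 591) (nat_lit 496) (nat_lit 6607) (.f (nat_lit 592) (nat_lit 624) (nat_lit 4591) (.f (nat_lit 560) (nat_lit 463) (nat_lit 4559) (.f (nat_lit 561) (nat_lit 562) (nat_lit 3598) (.d (nat_lit 590) (nat_lit 589) (nat_lit 2605) (nat_lit 622) (nat_lit 5614))))))))) (.a (.p (nat_lit 591) (.a (.d (nat_lit 494) (nat_lit 462) (nat_lit 7630) (nat_lit 623) (nat_lit 7662)) (.a (.f (nat_lit 622) (nat_lit 590) (nat_lit 5614) (.f (nat_lit 623) (nat_lit 654) (nat_lit 5646) (.d (nat_lit 624) (nat_lit 592) (nat_lit 4591) (nat_lit 656) (nat_lit 4623)))) (.f (nat_lit 496) (nat_lit 464) (nat_lit 6607) (.f (nat_lit 494) (nat_lit 462) (nat_lit 7630) (.f (nat_lit 497) (nat_lit 498) (nat_lit 1518) (.f (nat_lit 592) (nat_lit 624) (nat_lit 4591) (.d (nat_lit 465) (nat_lit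 466) (nat_lit 2510) (nat_lit 560) (nat_lit 6608))))))))) s26837))))))
noncomputable def s26940 : Cert := .r (nat_lit 3773962426139582503293512015755057144654285252209759426524031130665898470569831709057489230598128458068774220741958251419830536010010970985621147664623665074293035761664) (.p (nat_lit 494) (.a (.f (nat_lit 493) (nat_lit 492) (nat_lit 492) (.f (nat_lit 525) (nat_lit 524) (nat_lit 1516) (.f (nat_lit 526) (nat_lit 561) (nat_lit 525) (.f (nat_lit 557) (nat_lit 556) (nat_lit 1548) (.d (nat_lit 462) (nat_lit 430) (nat_lit 5549) (nat_lit 589) (nat_lit 6605)))))) (.a (.f (nat_lit 592) (nat_lit 624) (nat_lit 7663) (.f (nat_lit 591) (nat_lit 623) (nat_lit 5615) (.f (nat_lit 559) (nat_lit 462) (nat_lit 7630) (.f (nat_lit 590) (nat_lit 622) (nat_lit 5614) (.d (nat_lit 561) (nat_lit 562) (nat_lit 1582) (nat_lit 589) (nat_lit 2605)))))) (.a (.f (nat_lit 493) (nat_lit 492) (nat_lit 492) (.f (nat_lit 592) (nat_lit 624) (nat_lit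 7663) (.f (nat_lit 591) (nat_lit 623) (nat_lit 5615) (.f (nat_lit 559) (nat_lit 462) (nat_lit 7630) (.f (nat_lit 590) (nat_lit 622) (nat_lit 5614) (.f (nat_lit 525) (nat_lit 524) (nat_lit 1516) (.f (nat_lit 461) (nat_lit 460) (nat_lit 3532) (.d (nat_lit 558) (nat_lit 526) (nat_lit 7629) (nat_lit 557) (nat_lit 4557))))))))) (.f (nat_lit 493) (nat_lit 492) (nat_lit 492) (.f (nat_lit 525) (nat_lit 524) (nat_lit 1516) (.f (nat_lit 526) (nat_lit 561) (nat_lit 525) (.f (nat_lit 461) (nat_lit 460) (nat_lit 3532) (.d (nat_lit 429) (nat_lit 397) (nat_lit 4493) (nat_lit 558) (nat_lit 4525))))))))))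
noncomputable def s27067 : Cert := .r (nat_lit 1886981213728811826968147812267413832320000285949814265322387852665394840031051572508417505734006914617835652456207319148014825937076070231264352004789479986635305123840) (.p (nat_lit 463) (.a (.d (nat_lit 560) (nat_lit 431) (nat_lit 4527) (nat_lit 592) (nat_lit 4559)) (.a (.f (nat_lit 558) (nat_lit 590) (nat_lit 5582) (.f (nat_lit 431) (nat_lit 526) (nat_lit 5550) (.d (nat_lit 432) (nat_lit 400) (nat_lit 6543) (nat_lit 464) (nat_lit 6575)))) (.f (nat_lit 560) (nat_lit 592) (nat_lit 4559) (.f (nat_lit 558) (nat_lit 590) (nat_lit 5582) (.f (nat_lit 557) (nat_lit 556) (nat_lit 2572) (.f (nat_lit 525) (nat_lit 524) (nat_lit 3596) (.f (nat_lit 526) (nat_lit 561) (nat_lit 525) (.f (nat_lit 493) (nat_lit 492) (nat_lit 3564) (.f (nat_lit 496) (nat_lit 497) (nat_lit 2541) (.f (nat_lit 464) (nat_lit 432) (nat_lit 5551) (.d (nat_lit 465) (nat_lit 433) (nat_lit 6576) (nat_lit 494) (nat_lit 2509)))))))))))))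
noncomputable def s27083 : Cert := .r (nat_lit 1537714675869256576155945778994232080668353507232100411704359814857561673081074955675453359508165820314914373751691712200315325311936528214016582337209772802048) (.p (nat_lit 495) (.a s26335 (.a s26643 (.a s26663 (.a s26682 (.a s26674 (.a s26695 (.a s26711 (.a s26725 s26726)))))))))
noncomputable def s27090 : Cert := .r (nat_lit 3295102876862692663191312383559068744289328944068786596509342460409060728030874905018828627517498186389102229467910811857818554239863989030035533579735227432960) (.p (nat_lit 496) (.a (.f (nat_lit 497) (nat_lit 498) (nat_lit 2542) (.f (nat_lit 561) (nat_lit 562) (nat_lit 526) (.d (nat_lit 464) (nat_lit 432) (nat_lit 4528) (nat_lit 593) (nat_lit 7632)))) (.a (.p (nat_lit 495) (.a (.f (nat_lit 494) (nat_lit 493) (nat_lit 493) (.f (nat_lit 497) (nat_lit 498) (nat_lit 2542) (.f (nat_lit 462) (nat_lit 461) (nat_lit 3533) (.d (nat_lit 430) (nat_lit 398) (nat_lit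 4494) (nat_lit 559) (nat_lit 4526))))) (.a (.f (nat_lit 494) (nat_lit 493) (nat_lit 493) (.f (nat_lit 558) (nat_lit 557) (nat_lit 1549) (.d (nat_lit 463) (nat_lit 431) (nat_lit 5550) (nat_lit 590) (nat_lit 6606)))) (.f (nat_lit 558) (nat_lit 557) (nat_lit 1549) (.f (nat_lit 463) (nat_lit 431) (nat_lit 5550) (.d (nat_lit 590) (nat_lit 559) (nat_lit 5582) (nat_lit 622) (nat_lit 6638))))))) (.p (nat_lit 559) (.a (.f (nat_lit 494) (nat_lit 493) (nat_lit 3565) (.f (nat_lit 591) (nat_lit 623) (nat_lit 6639) (.d (nat_lit 462) (nat_lit 430) (nat_lit 4526) (nat_lit 558) (nat_lit 4558)))) (.a (.f (nat_lit 494) (nat_lit 493) (nat_lit 3565) (.f (nat_lit 591) (nat_lit 623) (nat_lit 6639) (.d (nat_lit 462) (nat_lit 430) (nat_lit 4526) (nat_lit 495) (nat_lit 7630)))) (.a (.f (nat_lit 464) (nat_lit 432) (nat_lit 5551) (.d (nat_lit 591) (nat_lit 495) (nat_lit 6607) (nat_lit 623) (nat_lit 6639))) (.f (nat_lit 494) (nat_lit 493) (nat_lit 3565) (.f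 (nat_lit 558) (nat_lit 557) (nat_lit 1549) (.f (nat_lit 462) (nat_lit 430) (nat_lit 4526) (.f (nat_lit 463) (nat_lit 431) (nat_lit 6574) (.f (nat_lit 495) (nat_lit 590) (nat_lit 5582) (.d (nat_lit 461) (nat_lit 429) (nat_lit 7597) (nat_lit 460) (nat_lit 460))))))))))))))
noncomputable def s27091 : Cert := .r (nat_lit 1537714675869256576155945778994232080668353507232100411704359814857561673081074955675453359508165820314914373751691712200315325311936528214016582337209772802048) (.p (nat_lit 529) (.a (.f (nat_lit 494) (nat_lit 493) (nat_lit 3565) (.f (nat_lit 558) (nat_lit 557) (nat_lit 1549) (.d (nat_lit 530) (nat_lit 495) (nat_lit 3566) (nat_lit 559) (nat_lit 1550)))) (.a (.f (nat_lit 494) (nat_lit 493) (nat_lit 3565) (.f (nat_lit 495) (nat_lit 530) (nat_lit 3566) (.f (nat_lit 558) (nat_lit 557) (nat_lit 1549) (.d (nat_lit 463) (nat_lit 431) (nat_lit 5550) (nat_lit 590) (nat_lit 6606))))) (.a (.f (nat_lit 558) (nat_lit 557) (nat_lit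 1549) (.f (nat_lit 530) (nat_lit 559) (nat_lit 1550) (.d (nat_lit 498) (nat_lit 497) (nat_lit 2542) (nat_lit 499) (nat_lit 2543)))) (.a s27090 (.f (nat_lit 494) (nat_lit 493) (nat_lit 3565) (.f (nat_lit 530) (nat_lit 495) (nat_lit 3566) (.d (nat_lit 498) (nat_lit 497) (nat_lit 2542) (nat_lit 499) (nat_lit 2543)))))))))
noncomputable def s27092 : Cert := .r (nat_lit 1537714675869256576155945778994232080668353507232100411704359814857561673081074955675453359508165820314914373751691712200315325311936528214016582337209772802048) (.p (nat_lit 529) (.a (.f (nat_lit 497) (nat_lit 498) (nat_lit 2542) (.f (nat_lit 525) (nat_lit 496) (nat_lit 2541) (.d (nat_lit 493) (nat_lit 492) (nat_lit 3564) (nat_lit 494) (nat_lit 3565)))) (.a (.f (nat_lit 494) (nat_lit 493) (nat_lit 3565) (.f (nat_lit 530) (nat_lit 495) (nat_lit 3566) (.d (nat_lit 498) (nat_lit 497) (nat_lit 2542) (nat_lit 499) (nat_lit 2543)))) (.a (.f (nat_lit 498) (nat_lit 497) (nat_lit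 2542) (.f (nat_lit 530) (nat_lit 499) (nat_lit 2543) (.d (nat_lit 562) (nat_lit 561) (nat_lit 526) (nat_lit 563) (nat_lit 527)))) (.f (nat_lit 494) (nat_lit 493) (nat_lit 3565) (.f (nat_lit 530) (nat_lit 495) (nat_lit 3566) (.d (nat_lit 562) (nat_lit 561) (nat_lit 526) (nat_lit 563) (nat_lit 527))))))))
noncomputable def s27093 : Cert := .r (nat_lit 1537714675869256576155945778994232080668353507232100411704359814857561673081074955675453359508165820314914373751691712200315325311936528214016582337209772802048) (.p (nat_lit 529) (.a (.f (nat_lit 497) (nat_lit 498) (nat_lit 2542) (.f (nat_lit 525) (nat_lit 496) (nat_lit 2541) (.d (nat_lit 557) (nat_lit 556) (nat_lit 1548) (nat_lit 558) (nat_lit 1549)))) (.a (.f (nat_lit 558) (nat_lit 557) (nat_lit 1549) (.f (nat_lit 530) (nat_lit 559) (nat_lit 1550) (.d (nat_lit 498) (nat_lit 497) (nat_lit 2542) (nat_lit 499) (nat_lit 2543)))) (.a (.f (nat_lit 498) (nat_lit 497) (nat_lit 2542) (.f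 (nat_lit 530) (nat_lit 499) (nat_lit 2543) (.d (nat_lit 562) (nat_lit 561) (nat_lit 526) (nat_lit 563) (nat_lit 527)))) (.f (nat_lit 558) (nat_lit 557) (nat_lit 1549) (.f (nat_lit 530) (nat_lit 559) (nat_lit 1550) (.d (nat_lit 562) (nat_lit 561) (nat_lit 526) (nat_lit 563) (nat_lit 527))))))))
noncomputable def s27118 : Cert := .r (nat_lit 1537714675869256576155945778994232080668353507232100411704359814857561673081074955675453359508165820314914373751691712200315325311936528214016582337209772802048) (.p (nat_lit 525) (.a (.f (nat_lit 560) (nat_lit 561) (nat_lit 525) (.f (nat_lit 524) (nat_lit 559) (nat_lit 524) (.d (nat_lit 492) (nat_lit 491) (nat_lit 3563) (nat_lit 493) (nat_lit 3564)))) (.a (.f (nat_lit 492) (nat_lit 493) (nat_lit 3564) (.f (nat_lit 524) (nat_lit 491) (nat_lit 3563) (.d (nat_lit 556) (nat_lit 555) (nat_lit 1547) (nat_lit 557) (nat_lit 1548)))) (.a (.f (nat_lit 496) (nat_lit 497) (nat_lit 2541) (.p (nat_lit 464)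 (.a (.f (nat_lit 560) (nat_lit 561) (nat_lit 525) (.d (nat_lit 559) (nat_lit 432) (nat_lit 5551) (nat_lit 591) (nat_lit 5583))) (.a (.f (nat_lit 560) (nat_lit 561) (nat_lit 525) (.f (nat_lit 431) (nat_lit 463) (nat_lit 7599) (.f (nat_lit 432) (nat_lit 399) (nat_lit 7567) (.d (nat_lit 433) (nat_lit 401) (nat_lit 6544) (nat_lit 465) (nat_lit 6576))))) (.a (.f (nat_lit 432) (nat_lit 559) (nat_lit 5551) (.f (nat_lit 399) (nat_lit 431) (nat_lit 7567) (.f (nat_lit 400) (nat_lit 367) (nat_lit 7535) (.d (nat_lit 401) (nat_lit 369) (nat_lit 6512) (nat_lit 433) (nat_lit 6544))))) (.f (nat_lit 560) (nat_lit 561) (nat_lit 525) (.f (nat_lit 557) (nat_lit 556) (nat_lit 1548) (.f (nat_lit 493) (nat_lit 492) (nat_lit 3564) (.f (nat_lit 463) (nat_lit 431) (nat_lit 7599) (.f (nat_lit 465) (nat_lit 433) (nat_lit 6576) (.f (nat_lit 462) (nat_lit 494) (nat_lit 1485) (.d (nat_lit 430) (nat_lit 429) (nat_lit 3501) (nat_lit 461) (nat_lit 6573)))))))))))))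 (.f (nat_lit 556) (nat_lit 557) (nat_lit 1548) (.f (nat_lit 524) (nat_lit 555) (nat_lit 1547) (.d (nat_lit 560) (nat_lit 559) (nat_lit 524) (nat_lit 561) (nat_lit 525))))))))
noncomputable def s27125 : Cert := .r (nat_lit 3295102876862692663191312383559068744289328944068786596509342460409060728030874905018828627517498186389102229467910811857818554239863989030035533579735227432960) (.p (nat_lit 496) (.a (.f (nat_lit 497) (nat_lit 498) (nat_lit 2542) (.f (nat_lit 561) (nat_lit 562) (nat_lit 526) (.d (nat_lit 464) (nat_lit 432) (nat_lit 4528) (nat_lit 593) (nat_lit 7632)))) (.a s27121 (.a (.f (nat_lit 497) (nat_lit 498) (nat_lit 2542) (.f (nat_lit 561) (nat_lit 562) (nat_lit 526) (.f (nat_lit 593) (nat_lit 625) (nat_lit 7664) (.f (nat_lit 592) (nat_lit 624) (nat_lit 5616) (.f (nat_lit 465) (nat_lit 560) (nat_lit 6608) (.f (nat_lit 433) (nat_lit 401) (nat_lit 5520) (.d (nat_lit 434) (nat_lit 402) (nat_lit 6545) (nat_lit 466) (nat_lit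 6577)))))))) (.f (nat_lit 561) (nat_lit 562) (nat_lit 526) (.f (nat_lit 464) (nat_lit 432) (nat_lit 4528) (.d (nat_lit 593) (nat_lit 560) (nat_lit 4560) (nat_lit 625) (nat_lit 7664))))))))
noncomputable def s27126 : Cert := .r (nat_lit 1537714675869256576155945778994232080668353507232100411704359814857561673081074955675453359508165820314914373751691712200315325311936528214016582337209772802048) (.p (nat_lit 529) (.a (.f (nat_lit 558) (nat_lit 557) (nat_lit 1549) (.f (nat_lit 530) (nat_lit 559) (nat_lit 1550) (.d (nat_lit 498) (nat_lit 497) (nat_lit 2542) (nat_lit 499) (nat_lit 2543)))) (.a (.f (nat_lit 498) (nat_lit 497) (nat_lit 2542) (.f (nat_lit 530) (nat_lit 499) (nat_lit 2543) (.d (nat_lit 562) (nat_lit 561) (nat_lit 526) (nat_lit 563) (nat_lit 527)))) (.a s27125 (.f (nat_lit 558) (nat_lit 557) (nat_lit 1549) (.f (nat_lit 530) (nat_lit 559) (nat_lit 1550) (.d (nat_lit 562) (nat_lit 561) (nat_lit 526) (nat_lit 563) (nat_lit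 527))))))))
noncomputable def s27128 : Cert := .r (nat_lit 1537714675869256576155945778994232080668353507232100411704359814857561673081074955675453359508165820314914373751691712200315325311936528214016582337209772802048) (.p (nat_lit 529) (.a (.f (nat_lit 497) (nat_lit 498) (nat_lit 2542) (.f (nat_lit 525) (nat_lit 496) (nat_lit 2541) (.d (nat_lit 493) (nat_lit 492) (nat_lit 3564) (nat_lit 494) (nat_lit 3565)))) (.a (.f (nat_lit 561) (nat_lit 562) (nat_lit 526) (.f (nat_lit 497) (nat_lit 498) (nat_lit 2542) (.f (nat_lit 560) (nat_lit 525) (nat_lit 525) (.d (nat_lit 465) (nat_lit 433) (nat_lit 5552) (nat_lit 592) (nat_lit 5584))))) (.a (.f (nat_lit 498) (nat_lit 497) (nat_lit 2542) (.f (nat_lit 530) (nat_lit 499) (nat_lit 2543) (.d (nat_lit 562) (nat_lit 561) (nat_lit 526) (nat_lit 563) (nat_lit 527)))) (.f (nat_lit 561) (nat_lit 562) (nat_lit 526) (.f (nat_lit 525) (nat_lit 560) (nat_lit 525) (.d (nat_lit 493) (nat_lit 492) (nat_lit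 3564) (nat_lit 494) (nat_lit 3565))))))))
noncomputable def s27212 : Cert := .r (nat_lit 3295102876862692663191312383559068744289328944068786596509342460409060728030874905018828627517498186389102229467910811857818554239863989030035533579735227432960) (.p (nat_lit 560) (.a (.f (nat_lit 497) (nat_lit 498) (nat_lit 2542) (.f (nat_lit 592) (nat_lit 624) (nat_lit 6640) (.d (nat_lit 465) (nat_lit 433) (nat_lit 5552) (nat_lit 496) (nat_lit 6608)))) (.a s26427 (.p (nat_lit 495) (.a (.f (nat_lit 494) (nat_lit 493) (nat_lit 3565) (.f (nat_lit 558) (nat_lit 557) (nat_lit 1549) (.d (nat_lit 463) (nat_lit 431) (nat_lit 5550) (nat_lit 590) (nat_lit 6606)))) (.a (.f (nat_lit 494) (nat_lit 493) (nat_lit 3565) (.f (nat_lit 463) (nat_lit 431) (nat_lit 4527) (.f (nat_lit 497) (nat_lit 498) (nat_lit 2542) (.f (nat_lit 465) (nat_lit 433) (nat_lit 5552) (.d (nat_lit 466) (nat_lit 464) (nat_lit 1486) (nat_lit 496) (nat_lit 2510)))))) (.a (.f (nat_lit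 558) (nat_lit 557) (nat_lit 1549) (.f (nat_lit 463) (nat_lit 431) (nat_lit 4527) (.d (nat_lit 590) (nat_lit 559) (nat_lit 5582) (nat_lit 622) (nat_lit 6638)))) (.f (nat_lit 494) (nat_lit 493) (nat_lit 3565) (.f (nat_lit 558) (nat_lit 557) (nat_lit 1549) (.f (nat_lit 590) (nat_lit 622) (nat_lit 6638) (.f (nat_lit 591) (nat_lit 623) (nat_lit 4590) (.f (nat_lit 462) (nat_lit 559) (nat_lit 7630) (.f (nat_lit 430) (nat_lit 398) (nat_lit 4494) (.d (nat_lit 429) (nat_lit 397) (nat_lit 7565) (nat_lit 461) (nat_lit 7597)))))))))))))))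
noncomputable def s27215 : Cert := .r (nat_lit 3295102876862692663191312383559068744289328944068786596509342460409060728030874905018828627517498186389102229467910811857818554239863989030035533579735227432960) (.p (nat_lit 496) (.a (.f (nat_lit 497) (nat_lit 498) (nat_lit 2542) (.f (nat_lit 561) (nat_lit 562) (nat_lit 526) (.d (nat_lit 464) (nat_lit 432) (nat_lit 4528) (nat_lit 593) (nat_lit 7632)))) (.a (.p (nat_lit 559) (.a (.f (nat_lit 591) (nat_lit 623) (nat_lit 6639) (.d (nat_lit 464) (nat_lit 432) (nat_lit 5551) (nat_lit 560) (nat_lit 5583))) (.a (.f (nat_lit 494) (nat_lit 493) (nat_lit 3565) (.f (nat_lit 591) (nat_lit 623) (nat_lit 6639) (.d (nat_lit 462) (nat_lit 430) (nat_lit 4526) (nat_lit 495) (nat_lit 7630)))) (.f (nat_lit 497) (nat_lit 498) (nat_lit 2542) (.f (nat_lit 464) (nat_lit 432) (nat_lit 5551) (.f (nat_lit 494) (nat_lit 493) (nat_lit 3565) (.f (nat_lit 462) (nat_lit 430) (nat_lit 4526) (.d (nat_lit 461) (nat_lit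 463) (nat_lit 461) (nat_lit 495) (nat_lit 3533))))))))) (.a (.f (nat_lit 497) (nat_lit 498) (nat_lit 2542) (.f (nat_lit 561) (nat_lit 562) (nat_lit 526) (.f (nat_lit 593) (nat_lit 625) (nat_lit 7664) (.f (nat_lit 592) (nat_lit 624) (nat_lit 5616) (.f (nat_lit 465) (nat_lit 560) (nat_lit 6608) (.f (nat_lit 433) (nat_lit 401) (nat_lit 5520) (.d (nat_lit 434) (nat_lit 402) (nat_lit 6545) (nat_lit 466) (nat_lit 6577)))))))) (.f (nat_lit 561) (nat_lit 562) (nat_lit 526) (.f (nat_lit 464) (nat_lit 432) (nat_lit 4528) (.d (nat_lit 593) (nat_lit 560) (nat_lit 4560) (nat_lit 625) (nat_lit 7664))))))))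
noncomputable def s27216 : Cert := .r (nat_lit 3295102876862692663191312383559068744289328944068786596509342460409060728030874905018828627517498186389102229467910811857818554239863989030035533579735227432960) (.p (nat_lit 560) (.a (.f (nat_lit 561) (nat_lit 562) (nat_lit 526) (.f (nat_lit 497) (nat_lit 498) (nat_lit 2542) (.d (nat_lit 465) (nat_lit 433) (nat_lit 5552) (nat_lit 592) (nat_lit 5584)))) (.a (.f (nat_lit 561) (nat_lit 562) (nat_lit 526) (.f (nat_lit 497) (nat_lit 498) (nat_lit 2542) (.f (nat_lit 558) (nat_lit 557) (nat_lit 1549) (.f (nat_lit 494) (nat_lit 493) (nat_lit 3565) (.f (nat_lit 465) (nat_lit 433) (nat_lit 5552) (.f (nat_lit 466) (nat_lit 434) (nat_lit 6577) (.f (nat_lit 495) (nat_lit 496) (nat_lit 2510) (.d (nat_lit 463) (nat_lit 431) (nat_lit 5550) (nat_lit 590) (nat_lit 6606))))))))) (.a (.f (nat_lit 497) (nat_lit 498) (nat_lit 2542) (.f (nat_lit 592) (nat_lit 624) (nat_lit 6640) (.d (nat_lit 465) (nat_lit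 433) (nat_lit 5552) (nat_lit 496) (nat_lit 6608)))) s26271))))
noncomputable def s27232 : Cert := .r (nat_lit 3295102876862692663191312383559068744289328944068786596509342460409060728030874905018828627517498186389102229467910811857818554239863989030035533579735227432960) (.p (nat_lit 560) (.a (.f (nat_lit 561) (nat_lit 562) (nat_lit 526) (.f (nat_lit 497) (nat_lit 498) (nat_lit 2542) (.d (nat_lit 465) (nat_lit 433) (nat_lit 5552) (nat_lit 592) (nat_lit 5584)))) (.a (.f (nat_lit 561) (nat_lit 562) (nat_lit 526) (.f (nat_lit 497) (nat_lit 498) (nat_lit 2542) (.f (nat_lit 465) (nat_lit 433) (nat_lit 5552) (.f (nat_lit 464) (nat_lit 432) (nat_lit 7600) (.f (nat_lit 496) (nat_lit 593) (nat_lit 4560) (.f (nat_lit 463) (nat_lit 431) (nat_lit 7599) (.f (nat_lit 559) (nat_lit 591) (nat_lit 5583) (.f (nat_lit 558) (nat_lit 557) (nat_lit 1549) (.d (nat_lit 590) (nat_lit 495) (nat_lit 5582) (nat_lit 589) (nat_lit 1581)))))))))) (.a (.f (nat_lit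 497) (nat_lit 498) (nat_lit 2542) (.f (nat_lit 592) (nat_lit 624) (nat_lit 6640) (.d (nat_lit 465) (nat_lit 433) (nat_lit 5552) (nat_lit 496) (nat_lit 6608)))) (.p (nat_lit 495) (.a (.f (nat_lit 463) (nat_lit 431) (nat_lit 4527) (.d (nat_lit 592) (nat_lit 496) (nat_lit 7631) (nat_lit 559) (nat_lit 4559))) (.a (.f (nat_lit 463) (nat_lit 431) (nat_lit 4527) (.d (nat_lit 592) (nat_lit 559) (nat_lit 4559) (nat_lit 624) (nat_lit 7663))) (.a (.f (nat_lit 463) (nat_lit 431) (nat_lit 4527) (.d (nat_lit 592) (nat_lit 496) (nat_lit 7631) (nat_lit 624) (nat_lit 7663))) (.a (.f (nat_lit 558) (nat_lit 557) (nat_lit 1549) (.f (nat_lit 463) (nat_lit 431) (nat_lit 4527) (.d (nat_lit 590) (nat_lit 559) (nat_lit 5582) (nat_lit 622) (nat_lit 6638)))) (.f (nat_lit 561) (nat_lit 562) (nat_lit 526) (.f (nat_lit 592) (nat_lit 624) (nat_lit 7663) (.f (nat_lit 558) (nat_lit 557) (nat_lit 1549) (.f (nat_lit 590) (nat_lit 622) (nat_lit 6638) (.d (nat_lit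 589) (nat_lit 559) (nat_lit 1581) (nat_lit 591) (nat_lit 2605)))))))))))))))
noncomputable def s27244 : Cert := .r (nat_lit 3295102876862692663191312383559068744289328944068786596509342460409060728030874905018828627517498186389102229467910811857818554239863989030035533579735227432960) (.f (nat_lit 558) (nat_lit 557) (nat_lit 1549) (.p (nat_lit 590) (.a (.f (nat_lit 494) (nat_lit 493) (nat_lit 3565) (.d (nat_lit 495) (nat_lit 463) (nat_lit 6606) (nat_lit 622) (nat_lit 6638))) (.a (.f (nat_lit 494) (nat_lit 493) (nat_lit 3565) (.f (nat_lit 591) (nat_lit 623) (nat_lit 4590) (.f (nat_lit 559) (nat_lit 462) (nat_lit 4558) (.f (nat_lit 561) (nat_lit 562) (nat_lit 526) (.d (nat_lit 589) (nat_lit 560) (nat_lit 1581) (nat_lit 621) (nat_lit 5613)))))) (.f (nat_lit 622) (nat_lit 495) (nat_lit 6638) (.f (nat_lit 654) (nat_lit 559) (nat_lit 6670) (.d (nat_lit 653) (nat_lit 621) (nat_lit 5645) (nat_lit 685) (nat_lit 5677))))))))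
noncomputable def s27251 : Cert := .r (nat_lit 3295102876862692663191312383559068744289328944068786596509342460409060728030874905018828627517498186389102229467910811857818554239863989030035533579735227432960) (.p (nat_lit 560) (.a (.f (nat_lit 561) (nat_lit 562) (nat_lit 526) (.f (nat_lit 497) (nat_lit 498) (nat_lit 2542) (.d (nat_lit 465) (nat_lit 433) (nat_lit 5552) (nat_lit 592) (nat_lit 5584)))) (.a (.f (nat_lit 561) (nat_lit 562) (nat_lit 526) (.f (nat_lit 497) (nat_lit 498) (nat_lit 2542) (.f (nat_lit 465) (nat_lit 433) (nat_lit 5552) (.f (nat_lit 464) (nat_lit 432) (nat_lit 7600) (.f (nat_lit 496) (nat_lit 593) (nat_lit 4560) (.f (nat_lit 494) (nat_lit 493) (nat_lit 3565) (.d (nat_lit 466) (nat_lit 434) (nat_lit 6577) (nat_lit 495) (nat_lit 2510)))))))) (.a (.f (nat_lit 497) (nat_lit 498) (nat_lit 2542) (.f (nat_lit 592) (nat_lit 624) (nat_lit 6640) (.d (nat_lit 465) (nat_lit 433) (nat_lit 5552) (nat_lit 496) (nat_lit 6608))))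 (.p (nat_lit 559) (.a (.f (nat_lit 558) (nat_lit 557) (nat_lit 1549) (.f (nat_lit 494) (nat_lit 493) (nat_lit 3565) (.d (nat_lit 462) (nat_lit 430) (nat_lit 4526) (nat_lit 591) (nat_lit 4558)))) (.a (.f (nat_lit 494) (nat_lit 493) (nat_lit 3565) (.f (nat_lit 591) (nat_lit 623) (nat_lit 7662) (.d (nat_lit 462) (nat_lit 430) (nat_lit 4526) (nat_lit 495) (nat_lit 7630)))) (.f (nat_lit 561) (nat_lit 562) (nat_lit 526) (.f (nat_lit 558) (nat_lit 557) (nat_lit 1549) (.f (nat_lit 590) (nat_lit 589) (nat_lit 1581) (.d (nat_lit 622) (nat_lit 495) (nat_lit 6638) (nat_lit 654) (nat_lit 6670))))))))))))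
noncomputable def s27281 : Cert := .r (nat_lit 3773962426139582503191218559258302711216373074183896953017261066727052695898478853804485049460482378228672030356773746508865327131024718766583108397564746541376519274496) (.p (nat_lit 464) (.a (.f (nat_lit 463) (nat_lit 431) (nat_lit 7599) (.f (nat_lit 495) (nat_lit 592) (nat_lit 7631) (.f (nat_lit 465) (nat_lit 433) (nat_lit 6576) (.d (nat_lit 466) (nat_lit 467) (nat_lit 1487) (nat_lit 494) (nat_lit 1486))))) (.a (.f (nat_lit 433) (nat_lit 465) (nat_lit 6576) (.f (nat_lit 432) (nat_lit 401) (nat_lit 6544) (.d (nat_lit 431) (nat_lit 399) (nat_lit 7567) (nat_lit 463) (nat_lit 7599)))) (.a (.f (nat_lit 561) (nat_lit 593) (nat_lit 4560) (.f (nat_lit 432) (nat_lit 529) (nat_lit 4528) (.d (nat_lit 433) (nat_lit 401) (nat_lit 6544) (nat_lit 465) (nat_lit 6576)))) (.f (nat_lit 463) (nat_lit 431) (nat_lit 7599) (.f (nat_lit 592) (nat_lit 495) (nat_lit 7631) (.d (nat_lit 593) (nat_lit 561)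 (nat_lit 4560) (nat_lit 625) (nat_lit 4592))))))))
noncomputable def s27297 : Cert := .r (nat_lit 3773962426139582503191218559258302711216373074183896953017261066727052695898478853804485049460482378228672030356773746508865327131024718766583108397564746541376519274496) (.p (nat_lit 592) (.a (.d (nat_lit 495) (nat_lit 463) (nat_lit 7631) (nat_lit 624) (nat_lit 7663)) (.a (.f (nat_lit 623) (nat_lit 591) (nat_lit 5615) (.f (nat_lit 624) (nat_lit 655) (nat_lit 5647) (.d (nat_lit 625) (nat_lit 593) (nat_lit 4592) (nat_lit 657) (nat_lit 4624)))) (.f (nat_lit 495) (nat_lit 463) (nat_lit 7631) (.f (nat_lit 497) (nat_lit 465) (nat_lit 6608) (.f (nat_lit 498) (nat_lit 499) (nat_lit 1519) (.f (nat_lit 530) (nat_lit 531) (nat_lit 495) (.f (nat_lit 529) (nat_lit 494) (nat_lit 3566) (.f (nat_lit 466) (nat_lit 467) (nat_lit 2511) (.d (nat_lit 434) (nat_lit 402) (nat_lit 5521) (nat_lit 561) (nat_lit 5553)))))))))))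
noncomputable def s27325 : Cert := .r (nat_lit 3773962426139582503600392385245320444968021786287346847044341322482435794583890274816501774011066697589080791897511766152726162646969727642735265465800420673042585223168) (.p (nat_lit 463) (.a (.d (nat_lit 431) (nat_lit 464) (nat_lit 7599) (nat_lit 495) (nat_lit 4527)) (.a (.f (nat_lit 464) (nat_lit 431) (nat_lit 7599) (.f (nat_lit 498) (nat_lit 499) (nat_lit 1519) (.d (nat_lit 462) (nat_lit 461) (nat_lit 461) (nat_lit 465) (nat_lit 462)))) (.a (.f (nat_lit 495) (nat_lit 431) (nat_lit 4527) (.d (nat_lit 498) (nat_lit 462) (nat_lit 3534) (nat_lit 499) (nat_lit 1519))) (.f (nat_lit 498) (nat_lit 499) (nat_lit 1519) (.f (nat_lit 495) (nat_lit 462) (nat_lit 3534) (.f (nat_lit 466) (nat_lit 467) (nat_lit 2511) (.f (nat_lit 465) (nat_lit 494) (nat_lit 2510) (.d (nat_lit 433) (nat_lit 401) (nat_lit 5520) (nat_lit 464) (nat_lit 6576))))))))))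
noncomputable def s27408 : Cert := .r (nat_lit 1318041151461131260753805987489012743896768892174905086175657406863094277983379229971054009887714607251932426163920786896031187229211870481426643162309706383360) (.p (nat_lit 433) (.a (.f (nat_lit 498) (nat_lit 499) (nat_lit 1519) (.f (nat_lit 401) (nat_lit 465) (nat_lit 5520) (.f (nat_lit 466) (nat_lit 467) (nat_lit 2511) (.d (nat_lit 530) (nat_lit 434) (nat_lit 7569) (nat_lit 531) (nat_lit 495))))) (.a (.f (nat_lit 465) (nat_lit 401) (nat_lit 5520) (.d (nat_lit 560) (nat_lit 464) (nat_lit 6576) (nat_lit 529) (nat_lit 5552))) (.a (.f (nat_lit 498) (nat_lit 499) (nat_lit 1519) (.f (nat_lit 530) (nat_lit 531) (nat_lit 495) (.f (nat_lit 466) (nat_lit 467) (nat_lit 2511) (.f (nat_lit 434) (nat_lit 401) (nat_lit 7569) (.d (nat_lit 529) (nat_lit 402) (nat_lit 5521) (nat_lit 561) (nat_lit 5553)))))) (.f (nat_lit 498) (nat_lit 499) (nat_lit 1519) (.f (nat_lit 530) (nat_lit 531) (nat_lit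 495) (.f (nat_lit 466) (nat_lit 467) (nat_lit 2511) (.f (nat_lit 465) (nat_lit 562) (nat_lit 7601) (.d (nat_lit 560) (nat_lit 464) (nat_lit 6576) (nat_lit 529) (nat_lit 5552))))))))))
noncomputable def s27426 : Cert := .r (nat_lit 3773962426139582503600392385245320444968021786287346847044341322482435794583890274816501774011066697589080791897511766152726162646969727642735265465800420673042585223168) (.p (nat_lit 464) (.a (.f (nat_lit 561) (nat_lit 593) (nat_lit 4560) (.f (nat_lit 432) (nat_lit 529) (nat_lit 4528) (.d (nat_lit 431) (nat_lit 399) (nat_lit 7567) (nat_lit 463) (nat_lit 7599)))) (.a (.f (nat_lit 463) (nat_lit 431) (nat_lit 7599) (.f (nat_lit 592) (nat_lit 495) (nat_lit 7631) (.d (nat_lit 593) (nat_lit 561) (nat_lit 4560) (nat_lit 625) (nat_lit 4592)))) (.a (.f (nat_lit 463) (nat_lit 431) (nat_lit 7599) (.f (nat_lit 592) (nat_lit 495) (nat_lit 7631) (.f (nat_lit 624) (nat_lit 529) (nat_lit 6640) (.d (nat_lit 623) (nat_lit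 591) (nat_lit 5615) (nat_lit 655) (nat_lit 5647))))) (.a (.f (nat_lit 561) (nat_lit 593) (nat_lit 4560) (.f (nat_lit 432) (nat_lit 529) (nat_lit 4528) (.f (nat_lit 400) (nat_lit 495) (nat_lit 5519) (.d (nat_lit 399) (nat_lit 367) (nat_lit 7535) (nat_lit 431) (nat_lit 7567))))) (.f (nat_lit 561) (nat_lit 593) (nat_lit 4560) (.f (nat_lit 432) (nat_lit 529) (nat_lit 4528) (.f (nat_lit 400) (nat_lit 495) (nat_lit 5519) (.d (nat_lit 401) (nat_lit 369) (nat_lit 6512) (nat_lit 433) (nat_lit 6544))))))))))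
noncomputable def s27464 : Cert := .r (nat_lit 3773962426139582503293512015755057144654285252209759426524031130665898470569831709057489230598128458068774220741958251419830536010010970985621147664623665074293035761664) (.p (nat_lit 559) (.a (.f (nat_lit 591) (nat_lit 623) (nat_lit 6639) (.f (nat_lit 590) (nat_lit 622) (nat_lit 5614) (.f (nat_lit 561) (nat_lit 562) (nat_lit 1582) (.d (nat_lit 589) (nat_lit 558) (nat_lit 1581) (nat_lit 588) (nat_lit 2604))))) (.a (.f (nat_lit 463) (nat_lit 431) (nat_lit 4527) (.f (nat_lit 462) (nat_lit 430) (nat_lit 7598) (.d (nat_lit 591) (nat_lit 494) (nat_lit 7630) (nat_lit 623) (nat_lit 6639)))) (.f (nat_lit 463) (nat_lit 431) (nat_lit 4527) (.f (nat_lit 462) (nat_lit 430) (nat_lit 7598) (.f (nat_lit 497) (nat_lit 498) (nat_lit 3534) (.d (nat_lit 461) (nat_lit 460) (nat_lit 460) (nat_lit 494) (nat_lit 3533))))))))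
noncomputable def s27473 : Cert := .r (nat_lit 3773962426139582503191218559258302711216373074183896953017261066727052695898478853804485049460482378228672030356773746508865327131024718766583108397564746541376519274496) (.p (nat_lit 495) (.a (.p (nat_lit 464) (.a (.f (nat_lit 463) (nat_lit 431) (nat_lit 4527) (.f (nat_lit 465) (nat_lit 433) (nat_lit 6576) (.d (nat_lit 466) (nat_lit 467) (nat_lit 1487) (nat_lit 494) (nat_lit 1486)))) (.a (.f (nat_lit 432) (nat_lit 400) (nat_lit 5519) (.d (nat_lit 433) (nat_lit 401) (nat_lit 6544) (nat_lit 465) (nat_lit 6576))) (.f (nat_lit 431) (nat_lit 463) (nat_lit 4527) (.d (nat_lit 432) (nat_lit 399) (nat_lit 7567) (nat_lit 400) (nat_lit 5519)))))) (.a s27464 (.a (.p (nat_lit 464) (.a (.f (nat_lit 432) (nat_lit 400) (nat_lit 5519) (.d (nat_lit 433) (nat_lit 401) (nat_lit 6544) (nat_lit 465) (nat_lit 6576))) (.a (.f (nat_lit 463) (nat_lit 431) (nat_lit 4527) (.f (nat_lit 465) (nat_lit 433) (nat_lit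 6576) (.f (nat_lit 466) (nat_lit 467) (nat_lit 1487) (.f (nat_lit 498) (nat_lit 499) (nat_lit 463) (.f (nat_lit 462) (nat_lit 497) (nat_lit 3534) (.f (nat_lit 461) (nat_lit 460) (nat_lit 460) (.d (nat_lit 429) (nat_lit 428) (nat_lit 3500) (nat_lit 430) (nat_lit 3501)))))))) (.f (nat_lit 431) (nat_lit 463) (nat_lit 4527) (.d (nat_lit 432) (nat_lit 399) (nat_lit 7567) (nat_lit 400) (nat_lit 5519)))))) (.p (nat_lit 464) (.a (.f (nat_lit 432) (nat_lit 400) (nat_lit 5519) (.d (nat_lit 433) (nat_lit 401) (nat_lit 6544) (nat_lit 465) (nat_lit 6576))) (.a (.f (nat_lit 465) (nat_lit 433) (nat_lit 6576) (.f (nat_lit 494) (nat_lit 493) (nat_lit 2509) (.d (nat_lit 466) (nat_lit 467) (nat_lit 1487) (nat_lit 497) (nat_lit 2510)))) (.d (nat_lit 432) (nat_lit 400) (nat_lit 5519) (nat_lit 559) (nat_lit 5551)))))))))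
noncomputable def s27475 : Cert := .r (nat_lit 3773962426139582503191218559258302711216373074183896953017261066727052695898478853804485049460482378228672030356773746508865327131024718766583108397564746541376519274496) (.p (nat_lit 592) (.a (.d (nat_lit 495) (nat_lit 463) (nat_lit 7631) (nat_lit 624) (nat_lit 7663)) (.a (.f (nat_lit 623) (nat_lit 591) (nat_lit 5615) (.f (nat_lit 624) (nat_lit 655) (nat_lit 5647) (.d (nat_lit 625) (nat_lit 593) (nat_lit 4592) (nat_lit 657) (nat_lit 4624)))) (.f (nat_lit 495) (nat_lit 463) (nat_lit 7631) (.f (nat_lit 591) (nat_lit 623) (nat_lit 5615) (.f (nat_lit 497) (nat_lit 465) (nat_lit 6608) (.f (nat_lit 498) (nat_lit 499) (nat_lit 1519) (.f (nat_lit 593) (nat_lit 625) (nat_lit 4592) (.f (nat_lit 466) (nat_lit 467) (nat_lit 2511) (.f (nat_lit 530) (nat_lit 531) (nat_lit 495) (.f (nat_lit 561) (nat_lit 562) (nat_lit 5585) (.f (nat_lit 590) (nat_lit 589) (nat_lit 2605) (.d (nat_lit 622) (nat_lit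 559) (nat_lit 5614) (nat_lit 621) (nat_lit 1613))))))))))))))
noncomputable def s27479 : Cert := .r (nat_lit 1318041151051957434766788253737364031793318998147824830420274308177682856971362505420469690527305845711194406520059951380086178353059713413190969030643640434688) (.p (nat_lit 559) (.a (.d (nat_lit 464) (nat_lit 432) (nat_lit 5551) (nat_lit 591) (nat_lit 6607)) (.a (.f (nat_lit 591) (nat_lit 623) (nat_lit 6639) (.f (nat_lit 462) (nat_lit 494) (nat_lit 7630) (.f (nat_lit 463) (nat_lit 430) (nat_lit 7598) (.d (nat_lit 590) (nat_lit 558) (nat_lit 5582) (nat_lit 622) (nat_lit 5614))))) (.p (nat_lit 463) (.a (.f (nat_lit 464) (nat_lit 432) (nat_lit 5551) (.f (nat_lit 462) (nat_lit 430) (nat_lit 7598) (.d (nat_lit 461) (nat_lit 460) (nat_lit 460) (nat_lit 497) (nat_lit 461)))) (.a (.f (nat_lit 462) (nat_lit 430) (nat_lit 7598) (.f (nat_lit 497) (nat_lit 498) (nat_lit 3534) (.d (nat_lit 461) (nat_lit 460) (nat_lit 460) (nat_lit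 494) (nat_lit 3533)))) (.a (.f (nat_lit 431) (nat_lit 399) (nat_lit 4495) (.d (nat_lit 430) (nat_lit 398) (nat_lit 7566) (nat_lit 462) (nat_lit 7598))) (.f (nat_lit 432) (nat_lit 464) (nat_lit 5551) (.d (nat_lit 431) (nat_lit 399) (nat_lit 4495) (nat_lit 400) (nat_lit 6543))))))))))
noncomputable def s27482 : Cert := .r (nat_lit 3075429352045393521802154858302200695414294434984511015225256953729181911921162454763844958536638211785382262236279051037589407280987174229209920273169095065600) (.p (nat_lit 497) (.a (.f (nat_lit 498) (nat_lit 499) (nat_lit 1519) (.f (nat_lit 466) (nat_lit 467) (nat_lit 2511) (.d (nat_lit 494) (nat_lit 465) (nat_lit 2510) (nat_lit 493) (nat_lit 493)))) (.a (.f (nat_lit 498) (nat_lit 499) (nat_lit 1519) (.f (nat_lit 466) (nat_lit 467) (nat_lit 2511) (.f (nat_lit 561) (nat_lit 593) (nat_lit 6609) (.d (nat_lit 434) (nat_lit 402) (nat_lit 5521) (nat_lit 465) (nat_lit 6577))))) (.a (.f (nat_lit 498) (nat_lit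 499) (nat_lit 1519) (.f (nat_lit 494) (nat_lit 493) (nat_lit 493) (.d (nat_lit 462) (nat_lit 461) (nat_lit 3533) (nat_lit 463) (nat_lit 3534)))) (.f (nat_lit 494) (nat_lit 493) (nat_lit 493) (.f (nat_lit 465) (nat_lit 466) (nat_lit 2510) (.f (nat_lit 433) (nat_lit 401) (nat_lit 5520) (.f (nat_lit 432) (nat_lit 400) (nat_lit 7568) (.f (nat_lit 464) (nat_lit 561) (nat_lit 4528) (.f (nat_lit 462) (nat_lit 461) (nat_lit 3533) (.d (nat_lit 434) (nat_lit 402) (nat_lit 6545) (nat_lit 463) (nat_lit 2478))))))))))))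
noncomputable def s27504 : Cert := .r (nat_lit 3075429352045393521802154858302200695414294434984511015225256953729181911921162454763844958536638211785382262236279051037589407280987174229209920273169095065600) (.p (nat_lit 463) (.a (.f (nat_lit 431) (nat_lit 399) (nat_lit 4495) (.f (nat_lit 432) (nat_lit 400) (nat_lit 6543) (.f (nat_lit 464) (nat_lit 561) (nat_lit 4528) (.f (nat_lit 433) (nat_lit 401) (nat_lit 6544) (.d (nat_lit 434) (nat_lit 435) (nat_lit 1455) (nat_lit 462) (nat_lit 1454)))))) (.a (.f (nat_lit 431) (nat_lit 399) (nat_lit 4495) (.f (nat_lit 530) (nat_lit 531) (nat_lit 3567) (.f (nat_lit 498) (nat_lit 499) (nat_lit 2543) (.f (nat_lit 497) (nat_lit 462) (nat_lit 3534) (.f (nat_lit 466) (nat_lit 467) (nat_lit 2511) (.f (nat_lit 432) (nat_lit 400) (nat_lit 6543) (.f (nat_lit 430) (nat_lit 398) (nat_lit 7566) (.d (nat_lit 465) (nat_lit 433) (nat_lit 430) (nat_lit 464) (nat_lit 3502))))))))) (.a (.f (nat_lit 530) (nat_lit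 531) (nat_lit 3567) (.f (nat_lit 498) (nat_lit 499) (nat_lit 2543) (.f (nat_lit 497) (nat_lit 462) (nat_lit 3534) (.f (nat_lit 466) (nat_lit 467) (nat_lit 2511) (.d (nat_lit 434) (nat_lit 402) (nat_lit 5521) (nat_lit 561) (nat_lit 5553)))))) (.f (nat_lit 431) (nat_lit 399) (nat_lit 4495) (.f (nat_lit 432) (nat_lit 400) (nat_lit 6543) (.f (nat_lit 464) (nat_lit 561) (nat_lit 4528) (.f (nat_lit 430) (nat_lit 398) (nat_lit 7566) (.d (nat_lit 429) (nat_lit 428) (nat_lit 428) (nat_lit 465) (nat_lit 429))))))))))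
noncomputable def s27505 : Cert := .r (nat_lit 1318041151051957434766788253737364031793318998147824830420274308177682856971362505420469690527305845711194406520059951380086178353059713413190969030643640434688) (.p (nat_lit 529) (.a (.d (nat_lit 494) (nat_lit 493) (nat_lit 493) (nat_lit 530) (nat_lit 3566)) (.a s27482 s27504)))
noncomputable def s27517 : Cert := .r (nat_lit 1318041151051957434766788253737364031793318998147824830420274308177682856971362505420469690527305845711194406520059951380086178353059713413190969030643640434688) (.p (nat_lit 529) (.a (.d (nat_lit 494) (nat_lit 493) (nat_lit 493) (nat_lit 530) (nat_lit 3566)) (.a (.p (nat_lit 497) (.a (.f (nat_lit 498) (nat_lit 499) (nat_lit 1519) (.f (nat_lit 466) (nat_lit 467) (nat_lit 2511) (.d (nat_lit 494) (nat_lit 465) (nat_lit 2510) (nat_lit 493) (nat_lit 493)))) (.a (.f (nat_lit 498) (nat_lit 499) (nat_lit 1519) (.f (nat_lit 466) (nat_lit 467) (nat_lit 2511) (.f (nat_lit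 561) (nat_lit 593) (nat_lit 6609) (.d (nat_lit 434) (nat_lit 402) (nat_lit 5521) (nat_lit 465) (nat_lit 6577))))) (.a (.f (nat_lit 498) (nat_lit 499) (nat_lit 1519) (.f (nat_lit 494) (nat_lit 493) (nat_lit 493) (.d (nat_lit 462) (nat_lit 461) (nat_lit 3533) (nat_lit 463) (nat_lit 3534)))) (.f (nat_lit 494) (nat_lit 493) (nat_lit 493) (.f (nat_lit 462) (nat_lit 461) (nat_lit 3533) (.f (nat_lit 559) (nat_lit 591) (nat_lit 7630) (.d (nat_lit 430) (nat_lit 398) (nat_lit 4494) (nat_lit 463) (nat_lit 7598))))))))) (.f (nat_lit 530) (nat_lit 531) (nat_lit 3567) (.f (nat_lit 498) (nat_lit 499) (nat_lit 2543) (.f (nat_lit 559) (nat_lit 558) (nat_lit 1550) (.f (nat_lit 591) (nat_lit 623) (nat_lit 6639) (.f (nat_lit 562) (nat_lit 563) (nat_lit 527) (.f (nat_lit 590) (nat_lit 622) (nat_lit 5614) (.f (nat_lit 592) (nat_lit 624) (nat_lit 4591) (.f (nat_lit 561) (nat_lit 593) (nat_lit 2606) (.f (nat_lit 466) (nat_lit 434) (nat_lit 5553) (.d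 (nat_lit 467) (nat_lit 435) (nat_lit 6578) (nat_lit 497) (nat_lit 2511))))))))))))))
noncomputable def s27519 : Cert := .r (nat_lit 1318041151051957434766788253737364031793318998147824830420274308177682856971362505420469690527305845711194406520059951380086178353059713413190969030643640434688) (.p (nat_lit 559) (.a (.d (nat_lit 464) (nat_lit 432) (nat_lit 5551) (nat_lit 591) (nat_lit 6607)) (.a (.f (nat_lit 591) (nat_lit 623) (nat_lit 6639) (.f (nat_lit 590) (nat_lit 622) (nat_lit 5614) (.f (nat_lit 463) (nat_lit 558) (nat_lit 5582) (.f (nat_lit 431) (nat_lit 399) (nat_lit 4495) (.d (nat_lit 430) (nat_lit 398) (nat_lit 7566) (nat_lit 462) (nat_lit 7598)))))) (.p (nat_lit 463) (.a (.f (nat_lit 464) (nat_lit 432) (nat_lit 5551) (.f (nat_lit 462) (nat_lit 430) (nat_lit 7598) (.d (nat_lit 461) (nat_lit 460) (nat_lit 460) (nat_lit 497) (nat_lit 461)))) (.a (.f (nat_lit 431) (nat_lit 399) (nat_lit 4495) (.d (nat_lit 430) (nat_lit 398)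 (nat_lit 7566) (nat_lit 462) (nat_lit 7598))) (.f (nat_lit 432) (nat_lit 464) (nat_lit 5551) (.d (nat_lit 431) (nat_lit 399) (nat_lit 4495) (nat_lit 400) (nat_lit 6543)))))))))
noncomputable def s27520 : Cert := .r (nat_lit 1318041151051957434766788253737364031793318998147824830420274308177682856971362505420469690527305845711194406520059951380086178353059713413190969030643640434688) (.p (nat_lit 559) (.a (.d (nat_lit 464) (nat_lit 432) (nat_lit 5551) (nat_lit 591) (nat_lit 6607)) (.a (.f (nat_lit 591) (nat_lit 623) (nat_lit 6639) (.f (nat_lit 462) (nat_lit 494) (nat_lit 7630) (.f (nat_lit 463) (nat_lit 430) (nat_lit 7598) (.d (nat_lit 590) (nat_lit 558) (nat_lit 5582) (nat_lit 622) (nat_lit 5614))))) (.p (nat_lit 463) (.a (.f (nat_lit 431) (nat_lit 399) (nat_lit 4495) (.d (nat_lit 430) (nat_lit 398) (nat_lit 7566) (nat_lit 462) (nat_lit 7598))) (.a (.f (nat_lit 464) (nat_lit 432) (nat_lit 5551) (.f (nat_lit 462) (nat_lit 430)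 (nat_lit 7598) (.f (nat_lit 461) (nat_lit 460) (nat_lit 460) (.f (nat_lit 493) (nat_lit 492) (nat_lit 1484) (.d (nat_lit 494) (nat_lit 465) (nat_lit 1485) (nat_lit 529) (nat_lit 493)))))) (.f (nat_lit 432) (nat_lit 464) (nat_lit 5551) (.d (nat_lit 431) (nat_lit 399) (nat_lit 4495) (nat_lit 400) (nat_lit 6543)))))))))
noncomputable def s27538 : Cert := .r (nat_lit 1318041151051957434766788253737364031793318998147824830420274308177682856971362505420469690527305845711194406520059951380086178353059713413190969030643640434688) (.p (nat_lit 494) (.a (.f (nat_lit 493) (nat_lit 492) (nat_lit 492) (.f (nat_lit 461) (nat_lit 460) (nat_lit 3532) (.f (nat_lit 497) (nat_lit 462) (nat_lit 3533) (.d (nat_lit 465) (nat_lit 464) (nat_lit 2509) (nat_lit 466) (nat_lit 2510))))) (.a (.f (nat_lit 493) (nat_lit 492) (nat_lit 492) (.f (nat_lit 461) (nat_lit 460) (nat_lit 3532) (.f (nat_lit 497) (nat_lit 462) (nat_lit 3533) (.f (nat_lit 498) (nat_lit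 499) (nat_lit 1519) (.d (nat_lit 466) (nat_lit 465) (nat_lit 2510) (nat_lit 467) (nat_lit 2511)))))) (.a (.f (nat_lit 493) (nat_lit 492) (nat_lit 492) (.f (nat_lit 464) (nat_lit 465) (nat_lit 2509) (.d (nat_lit 432) (nat_lit 400) (nat_lit 5519) (nat_lit 559) (nat_lit 5551)))) (.a (.p (nat_lit 497) (.a (.f (nat_lit 498) (nat_lit 499) (nat_lit 1519) (.d (nat_lit 466) (nat_lit 465) (nat_lit 2510) (nat_lit 467) (nat_lit 2511))) (.a (.f (nat_lit 530) (nat_lit 529) (nat_lit 3566) (.d (nat_lit 498) (nat_lit 499) (nat_lit 1519) (nat_lit 531) (nat_lit 495))) (.f (nat_lit 529) (nat_lit 530) (nat_lit 3566) (.f (nat_lit 465) (nat_lit 466) (nat_lit 2510) (.f (nat_lit 433) (nat_lit 401) (nat_lit 5520) (.f (nat_lit 432) (nat_lit 400) (nat_lit 7568) (.d (nat_lit 464) (nat_lit 559) (nat_lit 5551) (nat_lit 561) (nat_lit 4528))))))))) (.f (nat_lit 493) (nat_lit 492) (nat_lit 492) (.f (nat_lit 461) (nat_lit 460) (nat_lit 3532) (.f (nat_lit 462) (nat_lit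 497) (nat_lit 3533) (.f (nat_lit 430) (nat_lit 398) (nat_lit 4494) (.d (nat_lit 525) (nat_lit 524) (nat_lit 1516) (nat_lit 557) (nat_lit 6573)))))))))))
noncomputable def s27540 : Cert := .r (nat_lit 1318041151051957434766788253737364031793318998147824830420274308177682856971362505420469690527305845711194406520059951380086178353059713413190969030643640434688) (.p (nat_lit 494) (.a (.f (nat_lit 493) (nat_lit 492) (nat_lit 492) (.f (nat_lit 464) (nat_lit 465) (nat_lit 2509) (.d (nat_lit 432) (nat_lit 400) (nat_lit 5519) (nat_lit 559) (nat_lit 5551)))) (.a (.d (nat_lit 493) (nat_lit 492) (nat_lit 492) (nat_lit 529) (nat_lit 493)) (.p (nat_lit 497) (.a (.f (nat_lit 498) (nat_lit 499) (nat_lit 1519) (.d (nat_lit 466) (nat_lit 465) (nat_lit 2510) (nat_lit 467) (nat_lit 2511))) (.a (.f (nat_lit 530) (nat_lit 529) (nat_lit 3566) (.d (nat_lit 498) (nat_lit 499) (nat_lit 1519) (nat_lit 531) (nat_lit 495))) (.f (nat_lit 529) (nat_lit 530)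 (nat_lit 3566) (.f (nat_lit 465) (nat_lit 466) (nat_lit 2510) (.f (nat_lit 433) (nat_lit 401) (nat_lit 5520) (.f (nat_lit 432) (nat_lit 400) (nat_lit 7568) (.d (nat_lit 464) (nat_lit 559) (nat_lit 5551) (nat_lit 561) (nat_lit 4528))))))))))))
noncomputable def s27560 : Cert := .r (nat_lit 1318041151051957434766788253737364031793318998147824830420274308177682856971362505420469690527305845711194406520059951380086178353059713413190969030643640434688) (.p (nat_lit 529) (.a (.d (nat_lit 494) (nat_lit 493) (nat_lit 493) (nat_lit 530) (nat_lit 3566)) (.a (.p (nat_lit 497) (.a (.f (nat_lit 498) (nat_lit 499) (nat_lit 1519) (.f (nat_lit 466) (nat_lit 467) (nat_lit 2511) (.d (nat_lit 494) (nat_lit 465) (nat_lit 2510) (nat_lit 493) (nat_lit 493)))) (.a (.f (nat_lit 498) (nat_lit 499) (nat_lit 1519) (.f (nat_lit 463) (nat_lit 462) (nat_lit 3534) (.d (nat_lit 431) (nat_lit 399) (nat_lit 4495) (nat_lit 560) (nat_lit 4527)))) (.f (nat_lit 494)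 (nat_lit 493) (nat_lit 493) (.f (nat_lit 465) (nat_lit 466) (nat_lit 2510) (.d (nat_lit 433) (nat_lit 401) (nat_lit 5520) (nat_lit 560) (nat_lit 5552))))))) (.f (nat_lit 530) (nat_lit 531) (nat_lit 3567) (.f (nat_lit 498) (nat_lit 499) (nat_lit 2543) (.f (nat_lit 559) (nat_lit 558) (nat_lit 1550) (.f (nat_lit 562) (nat_lit 563) (nat_lit 527) (.f (nat_lit 591) (nat_lit 623) (nat_lit 6639) (.f (nat_lit 590) (nat_lit 622) (nat_lit 5614) (.f (nat_lit 561) (nat_lit 560) (nat_lit 1582) (.d (nat_lit 466) (nat_lit 434) (nat_lit 5553) (nat_lit 593) (nat_lit 5585))))))))))))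
noncomputable def s27575 : Cert := .r (nat_lit 3773962427896970704184654646293669315781209737804872389853947251532035341449977908754284998803857646238004396430961602225084426788527947694510569213583697783901973905408) (.p (nat_lit 464) (.a (.f (nat_lit 433) (nat_lit 465) (nat_lit 6576) (.f (nat_lit 432) (nat_lit 401) (nat_lit 6544) (.d (nat_lit 431) (nat_lit 399) (nat_lit 7567) (nat_lit 463) (nat_lit 7599)))) (.a (.f (nat_lit 433) (nat_lit 465) (nat_lit 6576) (.f (nat_lit 432) (nat_lit 401) (nat_lit 6544) (.f (nat_lit 399) (nat_lit 431) (nat_lit 7567) (.d (nat_lit 400) (nat_lit 367) (nat_lit 7535) (nat_lit 497) (nat_lit 4496))))) (.a (.f (nat_lit 465) (nat_lit 433) (nat_lit 6576) (.f (nat_lit 497) (nat_lit 592) (nat_lit 6608) (.f (nat_lit 498) (nat_lit 499) (nat_lit 1519) (.d (nat_lit 463) (nat_lit 431) (nat_lit 7599) (nat_lit 462) (nat_lit 462))))) (.a (.f (nat_lit 431) (nat_lit 463) (nat_lit 7599) (.f (nat_lit 432) (nat_lit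 399) (nat_lit 7567) (.f (nat_lit 400) (nat_lit 497) (nat_lit 4496) (.d (nat_lit 401) (nat_lit 369) (nat_lit 6512) (nat_lit 433) (nat_lit 6544))))) (.a (.f (nat_lit 465) (nat_lit 433) (nat_lit 6576) (.f (nat_lit 592) (nat_lit 497) (nat_lit 6608) (.f (nat_lit 623) (nat_lit 591) (nat_lit 5615) (.f (nat_lit 624) (nat_lit 655) (nat_lit 5647) (.d (nat_lit 625) (nat_lit 593) (nat_lit 4592) (nat_lit 657) (nat_lit 4624)))))) (.f (nat_lit 431) (nat_lit 463) (nat_lit 7599) (.f (nat_lit 432) (nat_lit 399) (nat_lit 7567) (.f (nat_lit 497) (nat_lit 400) (nat_lit 4496) (.d (nat_lit 592) (nat_lit 465) (nat_lit 6608) (nat_lit 624) (nat_lit 6640)))))))))))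
noncomputable def s27583 : Cert := .r (nat_lit 3773962427896970704184654646293669315781209737804872389853947251532035341449977908754284998803857646238004396430961602225084426788527947694510569213583697783901973905408) (.p (nat_lit 530) (.a (.d (nat_lit 495) (nat_lit 494) (nat_lit 3566) (nat_lit 531) (nat_lit 3567)) (.a (.f (nat_lit 499) (nat_lit 498) (nat_lit 2543) (.f (nat_lit 531) (nat_lit 500) (nat_lit 2544) (.d (nat_lit 563) (nat_lit 562) (nat_lit 527) (nat_lit 564) (nat_lit 528)))) (.f (nat_lit 495) (nat_lit 494) (nat_lit 3566) (.f (nat_lit 463) (nat_lit 431) (nat_lit 4527) (.f (nat_lit 498) (nat_lit 499) (nat_lit 2543) (.f (nat_lit 497) (nat_lit 462) (nat_lit 3534) (.f (nat_lit 433) (nat_lit 465) (nat_lit 5552) (.f (nat_lit 466) (nat_lit 467) (nat_lit 2511) (.d (nat_lit 434) (nat_lit 401) (nat_lit 7569) (nat_lit 402) (nat_lit 5521)))))))))))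
noncomputable def s27594 : Cert := .r (nat_lit 3773962427896970704184654646293669315781209737804872389853947251532035341449977908754284998803857646238004396430961602225084426788527947694510569213583697783901973905408) (.p (nat_lit 530) (.a (.d (nat_lit 495) (nat_lit 494) (nat_lit 3566) (nat_lit 531) (nat_lit 3567)) (.a (.f (nat_lit 563) (nat_lit 562) (nat_lit 527) (.f (nat_lit 531) (nat_lit 564) (nat_lit 528) (.f (nat_lit 497) (nat_lit 532) (nat_lit 3568) (.d (nat_lit 465) (nat_lit 433) (nat_lit 5552) (nat_lit 592) (nat_lit 6608))))) (.f (nat_lit 495) (nat_lit 494) (nat_lit 3566) (.f (nat_lit 592) (nat_lit 624) (nat_lit 7663) (.f (nat_lit 465) (nat_lit 497) (nat_lit 6608) (.f (nat_lit 433) (nat_lit 464) (nat_lit 6576) (.f (nat_lit 498) (nat_lit 499) (nat_lit 2543) (.d (nat_lit 562) (nat_lit 466) (nat_lit 7601) (nat_lit 563) (nat_lit 527))))))))))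
noncomputable def s27603 : Cert := .r (nat_lit 3773962427896970704184654646293669315781209737804872389853947251532035341449977908754284998803857646238004396430961602225084426788527947694510569213583697783901973905408) (.p (nat_lit 464) (.a (.f (nat_lit 433) (nat_lit 465) (nat_lit 6576) (.f (nat_lit 432) (nat_lit 401) (nat_lit 6544) (.d (nat_lit 431) (nat_lit 399) (nat_lit 7567) (nat_lit 463) (nat_lit 7599)))) (.a (.f (nat_lit 433) (nat_lit 465) (nat_lit 6576) (.f (nat_lit 432) (nat_lit 401) (nat_lit 6544) (.f (nat_lit 399) (nat_lit 431) (nat_lit 7567) (.d (nat_lit 400) (nat_lit 367) (nat_lit 7535) (nat_lit 497) (nat_lit 4496))))) (.a (.f (nat_lit 465) (nat_lit 433) (nat_lit 6576) (.f (nat_lit 497) (nat_lit 592) (nat_lit 6608) (.f (nat_lit 498) (nat_lit 499) (nat_lit 1519) (.d (nat_lit 463) (nat_lit 431) (nat_lit 7599) (nat_lit 462) (nat_lit 462))))) (.a (.f (nat_lit 431) (nat_lit 463) (nat_lit 7599) (.f (nat_lit 432) (nat_lit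 399) (nat_lit 7567) (.f (nat_lit 400) (nat_lit 497) (nat_lit 4496) (.d (nat_lit 401) (nat_lit 369) (nat_lit 6512) (nat_lit 433) (nat_lit 6544))))) (.f (nat_lit 432) (nat_lit 559) (nat_lit 5551) (.d (nat_lit 400) (nat_lit 495) (nat_lit 5519) (nat_lit 497) (nat_lit 4496))))))))
noncomputable def s27605 : Cert := .r (nat_lit 3075429351943100065305400424864288517388431961477740951286411179057829056668158273626198878696536021400197757325313842158603155061949134962151001740252578578432) (.p (nat_lit 560) (.a (.p (nat_lit 464) (.a (.f (nat_lit 433) (nat_lit 465) (nat_lit 6576) (.f (nat_lit 432) (nat_lit 401) (nat_lit 6544) (.d (nat_lit 431) (nat_lit 399) (nat_lit 7567) (nat_lit 463) (nat_lit 7599)))) (.a (.d (nat_lit 559) (nat_lit 432) (nat_lit 5551) (nat_lit 591) (nat_lit 5583)) (.f (nat_lit 465) (nat_lit 433) (nat_lit 6576) (.f (nat_lit 497) (nat_lit 592) (nat_lit 6608) (.f (nat_lit 498) (nat_lit 499) (nat_lit 1519) (.d (nat_lit 463)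 (nat_lit 431) (nat_lit 7599) (nat_lit 462) (nat_lit 462)))))))) (.a s27575 (.a (.p (nat_lit 464) (.a (.f (nat_lit 433) (nat_lit 465) (nat_lit 6576) (.f (nat_lit 432) (nat_lit 401) (nat_lit 6544) (.d (nat_lit 431) (nat_lit 399) (nat_lit 7567) (nat_lit 463) (nat_lit 7599)))) (.a (.d (nat_lit 559) (nat_lit 432) (nat_lit 5551) (nat_lit 591) (nat_lit 5583)) (.f (nat_lit 559) (nat_lit 591) (nat_lit 5583) (.f (nat_lit 463) (nat_lit 431) (nat_lit 7599) (.f (nat_lit 465) (nat_lit 433) (nat_lit 6576) (.f (nat_lit 558) (nat_lit 557) (nat_lit 2573) (.f (nat_lit 495) (nat_lit 590) (nat_lit 5582) (.d (nat_lit 466) (nat_lit 467) (nat_lit 1487) (nat_lit 494) (nat_lit 1486)))))))))) (.a (.p (nat_lit 592) (.a (.d (nat_lit 497) (nat_lit 465) (nat_lit 6608) (nat_lit 624) (nat_lit 6640)) (.a (.f (nat_lit 623) (nat_lit 591) (nat_lit 5615) (.f (nat_lit 624) (nat_lit 655) (nat_lit 5647) (.d (nat_lit 625) (nat_lit 593) (nat_lit 4592) (nat_lit 657) (nat_lit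 4624)))) (.f (nat_lit 495) (nat_lit 463) (nat_lit 7631) (.f (nat_lit 497) (nat_lit 465) (nat_lit 6608) (.f (nat_lit 494) (nat_lit 493) (nat_lit 493) (.f (nat_lit 591) (nat_lit 623) (nat_lit 5615) (.d (nat_lit 462) (nat_lit 461) (nat_lit 3533) (nat_lit 559) (nat_lit 7630))))))))) (.a (.p (nat_lit 464) (.a (.d (nat_lit 559) (nat_lit 432) (nat_lit 5551) (nat_lit 591) (nat_lit 5583)) (.a (.f (nat_lit 433) (nat_lit 465) (nat_lit 6576) (.f (nat_lit 432) (nat_lit 401) (nat_lit 6544) (.f (nat_lit 399) (nat_lit 431) (nat_lit 7567) (.d (nat_lit 400) (nat_lit 367) (nat_lit 7535) (nat_lit 497) (nat_lit 4496))))) (.f (nat_lit 465) (nat_lit 433) (nat_lit 6576) (.f (nat_lit 592) (nat_lit 497) (nat_lit 6608) (.f (nat_lit 623) (nat_lit 591) (nat_lit 5615) (.f (nat_lit 624) (nat_lit 655) (nat_lit 5647) (.d (nat_lit 625) (nat_lit 593) (nat_lit 4592) (nat_lit 657) (nat_lit 4624))))))))) (.a s27603 (.p (nat_lit 464) (.a (.d (nat_lit 559) (nat_lit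 432) (nat_lit 5551) (nat_lit 591) (nat_lit 5583)) (.a (.f (nat_lit 431) (nat_lit 463) (nat_lit 7599) (.f (nat_lit 432) (nat_lit 399) (nat_lit 7567) (.f (nat_lit 400) (nat_lit 497) (nat_lit 4496) (.d (nat_lit 401) (nat_lit 369) (nat_lit 6512) (nat_lit 433) (nat_lit 6544))))) (.f (nat_lit 559) (nat_lit 591) (nat_lit 5583) (.f (nat_lit 463) (nat_lit 431) (nat_lit 7599) (.f (nat_lit 495) (nat_lit 592) (nat_lit 7631) (.d (nat_lit 558) (nat_lit 557) (nat_lit 2573) (nat_lit 590) (nat_lit 5582)))))))))))))))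
noncomputable def s27617 : Cert := .r (nat_lit 3075429351943100065305400424864288517388431961477740951286411179057829056668158273626198878696536021400197757325313842158603155061949134962151001740252578578432) (.p (nat_lit 530) (.a (.f (nat_lit 499) (nat_lit 498) (nat_lit 2543) (.f (nat_lit 531) (nat_lit 500) (nat_lit 2544) (.d (nat_lit 563) (nat_lit 562) (nat_lit 527) (nat_lit 564) (nat_lit 528)))) (.a (.f (nat_lit 495) (nat_lit 494) (nat_lit 3566) (.f (nat_lit 559) (nat_lit 558) (nat_lit 1550) (.f (nat_lit 591) (nat_lit 623) (nat_lit 6639) (.f (nat_lit 592) (nat_lit 624) (nat_lit 4591) (.f (nat_lit 463) (nat_lit 560) (nat_lit 7631) (.f (nat_lit 498) (nat_lit 499) (nat_lit 2543) (.d (nat_lit 462) (nat_lit 430) (nat_lit 7598) (nat_lit 497) (nat_lit 3534)))))))) (.a (.f (nat_lit 563) (nat_lit 562) (nat_lit 527) (.f (nat_lit 531) (nat_lit 564) (nat_lit 528) (.f (nat_lit 532) (nat_lit 497) (nat_lit 3568) (.d (nat_lit 500) (nat_lit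 499) (nat_lit 2544) (nat_lit 501) (nat_lit 2545))))) (.d (nat_lit 495) (nat_lit 494) (nat_lit 3566) (nat_lit 531) (nat_lit 3567))))))
noncomputable def s27644 : Cert := .r (nat_lit 1886981213728811827172734725260922699195824642001539212335927980543086389373757283014425868009299074298040033226576328969945243695048574669340430538907317052468338098176) (.p (nat_lit 560) (.a (.f (nat_lit 591) (nat_lit 623) (nat_lit 6639) (.f (nat_lit 592) (nat_lit 624) (nat_lit 7663) (.f (nat_lit 590) (nat_lit 622) (nat_lit 5614) (.d (nat_lit 561) (nat_lit 562) (nat_lit 1582) (nat_lit 589) (nat_lit 2605))))) (.a (.f (nat_lit 591) (nat_lit 623) (nat_lit 6639) (.f (nat_lit 590) (nat_lit 622) (nat_lit 5614) (.f (nat_lit 561) (nat_lit 562) (nat_lit 1582) (.d (nat_lit 589) (nat_lit 558) (nat_lit 1581) (nat_lit 588) (nat_lit 2604))))) (.a (.f (nat_lit 591) (nat_lit 623) (nat_lit 6639) (.f (nat_lit 592) (nat_lit 624) (nat_lit 7663) (.f (nat_lit 590) (nat_lit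 622) (nat_lit 5614) (.f (nat_lit 589) (nat_lit 588) (nat_lit 2604) (.f (nat_lit 557) (nat_lit 556) (nat_lit 3628) (.d (nat_lit 593) (nat_lit 558) (nat_lit 3629) (nat_lit 625) (nat_lit 4592))))))) (.f (nat_lit 592) (nat_lit 624) (nat_lit 7663) (.f (nat_lit 497) (nat_lit 465) (nat_lit 6608) (.f (nat_lit 498) (nat_lit 499) (nat_lit 1519) (.f (nat_lit 530) (nat_lit 531) (nat_lit 495) (.f (nat_lit 558) (nat_lit 529) (nat_lit 1550) (.d (nat_lit 557) (nat_lit 556) (nat_lit 2572) (nat_lit 593) (nat_lit 557)))))))))))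
noncomputable def s27708 : Cert := .r (nat_lit 3773962426139582503191218559258302711216373074183896953017261066727052695898478853804485049460482378228672030356773746508865327131024718766583108397564746541376519274496) (.p (nat_lit 592) (.a (.d (nat_lit 495) (nat_lit 463) (nat_lit 7631) (nat_lit 624) (nat_lit 7663)) (.a (.f (nat_lit 497) (nat_lit 465) (nat_lit 6608) (.f (nat_lit 624) (nat_lit 529) (nat_lit 6640) (.d (nat_lit 625) (nat_lit 593) (nat_lit 4592) (nat_lit 657) (nat_lit 4624)))) (.f (nat_lit 495) (nat_lit 463) (nat_lit 7631) (.f (nat_lit 497) (nat_lit 465) (nat_lit 6608) (.f (nat_lit 498) (nat_lit 499) (nat_lit 1519) (.f (nat_lit 530) (nat_lit 531) (nat_lit 495) (.f (nat_lit 529) (nat_lit 494) (nat_lit 3566) (.f (nat_lit 466) (nat_lit 467) (nat_lit 2511) (.d (nat_lit 434) (nat_lit 402) (nat_lit 5521) (nat_lit 561) (nat_lit 5553)))))))))))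
noncomputable def s27740 : Cert := .r (nat_lit 3773962427896970704184654646293669315781209737804872389853947251532035341449977908754284998803857646238004396430961602225084426788527947694510569213583697783901973905408) (.p (nat_lit 464) (.a (.f (nat_lit 433) (nat_lit 465) (nat_lit 6576) (.f (nat_lit 432) (nat_lit 401) (nat_lit 6544) (.d (nat_lit 431) (nat_lit 399) (nat_lit 7567) (nat_lit 463) (nat_lit 7599)))) (.a (.f (nat_lit 433) (nat_lit 465) (nat_lit 6576) (.f (nat_lit 432) (nat_lit 401) (nat_lit 6544) (.f (nat_lit 399) (nat_lit 431) (nat_lit 7567) (.d (nat_lit 400) (nat_lit 367) (nat_lit 7535) (nat_lit 497) (nat_lit 4496))))) (.a (.f (nat_lit 465) (nat_lit 433) (nat_lit 6576) (.f (nat_lit 497) (nat_lit 592) (nat_lit 6608) (.f (nat_lit 498) (nat_lit 499) (nat_lit 1519) (.d (nat_lit 463) (nat_lit 431) (nat_lit 7599) (nat_lit 462) (nat_lit 462))))) (.a (.f (nat_lit 431) (nat_lit 463) (nat_lit 7599) (.f (nat_lit 432) (nat_lit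 399) (nat_lit 7567) (.f (nat_lit 400) (nat_lit 497) (nat_lit 4496) (.d (nat_lit 401) (nat_lit 369) (nat_lit 6512) (nat_lit 433) (nat_lit 6544))))) (.a (.f (nat_lit 465) (nat_lit 433) (nat_lit 6576) (.f (nat_lit 497) (nat_lit 592) (nat_lit 6608) (.d (nat_lit 432) (nat_lit 400) (nat_lit 4496) (nat_lit 561) (nat_lit 4528)))) (.f (nat_lit 431) (nat_lit 463) (nat_lit 7599) (.f (nat_lit 432) (nat_lit 399) (nat_lit 7567) (.f (nat_lit 497) (nat_lit 400) (nat_lit 4496) (.d (nat_lit 592) (nat_lit 465) (nat_lit 6608) (nat_lit 624) (nat_lit 6640)))))))))))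
noncomputable def s27757 : Cert := .r (nat_lit 1537714675869256576155945778994232080668353507232100411704359814857561673081074955675453359508165820314914373751691712200315325311936528214016582337209772802048) (.p (nat_lit 525) (.a (.f (nat_lit 496) (nat_lit 497) (nat_lit 2541) (.f (nat_lit 560) (nat_lit 561) (nat_lit 525) (.d (nat_lit 524) (nat_lit 495) (nat_lit 2540) (nat_lit 559) (nat_lit 524)))) (.a (.f (nat_lit 556) (nat_lit 557) (nat_lit 1548) (.f (nat_lit 524) (nat_lit 555) (nat_lit 1547) (.d (nat_lit 560) (nat_lit 559) (nat_lit 524) (nat_lit 561) (nat_lit 525)))) (.a (.f (nat_lit 496) (nat_lit 497) (nat_lit 2541) (.f (nat_lit 524) (nat_lit 495) (nat_lit 2540) (.d (nat_lit 556) (nat_lit 555) (nat_lit 1547) (nat_lit 557) (nat_lit 1548)))) (.f (nat_lit 557) (nat_lit 556) (nat_lit 1548) (.f (nat_lit 529) (nat_lit 558) (nat_lit 1549) (.d (nat_lit 497) (nat_lit 496) (nat_lit 2541) (nat_lit 498) (nat_lit 2542))))))))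
noncomputable def s27759 : Cert := .r (nat_lit 1537714675869256576155945778994232080668353507232100411704359814857561673081074955675453359508165820314914373751691712200315325311936528214016582337209772802048) (.p (nat_lit 529) (.a (.f (nat_lit 494) (nat_lit 493) (nat_lit 3565) (.f (nat_lit 558) (nat_lit 557) (nat_lit 1549) (.d (nat_lit 530) (nat_lit 495) (nat_lit 3566) (nat_lit 559) (nat_lit 1550)))) (.a (.f (nat_lit 494) (nat_lit 493) (nat_lit 3565) (.f (nat_lit 495) (nat_lit 530) (nat_lit 3566) (.f (nat_lit 558) (nat_lit 557) (nat_lit 1549) (.d (nat_lit 463) (nat_lit 431) (nat_lit 5550) (nat_lit 590) (nat_lit 6606))))) (.a (.f (nat_lit 558) (nat_lit 557) (nat_lit 1549) (.f (nat_lit 530) (nat_lit 559) (nat_lit 1550) (.d (nat_lit 498) (nat_lit 497) (nat_lit 2542) (nat_lit 499) (nat_lit 2543)))) (.a s27212 (.f (nat_lit 494) (nat_lit 493) (nat_lit 3565) (.f (nat_lit 530) (nat_lit 495) (nat_lit 3566) (.d (nat_lit 498) (nat_lit 497)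 (nat_lit 2542) (nat_lit 499) (nat_lit 2543)))))))))
noncomputable def s27780 : Cert := .r (nat_lit 1537714675869256576155945778994232080668353507232100411704359814857561673081074955675453359508165820314914373751691712200315325311936528214016582337209772802048) (.p (nat_lit 529) (.a (.f (nat_lit 497) (nat_lit 498) (nat_lit 2542) (.f (nat_lit 525) (nat_lit 496) (nat_lit 2541) (.d (nat_lit 493) (nat_lit 492) (nat_lit 3564) (nat_lit 494) (nat_lit 3565)))) (.a (.f (nat_lit 494) (nat_lit 493) (nat_lit 3565) (.f (nat_lit 530) (nat_lit 495) (nat_lit 3566) (.d (nat_lit 498) (nat_lit 497) (nat_lit 2542) (nat_lit 499) (nat_lit 2543)))) (.a (.f (nat_lit 497) (nat_lit 498) (nat_lit 2542) (.f (nat_lit 525) (nat_lit 496) (nat_lit 2541) (.f (nat_lit 492) (nat_lit 493) (nat_lit 3564) (.f (nat_lit 524) (nat_lit 491) (nat_lit 3563) (.d (nat_lit 556) (nat_lit 555) (nat_lit 1547) (nat_lit 557) (nat_lit 1548)))))) (.a (.f (nat_lit 494) (nat_lit 493)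 (nat_lit 3565) (.f (nat_lit 530) (nat_lit 495) (nat_lit 3566) (.f (nat_lit 499) (nat_lit 498) (nat_lit 2543) (.f (nat_lit 531) (nat_lit 500) (nat_lit 2544) (.d (nat_lit 563) (nat_lit 562) (nat_lit 527) (nat_lit 564) (nat_lit 528)))))) (.a (.f (nat_lit 493) (nat_lit 494) (nat_lit 3565) (.f (nat_lit 525) (nat_lit 492) (nat_lit 3564) (.f (nat_lit 556) (nat_lit 557) (nat_lit 1548) (.f (nat_lit 524) (nat_lit 555) (nat_lit 1547) (.d (nat_lit 496) (nat_lit 495) (nat_lit 2540) (nat_lit 497) (nat_lit 2541)))))) (.f (nat_lit 498) (nat_lit 497) (nat_lit 2542) (.f (nat_lit 530) (nat_lit 499) (nat_lit 2543) (.f (nat_lit 563) (nat_lit 562) (nat_lit 527) (.f (nat_lit 531) (nat_lit 564) (nat_lit 528) (.d (nat_lit 495) (nat_lit 494) (nat_lit 3566) (nat_lit 496) (nat_lit 3567))))))))))))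
noncomputable def s27799 : Cert := .r (nat_lit 1537714675869256576155945778994232080668353507232100411704359814857561673081074955675453359508165820314914373751691712200315325311936528214016582337209772802048) (.p (nat_lit 529) (.a (.f (nat_lit 497) (nat_lit 498) (nat_lit 2542) (.f (nat_lit 525) (nat_lit 496) (nat_lit 2541) (.d (nat_lit 557) (nat_lit 556) (nat_lit 1548) (nat_lit 558) (nat_lit 1549)))) (.a (.f (nat_lit 558) (nat_lit 557) (nat_lit 1549) (.f (nat_lit 530) (nat_lit 559) (nat_lit 1550) (.d (nat_lit 498) (nat_lit 497) (nat_lit 2542) (nat_lit 499) (nat_lit 2543)))) (.a (.f (nat_lit 497) (nat_lit 498) (nat_lit 2542) (.f (nat_lit 525) (nat_lit 496) (nat_lit 2541) (.f (nat_lit 492) (nat_lit 493) (nat_lit 3564) (.f (nat_lit 524) (nat_lit 491) (nat_lit 3563) (.d (nat_lit 556) (nat_lit 555) (nat_lit 1547) (nat_lit 557) (nat_lit 1548)))))) (.a (.f (nat_lit 558) (nat_lit 557) (nat_lit 1549) (.f (nat_lit 530) (nat_lit 559) (nat_lit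 1550) (.f (nat_lit 499) (nat_lit 498) (nat_lit 2543) (.f (nat_lit 531) (nat_lit 500) (nat_lit 2544) (.d (nat_lit 563) (nat_lit 562) (nat_lit 527) (nat_lit 564) (nat_lit 528)))))) (.a (.f (nat_lit 497) (nat_lit 498) (nat_lit 2542) (.f (nat_lit 525) (nat_lit 496) (nat_lit 2541) (.f (nat_lit 492) (nat_lit 493) (nat_lit 3564) (.f (nat_lit 524) (nat_lit 491) (nat_lit 3563) (.f (nat_lit 555) (nat_lit 556) (nat_lit 1547) (.f (nat_lit 523) (nat_lit 554) (nat_lit 1546) (.d (nat_lit 559) (nat_lit 558) (nat_lit 523) (nat_lit 560) (nat_lit 524)))))))) (.f (nat_lit 558) (nat_lit 557) (nat_lit 1549) (.f (nat_lit 530) (nat_lit 559) (nat_lit 1550) (.f (nat_lit 563) (nat_lit 562) (nat_lit 527) (.f (nat_lit 531) (nat_lit 564) (nat_lit 528) (.f (nat_lit 496) (nat_lit 495) (nat_lit 3567) (.d (nat_lit 497) (nat_lit 525) (nat_lit 2541) (nat_lit 532) (nat_lit 3568)))))))))))))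
noncomputable def s27800 : Cert := .r (nat_lit 1537714675869256576155945778994232080668353507232100411704359814857561673081074955675453359508165820314914373751691712200315325311936528214016582337209772802048) (.p (nat_lit 529) (.a (.f (nat_lit 494) (nat_lit 493) (nat_lit 3565) (.f (nat_lit 558) (nat_lit 557) (nat_lit 1549) (.d (nat_lit 530) (nat_lit 495) (nat_lit 3566) (nat_lit 559) (nat_lit 1550)))) (.a (.f (nat_lit 493) (nat_lit 494) (nat_lit 3565) (.f (nat_lit 525) (nat_lit 492) (nat_lit 3564) (.d (nat_lit 557) (nat_lit 556) (nat_lit 1548) (nat_lit 558) (nat_lit 1549)))) (.a (.f (nat_lit 494) (nat_lit 493) (nat_lit 3565) (.f (nat_lit 530) (nat_lit 495) (nat_lit 3566) (.f (nat_lit 499) (nat_lit 498) (nat_lit 2543) (.f (nat_lit 531) (nat_lit 500) (nat_lit 2544) (.d (nat_lit 563) (nat_lit 562) (nat_lit 527) (nat_lit 564) (nat_lit 528)))))) (.f (nat_lit 558) (nat_lit 557) (nat_lit 1549) (.f (nat_lit 530) (nat_lit 559) (nat_lit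 1550) (.f (nat_lit 499) (nat_lit 498) (nat_lit 2543) (.f (nat_lit 531) (nat_lit 500) (nat_lit 2544) (.d (nat_lit 563) (nat_lit 562) (nat_lit 527) (nat_lit 564) (nat_lit 528))))))))))
noncomputable def s27806 : Cert := .r (nat_lit 1537714675869256576155945778994232080668353507232100411704359814857561673081074955675453359508165820314914373751691712200315325311936528214016582337209772802048) (.p (nat_lit 529) (.a (.f (nat_lit 497) (nat_lit 498) (nat_lit 2542) (.f (nat_lit 525) (nat_lit 496) (nat_lit 2541) (.d (nat_lit 493) (nat_lit 492) (nat_lit 3564) (nat_lit 494) (nat_lit 3565)))) (.a (.f (nat_lit 494) (nat_lit 493) (nat_lit 3565) (.f (nat_lit 530) (nat_lit 495) (nat_lit 3566) (.d (nat_lit 498) (nat_lit 497) (nat_lit 2542) (nat_lit 499) (nat_lit 2543)))) (.a (.f (nat_lit 497) (nat_lit 498) (nat_lit 2542) (.f (nat_lit 525) (nat_lit 496) (nat_lit 2541) (.f (nat_lit 492) (nat_lit 493) (nat_lit 3564) (.f (nat_lit 524) (nat_lit 491)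 (nat_lit 3563) (.f (nat_lit 555) (nat_lit 556) (nat_lit 1547) (.f (nat_lit 523) (nat_lit 554) (nat_lit 1546) (.d (nat_lit 559) (nat_lit 558) (nat_lit 523) (nat_lit 560) (nat_lit 524)))))))) (.a (.f (nat_lit 494) (nat_lit 493) (nat_lit 3565) (.f (nat_lit 530) (nat_lit 495) (nat_lit 3566) (.f (nat_lit 499) (nat_lit 498) (nat_lit 2543) (.f (nat_lit 531) (nat_lit 500) (nat_lit 2544) (.d (nat_lit 563) (nat_lit 562) (nat_lit 527) (nat_lit 564) (nat_lit 528)))))) (.a (.f (nat_lit 494) (nat_lit 493) (nat_lit 3565) (.f (nat_lit 530) (nat_lit 495) (nat_lit 3566) (.f (nat_lit 559) (nat_lit 558) (nat_lit 1550) (.f (nat_lit 531) (nat_lit 560) (nat_lit 1551) (.d (nat_lit 563) (nat_lit 562) (nat_lit 527) (nat_lit 564) (nat_lit 528)))))) (.f (nat_lit 498) (nat_lit 497) (nat_lit 2542) (.f (nat_lit 530) (nat_lit 499) (nat_lit 2543) (.f (nat_lit 563) (nat_lit 562) (nat_lit 527) (.f (nat_lit 531) (nat_lit 564) (nat_lit 528) (.d (nat_lit 495) (nat_lit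 494) (nat_lit 3566) (nat_lit 496) (nat_lit 3567))))))))))))
noncomputable def s27807 : Cert := .r (nat_lit 1537714675869256576155945778994232080668353507232100411704359814857561673081074955675453359508165820314914373751691712200315325311936528214016582337209772802048) (.p (nat_lit 529) (.a (.f (nat_lit 494) (nat_lit 493) (nat_lit 3565) (.f (nat_lit 558) (nat_lit 557) (nat_lit 1549) (.d (nat_lit 530) (nat_lit 495) (nat_lit 3566) (nat_lit 559) (nat_lit 1550)))) (.a (.f (nat_lit 493) (nat_lit 494) (nat_lit 3565) (.f (nat_lit 525) (nat_lit 492) (nat_lit 3564) (.d (nat_lit 557) (nat_lit 556) (nat_lit 1548) (nat_lit 558) (nat_lit 1549)))) (.a (.f (nat_lit 493) (nat_lit 494) (nat_lit 3565) (.f (nat_lit 525) (nat_lit 492) (nat_lit 3564) (.f (nat_lit 556) (nat_lit 557) (nat_lit 1548) (.f (nat_lit 524) (nat_lit 555) (nat_lit 1547) (.d (nat_lit 496) (nat_lit 495) (nat_lit 2540) (nat_lit 497) (nat_lit 2541)))))) (.a (.f (nat_lit 558) (nat_lit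 557) (nat_lit 1549) (.f (nat_lit 530) (nat_lit 559) (nat_lit 1550) (.f (nat_lit 563) (nat_lit 562) (nat_lit 527) (.f (nat_lit 531) (nat_lit 564) (nat_lit 528) (.f (nat_lit 496) (nat_lit 495) (nat_lit 3567) (.d (nat_lit 497) (nat_lit 525) (nat_lit 2541) (nat_lit 532) (nat_lit 3568))))))) (.f (nat_lit 494) (nat_lit 493) (nat_lit 3565) (.f (nat_lit 530) (nat_lit 495) (nat_lit 3566) (.f (nat_lit 559) (nat_lit 558) (nat_lit 1550) (.f (nat_lit 531) (nat_lit 560) (nat_lit 1551) (.d (nat_lit 563) (nat_lit 562) (nat_lit 527) (nat_lit 564) (nat_lit 528)))))))))))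
noncomputable def s27808 : Cert := .r (nat_lit 1537714675869256576155945778994232080668353507232100411704359814857561673081074955675453359508165820314914373751691712200315325311936528214016582337209772802048) (.p (nat_lit 529) (.a (.f (nat_lit 497) (nat_lit 498) (nat_lit 2542) (.f (nat_lit 525) (nat_lit 496) (nat_lit 2541) (.d (nat_lit 557) (nat_lit 556) (nat_lit 1548) (nat_lit 558) (nat_lit 1549)))) (.a (.f (nat_lit 558) (nat_lit 557) (nat_lit 1549) (.f (nat_lit 530) (nat_lit 559) (nat_lit 1550) (.d (nat_lit 498) (nat_lit 497) (nat_lit 2542) (nat_lit 499) (nat_lit 2543)))) (.a (.f (nat_lit 498) (nat_lit 497) (nat_lit 2542) (.f (nat_lit 530) (nat_lit 499) (nat_lit 2543) (.f (nat_lit 563) (nat_lit 562) (nat_lit 527) (.f (nat_lit 531) (nat_lit 564) (nat_lit 528) (.d (nat_lit 495) (nat_lit 494) (nat_lit 3566) (nat_lit 496) (nat_lit 3567)))))) (.a (.f (nat_lit 558) (nat_lit 557) (nat_lit 1549) (.f (nat_lit 530) (nat_lit 559) (nat_lit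 1550) (.f (nat_lit 499) (nat_lit 498) (nat_lit 2543) (.f (nat_lit 531) (nat_lit 500) (nat_lit 2544) (.d (nat_lit 563) (nat_lit 562) (nat_lit 527) (nat_lit 564) (nat_lit 528)))))) (.f (nat_lit 558) (nat_lit 557) (nat_lit 1549) (.f (nat_lit 530) (nat_lit 559) (nat_lit 1550) (.f (nat_lit 563) (nat_lit 562) (nat_lit 527) (.f (nat_lit 531) (nat_lit 564) (nat_lit 528) (.f (nat_lit 496) (nat_lit 495) (nat_lit 3567) (.d (nat_lit 497) (nat_lit 525) (nat_lit 2541) (nat_lit 532) (nat_lit 3568))))))))))))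
noncomputable def s27810 : Cert := .r (nat_lit 1537714675869256576155945778994232080668353507232100411704359814857561673081074955675453359508165820314914373751691712200315325311936528214016582337209772802048) (.p (nat_lit 529) (.a (.f (nat_lit 494) (nat_lit 493) (nat_lit 3565) (.f (nat_lit 530) (nat_lit 495) (nat_lit 3566) (.d (nat_lit 498) (nat_lit 497) (nat_lit 2542) (nat_lit 499) (nat_lit 2543)))) (.a (.f (nat_lit 498) (nat_lit 497) (nat_lit 2542) (.f (nat_lit 530) (nat_lit 499) (nat_lit 2543) (.d (nat_lit 562) (nat_lit 561) (nat_lit 526) (nat_lit 563) (nat_lit 527)))) (.a s27215 (.f (nat_lit 494) (nat_lit 493) (nat_lit 3565) (.f (nat_lit 530) (nat_lit 495) (nat_lit 3566) (.d (nat_lit 562) (nat_lit 561) (nat_lit 526) (nat_lit 563) (nat_lit 527))))))))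
noncomputable def s27816 : Cert := .r (nat_lit 1537714675869256576155945778994232080668353507232100411704359814857561673081074955675453359508165820314914373751691712200315325311936528214016582337209772802048) (.p (nat_lit 529) (.a (.f (nat_lit 497) (nat_lit 498) (nat_lit 2542) (.f (nat_lit 525) (nat_lit 496) (nat_lit 2541) (.d (nat_lit 561) (nat_lit 560) (nat_lit 525) (nat_lit 562) (nat_lit 526)))) (.a (.f (nat_lit 561) (nat_lit 562) (nat_lit 526) (.f (nat_lit 497) (nat_lit 498) (nat_lit 2542) (.f (nat_lit 560) (nat_lit 525) (nat_lit 525) (.d (nat_lit 465) (nat_lit 433) (nat_lit 5552) (nat_lit 592) (nat_lit 5584))))) (.a (.f (nat_lit 498) (nat_lit 497) (nat_lit 2542) (.f (nat_lit 530) (nat_lit 499) (nat_lit 2543) (.d (nat_lit 562) (nat_lit 561) (nat_lit 526) (nat_lit 563) (nat_lit 527)))) (.a (.f (nat_lit 497) (nat_lit 498) (nat_lit 2542) (.f (nat_lit 525) (nat_lit 496) (nat_lit 2541) (.f (nat_lit 492) (nat_lit 493) (nat_lit 3564)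 (.f (nat_lit 524) (nat_lit 491) (nat_lit 3563) (.d (nat_lit 556) (nat_lit 555) (nat_lit 1547) (nat_lit 557) (nat_lit 1548)))))) (.f (nat_lit 561) (nat_lit 562) (nat_lit 526) (.f (nat_lit 525) (nat_lit 560) (nat_lit 525) (.f (nat_lit 492) (nat_lit 493) (nat_lit 3564) (.f (nat_lit 524) (nat_lit 491) (nat_lit 3563) (.d (nat_lit 556) (nat_lit 555) (nat_lit 1547) (nat_lit 557) (nat_lit 1548)))))))))))
noncomputable def s27830 : Cert := .r (nat_lit 1537714675869256576155945778994232080668353507232100411704359814857561673081074955675453359508165820314914373751691712200315325311936528214016582337209772802048) (.p (nat_lit 529) (.a (.f (nat_lit 494) (nat_lit 493) (nat_lit 3565) (.f (nat_lit 530) (nat_lit 495) (nat_lit 3566) (.d (nat_lit 562) (nat_lit 561) (nat_lit 526) (nat_lit 563) (nat_lit 527)))) (.a (.f (nat_lit 561) (nat_lit 562) (nat_lit 526) (.f (nat_lit 525) (nat_lit 560) (nat_lit 525) (.d (nat_lit 493) (nat_lit 492) (nat_lit 3564)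 (nat_lit 494) (nat_lit 3565)))) (.a (.f (nat_lit 494) (nat_lit 493) (nat_lit 3565) (.f (nat_lit 530) (nat_lit 495) (nat_lit 3566) (.f (nat_lit 499) (nat_lit 498) (nat_lit 2543) (.f (nat_lit 531) (nat_lit 500) (nat_lit 2544) (.d (nat_lit 563) (nat_lit 562) (nat_lit 527) (nat_lit 564) (nat_lit 528)))))) (.a (.f (nat_lit 561) (nat_lit 562) (nat_lit 526) (.f (nat_lit 525) (nat_lit 560) (nat_lit 525) (.f (nat_lit 492) (nat_lit 493) (nat_lit 3564) (.f (nat_lit 524) (nat_lit 491) (nat_lit 3563) (.d (nat_lit 556) (nat_lit 555) (nat_lit 1547) (nat_lit 557) (nat_lit 1548)))))) (.a (.f (nat_lit 561) (nat_lit 562) (nat_lit 526) (.f (nat_lit 525) (nat_lit 560) (nat_lit 525) (.f (nat_lit 556) (nat_lit 557) (nat_lit 1548) (.f (nat_lit 524) (nat_lit 555) (nat_lit 1547) (.f (nat_lit 491) (nat_lit 492) (nat_lit 3563) (.f (nat_lit 523) (nat_lit 490) (nat_lit 3562) (.d (nat_lit 495) (nat_lit 494) (nat_lit 2539) (nat_lit 496) (nat_lit 2540))))))))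 (.f (nat_lit 494) (nat_lit 493) (nat_lit 3565) (.f (nat_lit 530) (nat_lit 495) (nat_lit 3566) (.f (nat_lit 499) (nat_lit 498) (nat_lit 2543) (.f (nat_lit 531) (nat_lit 500) (nat_lit 2544) (.f (nat_lit 560) (nat_lit 559) (nat_lit 1551) (.d (nat_lit 561) (nat_lit 525) (nat_lit 525) (nat_lit 532) (nat_lit 1552)))))))))))))
noncomputable def s27838 : Cert := .r (nat_lit 1537714675869256576155945778994232080668353507232100411704359814857561673081074955675453359508165820314914373751691712200315325311936528214016582337209772802048) (.p (nat_lit 529) (.a (.f (nat_lit 558) (nat_lit 557) (nat_lit 1549) (.f (nat_lit 530) (nat_lit 559) (nat_lit 1550) (.d (nat_lit 498) (nat_lit 497) (nat_lit 2542) (nat_lit 499) (nat_lit 2543)))) (.a (.f (nat_lit 498) (nat_lit 497) (nat_lit 2542) (.f (nat_lit 530) (nat_lit 499) (nat_lit 2543) (.d (nat_lit 562) (nat_lit 561) (nat_lit 526) (nat_lit 563) (nat_lit 527)))) (.a s27232 (.f (nat_lit 558) (nat_lit 557)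 (nat_lit 1549) (.f (nat_lit 530) (nat_lit 559) (nat_lit 1550) (.d (nat_lit 562) (nat_lit 561) (nat_lit 526) (nat_lit 563) (nat_lit 527))))))))
noncomputable def s27849 : Cert := .r (nat_lit 1537714675869256576155945778994232080668353507232100411704359814857561673081074955675453359508165820314914373751691712200315325311936528214016582337209772802048) (.p (nat_lit 529) (.a (.f (nat_lit 558) (nat_lit 557) (nat_lit 1549) (.f (nat_lit 530) (nat_lit 559) (nat_lit 1550) (.d (nat_lit 562) (nat_lit 561) (nat_lit 526) (nat_lit 563) (nat_lit 527)))) (.a (.f (nat_lit 561) (nat_lit 562) (nat_lit 526) (.f (nat_lit 525) (nat_lit 560) (nat_lit 525) (.d (nat_lit 557) (nat_lit 556) (nat_lit 1548) (nat_lit 558) (nat_lit 1549)))) (.a (.f (nat_lit 558) (nat_lit 557) (nat_lit 1549) (.f (nat_lit 530) (nat_lit 559) (nat_lit 1550) (.f (nat_lit 499) (nat_lit 498) (nat_lit 2543) (.f (nat_lit 531) (nat_lit 500) (nat_lit 2544) (.d (nat_lit 563) (nat_lit 562)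 (nat_lit 527) (nat_lit 564) (nat_lit 528)))))) (.a (.f (nat_lit 561) (nat_lit 562) (nat_lit 526) (.f (nat_lit 525) (nat_lit 560) (nat_lit 525) (.f (nat_lit 492) (nat_lit 493) (nat_lit 3564) (.f (nat_lit 524) (nat_lit 491) (nat_lit 3563) (.d (nat_lit 556) (nat_lit 555) (nat_lit 1547) (nat_lit 557) (nat_lit 1548)))))) (.a (.f (nat_lit 562) (nat_lit 561) (nat_lit 526) (.f (nat_lit 530) (nat_lit 563) (nat_lit 527) (.f (nat_lit 559) (nat_lit 558) (nat_lit 1550) (.f (nat_lit 531) (nat_lit 560) (nat_lit 1551) (.d (nat_lit 499) (nat_lit 498) (nat_lit 2543) (nat_lit 500) (nat_lit 2544)))))) (.f (nat_lit 557) (nat_lit 558) (nat_lit 1549) (.f (nat_lit 525) (nat_lit 556) (nat_lit 1548) (.f (nat_lit 492) (nat_lit 493) (nat_lit 3564) (.f (nat_lit 524) (nat_lit 491) (nat_lit 3563) (.d (nat_lit 560) (nat_lit 559) (nat_lit 524) (nat_lit 561) (nat_lit 525))))))))))))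
noncomputable def s27853 : Cert := .r (nat_lit 1537714675869256576155945778994232080668353507232100411704359814857561673081074955675453359508165820314914373751691712200315325311936528214016582337209772802048) (.p (nat_lit 529) (.a (.f (nat_lit 497) (nat_lit 498) (nat_lit 2542) (.f (nat_lit 525) (nat_lit 496) (nat_lit 2541) (.d (nat_lit 561) (nat_lit 560) (nat_lit 525) (nat_lit 562) (nat_lit 526)))) (.a (.f (nat_lit 561) (nat_lit 562) (nat_lit 526) (.f (nat_lit 497) (nat_lit 498) (nat_lit 2542) (.f (nat_lit 560) (nat_lit 525) (nat_lit 525) (.d (nat_lit 465) (nat_lit 433) (nat_lit 5552) (nat_lit 592) (nat_lit 5584))))) (.a (.f (nat_lit 498) (nat_lit 497) (nat_lit 2542) (.f (nat_lit 530) (nat_lit 499) (nat_lit 2543) (.d (nat_lit 562) (nat_lit 561) (nat_lit 526) (nat_lit 563) (nat_lit 527)))) (.a (.f (nat_lit 497) (nat_lit 498) (nat_lit 2542) (.f (nat_lit 525) (nat_lit 496) (nat_lit 2541) (.f (nat_lit 492) (nat_lit 493) (nat_lit 3564)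 (.f (nat_lit 524) (nat_lit 491) (nat_lit 3563) (.f (nat_lit 555) (nat_lit 556) (nat_lit 1547) (.f (nat_lit 523) (nat_lit 554) (nat_lit 1546) (.d (nat_lit 559) (nat_lit 558) (nat_lit 523) (nat_lit 560) (nat_lit 524)))))))) (.a (.f (nat_lit 562) (nat_lit 561) (nat_lit 526) (.f (nat_lit 530) (nat_lit 563) (nat_lit 527) (.f (nat_lit 559) (nat_lit 558) (nat_lit 1550) (.f (nat_lit 531) (nat_lit 560) (nat_lit 1551) (.d (nat_lit 499) (nat_lit 498) (nat_lit 2543) (nat_lit 500) (nat_lit 2544)))))) (.f (nat_lit 561) (nat_lit 562) (nat_lit 526) (.f (nat_lit 525) (nat_lit 560) (nat_lit 525) (.f (nat_lit 496) (nat_lit 497) (nat_lit 2541) (.f (nat_lit 524) (nat_lit 495) (nat_lit 2540) (.d (nat_lit 492) (nat_lit 491) (nat_lit 3563) (nat_lit 493) (nat_lit 3564))))))))))))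
noncomputable def s27855 : Cert := .r (nat_lit 1537714675869256576155945778994232080668353507232100411704359814857561673081074955675453359508165820314914373751691712200315325311936528214016582337209772802048) (.p (nat_lit 529) (.a (.f (nat_lit 494) (nat_lit 493) (nat_lit 3565) (.f (nat_lit 558) (nat_lit 557) (nat_lit 1549) (.d (nat_lit 530) (nat_lit 495) (nat_lit 3566) (nat_lit 559) (nat_lit 1550)))) (.a (.f (nat_lit 494) (nat_lit 493) (nat_lit 3565) (.f (nat_lit 495) (nat_lit 530) (nat_lit 3566) (.f (nat_lit 558) (nat_lit 557) (nat_lit 1549) (.d (nat_lit 463) (nat_lit 431) (nat_lit 5550) (nat_lit 590) (nat_lit 6606))))) (.a (.f (nat_lit 558) (nat_lit 557) (nat_lit 1549) (.f (nat_lit 530) (nat_lit 559) (nat_lit 1550) (.d (nat_lit 562) (nat_lit 561) (nat_lit 526) (nat_lit 563) (nat_lit 527)))) (.a s27244 (.f (nat_lit 494) (nat_lit 493) (nat_lit 3565) (.f (nat_lit 530) (nat_lit 495) (nat_lit 3566) (.d (nat_lit 562) (nat_lit 561)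 (nat_lit 526) (nat_lit 563) (nat_lit 527)))))))))
noncomputable def s27856 : Cert := .r (nat_lit 1537714675869256576155945778994232080668353507232100411704359814857561673081074955675453359508165820314914373751691712200315325311936528214016582337209772802048) (.p (nat_lit 529) (.a (.f (nat_lit 494) (nat_lit 493) (nat_lit 3565) (.f (nat_lit 530) (nat_lit 495) (nat_lit 3566) (.d (nat_lit 562) (nat_lit 561) (nat_lit 526) (nat_lit 563) (nat_lit 527)))) (.a (.f (nat_lit 561) (nat_lit 562) (nat_lit 526) (.f (nat_lit 525) (nat_lit 560) (nat_lit 525) (.d (nat_lit 493) (nat_lit 492) (nat_lit 3564) (nat_lit 494) (nat_lit 3565)))) (.a (.f (nat_lit 494) (nat_lit 493) (nat_lit 3565) (.f (nat_lit 530) (nat_lit 495) (nat_lit 3566) (.f (nat_lit 499) (nat_lit 498) (nat_lit 2543) (.f (nat_lit 531) (nat_lit 500) (nat_lit 2544) (.d (nat_lit 563) (nat_lit 562) (nat_lit 527) (nat_lit 564) (nat_lit 528)))))) (.a (.f (nat_lit 562) (nat_lit 561) (nat_lit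 526) (.f (nat_lit 530) (nat_lit 563) (nat_lit 527) (.f (nat_lit 559) (nat_lit 558) (nat_lit 1550) (.f (nat_lit 531) (nat_lit 560) (nat_lit 1551) (.d (nat_lit 499) (nat_lit 498) (nat_lit 2543) (nat_lit 500) (nat_lit 2544)))))) (.f (nat_lit 494) (nat_lit 493) (nat_lit 3565) (.f (nat_lit 530) (nat_lit 495) (nat_lit 3566) (.f (nat_lit 499) (nat_lit 498) (nat_lit 2543) (.f (nat_lit 531) (nat_lit 500) (nat_lit 2544) (.f (nat_lit 560) (nat_lit 559) (nat_lit 1551) (.d (nat_lit 561) (nat_lit 525) (nat_lit 525) (nat_lit 532) (nat_lit 1552))))))))))))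
noncomputable def s27862 : Cert := .r (nat_lit 1537714675869256576155945778994232080668353507232100411704359814857561673081074955675453359508165820314914373751691712200315325311936528214016582337209772802048) (.p (nat_lit 529) (.a (.f (nat_lit 558) (nat_lit 557) (nat_lit 1549) (.f (nat_lit 530) (nat_lit 559) (nat_lit 1550) (.d (nat_lit 562) (nat_lit 561) (nat_lit 526) (nat_lit 563) (nat_lit 527)))) (.a (.f (nat_lit 561) (nat_lit 562) (nat_lit 526) (.f (nat_lit 525) (nat_lit 560) (nat_lit 525) (.d (nat_lit 557) (nat_lit 556) (nat_lit 1548) (nat_lit 558) (nat_lit 1549)))) (.a (.f (nat_lit 558) (nat_lit 557) (nat_lit 1549) (.f (nat_lit 530) (nat_lit 559) (nat_lit 1550) (.f (nat_lit 499) (nat_lit 498) (nat_lit 2543) (.f (nat_lit 531) (nat_lit 500) (nat_lit 2544) (.d (nat_lit 563) (nat_lit 562) (nat_lit 527) (nat_lit 564) (nat_lit 528)))))) (.a (.f (nat_lit 561) (nat_lit 562) (nat_lit 526) (.f (nat_lit 525) (nat_lit 560) (nat_lit 525)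 (.f (nat_lit 556) (nat_lit 557) (nat_lit 1548) (.f (nat_lit 524) (nat_lit 555) (nat_lit 1547) (.f (nat_lit 491) (nat_lit 492) (nat_lit 3563) (.f (nat_lit 523) (nat_lit 490) (nat_lit 3562) (.d (nat_lit 495) (nat_lit 494) (nat_lit 2539) (nat_lit 496) (nat_lit 2540)))))))) (.a (.f (nat_lit 562) (nat_lit 561) (nat_lit 526) (.f (nat_lit 530) (nat_lit 563) (nat_lit 527) (.f (nat_lit 559) (nat_lit 558) (nat_lit 1550) (.f (nat_lit 531) (nat_lit 560) (nat_lit 1551) (.d (nat_lit 499) (nat_lit 498) (nat_lit 2543) (nat_lit 500) (nat_lit 2544)))))) (.f (nat_lit 558) (nat_lit 557) (nat_lit 1549) (.f (nat_lit 530) (nat_lit 559) (nat_lit 1550) (.f (nat_lit 495) (nat_lit 494) (nat_lit 3566) (.f (nat_lit 531) (nat_lit 496) (nat_lit 3567) (.d (nat_lit 499) (nat_lit 498) (nat_lit 2543) (nat_lit 500) (nat_lit 2544))))))))))))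
noncomputable def s27863 : Cert := .r (nat_lit 1537714675869256576155945778994232080668353507232100411704359814857561673081074955675453359508165820314914373751691712200315325311936528214016582337209772802048) (.p (nat_lit 529) (.a (.f (nat_lit 494) (nat_lit 493) (nat_lit 3565) (.f (nat_lit 558) (nat_lit 557) (nat_lit 1549) (.d (nat_lit 530) (nat_lit 495) (nat_lit 3566) (nat_lit 559) (nat_lit 1550)))) (.a (.f (nat_lit 493) (nat_lit 494) (nat_lit 3565) (.f (nat_lit 525) (nat_lit 492) (nat_lit 3564) (.d (nat_lit 557) (nat_lit 556) (nat_lit 1548) (nat_lit 558) (nat_lit 1549)))) (.a (.f (nat_lit 494) (nat_lit 493) (nat_lit 3565) (.f (nat_lit 530) (nat_lit 495) (nat_lit 3566) (.f (nat_lit 499) (nat_lit 498) (nat_lit 2543) (.f (nat_lit 531) (nat_lit 500) (nat_lit 2544) (.f (nat_lit 560) (nat_lit 559) (nat_lit 1551) (.d (nat_lit 561) (nat_lit 525) (nat_lit 525) (nat_lit 532) (nat_lit 1552))))))) (.a (.f (nat_lit 557) (nat_lit 558) (nat_lit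 1549) (.f (nat_lit 525) (nat_lit 556) (nat_lit 1548) (.f (nat_lit 492) (nat_lit 493) (nat_lit 3564) (.f (nat_lit 524) (nat_lit 491) (nat_lit 3563) (.d (nat_lit 560) (nat_lit 559) (nat_lit 524) (nat_lit 561) (nat_lit 525)))))) (.f (nat_lit 558) (nat_lit 557) (nat_lit 1549) (.f (nat_lit 530) (nat_lit 559) (nat_lit 1550) (.f (nat_lit 495) (nat_lit 494) (nat_lit 3566) (.f (nat_lit 531) (nat_lit 496) (nat_lit 3567) (.d (nat_lit 499) (nat_lit 498) (nat_lit 2543) (nat_lit 500) (nat_lit 2544)))))))))))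
noncomputable def s27902 : Cert := .r (nat_lit 3773962426359256028315398070137723536786977657136518882621846839827675526592416235673210043128404286729838576116047228473392714588212622382574040999567115446692201103360) (.p (nat_lit 464) (.a (.f (nat_lit 463) (nat_lit 431) (nat_lit 7599) (.f (nat_lit 495) (nat_lit 592) (nat_lit 7631) (.f (nat_lit 465) (nat_lit 433) (nat_lit 6576) (.d (nat_lit 466) (nat_lit 467) (nat_lit 1487) (nat_lit 494) (nat_lit 1486))))) (.a (.f (nat_lit 433) (nat_lit 465) (nat_lit 6576) (.f (nat_lit 432) (nat_lit 401) (nat_lit 6544) (.d (nat_lit 431) (nat_lit 399) (nat_lit 7567) (nat_lit 463) (nat_lit 7599)))) (.a (.f (nat_lit 433) (nat_lit 465) (nat_lit 6576) (.f (nat_lit 432) (nat_lit 401) (nat_lit 6544) (.f (nat_lit 399) (nat_lit 431) (nat_lit 7567) (.d (nat_lit 400) (nat_lit 367) (nat_lit 7535) (nat_lit 495) (nat_lit 5519))))) (.a (.f (nat_lit 432) (nat_lit 559) (nat_lit 5551) (.f (nat_lit 400) (nat_lit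 495) (nat_lit 5519) (.d (nat_lit 399) (nat_lit 367) (nat_lit 7535) (nat_lit 431) (nat_lit 7567)))) (.f (nat_lit 432) (nat_lit 559) (nat_lit 5551) (.d (nat_lit 433) (nat_lit 401) (nat_lit 6544) (nat_lit 465) (nat_lit 6576))))))))
noncomputable def s27927 : Cert := .r (nat_lit 1537714675869256576155945778994232080668353507232100411704359814857561673081074955675453359508165820314914373751691712200315325311936528214016582337209772802048) (.p (nat_lit 529) (.a (.f (nat_lit 494) (nat_lit 493) (nat_lit 3565) (.f (nat_lit 530) (nat_lit 495) (nat_lit 3566) (.d (nat_lit 562) (nat_lit 561) (nat_lit 526) (nat_lit 563) (nat_lit 527)))) (.a (.f (nat_lit 561) (nat_lit 562) (nat_lit 526) (.f (nat_lit 525) (nat_lit 560) (nat_lit 525) (.d (nat_lit 493) (nat_lit 492) (nat_lit 3564) (nat_lit 494) (nat_lit 3565)))) (.a (.f (nat_lit 494) (nat_lit 493) (nat_lit 3565) (.f (nat_lit 530) (nat_lit 495) (nat_lit 3566) (.f (nat_lit 559) (nat_lit 558) (nat_lit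 1550) (.f (nat_lit 531) (nat_lit 560) (nat_lit 1551) (.d (nat_lit 563) (nat_lit 562) (nat_lit 527) (nat_lit 564) (nat_lit 528)))))) (.a (.f (nat_lit 561) (nat_lit 562) (nat_lit 526) (.f (nat_lit 525) (nat_lit 560) (nat_lit 525) (.f (nat_lit 496) (nat_lit 497) (nat_lit 2541) (.f (nat_lit 524) (nat_lit 495) (nat_lit 2540) (.d (nat_lit 492) (nat_lit 491) (nat_lit 3563) (nat_lit 493) (nat_lit 3564)))))) (.a (.f (nat_lit 561) (nat_lit 562) (nat_lit 526) (.f (nat_lit 525) (nat_lit 560) (nat_lit 525) (.f (nat_lit 496) (nat_lit 497) (nat_lit 2541) (.f (nat_lit 495) (nat_lit 524) (nat_lit 2540) (.d (nat_lit 530) (nat_lit 494) (nat_lit 3566) (nat_lit 531) (nat_lit 3567)))))) (.f (nat_lit 494) (nat_lit 493) (nat_lit 3565) (.f (nat_lit 530) (nat_lit 495) (nat_lit 3566) (.f (nat_lit 559) (nat_lit 558) (nat_lit 1550) (.f (nat_lit 560) (nat_lit 531) (nat_lit 1551) (.d (nat_lit 525) (nat_lit 524) (nat_lit 524) (nat_lit 561) (nat_lit 525))))))))))))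
noncomputable def s27928 : Cert := .r (nat_lit 1537714675869256576155945778994232080668353507232100411704359814857561673081074955675453359508165820314914373751691712200315325311936528214016582337209772802048) (.p (nat_lit 529) (.a (.f (nat_lit 497) (nat_lit 498) (nat_lit 2542) (.f (nat_lit 525) (nat_lit 496) (nat_lit 2541) (.d (nat_lit 561) (nat_lit 560) (nat_lit 525) (nat_lit 562) (nat_lit 526)))) (.a (.f (nat_lit 561) (nat_lit 562) (nat_lit 526) (.f (nat_lit 497) (nat_lit 498) (nat_lit 2542) (.f (nat_lit 560) (nat_lit 525) (nat_lit 525) (.d (nat_lit 465) (nat_lit 433) (nat_lit 5552) (nat_lit 592) (nat_lit 5584))))) (.a (.f (nat_lit 498) (nat_lit 497) (nat_lit 2542) (.f (nat_lit 530) (nat_lit 499) (nat_lit 2543) (.d (nat_lit 562) (nat_lit 561) (nat_lit 526) (nat_lit 563) (nat_lit 527)))) (.a (.f (nat_lit 498) (nat_lit 497) (nat_lit 2542) (.f (nat_lit 530) (nat_lit 499) (nat_lit 2543) (.f (nat_lit 563) (nat_lit 562) (nat_lit 527)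 (.f (nat_lit 531) (nat_lit 564) (nat_lit 528) (.d (nat_lit 495) (nat_lit 494) (nat_lit 3566) (nat_lit 496) (nat_lit 3567)))))) (.a (.f (nat_lit 562) (nat_lit 561) (nat_lit 526) (.f (nat_lit 530) (nat_lit 563) (nat_lit 527) (.f (nat_lit 559) (nat_lit 558) (nat_lit 1550) (.f (nat_lit 531) (nat_lit 560) (nat_lit 1551) (.d (nat_lit 499) (nat_lit 498) (nat_lit 2543) (nat_lit 500) (nat_lit 2544)))))) (.a (.f (nat_lit 561) (nat_lit 562) (nat_lit 526) (.f (nat_lit 525) (nat_lit 560) (nat_lit 525) (.f (nat_lit 496) (nat_lit 497) (nat_lit 2541) (.f (nat_lit 495) (nat_lit 524) (nat_lit 2540) (.d (nat_lit 530) (nat_lit 494) (nat_lit 3566) (nat_lit 531) (nat_lit 3567)))))) (.f (nat_lit 497) (nat_lit 498) (nat_lit 2542) (.f (nat_lit 525) (nat_lit 496) (nat_lit 2541) (.f (nat_lit 560) (nat_lit 561) (nat_lit 525) (.f (nat_lit 559) (nat_lit 524) (nat_lit 524) (.d (nat_lit 530) (nat_lit 531) (nat_lit 1551) (nat_lit 558) (nat_lit 1550)))))))))))))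
noncomputable def s27929 : Cert := .r (nat_lit 1537714675869256576155945778994232080668353507232100411704359814857561673081074955675453359508165820314914373751691712200315325311936528214016582337209772802048) (.p (nat_lit 529) (.a (.f (nat_lit 497) (nat_lit 498) (nat_lit 2542) (.f (nat_lit 525) (nat_lit 496) (nat_lit 2541) (.d (nat_lit 493) (nat_lit 492) (nat_lit 3564) (nat_lit 494) (nat_lit 3565)))) (.a (.f (nat_lit 494) (nat_lit 493) (nat_lit 3565) (.f (nat_lit 530) (nat_lit 495) (nat_lit 3566) (.d (nat_lit 498) (nat_lit 497) (nat_lit 2542) (nat_lit 499) (nat_lit 2543)))) (.a (.f (nat_lit 497) (nat_lit 498) (nat_lit 2542) (.f (nat_lit 525) (nat_lit 496) (nat_lit 2541) (.f (nat_lit 492) (nat_lit 493) (nat_lit 3564) (.f (nat_lit 524) (nat_lit 491) (nat_lit 3563) (.f (nat_lit 555) (nat_lit 556) (nat_lit 1547) (.f (nat_lit 523) (nat_lit 554) (nat_lit 1546) (.d (nat_lit 559) (nat_lit 558) (nat_lit 523) (nat_lit 560) (nat_lit 524))))))))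 (.a (.f (nat_lit 494) (nat_lit 493) (nat_lit 3565) (.f (nat_lit 530) (nat_lit 495) (nat_lit 3566) (.f (nat_lit 499) (nat_lit 498) (nat_lit 2543) (.f (nat_lit 531) (nat_lit 500) (nat_lit 2544) (.f (nat_lit 560) (nat_lit 559) (nat_lit 1551) (.d (nat_lit 561) (nat_lit 525) (nat_lit 525) (nat_lit 532) (nat_lit 1552))))))) (.a (.f (nat_lit 494) (nat_lit 493) (nat_lit 3565) (.f (nat_lit 530) (nat_lit 495) (nat_lit 3566) (.f (nat_lit 559) (nat_lit 558) (nat_lit 1550) (.f (nat_lit 560) (nat_lit 531) (nat_lit 1551) (.d (nat_lit 525) (nat_lit 524) (nat_lit 524) (nat_lit 561) (nat_lit 525)))))) (.f (nat_lit 497) (nat_lit 498) (nat_lit 2542) (.f (nat_lit 525) (nat_lit 496) (nat_lit 2541) (.f (nat_lit 560) (nat_lit 561) (nat_lit 525) (.f (nat_lit 559) (nat_lit 524) (nat_lit 524) (.d (nat_lit 530) (nat_lit 531) (nat_lit 1551) (nat_lit 558) (nat_lit 1550))))))))))))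
noncomputable def s27950 : Cert := .r (nat_lit 16209045194715341170548349245654409403286582764608172441692830379712419256531656424123566185116825877291385121625027903089409277539789544126673222765255633118032019800396314705920) (.p (nat_lit 496) (.a (.f (nat_lit 623) (nat_lit 591) (nat_lit 5615) (.f (nat_lit 624) (nat_lit 655) (nat_lit 5647) (.d (nat_lit 625) (nat_lit 593) (nat_lit 4592) (nat_lit 657) (nat_lit 4624)))) (.a (.f (nat_lit 591) (nat_lit 623) (nat_lit 5615) (.f (nat_lit 559) (nat_lit 464) (nat_lit 5583) (.f (nat_lit 561) (nat_lit 562) (nat_lit 3598) (.f (nat_lit 590) (nat_lit 589) (nat_lit 2605) (.f (nat_lit 593) (nat_lit 625) (nat_lit 4592) (.f (nat_lit 558) (nat_lit 557) (nat_lit 557) (.d (nat_lit 622) (nat_lit 621) (nat_lit 1613) (nat_lit 654) (nat_lit 6670)))))))) (.a (.f (nat_lit 625) (nat_lit 593) (nat_lit 4592) (.f (nat_lit 624) (nat_lit 657) (nat_lit 4624) (.f (nat_lit 655) (nat_lit 623) (nat_lit 5647) (.d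 (nat_lit 656) (nat_lit 559) (nat_lit 7695) (nat_lit 687) (nat_lit 5679))))) (.a (.f (nat_lit 593) (nat_lit 625) (nat_lit 4592) (.f (nat_lit 561) (nat_lit 464) (nat_lit 4560) (.d (nat_lit 562) (nat_lit 559) (nat_lit 3598) (nat_lit 563) (nat_lit 3599)))) (.f (nat_lit 591) (nat_lit 623) (nat_lit 5615) (.f (nat_lit 464) (nat_lit 559) (nat_lit 5583) (.d (nat_lit 465) (nat_lit 433) (nat_lit 6576) (nat_lit 497) (nat_lit 6608)))))))))
noncomputable def s27989 : Cert := .r (nat_lit 1537714675869256576155945778994232080668353507232100411704359814857561673081074955675453359508165820314914373751691712200315325311936528214016582337209772802048) (.p (nat_lit 529) (.a (.f (nat_lit 558) (nat_lit 557) (nat_lit 1549) (.f (nat_lit 530) (nat_lit 559) (nat_lit 1550) (.d (nat_lit 562) (nat_lit 561) (nat_lit 526) (nat_lit 563) (nat_lit 527)))) (.a (.f (nat_lit 561) (nat_lit 562) (nat_lit 526) (.f (nat_lit 525) (nat_lit 560) (nat_lit 525) (.d (nat_lit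 557) (nat_lit 556) (nat_lit 1548) (nat_lit 558) (nat_lit 1549)))) (.a (.f (nat_lit 558) (nat_lit 557) (nat_lit 1549) (.f (nat_lit 530) (nat_lit 559) (nat_lit 1550) (.f (nat_lit 563) (nat_lit 562) (nat_lit 527) (.f (nat_lit 531) (nat_lit 564) (nat_lit 528) (.f (nat_lit 496) (nat_lit 495) (nat_lit 3567) (.d (nat_lit 497) (nat_lit 525) (nat_lit 2541) (nat_lit 532) (nat_lit 3568))))))) (.a (.f (nat_lit 561) (nat_lit 562) (nat_lit 526) (.f (nat_lit 525) (nat_lit 560) (nat_lit 525) (.f (nat_lit 556) (nat_lit 557) (nat_lit 1548) (.f (nat_lit 524) (nat_lit 555) (nat_lit 1547) (.f (nat_lit 491) (nat_lit 492) (nat_lit 3563) (.f (nat_lit 523) (nat_lit 490) (nat_lit 3562) (.d (nat_lit 495) (nat_lit 494) (nat_lit 2539) (nat_lit 496) (nat_lit 2540)))))))) (.a (.f (nat_lit 561) (nat_lit 562) (nat_lit 526) (.f (nat_lit 525) (nat_lit 560) (nat_lit 525) (.f (nat_lit 496) (nat_lit 497) (nat_lit 2541) (.f (nat_lit 495) (nat_lit 524) (nat_lit 2540)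 (.d (nat_lit 530) (nat_lit 494) (nat_lit 3566) (nat_lit 531) (nat_lit 3567)))))) (.f (nat_lit 558) (nat_lit 557) (nat_lit 1549) (.f (nat_lit 530) (nat_lit 559) (nat_lit 1550) (.f (nat_lit 495) (nat_lit 494) (nat_lit 3566) (.f (nat_lit 496) (nat_lit 531) (nat_lit 3567) (.d (nat_lit 525) (nat_lit 497) (nat_lit 2541) (nat_lit 524) (nat_lit 2540))))))))))))
noncomputable def s27992 : Cert := .r (nat_lit 1537714675869256576155945778994232080668353507232100411704359814857561673081074955675453359508165820314914373751691712200315325311936528214016582337209772802048) (.p (nat_lit 560) (.a (.f (nat_lit 525) (nat_lit 561) (nat_lit 525) (.f (nat_lit 496) (nat_lit 497) (nat_lit 2541) (.d (nat_lit 524) (nat_lit 495) (nat_lit 2540) (nat_lit 559) (nat_lit 524)))) (.a (.f (nat_lit 525) (nat_lit 561) (nat_lit 525) (.f (nat_lit 524) (nat_lit 559) (nat_lit 524) (.d (nat_lit 556) (nat_lit 555) (nat_lit 1547) (nat_lit 557) (nat_lit 1548)))) (.a (.f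 (nat_lit 525) (nat_lit 561) (nat_lit 525) (.f (nat_lit 496) (nat_lit 497) (nat_lit 2541) (.f (nat_lit 495) (nat_lit 524) (nat_lit 2540) (.d (nat_lit 463) (nat_lit 431) (nat_lit 4527) (nat_lit 592) (nat_lit 7631))))) (.a s26260 s26262)))))
noncomputable def s27999 : Cert := .r (nat_lit 878694100496718043517683302282418331810487718418343092402491322775749527474899974671687634004666183037093927858109549828751614463963730408009475621262727315456) (.p (nat_lit 527) (.a (.p (nat_lit 526) (.a (.p (nat_lit 529) (.a (.f (nat_lit 494) (nat_lit 493) (nat_lit 3565) (.f (nat_lit 558) (nat_lit 557) (nat_lit 1549) (.d (nat_lit 530) (nat_lit 495) (nat_lit 3566) (nat_lit 559) (nat_lit 1550)))) (.a (.f (nat_lit 497) (nat_lit 498) (nat_lit 2542) (.f (nat_lit 525) (nat_lit 496) (nat_lit 2541) (.d (nat_lit 493) (nat_lit 492) (nat_lit 3564) (nat_lit 494) (nat_lit 3565)))) (.f (nat_lit 497) (nat_lit 498) (nat_lit 2542) (.f (nat_lit 525) (nat_lit 496) (nat_lit 2541) (.d (nat_lit 557) (nat_lit 556) (nat_lit 1548) (nat_lit 558) (nat_lit 1549))))))) (.a s26229 (.a s26230 (.a s26263 (.a (.p (nat_lit 529) (.a (.f (nat_lit 497) (nat_lit 498) (nat_lit 2542) (.f (nat_lit 525) (nat_lit 496) (nat_lit 2541) (.d (nat_lit 493) (nat_lit 492) (nat_lit 3564) (nat_lit 494) (nat_lit 3565)))) (.a (.f (nat_lit 493) (nat_lit 494) (nat_lit 3565) (.f (nat_lit 525) (nat_lit 492) (nat_lit 3564) (.d (nat_lit 557) (nat_lit 556) (nat_lit 1548) (nat_lit 558) (nat_lit 1549)))) (.f (nat_lit 558) (nat_lit 557) (nat_lit 1549) (.f (nat_lit 530) (nat_lit 559) (nat_lit 1550) (.d (nat_lit 498) (nat_lit 497) (nat_lit 2542) (nat_lit 499) (nat_lit 2543))))))) (.a s26273 (.a s26280 s26281)))))))) (.a (.p (nat_lit 526) (.a s26229 (.a s26283 (.a s26425 (.a (.p (nat_lit 529) (.a (.f (nat_lit 493) (nat_lit 494) (nat_lit 3565) (.f (nat_lit 525) (nat_lit 492) (nat_lit 3564) (.d (nat_lit 557) (nat_lit 556) (nat_lit 1548) (nat_lit 558) (nat_lit 1549)))) (.a (.f (nat_lit 558) (nat_lit 557) (nat_lit 1549) (.f (nat_lit 530) (nat_lit 559) (nat_lit 1550) (.d (nat_lit 498) (nat_lit 497) (nat_lit 2542) (nat_lit 499) (nat_lit 2543)))) (.f (nat_lit 561) (nat_lit 562) (nat_lit 526) (.f (nat_lit 497) (nat_lit 498) (nat_lit 2542) (.f (nat_lit 560) (nat_lit 525) (nat_lit 525) (.d (nat_lit 465) (nat_lit 433) (nat_lit 5552) (nat_lit 592) (nat_lit 5584)))))))) (.a s26429 (.a (.p (nat_lit 529) (.a (.f (nat_lit 494) (nat_lit 493) (nat_lit 3565) (.f (nat_lit 530) (nat_lit 495) (nat_lit 3566) (.d (nat_lit 498) (nat_lit 497) (nat_lit 2542) (nat_lit 499) (nat_lit 2543)))) (.a (.f (nat_lit 561) (nat_lit 562) (nat_lit 526) (.f (nat_lit 497) (nat_lit 498) (nat_lit 2542) (.f (nat_lit 560) (nat_lit 525) (nat_lit 525) (.d (nat_lit 465) (nat_lit 433) (nat_lit 5552) (nat_lit 592) (nat_lit 5584))))) (.f (nat_lit 494) (nat_lit 493) (nat_lit 3565) (.f (nat_lit 530) (nat_lit 495) (nat_lit 3566) (.d (nat_lit 562) (nat_lit 561) (nat_lit 526) (nat_lit 563) (nat_lit 527))))))) (.p (nat_lit 529) (.a (.f (nat_lit 558) (nat_lit 557) (nat_lit 1549) (.f (nat_lit 530) (nat_lit 559) (nat_lit 1550) (.d (nat_lit 498) (nat_lit 497) (nat_lit 2542) (nat_lit 499) (nat_lit 2543)))) (.a (.f (nat_lit 561) (nat_lit 562) (nat_lit 526) (.f (nat_lit 497) (nat_lit 498) (nat_lit 2542) (.f (nat_lit 560) (nat_lit 525) (nat_lit 525) (.d (nat_lit 465) (nat_lit 433) (nat_lit 5552) (nat_lit 592) (nat_lit 5584))))) (.f (nat_lit 558) (nat_lit 557) (nat_lit 1549) (.f (nat_lit 530) (nat_lit 559) (nat_lit 1550) (.d (nat_lit 562) (nat_lit 561) (nat_lit 526) (nat_lit 563) (nat_lit 527)))))))))))))) (.a (.p (nat_lit 526) (.a s26230 (.a s26283 (.a s26461 (.a (.p (nat_lit 529) (.a (.f (nat_lit 497) (nat_lit 498) (nat_lit 2542) (.f (nat_lit 525) (nat_lit 496) (nat_lit 2541) (.d (nat_lit 493) (nat_lit 492) (nat_lit 3564) (nat_lit 494) (nat_lit 3565)))) (.a (.f (nat_lit 493) (nat_lit 494) (nat_lit 3565) (.f (nat_lit 525) (nat_lit 492) (nat_lit 3564) (.d (nat_lit 557) (nat_lit 556) (nat_lit 1548) (nat_lit 558) (nat_lit 1549)))) (.f (nat_lit 498) (nat_lit 497) (nat_lit 2542) (.f (nat_lit 530) (nat_lit 499) (nat_lit 2543) (.d (nat_lit 562) (nat_lit 561) (nat_lit 526) (nat_lit 563) (nat_lit 527))))))) (.a (.p (nat_lit 529) (.a (.f (nat_lit 494) (nat_lit 493) (nat_lit 3565) (.f (nat_lit 495) (nat_lit 530) (nat_lit 3566) (.f (nat_lit 558) (nat_lit 557) (nat_lit 1549) (.d (nat_lit 463) (nat_lit 431) (nat_lit 5550) (nat_lit 590) (nat_lit 6606))))) (.a (.f (nat_lit 498) (nat_lit 497) (nat_lit 2542) (.f (nat_lit 530) (nat_lit 499) (nat_lit 2543) (.d (nat_lit 562) (nat_lit 561) (nat_lit 526) (nat_lit 563) (nat_lit 527)))) s26464))) (.a (.p (nat_lit 529) (.a (.f (nat_lit 494) (nat_lit 493) (nat_lit 3565) (.f (nat_lit 530) (nat_lit 495) (nat_lit 3566) (.d (nat_lit 498) (nat_lit 497) (nat_lit 2542) (nat_lit 499) (nat_lit 2543)))) (.a (.f (nat_lit 561) (nat_lit 562) (nat_lit 526) (.f (nat_lit 497) (nat_lit 498) (nat_lit 2542) (.f (nat_lit 560) (nat_lit 525) (nat_lit 525) (.d (nat_lit 465) (nat_lit 433) (nat_lit 5552) (nat_lit 592) (nat_lit 5584))))) (.f (nat_lit 494) (nat_lit 493) (nat_lit 3565) (.f (nat_lit 530) (nat_lit 495) (nat_lit 3566) (.d (nat_lit 562) (nat_lit 561) (nat_lit 526) (nat_lit 563) (nat_lit 527))))))) (.a s26469 s26470)))))))) (.a (.p (nat_lit 495) (.a (.p (nat_lit 559) (.a (.p (nat_lit 464) (.a (.d (nat_lit 432) (nat_lit 463) (nat_lit 6575) (nat_lit 496) (nat_lit 5551)) (.a (.f (nat_lit 463) (nat_lit 432) (nat_lit 6575) (.d (nat_lit 560) (nat_lit 431) (nat_lit 4527) (nat_lit 592) (nat_lit 4559))) (.a (.d (nat_lit 496) (nat_lit 432) (nat_lit 5551) (nat_lit 591) (nat_lit 6607)) (.f (nat_lit 591) (nat_lit 496) (nat_lit 6607) (.f (nat_lit 494) (nat_lit 462) (nat_lit 7630) (.f (nat_lit 526) (nat_lit 623) (nat_lit 7662) (.f (nat_lit 590) (nat_lit 622) (nat_lit 5614) (.f (nat_lit 558) (nat_lit 463) (nat_lit 5582) (.d (nat_lit 493) (nat_lit 461) (nat_lit 7629) (nat_lit 492) (nat_lit 492))))))))))) (.a (.p (nat_lit 592) (.a (.d (nat_lit 560) (nat_lit 463) (nat_lit 4559) (nat_lit 624) (nat_lit 7663)) (.a (.f (nat_lit 591) (nat_lit 624) (nat_lit 4591) (.f (nat_lit 590) (nat_lit 622) (nat_lit 5614) (.f (nat_lit 558) (nat_lit 463) (nat_lit 5582) (.d (nat_lit 557) (nat_lit 556) (nat_lit 556) (nat_lit 593) (nat_lit 3629))))) (.a (.f (nat_lit 463) (nat_lit 560) (nat_lit 4559) (.f (nat_lit 558) (nat_lit 590) (nat_lit 5582) (.f (nat_lit 431) (nat_lit 526) (nat_lit 5550) (.d (nat_lit 430) (nat_lit 398) (nat_lit 7566) (nat_lit 462) (nat_lit 7598))))) (.d (nat_lit 624) (nat_lit 560) (nat_lit 7663) (nat_lit 591) (nat_lit 4591)))))) (.a s26482 (.a (.p (nat_lit 464) (.a (.d (nat_lit 432) (nat_lit 463) (nat_lit 6575) (nat_lit 496) (nat_lit 5551)) (.a (.f (nat_lit 463) (nat_lit 432) (nat_lit 6575) (.d (nat_lit 560) (nat_lit 431) (nat_lit 4527) (nat_lit 592) (nat_lit 4559))) (.a (.d (nat_lit 496) (nat_lit 432) (nat_lit 5551) (nat_lit 591) (nat_lit 6607)) (.f (nat_lit 591) (nat_lit 496) (nat_lit 6607) (.f (nat_lit 592) (nat_lit 624) (nat_lit 4591) (.f (nat_lit 590) (nat_lit 622) (nat_lit 5614) (.d (nat_lit 463) (nat_lit 558) (nat_lit 5582) (nat_lit 560) (nat_lit 4559))))))))) (.a (.p (nat_lit 464) (.a (.d (nat_lit 432) (nat_lit 463) (nat_lit 6575) (nat_lit 496) (nat_lit 5551)) (.a (.f (nat_lit 463) (nat_lit 432) (nat_lit 6575) (.d (nat_lit 560) (nat_lit 431) (nat_lit 4527) (nat_lit 592) (nat_lit 4559))) (.a (.d (nat_lit 496) (nat_lit 432) (nat_lit 5551) (nat_lit 591) (nat_lit 6607)) (.f (nat_lit 591) (nat_lit 496) (nat_lit 6607) (.f (nat_lit 494) (nat_lit 462) (nat_lit 7630) (.f (nat_lit 623) (nat_lit 526) (nat_lit 7662) (.d (nat_lit 622) (nat_lit 590) (nat_lit 5614) (nat_lit 654) (nat_lit 5646))))))))) (.a s2312 (.a s26489 (.p (nat_lit 464) (.a (.d (nat_lit 432) (nat_lit 463) (nat_lit 6575) (nat_lit 496) (nat_lit 5551)) (.a (.f (nat_lit 463) (nat_lit 432) (nat_lit 6575) (.d (nat_lit 560) (nat_lit 431) (nat_lit 4527) (nat_lit 592) (nat_lit 4559))) (.a (.d (nat_lit 496) (nat_lit 432) (nat_lit 5551) (nat_lit 591) (nat_lit 6607)) (.f (nat_lit 591) (nat_lit 496) (nat_lit 6607) (.f (nat_lit 494) (nat_lit 462) (nat_lit 7630) (.f (nat_lit 623) (nat_lit 526) (nat_lit 7662) (.d (nat_lit 624) (nat_lit 592) (nat_lit 4591) (nat_lit 656) (nat_lit 4623))))))))))))))))) (.a (.p (nat_lit 463) (.a (.f (nat_lit 431) (nat_lit 560) (nat_lit 4527) (.f (nat_lit 430) (nat_lit 398) (nat_lit 7566) (.f (nat_lit 432) (nat_lit 400) (nat_lit 6543) (.d (nat_lit 559) (nat_lit 462) (nat_lit 7598) (nat_lit 464) (nat_lit 6575))))) (.a (.f (nat_lit 431) (nat_lit 560) (nat_lit 4527) (.f (nat_lit 526) (nat_lit 558) (nat_lit 5550) (.f (nat_lit 399) (nat_lit 494) (nat_lit 5518) (.d (nat_lit 398) (nat_lit 366) (nat_lit 7534) (nat_lit 430) (nat_lit 7566))))) (.a (.p (nat_lit 559) (.a (.f (nat_lit 558) (nat_lit 590) (nat_lit 5582) (.f (nat_lit 431) (nat_lit 526) (nat_lit 5550) (.d (nat_lit 430) (nat_lit 398) (nat_lit 7566) (nat_lit 462) (nat_lit 7598)))) (.a (.f (nat_lit 430) (nat_lit 462) (nat_lit 7598) (.f (nat_lit 431) (nat_lit 398) (nat_lit 7566) (.d (nat_lit 432) (nat_lit 400) (nat_lit 6543) (nat_lit 464) (nat_lit 6575)))) (.a (.f (nat_lit 462) (nat_lit 430) (nat_lit 7598) (.f (nat_lit 494) (nat_lit 591) (nat_lit 7630) (.f (nat_lit 464) (nat_lit 432) (nat_lit 6575) (.d (nat_lit 465) (nat_lit 466) (nat_lit 1486) (nat_lit 493) (nat_lit 1485))))) (.f (nat_lit 558) (nat_lit 590) (nat_lit 5582) (.f (nat_lit 431) (nat_lit 526) (nat_lit 5550) (.d (nat_lit 432) (nat_lit 400) (nat_lit 6543) (nat_lit 464) (nat_lit 6575)))))))) (.a (.p (nat_lit 559) (.a (.f (nat_lit 560) (nat_lit 592) (nat_lit 4559) (.f (nat_lit 558) (nat_lit 590) (nat_lit 5582) (.f (nat_lit 557) (nat_lit 556) (nat_lit 2572) (.f (nat_lit 525) (nat_lit 524) (nat_lit 3596) (.f (nat_lit 526) (nat_lit 561) (nat_lit 525) (.f (nat_lit 462) (nat_lit 430) (nat_lit 7598) (.d (nat_lit 589) (nat_lit 494) (nat_lit 5581) (nat_lit 588) (nat_lit 1580)))))))) (.a (.f (nat_lit 462) (nat_lit 430) (nat_lit 7598) (.f (nat_lit 494) (nat_lit 591) (nat_lit 7630) (.f (nat_lit 464) (nat_lit 432) (nat_lit 6575) (.d (nat_lit 465) (nat_lit 466) (nat_lit 1486) (nat_lit 493) (nat_lit 1485))))) (.f (nat_lit 592) (nat_lit 560) (nat_lit 4559) (.f (nat_lit 591) (nat_lit 624) (nat_lit 4591) (.d (nat_lit 590) (nat_lit 558) (nat_lit 5582) (nat_lit 622) (nat_lit 5614))))))) (.f (nat_lit 431) (nat_lit 560) (nat_lit 4527) (.f (nat_lit 526) (nat_lit 558) (nat_lit 5550) (.f (nat_lit 494) (nat_lit 399) (nat_lit 5518) (.f (nat_lit 493) (nat_lit 492) (nat_lit 492) (.f (nat_lit 432) (nat_lit 400) (nat_lit 6543) (.f (nat_lit 464) (nat_lit 559) (nat_lit 6575) (.d (nat_lit 465) (nat_lit 462) (nat_lit 1485) (nat_lit 466) (nat_lit 1486))))))))))))) (.a (.p (nat_lit 496) (.a (.p (nat_lit 526) (.a (.d (nat_lit 497) (nat_lit 498) (nat_lit 1518) (nat_lit 525) (nat_lit 2541)) (.a s26534 (.f (nat_lit 525) (nat_lit 524) (nat_lit 2540) (.f (nat_lit 560) (nat_lit 561) (nat_lit 525) (.d (nat_lit 463) (nat_lit 431) (nat_lit 4527) (nat_lit 592) (nat_lit 7631))))))) (.a (.p (nat_lit 526) (.a (.d (nat_lit 497) (nat_lit 498) (nat_lit 1518) (nat_lit 525) (nat_lit 2541)) (.a s26534 (.p (nat_lit 464) (.a (.f (nat_lit 432) (nat_lit 400) (nat_lit 5519) (.f (nat_lit 431) (nat_lit 399) (nat_lit 7567) (.f (nat_lit 433) (nat_lit 401) (nat_lit 6544) (.f (nat_lit 463) (nat_lit 558) (nat_lit 5550) (.d (nat_lit 434) (nat_lit 435) (nat_lit 1455) (nat_lit 462) (nat_lit 1454)))))) (.a (.f (nat_lit 525) (nat_lit 524) (nat_lit 2540) (.f (nat_lit 493) (nat_lit 492) (nat_lit 3564) (.f (nat_lit 494) (nat_lit 465) (nat_lit 2509) (.f (nat_lit 557) (nat_lit 556) (nat_lit 1548) (.d (nat_lit 462) (nat_lit 430) (nat_lit 5549) (nat_lit 589) (nat_lit 6605)))))) (.f (nat_lit 432) (nat_lit 400) (nat_lit 5519) (.f (nat_lit 431) (nat_lit 399) (nat_lit 7567) (.f (nat_lit 525) (nat_lit 524) (nat_lit 2540) (.f (nat_lit 493) (nat_lit 492) (nat_lit 3564) (.f (nat_lit 465) (nat_lit 494) (nat_lit 2509) (.f (nat_lit 466) (nat_lit 467) (nat_lit 1487) (.d (nat_lit 430) (nat_lit 429) (nat_lit 429) (nat_lit 433) (nat_lit 430)))))))))))))) (.a (.p (nat_lit 560) (.a (.d (nat_lit 463) (nat_lit 431) (nat_lit 4527) (nat_lit 592) (nat_lit 7631)) (.a (.p (nat_lit 464) (.a (.f (nat_lit 463) (nat_lit 431) (nat_lit 4527) (.f (nat_lit 465) (nat_lit 433) (nat_lit 6576) (.d (nat_lit 466) (nat_lit 467) (nat_lit 1487) (nat_lit 494) (nat_lit 1486)))) (.a (.f (nat_lit 432) (nat_lit 400) (nat_lit 5519) (.d (nat_lit 433) (nat_lit 401) (nat_lit 6544) (nat_lit 465) (nat_lit 6576))) (.f (nat_lit 431) (nat_lit 463) (nat_lit 4527) (.d (nat_lit 432) (nat_lit 399) (nat_lit 7567) (nat_lit 400) (nat_lit 5519)))))) (.f (nat_lit 592) (nat_lit 624) (nat_lit 7663) (.f (nat_lit 497) (nat_lit 465) (nat_lit 6608) (.d (nat_lit 498) (nat_lit 499) (nat_lit 1519) (nat_lit 526) (nat_lit 1518))))))) (.a (.p (nat_lit 560) (.a (.d (nat_lit 463) (nat_lit 431) (nat_lit 4527) (nat_lit 592) (nat_lit 7631)) (.a (.p (nat_lit 464) (.a (.f (nat_lit 463) (nat_lit 431) (nat_lit 4527) (.f (nat_lit 465) (nat_lit 433) (nat_lit 6576) (.d (nat_lit 466) (nat_lit 467) (nat_lit 1487) (nat_lit 494) (nat_lit 1486)))) (.a (.f (nat_lit 432) (nat_lit 400) (nat_lit 5519) (.d (nat_lit 433) (nat_lit 401) (nat_lit 6544) (nat_lit 465) (nat_lit 6576))) (.f (nat_lit 431) (nat_lit 463) (nat_lit 4527) (.d (nat_lit 432) (nat_lit 399) (nat_lit 7567) (nat_lit 400) (nat_lit 5519)))))) (.f (nat_lit 592) (nat_lit 624) (nat_lit 7663) (.f (nat_lit 497) (nat_lit 465) (nat_lit 6608) (.f (nat_lit 498) (nat_lit 499) (nat_lit 1519) (.f (nat_lit 593) (nat_lit 625) (nat_lit 4592) (.f (nat_lit 561) (nat_lit 464) (nat_lit 4560) (.f (nat_lit 562) (nat_lit 563) (nat_lit 3599) (.d (nat_lit 466) (nat_lit 467) (nat_lit 2511) (nat_lit 530) (nat_lit 5585))))))))))) (.a (.p (nat_lit 494) (.a (.f (nat_lit 493) (nat_lit 492) (nat_lit 492) (.f (nat_lit 461) (nat_lit 460) (nat_lit 3532) (.f (nat_lit 497) (nat_lit 462) (nat_lit 3533) (.d (nat_lit 498) (nat_lit 499) (nat_lit 1519) (nat_lit 526) (nat_lit 1518))))) (.a (.f (nat_lit 493) (nat_lit 492) (nat_lit 492) (.f (nat_lit 461) (nat_lit 460) (nat_lit 3532) (.f (nat_lit 497) (nat_lit 462) (nat_lit 3533) (.f (nat_lit 498) (nat_lit 499) (nat_lit 1519) (.d (nat_lit 466) (nat_lit 465) (nat_lit 2510) (nat_lit 467) (nat_lit 2511)))))) (.a (.p (nat_lit 526) (.a (.f (nat_lit 493) (nat_lit 492) (nat_lit 492) (.f (nat_lit 461) (nat_lit 460) (nat_lit 3532) (.f (nat_lit 558) (nat_lit 590) (nat_lit 7629) (.d (nat_lit 429) (nat_lit 397) (nat_lit 4493) (nat_lit 462) (nat_lit 7597))))) (.f (nat_lit 525) (nat_lit 524) (nat_lit 2540) (.f (nat_lit 560) (nat_lit 561) (nat_lit 525) (.d (nat_lit 463) (nat_lit 431) (nat_lit 4527) (nat_lit 592) (nat_lit 7631)))))) (.a (.p (nat_lit 526) (.a (.f (nat_lit 497) (nat_lit 498) (nat_lit 1518) (.f (nat_lit 462) (nat_lit 461) (nat_lit 3533) (.f (nat_lit 430) (nat_lit 398) (nat_lit 4494) (.f (nat_lit 431) (nat_lit 399) (nat_lit 6542) (.d (nat_lit 463) (nat_lit 558) (nat_lit 6574) (nat_lit 560) (nat_lit 4527)))))) (.a (.d (nat_lit 497) (nat_lit 498) (nat_lit 1518) (nat_lit 525) (nat_lit 2541)) (.f (nat_lit 525) (nat_lit 524) (nat_lit 2540) (.f (nat_lit 560) (nat_lit 561) (nat_lit 525) (.d (nat_lit 463) (nat_lit 431) (nat_lit 4527) (nat_lit 592) (nat_lit 7631))))))) (.a (.f (nat_lit 493) (nat_lit 492) (nat_lit 492) (.f (nat_lit 525) (nat_lit 524) (nat_lit 1516) (.f (nat_lit 526) (nat_lit 497) (nat_lit 2541) (.f (nat_lit 461) (nat_lit 460) (nat_lit 3532) (.d (nat_lit 429) (nat_lit 397) (nat_lit 4493) (nat_lit 558) (nat_lit 4525)))))) (.f (nat_lit 493) (nat_lit 492) (nat_lit 492) (.f (nat_lit 525) (nat_lit 524) (nat_lit 1516) (.f (nat_lit 526) (nat_lit 497) (nat_lit 2541) (.f (nat_lit 557) (nat_lit 556) (nat_lit 1548) (.d (nat_lit 462) (nat_lit 430) (nat_lit 5549) (nat_lit 589) (nat_lit 6605)))))))))))) (.a (.p (nat_lit 560) (.a (.d (nat_lit 463) (nat_lit 431) (nat_lit 4527) (nat_lit 592) (nat_lit 7631)) (.a (.p (nat_lit 464) (.a (.f (nat_lit 432) (nat_lit 400) (nat_lit 5519) (.d (nat_lit 433) (nat_lit 401) (nat_lit 6544) (nat_lit 465) (nat_lit 6576))) (.a (.f (nat_lit 463) (nat_lit 431) (nat_lit 4527) (.f (nat_lit 465) (nat_lit 433) (nat_lit 6576) (.f (nat_lit 466) (nat_lit 467) (nat_lit 1487) (.f (nat_lit 498) (nat_lit 499) (nat_lit 463) (.d (nat_lit 497) (nat_lit 462) (nat_lit 462) (nat_lit 526) (nat_lit 1518)))))) (.f (nat_lit 431) (nat_lit 463) (nat_lit 4527) (.d (nat_lit 432) (nat_lit 399) (nat_lit 7567) (nat_lit 400) (nat_lit 5519)))))) (.f (nat_lit 592) (nat_lit 624) (nat_lit 7663) (.f (nat_lit 497) (nat_lit 465) (nat_lit 6608) (.d (nat_lit 498) (nat_lit 499) (nat_lit 1519) (nat_lit 526) (nat_lit 1518))))))) (.a (.p (nat_lit 560) (.a (.d (nat_lit 463) (nat_lit 431) (nat_lit 4527) (nat_lit 592) (nat_lit 7631)) (.a (.p (nat_lit 464) (.a (.f (nat_lit 463) (nat_lit 431) (nat_lit 4527) (.f (nat_lit 465) (nat_lit 433) (nat_lit 6576) (.d (nat_lit 466) (nat_lit 467) (nat_lit 1487) (nat_lit 494) (nat_lit 1486)))) (.a (.f (nat_lit 432) (nat_lit 400) (nat_lit 5519) (.d (nat_lit 433) (nat_lit 401) (nat_lit 6544) (nat_lit 465) (nat_lit 6576))) (.f (nat_lit 431) (nat_lit 463) (nat_lit 4527) (.d (nat_lit 432) (nat_lit 399) (nat_lit 7567) (nat_lit 400) (nat_lit 5519)))))) (.f (nat_lit 592) (nat_lit 624) (nat_lit 7663) (.f (nat_lit 593) (nat_lit 625) (nat_lit 4592) (.f (nat_lit 464) (nat_lit 561) (nat_lit 4560) (.f (nat_lit 432) (nat_lit 400) (nat_lit 5519) (.d (nat_lit 433) (nat_lit 401) (nat_lit 6544) (nat_lit 465) (nat_lit 6576))))))))) (.a s26611 (.p (nat_lit 494) (.a (.f (nat_lit 493) (nat_lit 492) (nat_lit 492) (.f (nat_lit 461) (nat_lit 460) (nat_lit 3532) (.f (nat_lit 497) (nat_lit 462) (nat_lit 3533) (.d (nat_lit 498) (nat_lit 499) (nat_lit 1519) (nat_lit 526) (nat_lit 1518))))) (.a (.f (nat_lit 493) (nat_lit 492) (nat_lit 492) (.f (nat_lit 461) (nat_lit 460) (nat_lit 3532) (.f (nat_lit 462) (nat_lit 497) (nat_lit 3533) (.f (nat_lit 430) (nat_lit 398) (nat_lit 4494) (.d (nat_lit 525) (nat_lit 524) (nat_lit 1516) (nat_lit 557) (nat_lit 6573)))))) (.a (.p (nat_lit 526) (.a (.f (nat_lit 493) (nat_lit 492) (nat_lit 492) (.f (nat_lit 461) (nat_lit 460) (nat_lit 3532) (.f (nat_lit 558) (nat_lit 590) (nat_lit 7629) (.d (nat_lit 429) (nat_lit 397) (nat_lit 4493) (nat_lit 462) (nat_lit 7597))))) (.f (nat_lit 525) (nat_lit 524) (nat_lit 2540) (.f (nat_lit 560) (nat_lit 561) (nat_lit 525) (.d (nat_lit 463) (nat_lit 431) (nat_lit 4527) (nat_lit 592) (nat_lit 7631)))))) (.a (.p (nat_lit 526) (.a (.f (nat_lit 497) (nat_lit 498) (nat_lit 1518) (.f (nat_lit 462) (nat_lit 461) (nat_lit 3533) (.f (nat_lit 430) (nat_lit 398) (nat_lit 4494) (.f (nat_lit 431) (nat_lit 399) (nat_lit 6542) (.d (nat_lit 463) (nat_lit 558) (nat_lit 6574) (nat_lit 560) (nat_lit 4527)))))) (.a (.d (nat_lit 497) (nat_lit 498) (nat_lit 1518) (nat_lit 525) (nat_lit 2541)) (.f (nat_lit 525) (nat_lit 524) (nat_lit 2540) (.f (nat_lit 560) (nat_lit 561) (nat_lit 525) (.d (nat_lit 463) (nat_lit 431) (nat_lit 4527) (nat_lit 592) (nat_lit 7631))))))) (.a (.f (nat_lit 493) (nat_lit 492) (nat_lit 492) (.f (nat_lit 525) (nat_lit 524) (nat_lit 1516) (.f (nat_lit 526) (nat_lit 497) (nat_lit 2541) (.f (nat_lit 461) (nat_lit 460) (nat_lit 3532) (.d (nat_lit 429) (nat_lit 397) (nat_lit 4493) (nat_lit 558) (nat_lit 4525)))))) (.f (nat_lit 493) (nat_lit 492) (nat_lit 492) (.f (nat_lit 525) (nat_lit 524) (nat_lit 1516) (.f (nat_lit 526) (nat_lit 497) (nat_lit 2541) (.f (nat_lit 557) (nat_lit 556) (nat_lit 1548) (.d (nat_lit 462) (nat_lit 430) (nat_lit 5549) (nat_lit 589) (nat_lit 6605))))))))))))))))))))) (.a (.p (nat_lit 526) (.a s26335 (.a s26643 (.a s26663 (.a s26674 (.a s26682 (.a s26695 (.a s26711 (.a s26725 s26726))))))))) (.a (.p (nat_lit 559) (.a (.p (nat_lit 464) (.a (.d (nat_lit 432) (nat_lit 463) (nat_lit 6575) (nat_lit 496) (nat_lit 5551)) (.a (.f (nat_lit 463) (nat_lit 432) (nat_lit 6575) (.d (nat_lit 560) (nat_lit 431) (nat_lit 4527) (nat_lit 592) (nat_lit 4559))) (.a (.d (nat_lit 496) (nat_lit 432) (nat_lit 5551) (nat_lit 591) (nat_lit 6607)) (.f (nat_lit 591) (nat_lit 496) (nat_lit 6607) (.f (nat_lit 494) (nat_lit 462) (nat_lit 7630) (.f (nat_lit 526) (nat_lit 623) (nat_lit 7662) (.f (nat_lit 590) (nat_lit 622) (nat_lit 5614) (.f (nat_lit 558) (nat_lit 463) (nat_lit 5582) (.d (nat_lit 493) (nat_lit 461) (nat_lit 7629) (nat_lit 492) (nat_lit 492))))))))))) (.a (.p (nat_lit 592) (.a (.d (nat_lit 560) (nat_lit 463) (nat_lit 4559) (nat_lit 624) (nat_lit 7663)) (.a (.f (nat_lit 591) (nat_lit 624) (nat_lit 4591) (.f (nat_lit 590) (nat_lit 622) (nat_lit 5614) (.f (nat_lit 558) (nat_lit 463) (nat_lit 5582) (.d (nat_lit 557) (nat_lit 556) (nat_lit 556) (nat_lit 593) (nat_lit 3629))))) (.a (.f (nat_lit 463) (nat_lit 560) (nat_lit 4559) (.f (nat_lit 558) (nat_lit 590) (nat_lit 5582) (.f (nat_lit 431) (nat_lit 526) (nat_lit 5550) (.d (nat_lit 430) (nat_lit 398) (nat_lit 7566) (nat_lit 462) (nat_lit 7598))))) (.d (nat_lit 624) (nat_lit 560) (nat_lit 7663) (nat_lit 591) (nat_lit 4591)))))) (.a s26482 (.a (.p (nat_lit 464) (.a (.d (nat_lit 432) (nat_lit 463) (nat_lit 6575) (nat_lit 496) (nat_lit 5551)) (.a (.f (nat_lit 463) (nat_lit 432) (nat_lit 6575) (.d (nat_lit 560) (nat_lit 431) (nat_lit 4527) (nat_lit 592) (nat_lit 4559))) (.a (.d (nat_lit 496) (nat_lit 432) (nat_lit 5551) (nat_lit 591) (nat_lit 6607)) (.f (nat_lit 591) (nat_lit 496) (nat_lit 6607) (.f (nat_lit 592) (nat_lit 624) (nat_lit 4591) (.f (nat_lit 590) (nat_lit 622) (nat_lit 5614) (.d (nat_lit 463) (nat_lit 558) (nat_lit 5582) (nat_lit 560) (nat_lit 4559))))))))) (.a (.p (nat_lit 464) (.a (.d (nat_lit 432) (nat_lit 463) (nat_lit 6575) (nat_lit 496) (nat_lit 5551)) (.a (.f (nat_lit 463) (nat_lit 432) (nat_lit 6575) (.d (nat_lit 560) (nat_lit 431) (nat_lit 4527) (nat_lit 592) (nat_lit 4559))) (.a (.d (nat_lit 496) (nat_lit 432) (nat_lit 5551) (nat_lit 591) (nat_lit 6607)) (.f (nat_lit 591) (nat_lit 496) (nat_lit 6607) (.f (nat_lit 494) (nat_lit 462) (nat_lit 7630) (.f (nat_lit 623) (nat_lit 526) (nat_lit 7662) (.d (nat_lit 622) (nat_lit 590) (nat_lit 5614) (nat_lit 654) (nat_lit 5646))))))))) (.a s26728 (.a s26729 (.p (nat_lit 464) (.a (.d (nat_lit 432) (nat_lit 463) (nat_lit 6575) (nat_lit 496) (nat_lit 5551)) (.a (.f (nat_lit 463) (nat_lit 432) (nat_lit 6575) (.d (nat_lit 560) (nat_lit 431) (nat_lit 4527) (nat_lit 592) (nat_lit 4559))) (.a (.d (nat_lit 496) (nat_lit 432) (nat_lit 5551) (nat_lit 591) (nat_lit 6607)) (.f (nat_lit 591) (nat_lit 496) (nat_lit 6607) (.f (nat_lit 494) (nat_lit 462) (nat_lit 7630) (.f (nat_lit 623) (nat_lit 526) (nat_lit 7662) (.d (nat_lit 624) (nat_lit 592) (nat_lit 4591) (nat_lit 656) (nat_lit 4623))))))))))))))))) (.a (.p (nat_lit 559) (.a (.p (nat_lit 464) (.a (.d (nat_lit 432) (nat_lit 463) (nat_lit 6575) (nat_lit 496) (nat_lit 5551)) (.a (.f (nat_lit 463) (nat_lit 432) (nat_lit 6575) (.d (nat_lit 560) (nat_lit 431) (nat_lit 4527) (nat_lit 592) (nat_lit 4559))) (.a (.d (nat_lit 496) (nat_lit 432) (nat_lit 5551) (nat_lit 591) (nat_lit 6607)) (.f (nat_lit 591) (nat_lit 496) (nat_lit 6607) (.f (nat_lit 592) (nat_lit 624) (nat_lit 4591) (.f (nat_lit 590) (nat_lit 622) (nat_lit 5614) (.d (nat_lit 463) (nat_lit 558) (nat_lit 5582) (nat_lit 560) (nat_lit 4559))))))))) (.a (.p (nat_lit 592) (.a (.d (nat_lit 560) (nat_lit 463) (nat_lit 4559) (nat_lit 624) (nat_lit 7663)) (.a (.f (nat_lit 591) (nat_lit 624) (nat_lit 4591) (.f (nat_lit 590) (nat_lit 622) (nat_lit 5614) (.f (nat_lit 558) (nat_lit 463) (nat_lit 5582) (.d (nat_lit 557) (nat_lit 556) (nat_lit 556) (nat_lit 593) (nat_lit 3629))))) (.a (.f (nat_lit 463) (nat_lit 560) (nat_lit 4559) (.f (nat_lit 430) (nat_lit 462) (nat_lit 7598) (.f (nat_lit 431) (nat_lit 398) (nat_lit 7566) (.d (nat_lit 432) (nat_lit 400) (nat_lit 6543) (nat_lit 464) (nat_lit 6575))))) (.d (nat_lit 624) (nat_lit 560) (nat_lit 7663) (nat_lit 591) (nat_lit 4591)))))) (.a (.p (nat_lit 464) (.a (.d (nat_lit 432) (nat_lit 463) (nat_lit 6575) (nat_lit 496) (nat_lit 5551)) (.a (.f (nat_lit 463) (nat_lit 432) (nat_lit 6575) (.f (nat_lit 462) (nat_lit 430) (nat_lit 7598) (.f (nat_lit 494) (nat_lit 591) (nat_lit 7630) (.d (nat_lit 465) (nat_lit 466) (nat_lit 1486) (nat_lit 493) (nat_lit 1485))))) (.a (.d (nat_lit 496) (nat_lit 432) (nat_lit 5551) (nat_lit 591) (nat_lit 6607)) (.f (nat_lit 591) (nat_lit 496) (nat_lit 6607) (.f (nat_lit 590) (nat_lit 622) (nat_lit 5614) (.f (nat_lit 558) (nat_lit 463) (nat_lit 5582) (.f (nat_lit 557) (nat_lit 556) (nat_lit 2572) (.d (nat_lit 592) (nat_lit 593) (nat_lit 3629) (nat_lit 624) (nat_lit 4591)))))))))) (.a (.p (nat_lit 464) (.a (.d (nat_lit 432) (nat_lit 463) (nat_lit 6575) (nat_lit 496) (nat_lit 5551)) (.a (.f (nat_lit 463) (nat_lit 432) (nat_lit 6575) (.f (nat_lit 462) (nat_lit 430) (nat_lit 7598) (.f (nat_lit 494) (nat_lit 591) (nat_lit 7630) (.d (nat_lit 465) (nat_lit 466) (nat_lit 1486) (nat_lit 493) (nat_lit 1485))))) (.a (.d (nat_lit 496) (nat_lit 432) (nat_lit 5551) (nat_lit 591) (nat_lit 6607)) (.f (nat_lit 591) (nat_lit 496) (nat_lit 6607) (.f (nat_lit 590) (nat_lit 622) (nat_lit 5614) (.f (nat_lit 463) (nat_lit 558) (nat_lit 5582) (.d (nat_lit 462) (nat_lit 430) (nat_lit 7598) (nat_lit 494) (nat_lit 7630))))))))) (.a (.p (nat_lit 464) (.a (.d (nat_lit 432) (nat_lit 463) (nat_lit 6575) (nat_lit 496) (nat_lit 5551)) (.a (.f (nat_lit 463) (nat_lit 432) (nat_lit 6575) (.d (nat_lit 560) (nat_lit 431) (nat_lit 4527) (nat_lit 592) (nat_lit 4559))) (.a (.d (nat_lit 496) (nat_lit 432) (nat_lit 5551) (nat_lit 591) (nat_lit 6607)) (.f (nat_lit 591) (nat_lit 496) (nat_lit 6607) (.f (nat_lit 592) (nat_lit 624) (nat_lit 4591) (.f (nat_lit 560) (nat_lit 463) (nat_lit 4559) (.f (nat_lit 590) (nat_lit 622) (nat_lit 5614) (.d (nat_lit 561) (nat_lit 562) (nat_lit 1582) (nat_lit 589) (nat_lit 2605)))))))))) (.a (.p (nat_lit 592) (.a (.d (nat_lit 560) (nat_lit 463) (nat_lit 4559) (nat_lit 624) (nat_lit 7663)) (.a (.f (nat_lit 591) (nat_lit 624) (nat_lit 4591) (.f (nat_lit 590) (nat_lit 622) (nat_lit 5614) (.f (nat_lit 558) (nat_lit 463) (nat_lit 5582) (.d (nat_lit 557) (nat_lit 556) (nat_lit 556) (nat_lit 593) (nat_lit 3629))))) (.a (.f (nat_lit 463) (nat_lit 560) (nat_lit 4559) (.f (nat_lit 462) (nat_lit 430) (nat_lit 7598) (.f (nat_lit 591) (nat_lit 494) (nat_lit 7630) (.d (nat_lit 590) (nat_lit 558) (nat_lit 5582) (nat_lit 622) (nat_lit 5614))))) (.d (nat_lit 624) (nat_lit 560) (nat_lit 7663) (nat_lit 591) (nat_lit 4591)))))) (.a (.p (nat_lit 591) (.a (.d (nat_lit 496) (nat_lit 464) (nat_lit 6607) (nat_lit 623) (nat_lit 6639)) (.a (.f (nat_lit 624) (nat_lit 592) (nat_lit 4591) (.f (nat_lit 623) (nat_lit 656) (nat_lit 4623) (.d (nat_lit 622) (nat_lit 590) (nat_lit 5614) (nat_lit 654) (nat_lit 5646)))) (.f (nat_lit 496) (nat_lit 464) (nat_lit 6607) (.f (nat_lit 494) (nat_lit 462) (nat_lit 7630) (.f (nat_lit 493) (nat_lit 492) (nat_lit 492) (.f (nat_lit 592) (nat_lit 624) (nat_lit 4591) (.f (nat_lit 590) (nat_lit 622) (nat_lit 5614) (.f (nat_lit 461) (nat_lit 460) (nat_lit 3532) (.f (nat_lit 525) (nat_lit 524) (nat_lit 1516) (.f (nat_lit 557) (nat_lit 558) (nat_lit 4557) (.d (nat_lit 556) (nat_lit 588) (nat_lit 5580) (nat_lit 589) (nat_lit 3628))))))))))))) (.a s26750 (.p (nat_lit 464) (.a (.d (nat_lit 432) (nat_lit 463) (nat_lit 6575) (nat_lit 496) (nat_lit 5551)) (.a (.f (nat_lit 463) (nat_lit 432) (nat_lit 6575) (.d (nat_lit 560) (nat_lit 431) (nat_lit 4527) (nat_lit 592) (nat_lit 4559))) (.a (.d (nat_lit 496) (nat_lit 432) (nat_lit 5551) (nat_lit 591) (nat_lit 6607)) (.f (nat_lit 591) (nat_lit 496) (nat_lit 6607) (.f (nat_lit 592) (nat_lit 624) (nat_lit 4591) (.f (nat_lit 463) (nat_lit 560) (nat_lit 4559) (.d (nat_lit 462) (nat_lit 430) (nat_lit 7598) (nat_lit 494) (nat_lit 7630)))))))))))))))))) (.a (.p (nat_lit 526) (.a s26335 (.a (.p (nat_lit 559) (.a (.p (nat_lit 463) (.a (.d (nat_lit 558) (nat_lit 431) (nat_lit 5550) (nat_lit 590) (nat_lit 5582)) (.a (.f (nat_lit 430) (nat_lit 462) (nat_lit 7598) (.f (nat_lit 431) (nat_lit 398) (nat_lit 7566) (.d (nat_lit 432) (nat_lit 400) (nat_lit 6543) (nat_lit 464) (nat_lit 6575)))) (.f (nat_lit 558) (nat_lit 590) (nat_lit 5582) (.f (nat_lit 462) (nat_lit 430) (nat_lit 7598) (.f (nat_lit 494) (nat_lit 591) (nat_lit 4558) (.d (nat_lit 557) (nat_lit 556) (nat_lit 2572) (nat_lit 589) (nat_lit 5581)))))))) (.a (.p (nat_lit 464) (.a (.f (nat_lit 463) (nat_lit 432) (nat_lit 6575) (.f (nat_lit 462) (nat_lit 430) (nat_lit 7598) (.f (nat_lit 494) (nat_lit 591) (nat_lit 7630) (.d (nat_lit 465) (nat_lit 466) (nat_lit 1486) (nat_lit 493) (nat_lit 1485))))) (.a (.d (nat_lit 496) (nat_lit 432) (nat_lit 5551) (nat_lit 591) (nat_lit 6607)) (.a (.d (nat_lit 432) (nat_lit 463) (nat_lit 6575) (nat_lit 496) (nat_lit 5551)) (.f (nat_lit 591) (nat_lit 496) (nat_lit 6607) (.d (nat_lit 494) (nat_lit 462) (nat_lit 7630) (nat_lit 623) (nat_lit 7662))))))) (.a s1979 (.a (.p (nat_lit 464) (.a (.f (nat_lit 463) (nat_lit 432) (nat_lit 6575) (.d (nat_lit 431) (nat_lit 558) (nat_lit 5550) (nat_lit 560) (nat_lit 4527))) (.a (.f (nat_lit 463) (nat_lit 432) (nat_lit 6575) (.d (nat_lit 558) (nat_lit 431) (nat_lit 5550) (nat_lit 590) (nat_lit 5582))) (.a (.d (nat_lit 496) (nat_lit 432) (nat_lit 5551) (nat_lit 591) (nat_lit 6607)) (.f (nat_lit 591) (nat_lit 496) (nat_lit 6607) (.f (nat_lit 590) (nat_lit 622) (nat_lit 5614) (.f (nat_lit 463) (nat_lit 558) (nat_lit 5582) (.f (nat_lit 430) (nat_lit 462) (nat_lit 7598) (.d (nat_lit 431) (nat_lit 398) (nat_lit 7566) (nat_lit 560) (nat_lit 4527)))))))))) (.a (.p (nat_lit 463) (.a (.d (nat_lit 558) (nat_lit 431) (nat_lit 5550) (nat_lit 590) (nat_lit 5582)) (.a (.f (nat_lit 430) (nat_lit 462) (nat_lit 7598) (.f (nat_lit 431) (nat_lit 398) (nat_lit 7566) (.d (nat_lit 432) (nat_lit 400) (nat_lit 6543) (nat_lit 464) (nat_lit 6575)))) (.f (nat_lit 558) (nat_lit 590) (nat_lit 5582) (.f (nat_lit 462) (nat_lit 430) (nat_lit 7598) (.f (nat_lit 464) (nat_lit 432) (nat_lit 6575) (.f (nat_lit 557) (nat_lit 556) (nat_lit 2572) (.f (nat_lit 494) (nat_lit 589) (nat_lit 5581) (.d (nat_lit 465) (nat_lit 466) (nat_lit 1486) (nat_lit 493) (nat_lit 1485)))))))))) (.p (nat_lit 464) (.a (.f (nat_lit 463) (nat_lit 432) (nat_lit 6575) (.d (nat_lit 431) (nat_lit 558) (nat_lit 5550) (nat_lit 560) (nat_lit 4527))) (.a (.f (nat_lit 463) (nat_lit 432) (nat_lit 6575) (.d (nat_lit 558) (nat_lit 431) (nat_lit 5550) (nat_lit 590) (nat_lit 5582))) (.a (.d (nat_lit 496) (nat_lit 432) (nat_lit 5551) (nat_lit 591) (nat_lit 6607)) (.f (nat_lit 591) (nat_lit 496) (nat_lit 6607) (.f (nat_lit 623) (nat_lit 494) (nat_lit 7662) (.d (nat_lit 622) (nat_lit 590) (nat_lit 5614) (nat_lit 654) (nat_lit 5646)))))))))))))) (.a s26663 (.a s26674 (.a s26682 (.a s26695 (.a s26711 (.p (nat_lit 464) (.a (.p (nat_lit 560) (.a (.f (nat_lit 525) (nat_lit 561) (nat_lit 525) (.f (nat_lit 492) (nat_lit 493) (nat_lit 3564) (.f (nat_lit 524) (nat_lit 491) (nat_lit 3563) (.d (nat_lit 556) (nat_lit 555) (nat_lit 1547) (nat_lit 557) (nat_lit 1548))))) (.f (nat_lit 463) (nat_lit 431) (nat_lit 4527) (.f (nat_lit 559) (nat_lit 432) (nat_lit 6575) (.f (nat_lit 591) (nat_lit 496) (nat_lit 5583) (.d (nat_lit 590) (nat_lit 558) (nat_lit 5582) (nat_lit 622) (nat_lit 5614))))))) (.a (.p (nat_lit 560) (.a (.f (nat_lit 525) (nat_lit 561) (nat_lit 525) (.f (nat_lit 492) (nat_lit 493) (nat_lit 3564) (.f (nat_lit 524) (nat_lit 491) (nat_lit 3563) (.d (nat_lit 556) (nat_lit 555) (nat_lit 1547) (nat_lit 557) (nat_lit 1548))))) (.f (nat_lit 463) (nat_lit 431) (nat_lit 4527) (.f (nat_lit 559) (nat_lit 432) (nat_lit 6575) (.f (nat_lit 590) (nat_lit 558) (nat_lit 5582) (.f (nat_lit 591) (nat_lit 622) (nat_lit 5614) (.d (nat_lit 623) (nat_lit 494) (nat_lit 7662) (nat_lit 655) (nat_lit 6671)))))))) (.a (.p (nat_lit 496) (.a (.d (nat_lit 497) (nat_lit 498) (nat_lit 1518) (nat_lit 525) (nat_lit 2541)) (.a (.f (nat_lit 497) (nat_lit 498) (nat_lit 1518) (.f (nat_lit 432) (nat_lit 400) (nat_lit 5519) (.f (nat_lit 433) (nat_lit 401) (nat_lit 6544) (.f (nat_lit 465) (nat_lit 560) (nat_lit 6576) (.d (nat_lit 466) (nat_lit 467) (nat_lit 1487) (nat_lit 494) (nat_lit 2510)))))) (.f (nat_lit 432) (nat_lit 400) (nat_lit 5519) (.f (nat_lit 431) (nat_lit 399) (nat_lit 7567) (.f (nat_lit 525) (nat_lit 524) (nat_lit 2540) (.f (nat_lit 493) (nat_lit 492) (nat_lit 3564) (.f (nat_lit 465) (nat_lit 494) (nat_lit 2509) (.f (nat_lit 466) (nat_lit 467) (nat_lit 1487) (.d (nat_lit 430) (nat_lit 429) (nat_lit 429) (nat_lit 433) (nat_lit 430))))))))))) (.a (.p (nat_lit 496) (.a (.d (nat_lit 432) (nat_lit 400) (nat_lit 5519) (nat_lit 559) (nat_lit 5551)) (.d (nat_lit 497) (nat_lit 498) (nat_lit 1518) (nat_lit 525) (nat_lit 2541)))) (.a (.p (nat_lit 559) (.a (.f (nat_lit 463) (nat_lit 432) (nat_lit 6575) (.d (nat_lit 431) (nat_lit 558) (nat_lit 5550) (nat_lit 560) (nat_lit 4527))) (.a (.f (nat_lit 463) (nat_lit 432) (nat_lit 6575) (.d (nat_lit 558) (nat_lit 431) (nat_lit 5550) (nat_lit 590) (nat_lit 5582))) (.a (.d (nat_lit 496) (nat_lit 432) (nat_lit 5551) (nat_lit 591) (nat_lit 6607)) (.f (nat_lit 591) (nat_lit 496) (nat_lit 6607) (.f (nat_lit 623) (nat_lit 494) (nat_lit 7662) (.d (nat_lit 622) (nat_lit 590) (nat_lit 5614) (nat_lit 654) (nat_lit 5646)))))))) (.p (nat_lit 525) (.a (.f (nat_lit 492) (nat_lit 493) (nat_lit 3564) (.f (nat_lit 524) (nat_lit 491) (nat_lit 3563) (.d (nat_lit 556) (nat_lit 555) (nat_lit 1547) (nat_lit 557) (nat_lit 1548)))) (.a (.f (nat_lit 492) (nat_lit 493) (nat_lit 3564) (.f (nat_lit 524) (nat_lit 491) (nat_lit 3563) (.f (nat_lit 523) (nat_lit 494) (nat_lit 2539) (.d (nat_lit 555) (nat_lit 554) (nat_lit 1546) (nat_lit 556) (nat_lit 1547))))) (.a (.f (nat_lit 496) (nat_lit 497) (nat_lit 2541) (.f (nat_lit 560) (nat_lit 561) (nat_lit 525) (.f (nat_lit 493) (nat_lit 492) (nat_lit 3564) (.d (nat_lit 465) (nat_lit 433) (nat_lit 6576) (nat_lit 494) (nat_lit 2509))))) (.d (nat_lit 496) (nat_lit 497) (nat_lit 2541) (nat_lit 524) (nat_lit 2540)))))))))))))))))))) (.a (.p (nat_lit 526) (.a (.p (nat_lit 560) (.a (.f (nat_lit 525) (nat_lit 561) (nat_lit 525) (.d (nat_lit 496) (nat_lit 497) (nat_lit 2541) (nat_lit 524) (nat_lit 2540))) (.a (.f (nat_lit 525) (nat_lit 561) (nat_lit 525) (.f (nat_lit 492) (nat_lit 493) (nat_lit 3564) (.f (nat_lit 524) (nat_lit 491) (nat_lit 3563) (.d (nat_lit 556) (nat_lit 555) (nat_lit 1547) (nat_lit 557) (nat_lit 1548))))) (.f (nat_lit 463) (nat_lit 431) (nat_lit 4527) (.d (nat_lit 592) (nat_lit 496) (nat_lit 7631) (nat_lit 624) (nat_lit 7663)))))) (.a (.p (nat_lit 560) (.a (.f (nat_lit 525) (nat_lit 561) (nat_lit 525) (.f (nat_lit 492) (nat_lit 493) (nat_lit 3564) (.f (nat_lit 524) (nat_lit 491) (nat_lit 3563) (.d (nat_lit 556) (nat_lit 555) (nat_lit 1547) (nat_lit 557) (nat_lit 1548))))) (.f (nat_lit 463) (nat_lit 431) (nat_lit 4527) (.d (nat_lit 592) (nat_lit 559) (nat_lit 4559) (nat_lit 624) (nat_lit 7663))))) (.a s26663 (.a s26838 (.a (.p (nat_lit 525) (.a (.d (nat_lit 496) (nat_lit 497) (nat_lit 2541) (nat_lit 524) (nat_lit 2540)) (.a (.f (nat_lit 492) (nat_lit 493) (nat_lit 3564) (.f (nat_lit 524) (nat_lit 491) (nat_lit 3563) (.d (nat_lit 556) (nat_lit 555) (nat_lit 1547) (nat_lit 557) (nat_lit 1548)))) (.f (nat_lit 496) (nat_lit 497) (nat_lit 2541) (.f (nat_lit 560) (nat_lit 561) (nat_lit 525) (.f (nat_lit 592) (nat_lit 624) (nat_lit 7663) (.f (nat_lit 591) (nat_lit 623) (nat_lit 5615) (.f (nat_lit 464) (nat_lit 559) (nat_lit 5583) (.f (nat_lit 493) (nat_lit 492) (nat_lit 3564) (.d (nat_lit 465) (nat_lit 433) (nat_lit 6576) (nat_lit 494) (nat_lit 2509))))))))))) (.p (nat_lit 560) (.a (.f (nat_lit 463) (nat_lit 431) (nat_lit 4527) (.d (nat_lit 592) (nat_lit 559) (nat_lit 4559) (nat_lit 624) (nat_lit 7663))) (.f (nat_lit 525) (nat_lit 561) (nat_lit 525) (.f (nat_lit 556) (nat_lit 557) (nat_lit 1548) (.f (nat_lit 524) (nat_lit 555) (nat_lit 1547) (.f (nat_lit 491) (nat_lit 492) (nat_lit 3563) (.d (nat_lit 523) (nat_lit 490) (nat_lit 3562) (nat_lit 494) (nat_lit 2539)))))))))))))) (.a (.p (nat_lit 463) (.a (.f (nat_lit 431) (nat_lit 560) (nat_lit 4527) (.f (nat_lit 526) (nat_lit 558) (nat_lit 5550) (.f (nat_lit 399) (nat_lit 494) (nat_lit 5518) (.d (nat_lit 398) (nat_lit 366) (nat_lit 7534) (nat_lit 430) (nat_lit 7566))))) (.a (.p (nat_lit 559) (.a (.f (nat_lit 558) (nat_lit 590) (nat_lit 5582) (.f (nat_lit 431) (nat_lit 526) (nat_lit 5550) (.d (nat_lit 430) (nat_lit 398) (nat_lit 7566) (nat_lit 462) (nat_lit 7598)))) (.a (.f (nat_lit 462) (nat_lit 430) (nat_lit 7598) (.f (nat_lit 591) (nat_lit 494) (nat_lit 7630) (.d (nat_lit 590) (nat_lit 558) (nat_lit 5582) (nat_lit 622) (nat_lit 5614)))) (.a (.f (nat_lit 462) (nat_lit 430) (nat_lit 7598) (.f (nat_lit 591) (nat_lit 494) (nat_lit 7630) (.f (nat_lit 623) (nat_lit 496) (nat_lit 6639) (.d (nat_lit 622) (nat_lit 590) (nat_lit 5614) (nat_lit 654) (nat_lit 5646))))) (.a (.f (nat_lit 462) (nat_lit 430) (nat_lit 7598) (.f (nat_lit 591) (nat_lit 494) (nat_lit 7630) (.f (nat_lit 496) (nat_lit 623) (nat_lit 6639) (.f (nat_lit 497) (nat_lit 498) (nat_lit 3534) (.f (nat_lit 431) (nat_lit 399) (nat_lit 4495) (.d (nat_lit 526) (nat_lit 525) (nat_lit 2541) (nat_lit 558) (nat_lit 5550))))))) (.a (.f (nat_lit 558) (nat_lit 590) (nat_lit 5582) (.f (nat_lit 431) (nat_lit 526) (nat_lit 5550) (.f (nat_lit 399) (nat_lit 496) (nat_lit 4495) (.d (nat_lit 398) (nat_lit 366) (nat_lit 7534) (nat_lit 430) (nat_lit 7566))))) (.f (nat_lit 558) (nat_lit 590) (nat_lit 5582) (.f (nat_lit 431) (nat_lit 526) (nat_lit 5550) (.f (nat_lit 399) (nat_lit 496) (nat_lit 4495) (.d (nat_lit 400) (nat_lit 368) (nat_lit 6511) (nat_lit 432) (nat_lit 6543))))))))))) (.a (.f (nat_lit 431) (nat_lit 560) (nat_lit 4527) (.f (nat_lit 399) (nat_lit 496) (nat_lit 4495) (.d (nat_lit 398) (nat_lit 366) (nat_lit 7534) (nat_lit 430) (nat_lit 7566)))) (.a (.p (nat_lit 559) (.a (.f (nat_lit 560) (nat_lit 592) (nat_lit 4559) (.f (nat_lit 558) (nat_lit 590) (nat_lit 5582) (.f (nat_lit 557) (nat_lit 556) (nat_lit 2572) (.f (nat_lit 525) (nat_lit 524) (nat_lit 3596) (.f (nat_lit 526) (nat_lit 561) (nat_lit 525) (.f (nat_lit 462) (nat_lit 430) (nat_lit 7598) (.d (nat_lit 589) (nat_lit 494) (nat_lit 5581) (nat_lit 588) (nat_lit 1580)))))))) (.a (.f (nat_lit 462) (nat_lit 430) (nat_lit 7598) (.f (nat_lit 591) (nat_lit 494) (nat_lit 7630) (.d (nat_lit 590) (nat_lit 558) (nat_lit 5582) (nat_lit 622) (nat_lit 5614)))) (.a (.f (nat_lit 462) (nat_lit 430) (nat_lit 7598) (.f (nat_lit 591) (nat_lit 494) (nat_lit 7630) (.f (nat_lit 623) (nat_lit 496) (nat_lit 6639) (.d (nat_lit 622) (nat_lit 590) (nat_lit 5614) (nat_lit 654) (nat_lit 5646))))) (.a (.f (nat_lit 592) (nat_lit 560) (nat_lit 4559) (.f (nat_lit 591) (nat_lit 624) (nat_lit 4591) (.d (nat_lit 590) (nat_lit 558) (nat_lit 5582) (nat_lit 622) (nat_lit 5614)))) (.f (nat_lit 560) (nat_lit 592) (nat_lit 4559) (.f (nat_lit 462) (nat_lit 430) (nat_lit 7598) (.f (nat_lit 591) (nat_lit 494) (nat_lit 7630) (.d (nat_lit 623) (nat_lit 496) (nat_lit 6639) (nat_lit 655) (nat_lit 6671)))))))))) (.f (nat_lit 431) (nat_lit 560) (nat_lit 4527) (.f (nat_lit 399) (nat_lit 496) (nat_lit 4495) (.d (nat_lit 400) (nat_lit 368) (nat_lit 6511) (nat_lit 432) (nat_lit 6543))))))))) (.a (.p (nat_lit 463) (.a (.f (nat_lit 431) (nat_lit 560) (nat_lit 4527) (.f (nat_lit 430) (nat_lit 398) (nat_lit 7566) (.f (nat_lit 432) (nat_lit 400) (nat_lit 6543) (.d (nat_lit 559) (nat_lit 462) (nat_lit 7598) (nat_lit 464) (nat_lit 6575))))) (.a (.f (nat_lit 431) (nat_lit 560) (nat_lit 4527) (.f (nat_lit 399) (nat_lit 496) (nat_lit 4495) (.d (nat_lit 398) (nat_lit 366) (nat_lit 7534) (nat_lit 430) (nat_lit 7566)))) (.a (.p (nat_lit 559) (.a (.f (nat_lit 558) (nat_lit 590) (nat_lit 5582) (.f (nat_lit 431) (nat_lit 526) (nat_lit 5550) (.d (nat_lit 430) (nat_lit 398) (nat_lit 7566) (nat_lit 462) (nat_lit 7598)))) (.a (.f (nat_lit 430) (nat_lit 462) (nat_lit 7598) (.f (nat_lit 431) (nat_lit 398) (nat_lit 7566) (.d (nat_lit 432) (nat_lit 400) (nat_lit 6543) (nat_lit 464) (nat_lit 6575)))) (.a (.f (nat_lit 464) (nat_lit 432) (nat_lit 6575) (.f (nat_lit 496) (nat_lit 591) (nat_lit 6607) (.f (nat_lit 462) (nat_lit 430) (nat_lit 7598) (.d (nat_lit 461) (nat_lit 460) (nat_lit 460) (nat_lit 497) (nat_lit 461))))) (.f (nat_lit 558) (nat_lit 590) (nat_lit 5582) (.f (nat_lit 431) (nat_lit 526) (nat_lit 5550) (.d (nat_lit 432) (nat_lit 400) (nat_lit 6543) (nat_lit 464) (nat_lit 6575)))))))) (.a (.p (nat_lit 559) (.a (.f (nat_lit 592) (nat_lit 560) (nat_lit 4559) (.f (nat_lit 591) (nat_lit 624) (nat_lit 4591) (.d (nat_lit 590) (nat_lit 558) (nat_lit 5582) (nat_lit 622) (nat_lit 5614)))) (.a (.f (nat_lit 464) (nat_lit 432) (nat_lit 6575) (.f (nat_lit 496) (nat_lit 591) (nat_lit 6607) (.f (nat_lit 462) (nat_lit 430) (nat_lit 7598) (.d (nat_lit 461) (nat_lit 460) (nat_lit 460) (nat_lit 497) (nat_lit 461))))) (.f (nat_lit 560) (nat_lit 592) (nat_lit 4559) (.f (nat_lit 558) (nat_lit 590) (nat_lit 5582) (.f (nat_lit 557) (nat_lit 556) (nat_lit 2572) (.f (nat_lit 525) (nat_lit 524) (nat_lit 3596) (.f (nat_lit 526) (nat_lit 561) (nat_lit 525) (.f (nat_lit 496) (nat_lit 497) (nat_lit 2541) (.f (nat_lit 464) (nat_lit 432) (nat_lit 5551) (.f (nat_lit 462) (nat_lit 430) (nat_lit 7598) (.f (nat_lit 461) (nat_lit 460) (nat_lit 460) (.d (nat_lit 429) (nat_lit 428) (nat_lit 3500) (nat_lit 493) (nat_lit 4525)))))))))))))) (.f (nat_lit 431) (nat_lit 560) (nat_lit 4527) (.f (nat_lit 399) (nat_lit 496) (nat_lit 4495) (.d (nat_lit 400) (nat_lit 368) (nat_lit 6511) (nat_lit 432) (nat_lit 6543))))))))) (.a (.p (nat_lit 496) (.a s26611 (.a (.p (nat_lit 526) (.a (.d (nat_lit 497) (nat_lit 498) (nat_lit 1518) (nat_lit 525) (nat_lit 2541)) (.a (.p (nat_lit 494) (.a (.f (nat_lit 493) (nat_lit 492) (nat_lit 492) (.f (nat_lit 464) (nat_lit 465) (nat_lit 2509) (.d (nat_lit 432) (nat_lit 400) (nat_lit 5519) (nat_lit 559) (nat_lit 5551)))) (.a (.f (nat_lit 493) (nat_lit 492) (nat_lit 492) (.f (nat_lit 461) (nat_lit 460) (nat_lit 3532) (.d (nat_lit 497) (nat_lit 462) (nat_lit 3533) (nat_lit 498) (nat_lit 1518)))) (.f (nat_lit 497) (nat_lit 498) (nat_lit 1518) (.f (nat_lit 462) (nat_lit 461) (nat_lit 3533) (.d (nat_lit 430) (nat_lit 398) (nat_lit 4494) (nat_lit 559) (nat_lit 4526))))))) s26681))) (.a (.p (nat_lit 560) (.a (.f (nat_lit 592) (nat_lit 624) (nat_lit 7663) (.f (nat_lit 497) (nat_lit 465) (nat_lit 6608) (.d (nat_lit 498) (nat_lit 499) (nat_lit 1519) (nat_lit 526) (nat_lit 1518)))) (.a (.f (nat_lit 592) (nat_lit 624) (nat_lit 7663) (.f (nat_lit 591) (nat_lit 623) (nat_lit 5615) (.f (nat_lit 464) (nat_lit 559) (nat_lit 5583) (.d (nat_lit 465) (nat_lit 433) (nat_lit 6576) (nat_lit 497) (nat_lit 6608))))) (.a (.p (nat_lit 464) (.a (.f (nat_lit 432) (nat_lit 400) (nat_lit 5519) (.d (nat_lit 433) (nat_lit 401) (nat_lit 6544) (nat_lit 465) (nat_lit 6576))) (.a (.f (nat_lit 465) (nat_lit 433) (nat_lit 6576) (.f (nat_lit 494) (nat_lit 493) (nat_lit 2509) (.d (nat_lit 466) (nat_lit 467) (nat_lit 1487) (nat_lit 497) (nat_lit 2510)))) (.d (nat_lit 432) (nat_lit 400) (nat_lit 5519) (nat_lit 559) (nat_lit 5551))))) (.a (.f (nat_lit 592) (nat_lit 624) (nat_lit 7663) (.f (nat_lit 593) (nat_lit 625) (nat_lit 4592) (.f (nat_lit 464) (nat_lit 561) (nat_lit 4560) (.f (nat_lit 432) (nat_lit 400) (nat_lit 5519) (.d (nat_lit 433) (nat_lit 401) (nat_lit 6544) (nat_lit 465) (nat_lit 6576)))))) (.f (nat_lit 592) (nat_lit 624) (nat_lit 7663) (.f (nat_lit 591) (nat_lit 623) (nat_lit 5615) (.f (nat_lit 559) (nat_lit 464) (nat_lit 5583) (.f (nat_lit 590) (nat_lit 622) (nat_lit 5614) (.d (nat_lit 561) (nat_lit 562) (nat_lit 1582) (nat_lit 589) (nat_lit 2605))))))))))) (.a (.p (nat_lit 560) (.a (.f (nat_lit 592) (nat_lit 624) (nat_lit 7663) (.f (nat_lit 591) (nat_lit 623) (nat_lit 5615) (.f (nat_lit 464) (nat_lit 559) (nat_lit 5583) (.d (nat_lit 465) (nat_lit 433) (nat_lit 6576) (nat_lit 497) (nat_lit 6608))))) (.a (.f (nat_lit 592) (nat_lit 624) (nat_lit 7663) (.f (nat_lit 497) (nat_lit 465) (nat_lit 6608) (.f (nat_lit 498) (nat_lit 499) (nat_lit 1519) (.f (nat_lit 593) (nat_lit 625) (nat_lit 4592) (.f (nat_lit 561) (nat_lit 464) (nat_lit 4560) (.f (nat_lit 562) (nat_lit 563) (nat_lit 3599) (.d (nat_lit 466) (nat_lit 467) (nat_lit 2511) (nat_lit 530) (nat_lit 5585)))))))) (.a (.p (nat_lit 464) (.a (.f (nat_lit 432) (nat_lit 400) (nat_lit 5519) (.d (nat_lit 433) (nat_lit 401) (nat_lit 6544) (nat_lit 465) (nat_lit 6576))) (.a (.f (nat_lit 465) (nat_lit 433) (nat_lit 6576) (.f (nat_lit 494) (nat_lit 493) (nat_lit 2509) (.d (nat_lit 466) (nat_lit 467) (nat_lit 1487) (nat_lit 497) (nat_lit 2510)))) (.d (nat_lit 432) (nat_lit 400) (nat_lit 5519) (nat_lit 559) (nat_lit 5551))))) (.a (.f (nat_lit 592) (nat_lit 624) (nat_lit 7663) (.f (nat_lit 591) (nat_lit 623) (nat_lit 5615) (.f (nat_lit 497) (nat_lit 465) (nat_lit 6608) (.f (nat_lit 498) (nat_lit 499) (nat_lit 1519) (.f (nat_lit 593) (nat_lit 625) (nat_lit 4592) (.f (nat_lit 466) (nat_lit 467) (nat_lit 2511) (.f (nat_lit 530) (nat_lit 531) (nat_lit 495) (.f (nat_lit 561) (nat_lit 562) (nat_lit 5585) (.f (nat_lit 590) (nat_lit 589) (nat_lit 2605) (.d (nat_lit 622) (nat_lit 559) (nat_lit 5614) (nat_lit 621) (nat_lit 1613))))))))))) (.a (.f (nat_lit 592) (nat_lit 624) (nat_lit 7663) (.f (nat_lit 593) (nat_lit 625) (nat_lit 4592) (.f (nat_lit 464) (nat_lit 561) (nat_lit 4560) (.f (nat_lit 432) (nat_lit 400) (nat_lit 5519) (.d (nat_lit 433) (nat_lit 401) (nat_lit 6544) (nat_lit 465) (nat_lit 6576)))))) (.f (nat_lit 592) (nat_lit 624) (nat_lit 7663) (.f (nat_lit 591) (nat_lit 623) (nat_lit 5615) (.f (nat_lit 559) (nat_lit 464) (nat_lit 5583) (.f (nat_lit 590) (nat_lit 622) (nat_lit 5614) (.d (nat_lit 561) (nat_lit 562) (nat_lit 1582) (nat_lit 589) (nat_lit 2605)))))))))))) (.a (.p (nat_lit 494) (.a (.f (nat_lit 493) (nat_lit 492) (nat_lit 492) (.f (nat_lit 461) (nat_lit 460) (nat_lit 3532) (.f (nat_lit 497) (nat_lit 462) (nat_lit 3533) (.d (nat_lit 498) (nat_lit 499) (nat_lit 1519) (nat_lit 526) (nat_lit 1518))))) (.a (.f (nat_lit 493) (nat_lit 492) (nat_lit 492) (.f (nat_lit 461) (nat_lit 460) (nat_lit 3532) (.f (nat_lit 497) (nat_lit 462) (nat_lit 3533) (.f (nat_lit 498) (nat_lit 499) (nat_lit 1519) (.d (nat_lit 466) (nat_lit 465) (nat_lit 2510) (nat_lit 467) (nat_lit 2511)))))) (.a (.p (nat_lit 526) (.a (.f (nat_lit 493) (nat_lit 492) (nat_lit 492) (.f (nat_lit 461) (nat_lit 460) (nat_lit 3532) (.f (nat_lit 558) (nat_lit 590) (nat_lit 7629) (.d (nat_lit 429) (nat_lit 397) (nat_lit 4493) (nat_lit 462) (nat_lit 7597))))) (.a (.f (nat_lit 493) (nat_lit 492) (nat_lit 492) (.f (nat_lit 525) (nat_lit 524) (nat_lit 2540) (.f (nat_lit 557) (nat_lit 556) (nat_lit 1548) (.d (nat_lit 462) (nat_lit 430) (nat_lit 5549) (nat_lit 589) (nat_lit 6605))))) (.a (.f (nat_lit 525) (nat_lit 524) (nat_lit 2540) (.f (nat_lit 557) (nat_lit 556) (nat_lit 1548) (.f (nat_lit 462) (nat_lit 430) (nat_lit 5549) (.d (nat_lit 589) (nat_lit 558) (nat_lit 5581) (nat_lit 621) (nat_lit 6637))))) (.f (nat_lit 493) (nat_lit 492) (nat_lit 492) (.f (nat_lit 525) (nat_lit 524) (nat_lit 2540) (.f (nat_lit 461) (nat_lit 460) (nat_lit 3532) (.d (nat_lit 429) (nat_lit 397) (nat_lit 4493) (nat_lit 558) (nat_lit 4525))))))))) (.a (.p (nat_lit 526) (.a (.f (nat_lit 497) (nat_lit 498) (nat_lit 1518) (.f (nat_lit 462) (nat_lit 461) (nat_lit 3533) (.d (nat_lit 430) (nat_lit 398) (nat_lit 4494) (nat_lit 559) (nat_lit 4526)))) (.a (.d (nat_lit 497) (nat_lit 498) (nat_lit 1518) (nat_lit 525) (nat_lit 2541)) (.f (nat_lit 525) (nat_lit 524) (nat_lit 2540) (.f (nat_lit 557) (nat_lit 556) (nat_lit 1548) (.f (nat_lit 462) (nat_lit 430) (nat_lit 5549) (.d (nat_lit 589) (nat_lit 558) (nat_lit 5581) (nat_lit 621) (nat_lit 6637)))))))) (.a (.f (nat_lit 493) (nat_lit 492) (nat_lit 492) (.f (nat_lit 525) (nat_lit 524) (nat_lit 1516) (.f (nat_lit 526) (nat_lit 497) (nat_lit 2541) (.f (nat_lit 461) (nat_lit 460) (nat_lit 3532) (.d (nat_lit 429) (nat_lit 397) (nat_lit 4493) (nat_lit 558) (nat_lit 4525)))))) (.f (nat_lit 493) (nat_lit 492) (nat_lit 492) (.f (nat_lit 525) (nat_lit 524) (nat_lit 1516) (.f (nat_lit 526) (nat_lit 497) (nat_lit 2541) (.f (nat_lit 557) (nat_lit 556) (nat_lit 1548) (.d (nat_lit 462) (nat_lit 430) (nat_lit 5549) (nat_lit 589) (nat_lit 6605)))))))))))) (.a (.p (nat_lit 560) (.a (.f (nat_lit 592) (nat_lit 624) (nat_lit 7663) (.f (nat_lit 497) (nat_lit 465) (nat_lit 6608) (.d (nat_lit 498) (nat_lit 499) (nat_lit 1519) (nat_lit 526) (nat_lit 1518)))) (.a (.f (nat_lit 592) (nat_lit 624) (nat_lit 7663) (.f (nat_lit 591) (nat_lit 623) (nat_lit 5615) (.f (nat_lit 464) (nat_lit 559) (nat_lit 5583) (.d (nat_lit 465) (nat_lit 433) (nat_lit 6576) (nat_lit 497) (nat_lit 6608))))) (.a (.p (nat_lit 464) (.a (.f (nat_lit 432) (nat_lit 400) (nat_lit 5519) (.d (nat_lit 433) (nat_lit 401) (nat_lit 6544) (nat_lit 465) (nat_lit 6576))) (.f (nat_lit 559) (nat_lit 591) (nat_lit 5583) (.f (nat_lit 561) (nat_lit 593) (nat_lit 4560) (.d (nat_lit 526) (nat_lit 525) (nat_lit 525) (nat_lit 562) (nat_lit 3598)))))) (.f (nat_lit 592) (nat_lit 624) (nat_lit 7663) (.f (nat_lit 591) (nat_lit 623) (nat_lit 5615) (.f (nat_lit 559) (nat_lit 464) (nat_lit 5583) (.f (nat_lit 590) (nat_lit 622) (nat_lit 5614) (.d (nat_lit 561) (nat_lit 562) (nat_lit 1582) (nat_lit 589) (nat_lit 2605)))))))))) (.a (.p (nat_lit 560) (.a (.f (nat_lit 592) (nat_lit 624) (nat_lit 7663) (.f (nat_lit 593) (nat_lit 625) (nat_lit 4592) (.f (nat_lit 464) (nat_lit 561) (nat_lit 4560) (.f (nat_lit 432) (nat_lit 400) (nat_lit 5519) (.d (nat_lit 433) (nat_lit 401) (nat_lit 6544) (nat_lit 465) (nat_lit 6576)))))) (.a (.p (nat_lit 464) (.a (.f (nat_lit 432) (nat_lit 400) (nat_lit 5519) (.d (nat_lit 433) (nat_lit 401) (nat_lit 6544) (nat_lit 465) (nat_lit 6576))) (.f (nat_lit 559) (nat_lit 591) (nat_lit 5583) (.f (nat_lit 561) (nat_lit 593) (nat_lit 4560) (.d (nat_lit 526) (nat_lit 525) (nat_lit 525) (nat_lit 562) (nat_lit 3598)))))) (.a (.f (nat_lit 592) (nat_lit 624) (nat_lit 7663) (.f (nat_lit 591) (nat_lit 623) (nat_lit 5615) (.f (nat_lit 559) (nat_lit 464) (nat_lit 5583) (.f (nat_lit 590) (nat_lit 622) (nat_lit 5614) (.f (nat_lit 589) (nat_lit 588) (nat_lit 2604) (.f (nat_lit 557) (nat_lit 556) (nat_lit 3628) (.d (nat_lit 593) (nat_lit 558) (nat_lit 3629) (nat_lit 625) (nat_lit 4592)))))))) s26940)))) (.a (.p (nat_lit 560) (.a (.f (nat_lit 592) (nat_lit 624) (nat_lit 7663) (.f (nat_lit 591) (nat_lit 623) (nat_lit 5615) (.f (nat_lit 559) (nat_lit 464) (nat_lit 5583) (.f (nat_lit 590) (nat_lit 622) (nat_lit 5614) (.d (nat_lit 561) (nat_lit 562) (nat_lit 1582) (nat_lit 589) (nat_lit 2605)))))) (.a (.f (nat_lit 592) (nat_lit 624) (nat_lit 7663) (.f (nat_lit 593) (nat_lit 625) (nat_lit 4592) (.f (nat_lit 561) (nat_lit 464) (nat_lit 4560) (.f (nat_lit 562) (nat_lit 563) (nat_lit 3599) (.d (nat_lit 591) (nat_lit 590) (nat_lit 2606) (nat_lit 623) (nat_lit 5615)))))) (.a (.p (nat_lit 559) (.a (.f (nat_lit 591) (nat_lit 623) (nat_lit 6639) (.f (nat_lit 590) (nat_lit 622) (nat_lit 5614) (.f (nat_lit 561) (nat_lit 562) (nat_lit 1582) (.d (nat_lit 589) (nat_lit 558) (nat_lit 1581) (nat_lit 588) (nat_lit 2604))))) (.a (.d (nat_lit 464) (nat_lit 432) (nat_lit 5551) (nat_lit 591) (nat_lit 5583)) (.f (nat_lit 464) (nat_lit 432) (nat_lit 5551) (.f (nat_lit 561) (nat_lit 593) (nat_lit 4560) (.d (nat_lit 526) (nat_lit 525) (nat_lit 525) (nat_lit 562) (nat_lit 3598))))))) (.a (.f (nat_lit 592) (nat_lit 624) (nat_lit 7663) (.f (nat_lit 591) (nat_lit 623) (nat_lit 5615) (.f (nat_lit 559) (nat_lit 464) (nat_lit 5583) (.f (nat_lit 590) (nat_lit 622) (nat_lit 5614) (.f (nat_lit 589) (nat_lit 588) (nat_lit 2604) (.f (nat_lit 557) (nat_lit 556) (nat_lit 3628) (.d (nat_lit 593) (nat_lit 558) (nat_lit 3629) (nat_lit 625) (nat_lit 4592)))))))) (.a s26940 (.f (nat_lit 592) (nat_lit 624) (nat_lit 7663) (.f (nat_lit 593) (nat_lit 625) (nat_lit 4592) (.f (nat_lit 464) (nat_lit 561) (nat_lit 4560) (.d (nat_lit 432) (nat_lit 400) (nat_lit 5519) (nat_lit 559) (nat_lit 5551))))))))))) (.p (nat_lit 526) (.a (.d (nat_lit 497) (nat_lit 498) (nat_lit 1518) (nat_lit 525) (nat_lit 2541)) (.a (.p (nat_lit 494) (.a (.f (nat_lit 493) (nat_lit 492) (nat_lit 492) (.f (nat_lit 464) (nat_lit 465) (nat_lit 2509) (.d (nat_lit 432) (nat_lit 400) (nat_lit 5519) (nat_lit 559) (nat_lit 5551)))) (.a (.f (nat_lit 493) (nat_lit 492) (nat_lit 492) (.f (nat_lit 461) (nat_lit 460) (nat_lit 3532) (.d (nat_lit 497) (nat_lit 462) (nat_lit 3533) (nat_lit 498) (nat_lit 1518)))) (.f (nat_lit 497) (nat_lit 498) (nat_lit 1518) (.f (nat_lit 462) (nat_lit 461) (nat_lit 3533) (.d (nat_lit 430) (nat_lit 398) (nat_lit 4494) (nat_lit 559) (nat_lit 4526))))))) (.f (nat_lit 525) (nat_lit 524) (nat_lit 2540) (.f (nat_lit 560) (nat_lit 561) (nat_lit 525) (.f (nat_lit 592) (nat_lit 624) (nat_lit 7663) (.f (nat_lit 591) (nat_lit 623) (nat_lit 5615) (.f (nat_lit 559) (nat_lit 464) (nat_lit 5583) (.f (nat_lit 494) (nat_lit 462) (nat_lit 7630) (.f (nat_lit 493) (nat_lit 492) (nat_lit 492) (.f (nat_lit 461) (nat_lit 460) (nat_lit 3532) (.d (nat_lit 429) (nat_lit 397) (nat_lit 4493) (nat_lit 558) (nat_lit 4525)))))))))))))))))))))) (.a (.p (nat_lit 526) (.a (.p (nat_lit 560) (.a (.f (nat_lit 525) (nat_lit 561) (nat_lit 525) (.d (nat_lit 496) (nat_lit 497) (nat_lit 2541) (nat_lit 524) (nat_lit 2540))) (.a (.f (nat_lit 525) (nat_lit 561) (nat_lit 525) (.f (nat_lit 492) (nat_lit 493) (nat_lit 3564) (.f (nat_lit 524) (nat_lit 491) (nat_lit 3563) (.d (nat_lit 556) (nat_lit 555) (nat_lit 1547) (nat_lit 557) (nat_lit 1548))))) (.f (nat_lit 463) (nat_lit 431) (nat_lit 4527) (.d (nat_lit 592) (nat_lit 496) (nat_lit 7631) (nat_lit 624) (nat_lit 7663)))))) (.a (.p (nat_lit 560) (.a (.f (nat_lit 525) (nat_lit 561) (nat_lit 525) (.f (nat_lit 492) (nat_lit 493) (nat_lit 3564) (.f (nat_lit 524) (nat_lit 491) (nat_lit 3563) (.d (nat_lit 556) (nat_lit 555) (nat_lit 1547) (nat_lit 557) (nat_lit 1548))))) (.f (nat_lit 463) (nat_lit 431) (nat_lit 4527) (.d (nat_lit 592) (nat_lit 559) (nat_lit 4559) (nat_lit 624) (nat_lit 7663))))) (.a s26335 (.a (.p (nat_lit 463) (.a (.d (nat_lit 431) (nat_lit 558) (nat_lit 5550) (nat_lit 560) (nat_lit 4527)) (.a (.f (nat_lit 431) (nat_lit 558) (nat_lit 5550) (.d (nat_lit 399) (nat_lit 494) (nat_lit 5518) (nat_lit 496) (nat_lit 4495))) (.a (.f (nat_lit 560) (nat_lit 431) (nat_lit 4527) (.d (nat_lit 592) (nat_lit 496) (nat_lit 7631) (nat_lit 559) (nat_lit 4559))) (.p (nat_lit 559) (.a (.f (nat_lit 558) (nat_lit 590) (nat_lit 5582) (.f (nat_lit 560) (nat_lit 592) (nat_lit 4559) (.f (nat_lit 557) (nat_lit 556) (nat_lit 2572) (.f (nat_lit 462) (nat_lit 430) (nat_lit 7598) (.d (nat_lit 589) (nat_lit 494) (nat_lit 5581) (nat_lit 588) (nat_lit 1580)))))) (.a (.f (nat_lit 558) (nat_lit 590) (nat_lit 5582) (.f (nat_lit 462) (nat_lit 430) (nat_lit 7598) (.f (nat_lit 464) (nat_lit 432) (nat_lit 6575) (.f (nat_lit 557) (nat_lit 556) (nat_lit 2572) (.f (nat_lit 494) (nat_lit 589) (nat_lit 5581) (.d (nat_lit 465) (nat_lit 466) (nat_lit 1486) (nat_lit 493) (nat_lit 1485))))))) (.a (.f (nat_lit 560) (nat_lit 592) (nat_lit 4559) (.f (nat_lit 464) (nat_lit 432) (nat_lit 6575) (.f (nat_lit 462) (nat_lit 430) (nat_lit 7598) (.f (nat_lit 561) (nat_lit 562) (nat_lit 3598) (.f (nat_lit 496) (nat_lit 593) (nat_lit 4560) (.d (nat_lit 461) (nat_lit 460) (nat_lit 460) (nat_lit 497) (nat_lit 461))))))) (.f (nat_lit 560) (nat_lit 592) (nat_lit 4559) (.f (nat_lit 464) (nat_lit 432) (nat_lit 6575) (.f (nat_lit 561) (nat_lit 562) (nat_lit 3598) (.f (nat_lit 496) (nat_lit 593) (nat_lit 4560) (.f (nat_lit 465) (nat_lit 433) (nat_lit 6576) (.d (nat_lit 466) (nat_lit 467) (nat_lit 1487) (nat_lit 494) (nat_lit 1486))))))))))))))) (.a (.p (nat_lit 525) (.a (.d (nat_lit 496) (nat_lit 497) (nat_lit 2541) (nat_lit 524) (nat_lit 2540)) (.a (.f (nat_lit 492) (nat_lit 493) (nat_lit 3564) (.f (nat_lit 524) (nat_lit 491) (nat_lit 3563) (.d (nat_lit 556) (nat_lit 555) (nat_lit 1547) (nat_lit 557) (nat_lit 1548)))) (.f (nat_lit 496) (nat_lit 497) (nat_lit 2541) (.f (nat_lit 493) (nat_lit 492) (nat_lit 3564) (.f (nat_lit 557) (nat_lit 556) (nat_lit 1548) (.f (nat_lit 560) (nat_lit 561) (nat_lit 525) (.f (nat_lit 592) (nat_lit 624) (nat_lit 7663) (.f (nat_lit 593) (nat_lit 625) (nat_lit 4592) (.f (nat_lit 558) (nat_lit 559) (nat_lit 557) (.d (nat_lit 461) (nat_lit 429) (nat_lit 4525) (nat_lit 590) (nat_lit 4557)))))))))))) (.a (.p (nat_lit 560) (.a (.f (nat_lit 463) (nat_lit 431) (nat_lit 4527) (.d (nat_lit 592) (nat_lit 559) (nat_lit 4559) (nat_lit 624) (nat_lit 7663))) (.f (nat_lit 525) (nat_lit 561) (nat_lit 525) (.f (nat_lit 492) (nat_lit 493) (nat_lit 3564) (.f (nat_lit 524) (nat_lit 491) (nat_lit 3563) (.f (nat_lit 523) (nat_lit 494) (nat_lit 2539) (.d (nat_lit 555) (nat_lit 554) (nat_lit 1546) (nat_lit 556) (nat_lit 1547)))))))) (.a (.p (nat_lit 560) (.a (.f (nat_lit 463) (nat_lit 431) (nat_lit 4527) (.d (nat_lit 592) (nat_lit 559) (nat_lit 4559) (nat_lit 624) (nat_lit 7663))) (.f (nat_lit 525) (nat_lit 561) (nat_lit 525) (.f (nat_lit 556) (nat_lit 557) (nat_lit 1548) (.f (nat_lit 524) (nat_lit 555) (nat_lit 1547) (.f (nat_lit 491) (nat_lit 492) (nat_lit 3563) (.d (nat_lit 523) (nat_lit 490) (nat_lit 3562) (nat_lit 494) (nat_lit 2539)))))))) s26406)))))))) (.a (.p (nat_lit 526) (.a (.p (nat_lit 560) (.a (.f (nat_lit 463) (nat_lit 431) (nat_lit 4527) (.d (nat_lit 592) (nat_lit 559) (nat_lit 4559) (nat_lit 624) (nat_lit 7663))) (.f (nat_lit 525) (nat_lit 561) (nat_lit 525) (.f (nat_lit 492) (nat_lit 493) (nat_lit 3564) (.f (nat_lit 524) (nat_lit 491) (nat_lit 3563) (.f (nat_lit 523) (nat_lit 494) (nat_lit 2539) (.d (nat_lit 555) (nat_lit 554) (nat_lit 1546) (nat_lit 556) (nat_lit 1547)))))))) (.a (.p (nat_lit 560) (.a (.f (nat_lit 525) (nat_lit 561) (nat_lit 525) (.d (nat_lit 496) (nat_lit 497) (nat_lit 2541) (nat_lit 524) (nat_lit 2540))) (.a (.f (nat_lit 525) (nat_lit 561) (nat_lit 525) (.f (nat_lit 492) (nat_lit 493) (nat_lit 3564) (.f (nat_lit 524) (nat_lit 491) (nat_lit 3563) (.f (nat_lit 523) (nat_lit 494) (nat_lit 2539) (.d (nat_lit 555) (nat_lit 554) (nat_lit 1546) (nat_lit 556) (nat_lit 1547)))))) (.f (nat_lit 463) (nat_lit 431) (nat_lit 4527) (.d (nat_lit 592) (nat_lit 496) (nat_lit 7631) (nat_lit 624) (nat_lit 7663)))))) (.a s26695 (.a s26838 (.a (.p (nat_lit 560) (.a (.f (nat_lit 525) (nat_lit 561) (nat_lit 525) (.d (nat_lit 496) (nat_lit 497) (nat_lit 2541) (nat_lit 524) (nat_lit 2540))) (.f (nat_lit 463) (nat_lit 431) (nat_lit 4527) (.d (nat_lit 592) (nat_lit 559) (nat_lit 4559) (nat_lit 624) (nat_lit 7663))))) (.p (nat_lit 525) (.a (.d (nat_lit 496) (nat_lit 497) (nat_lit 2541) (nat_lit 524) (nat_lit 2540)) (.a (.f (nat_lit 492) (nat_lit 493) (nat_lit 3564) (.f (nat_lit 524) (nat_lit 491) (nat_lit 3563) (.f (nat_lit 523) (nat_lit 494) (nat_lit 2539) (.d (nat_lit 555) (nat_lit 554) (nat_lit 1546) (nat_lit 556) (nat_lit 1547))))) (.f (nat_lit 496) (nat_lit 497) (nat_lit 2541) (.f (nat_lit 560) (nat_lit 561) (nat_lit 525) (.f (nat_lit 592) (nat_lit 624) (nat_lit 7663) (.f (nat_lit 591) (nat_lit 623) (nat_lit 5615) (.f (nat_lit 464) (nat_lit 559) (nat_lit 5583) (.f (nat_lit 493) (nat_lit 492) (nat_lit 3564) (.d (nat_lit 465) (nat_lit 433) (nat_lit 6576) (nat_lit 494) (nat_lit 2509))))))))))))))))) (.a (.p (nat_lit 559) (.a (.p (nat_lit 592) (.a (.d (nat_lit 560) (nat_lit 463) (nat_lit 4559) (nat_lit 624) (nat_lit 7663)) (.a (.f (nat_lit 591) (nat_lit 624) (nat_lit 4591) (.f (nat_lit 590) (nat_lit 622) (nat_lit 5614) (.f (nat_lit 558) (nat_lit 463) (nat_lit 5582) (.d (nat_lit 557) (nat_lit 556) (nat_lit 556) (nat_lit 593) (nat_lit 3629))))) (.a (.f (nat_lit 463) (nat_lit 560) (nat_lit 4559) (.f (nat_lit 558) (nat_lit 590) (nat_lit 5582) (.f (nat_lit 431) (nat_lit 526) (nat_lit 5550) (.d (nat_lit 430) (nat_lit 398) (nat_lit 7566) (nat_lit 462) (nat_lit 7598))))) (.d (nat_lit 624) (nat_lit 560) (nat_lit 7663) (nat_lit 591) (nat_lit 4591)))))) (.a s2312 (.a (.p (nat_lit 592) (.a (.d (nat_lit 560) (nat_lit 463) (nat_lit 4559) (nat_lit 624) (nat_lit 7663)) (.a (.f (nat_lit 591) (nat_lit 624) (nat_lit 4591) (.f (nat_lit 590) (nat_lit 622) (nat_lit 5614) (.f (nat_lit 558) (nat_lit 463) (nat_lit 5582) (.d (nat_lit 557) (nat_lit 556) (nat_lit 556) (nat_lit 593) (nat_lit 3629))))) (.a (.f (nat_lit 463) (nat_lit 560) (nat_lit 4559) (.f (nat_lit 462) (nat_lit 430) (nat_lit 7598) (.f (nat_lit 591) (nat_lit 494) (nat_lit 7630) (.d (nat_lit 590) (nat_lit 558) (nat_lit 5582) (nat_lit 622) (nat_lit 5614))))) (.d (nat_lit 624) (nat_lit 560) (nat_lit 7663) (nat_lit 591) (nat_lit 4591)))))) (.a (.p (nat_lit 592) (.a (.d (nat_lit 560) (nat_lit 463) (nat_lit 4559) (nat_lit 624) (nat_lit 7663)) (.a (.f (nat_lit 591) (nat_lit 624) (nat_lit 4591) (.f (nat_lit 494) (nat_lit 462) (nat_lit 7630) (.f (nat_lit 622) (nat_lit 590) (nat_lit 5614) (.d (nat_lit 623) (nat_lit 526) (nat_lit 7662) (nat_lit 654) (nat_lit 5646))))) (.f (nat_lit 463) (nat_lit 560) (nat_lit 4559) (.f (nat_lit 462) (nat_lit 430) (nat_lit 7598) (.f (nat_lit 591) (nat_lit 494) (nat_lit 7630) (.f (nat_lit 622) (nat_lit 590) (nat_lit 5614) (.d (nat_lit 623) (nat_lit 496) (nat_lit 6639) (nat_lit 654) (nat_lit 5646))))))))) (.a s26489 (.a (.p (nat_lit 592) (.a (.d (nat_lit 560) (nat_lit 463) (nat_lit 4559) (nat_lit 624) (nat_lit 7663)) (.a (.f (nat_lit 591) (nat_lit 624) (nat_lit 4591) (.d (nat_lit 496) (nat_lit 464) (nat_lit 6607) (nat_lit 623) (nat_lit 6639))) (.f (nat_lit 463) (nat_lit 560) (nat_lit 4559) (.f (nat_lit 462) (nat_lit 430) (nat_lit 7598) (.f (nat_lit 591) (nat_lit 494) (nat_lit 7630) (.d (nat_lit 496) (nat_lit 464) (nat_lit 6607) (nat_lit 623) (nat_lit 6639)))))))) (.p (nat_lit 592) (.a (.d (nat_lit 560) (nat_lit 463) (nat_lit 4559) (nat_lit 624) (nat_lit 7663)) (.a (.f (nat_lit 591) (nat_lit 624) (nat_lit 4591) (.f (nat_lit 590) (nat_lit 622) (nat_lit 5614) (.f (nat_lit 558) (nat_lit 463) (nat_lit 5582) (.d (nat_lit 557) (nat_lit 556) (nat_lit 556) (nat_lit 593) (nat_lit 3629))))) (.a (.f (nat_lit 463) (nat_lit 560) (nat_lit 4559) (.f (nat_lit 558) (nat_lit 590) (nat_lit 5582) (.f (nat_lit 431) (nat_lit 526) (nat_lit 5550) (.f (nat_lit 399) (nat_lit 496) (nat_lit 4495) (.d (nat_lit 398) (nat_lit 366) (nat_lit 7534) (nat_lit 430) (nat_lit 7566)))))) (.d (nat_lit 624) (nat_lit 560) (nat_lit 7663) (nat_lit 591) (nat_lit 4591))))))))))))) (.a (.p (nat_lit 526) (.a (.p (nat_lit 560) (.a (.f (nat_lit 525) (nat_lit 561) (nat_lit 525) (.d (nat_lit 496) (nat_lit 497) (nat_lit 2541) (nat_lit 524) (nat_lit 2540))) (.a (.f (nat_lit 525) (nat_lit 561) (nat_lit 525) (.f (nat_lit 492) (nat_lit 493) (nat_lit 3564) (.f (nat_lit 524) (nat_lit 491) (nat_lit 3563) (.d (nat_lit 556) (nat_lit 555) (nat_lit 1547) (nat_lit 557) (nat_lit 1548))))) (.f (nat_lit 463) (nat_lit 431) (nat_lit 4527) (.d (nat_lit 592) (nat_lit 496) (nat_lit 7631) (nat_lit 624) (nat_lit 7663)))))) (.a (.p (nat_lit 560) (.a (.f (nat_lit 525) (nat_lit 561) (nat_lit 525) (.f (nat_lit 492) (nat_lit 493) (nat_lit 3564) (.f (nat_lit 524) (nat_lit 491) (nat_lit 3563) (.d (nat_lit 556) (nat_lit 555) (nat_lit 1547) (nat_lit 557) (nat_lit 1548))))) (.f (nat_lit 463) (nat_lit 431) (nat_lit 4527) (.d (nat_lit 592) (nat_lit 559) (nat_lit 4559) (nat_lit 624) (nat_lit 7663))))) (.a s26663 (.a (.p (nat_lit 559) (.a (.p (nat_lit 592) (.a (.d (nat_lit 560) (nat_lit 463) (nat_lit 4559) (nat_lit 624) (nat_lit 7663)) (.a (.f (nat_lit 591) (nat_lit 624) (nat_lit 4591) (.d (nat_lit 494) (nat_lit 462) (nat_lit 7630) (nat_lit 623) (nat_lit 7662))) (.f (nat_lit 463) (nat_lit 560) (nat_lit 4559) (.f (nat_lit 430) (nat_lit 462) (nat_lit 7598) (.f (nat_lit 431) (nat_lit 398) (nat_lit 7566) (.d (nat_lit 432) (nat_lit 400) (nat_lit 6543) (nat_lit 464) (nat_lit 6575)))))))) (.a (.p (nat_lit 464) (.a (.f (nat_lit 463) (nat_lit 432) (nat_lit 6575) (.f (nat_lit 462) (nat_lit 430) (nat_lit 7598) (.f (nat_lit 494) (nat_lit 591) (nat_lit 7630) (.d (nat_lit 465) (nat_lit 466) (nat_lit 1486) (nat_lit 493) (nat_lit 1485))))) (.a (.d (nat_lit 496) (nat_lit 432) (nat_lit 5551) (nat_lit 591) (nat_lit 6607)) (.a (.d (nat_lit 432) (nat_lit 463) (nat_lit 6575) (nat_lit 496) (nat_lit 5551)) (.f (nat_lit 591) (nat_lit 496) (nat_lit 6607) (.d (nat_lit 494) (nat_lit 462) (nat_lit 7630) (nat_lit 623) (nat_lit 7662))))))) (.a (.p (nat_lit 592) (.a (.d (nat_lit 560) (nat_lit 463) (nat_lit 4559) (nat_lit 624) (nat_lit 7663)) (.a (.f (nat_lit 591) (nat_lit 624) (nat_lit 4591) (.d (nat_lit 494) (nat_lit 462) (nat_lit 7630) (nat_lit 623) (nat_lit 7662))) (.f (nat_lit 463) (nat_lit 560) (nat_lit 4559) (.f (nat_lit 431) (nat_lit 558) (nat_lit 5550) (.d (nat_lit 399) (nat_lit 494) (nat_lit 5518) (nat_lit 496) (nat_lit 4495))))))) (.a (.p (nat_lit 464) (.a (.f (nat_lit 463) (nat_lit 432) (nat_lit 6575) (.d (nat_lit 431) (nat_lit 558) (nat_lit 5550) (nat_lit 560) (nat_lit 4527))) (.a (.d (nat_lit 496) (nat_lit 432) (nat_lit 5551) (nat_lit 591) (nat_lit 6607)) (.f (nat_lit 591) (nat_lit 496) (nat_lit 6607) (.f (nat_lit 592) (nat_lit 624) (nat_lit 4591) (.f (nat_lit 463) (nat_lit 560) (nat_lit 4559) (.f (nat_lit 430) (nat_lit 462) (nat_lit 7598) (.d (nat_lit 431) (nat_lit 398) (nat_lit 7566) (nat_lit 558) (nat_lit 5550))))))))) (.a (.p (nat_lit 591) (.a (.d (nat_lit 494) (nat_lit 462) (nat_lit 7630) (nat_lit 623) (nat_lit 7662)) (.a (.f (nat_lit 624) (nat_lit 592) (nat_lit 4591) (.f (nat_lit 623) (nat_lit 656) (nat_lit 4623) (.f (nat_lit 654) (nat_lit 622) (nat_lit 5646) (.d (nat_lit 655) (nat_lit 558) (nat_lit 7694) (nat_lit 686) (nat_lit 5678))))) (.f (nat_lit 496) (nat_lit 464) (nat_lit 6607) (.f (nat_lit 494) (nat_lit 462) (nat_lit 7630) (.f (nat_lit 497) (nat_lit 498) (nat_lit 1518) (.f (nat_lit 592) (nat_lit 624) (nat_lit 4591) (.d (nat_lit 465) (nat_lit 466) (nat_lit 2510) (nat_lit 560) (nat_lit 6608))))))))) (.a s26837 (.p (nat_lit 464) (.a (.f (nat_lit 463) (nat_lit 432) (nat_lit 6575) (.d (nat_lit 431) (nat_lit 558) (nat_lit 5550) (nat_lit 560) (nat_lit 4527))) (.a (.d (nat_lit 496) (nat_lit 432) (nat_lit 5551) (nat_lit 591) (nat_lit 6607)) (.f (nat_lit 591) (nat_lit 496) (nat_lit 6607) (.f (nat_lit 623) (nat_lit 494) (nat_lit 7662) (.d (nat_lit 624) (nat_lit 592) (nat_lit 4591) (nat_lit 656) (nat_lit 4623)))))))))))))) (.a s26682 (.p (nat_lit 560) (.a (.f (nat_lit 463) (nat_lit 431) (nat_lit 4527) (.d (nat_lit 592) (nat_lit 559) (nat_lit 4559) (nat_lit 624) (nat_lit 7663))) (.f (nat_lit 525) (nat_lit 561) (nat_lit 525) (.f (nat_lit 556) (nat_lit 557) (nat_lit 1548) (.f (nat_lit 524) (nat_lit 555) (nat_lit 1547) (.f (nat_lit 491) (nat_lit 492) (nat_lit 3563) (.d (nat_lit 523) (nat_lit 490) (nat_lit 3562) (nat_lit 494) (nat_lit 2539)))))))))))))) (.a (.p (nat_lit 463) (.a (.f (nat_lit 431) (nat_lit 560) (nat_lit 4527) (.f (nat_lit 526) (nat_lit 558) (nat_lit 5550) (.f (nat_lit 399) (nat_lit 494) (nat_lit 5518) (.d (nat_lit 398) (nat_lit 366) (nat_lit 7534) (nat_lit 430) (nat_lit 7566))))) (.a (.p (nat_lit 559) (.a (.f (nat_lit 558) (nat_lit 590) (nat_lit 5582) (.f (nat_lit 431) (nat_lit 526) (nat_lit 5550) (.d (nat_lit 432) (nat_lit 400) (nat_lit 6543) (nat_lit 464) (nat_lit 6575)))) (.a (.f (nat_lit 464) (nat_lit 432) (nat_lit 6575) (.f (nat_lit 591) (nat_lit 496) (nat_lit 6607) (.d (nat_lit 590) (nat_lit 558) (nat_lit 5582) (nat_lit 622) (nat_lit 5614)))) (.a (.f (nat_lit 464) (nat_lit 432) (nat_lit 6575) (.f (nat_lit 591) (nat_lit 496) (nat_lit 6607) (.f (nat_lit 622) (nat_lit 590) (nat_lit 5614) (.f (nat_lit 623) (nat_lit 654) (nat_lit 5646) (.d (nat_lit 624) (nat_lit 592) (nat_lit 4591) (nat_lit 656) (nat_lit 4623)))))) (.a (.f (nat_lit 558) (nat_lit 590) (nat_lit 5582) (.f (nat_lit 431) (nat_lit 526) (nat_lit 5550) (.f (nat_lit 399) (nat_lit 496) (nat_lit 4495) (.d (nat_lit 398) (nat_lit 366) (nat_lit 7534) (nat_lit 430) (nat_lit 7566))))) (.f (nat_lit 464) (nat_lit 432) (nat_lit 6575) (.f (nat_lit 496) (nat_lit 591) (nat_lit 6607) (.f (nat_lit 431) (nat_lit 399) (nat_lit 4495) (.f (nat_lit 526) (nat_lit 558) (nat_lit 5550) (.d (nat_lit 497) (nat_lit 498) (nat_lit 1518) (nat_lit 525) (nat_lit 2541))))))))))) (.a (.f (nat_lit 431) (nat_lit 560) (nat_lit 4527) (.f (nat_lit 399) (nat_lit 496) (nat_lit 4495) (.d (nat_lit 398) (nat_lit 366) (nat_lit 7534) (nat_lit 430) (nat_lit 7566)))) (.p (nat_lit 559) (.a (.f (nat_lit 592) (nat_lit 560) (nat_lit 4559) (.f (nat_lit 591) (nat_lit 624) (nat_lit 4591) (.d (nat_lit 590) (nat_lit 558) (nat_lit 5582) (nat_lit 622) (nat_lit 5614)))) (.a (.f (nat_lit 464) (nat_lit 432) (nat_lit 6575) (.f (nat_lit 591) (nat_lit 496) (nat_lit 6607) (.d (nat_lit 590) (nat_lit 558) (nat_lit 5582) (nat_lit 622) (nat_lit 5614)))) (.a (.f (nat_lit 464) (nat_lit 432) (nat_lit 6575) (.f (nat_lit 591) (nat_lit 496) (nat_lit 6607) (.f (nat_lit 622) (nat_lit 590) (nat_lit 5614) (.f (nat_lit 623) (nat_lit 654) (nat_lit 5646) (.d (nat_lit 624) (nat_lit 592) (nat_lit 4591) (nat_lit 656) (nat_lit 4623)))))) (.a (.f (nat_lit 560) (nat_lit 592) (nat_lit 4559) (.f (nat_lit 558) (nat_lit 590) (nat_lit 5582) (.f (nat_lit 557) (nat_lit 556) (nat_lit 2572) (.f (nat_lit 525) (nat_lit 524) (nat_lit 3596) (.f (nat_lit 526) (nat_lit 561) (nat_lit 525) (.f (nat_lit 493) (nat_lit 492) (nat_lit 3564) (.f (nat_lit 496) (nat_lit 497) (nat_lit 2541) (.f (nat_lit 464) (nat_lit 432) (nat_lit 5551) (.d (nat_lit 465) (nat_lit 433) (nat_lit 6576) (nat_lit 494) (nat_lit 2509)))))))))) (.f (nat_lit 560) (nat_lit 592) (nat_lit 4559) (.f (nat_lit 464) (nat_lit 432) (nat_lit 6575) (.f (nat_lit 496) (nat_lit 591) (nat_lit 5583) (.f (nat_lit 465) (nat_lit 433) (nat_lit 6576) (.d (nat_lit 466) (nat_lit 467) (nat_lit 1487) (nat_lit 494) (nat_lit 1486))))))))))))))) (.a (.p (nat_lit 559) (.a (.p (nat_lit 464) (.a (.d (nat_lit 432) (nat_lit 463) (nat_lit 6575) (nat_lit 496) (nat_lit 5551)) (.a (.f (nat_lit 463) (nat_lit 432) (nat_lit 6575) (.d (nat_lit 560) (nat_lit 431) (nat_lit 4527) (nat_lit 592) (nat_lit 4559))) (.a (.d (nat_lit 496) (nat_lit 432) (nat_lit 5551) (nat_lit 591) (nat_lit 6607)) (.f (nat_lit 591) (nat_lit 496) (nat_lit 6607) (.f (nat_lit 494) (nat_lit 462) (nat_lit 7630) (.f (nat_lit 526) (nat_lit 623) (nat_lit 7662) (.f (nat_lit 590) (nat_lit 622) (nat_lit 5614) (.f (nat_lit 558) (nat_lit 463) (nat_lit 5582) (.d (nat_lit 493) (nat_lit 461) (nat_lit 7629) (nat_lit 492) (nat_lit 492))))))))))) (.a (.p (nat_lit 592) (.a (.d (nat_lit 560) (nat_lit 463) (nat_lit 4559) (nat_lit 624) (nat_lit 7663)) (.a (.f (nat_lit 591) (nat_lit 624) (nat_lit 4591) (.f (nat_lit 590) (nat_lit 622) (nat_lit 5614) (.f (nat_lit 558) (nat_lit 463) (nat_lit 5582) (.d (nat_lit 557) (nat_lit 556) (nat_lit 556) (nat_lit 593) (nat_lit 3629))))) (.a (.f (nat_lit 463) (nat_lit 560) (nat_lit 4559) (.f (nat_lit 558) (nat_lit 590) (nat_lit 5582) (.f (nat_lit 431) (nat_lit 526) (nat_lit 5550) (.d (nat_lit 432) (nat_lit 400) (nat_lit 6543) (nat_lit 464) (nat_lit 6575))))) (.d (nat_lit 624) (nat_lit 560) (nat_lit 7663) (nat_lit 591) (nat_lit 4591)))))) (.a s2312 (.a (.p (nat_lit 464) (.a (.d (nat_lit 432) (nat_lit 463) (nat_lit 6575) (nat_lit 496) (nat_lit 5551)) (.a (.f (nat_lit 463) (nat_lit 432) (nat_lit 6575) (.d (nat_lit 560) (nat_lit 431) (nat_lit 4527) (nat_lit 592) (nat_lit 4559))) (.a (.d (nat_lit 496) (nat_lit 432) (nat_lit 5551) (nat_lit 591) (nat_lit 6607)) (.f (nat_lit 591) (nat_lit 496) (nat_lit 6607) (.f (nat_lit 592) (nat_lit 624) (nat_lit 4591) (.f (nat_lit 590) (nat_lit 622) (nat_lit 5614) (.d (nat_lit 463) (nat_lit 558) (nat_lit 5582) (nat_lit 560) (nat_lit 4559))))))))) (.a (.p (nat_lit 464) (.a (.d (nat_lit 432) (nat_lit 463) (nat_lit 6575) (nat_lit 496) (nat_lit 5551)) (.a (.f (nat_lit 463) (nat_lit 432) (nat_lit 6575) (.d (nat_lit 560) (nat_lit 431) (nat_lit 4527) (nat_lit 592) (nat_lit 4559))) (.a (.d (nat_lit 496) (nat_lit 432) (nat_lit 5551) (nat_lit 591) (nat_lit 6607)) (.f (nat_lit 591) (nat_lit 496) (nat_lit 6607) (.f (nat_lit 494) (nat_lit 462) (nat_lit 7630) (.f (nat_lit 623) (nat_lit 526) (nat_lit 7662) (.d (nat_lit 622) (nat_lit 590) (nat_lit 5614) (nat_lit 654) (nat_lit 5646))))))))) (.a (.p (nat_lit 592) (.a (.d (nat_lit 560) (nat_lit 463) (nat_lit 4559) (nat_lit 624) (nat_lit 7663)) (.a (.f (nat_lit 591) (nat_lit 624) (nat_lit 4591) (.f (nat_lit 590) (nat_lit 622) (nat_lit 5614) (.f (nat_lit 558) (nat_lit 463) (nat_lit 5582) (.d (nat_lit 557) (nat_lit 556) (nat_lit 556) (nat_lit 593) (nat_lit 3629))))) (.a (.f (nat_lit 463) (nat_lit 560) (nat_lit 4559) (.f (nat_lit 558) (nat_lit 590) (nat_lit 5582) (.f (nat_lit 431) (nat_lit 526) (nat_lit 5550) (.f (nat_lit 399) (nat_lit 496) (nat_lit 4495) (.d (nat_lit 400) (nat_lit 368) (nat_lit 6511) (nat_lit 432) (nat_lit 6543)))))) (.d (nat_lit 624) (nat_lit 560) (nat_lit 7663) (nat_lit 591) (nat_lit 4591)))))) (.a s27067 (.p (nat_lit 464) (.a (.d (nat_lit 432) (nat_lit 463) (nat_lit 6575) (nat_lit 496) (nat_lit 5551)) (.a (.f (nat_lit 463) (nat_lit 432) (nat_lit 6575) (.d (nat_lit 560) (nat_lit 431) (nat_lit 4527) (nat_lit 592) (nat_lit 4559))) (.a (.d (nat_lit 496) (nat_lit 432) (nat_lit 5551) (nat_lit 591) (nat_lit 6607)) (.f (nat_lit 591) (nat_lit 496) (nat_lit 6607) (.f (nat_lit 494) (nat_lit 462) (nat_lit 7630) (.f (nat_lit 623) (nat_lit 526) (nat_lit 7662) (.d (nat_lit 624) (nat_lit 592) (nat_lit 4591) (nat_lit 656) (nat_lit 4623))))))))))))))))) (.a (.p (nat_lit 526) (.a s26406 (.a (.p (nat_lit 560) (.a (.f (nat_lit 525) (nat_lit 561) (nat_lit 525) (.d (nat_lit 496) (nat_lit 497) (nat_lit 2541) (nat_lit 524) (nat_lit 2540))) (.a s26404 (.f (nat_lit 463) (nat_lit 431) (nat_lit 4527) (.d (nat_lit 592) (nat_lit 496) (nat_lit 7631) (nat_lit 624) (nat_lit 7663)))))) (.a s26695 (.a s26838 (.a (.p (nat_lit 560) (.a (.f (nat_lit 525) (nat_lit 561) (nat_lit 525) (.d (nat_lit 496) (nat_lit 497) (nat_lit 2541) (nat_lit 524) (nat_lit 2540))) (.f (nat_lit 463) (nat_lit 431) (nat_lit 4527) (.d (nat_lit 592) (nat_lit 559) (nat_lit 4559) (nat_lit 624) (nat_lit 7663))))) (.p (nat_lit 525) (.a (.d (nat_lit 496) (nat_lit 497) (nat_lit 2541) (nat_lit 524) (nat_lit 2540)) (.a (.f (nat_lit 560) (nat_lit 561) (nat_lit 525) (.f (nat_lit 524) (nat_lit 559) (nat_lit 524) (.d (nat_lit 492) (nat_lit 491) (nat_lit 3563) (nat_lit 493) (nat_lit 3564)))) (.f (nat_lit 496) (nat_lit 497) (nat_lit 2541) (.f (nat_lit 560) (nat_lit 561) (nat_lit 525) (.f (nat_lit 592) (nat_lit 624) (nat_lit 7663) (.f (nat_lit 591) (nat_lit 623) (nat_lit 5615) (.f (nat_lit 464) (nat_lit 559) (nat_lit 5583) (.f (nat_lit 493) (nat_lit 492) (nat_lit 3564) (.d (nat_lit 465) (nat_lit 433) (nat_lit 6576) (nat_lit 494) (nat_lit 2509))))))))))))))))) (.p (nat_lit 559) (.a s26489 (.a (.p (nat_lit 464) (.a (.d (nat_lit 432) (nat_lit 463) (nat_lit 6575) (nat_lit 496) (nat_lit 5551)) (.a (.f (nat_lit 463) (nat_lit 432) (nat_lit 6575) (.f (nat_lit 462) (nat_lit 430) (nat_lit 7598) (.f (nat_lit 494) (nat_lit 591) (nat_lit 7630) (.d (nat_lit 465) (nat_lit 466) (nat_lit 1486) (nat_lit 493) (nat_lit 1485))))) (.a (.d (nat_lit 496) (nat_lit 432) (nat_lit 5551) (nat_lit 591) (nat_lit 6607)) (.f (nat_lit 591) (nat_lit 496) (nat_lit 6607) (.f (nat_lit 494) (nat_lit 462) (nat_lit 7630) (.f (nat_lit 623) (nat_lit 526) (nat_lit 7662) (.d (nat_lit 624) (nat_lit 592) (nat_lit 4591) (nat_lit 656) (nat_lit 4623))))))))) (.a s26750 (.a (.p (nat_lit 464) (.a (.d (nat_lit 432) (nat_lit 463) (nat_lit 6575) (nat_lit 496) (nat_lit 5551)) (.a (.f (nat_lit 463) (nat_lit 432) (nat_lit 6575) (.f (nat_lit 462) (nat_lit 430) (nat_lit 7598) (.f (nat_lit 494) (nat_lit 591) (nat_lit 7630) (.d (nat_lit 465) (nat_lit 466) (nat_lit 1486) (nat_lit 493) (nat_lit 1485))))) (.a (.d (nat_lit 496) (nat_lit 432) (nat_lit 5551) (nat_lit 591) (nat_lit 6607)) (.f (nat_lit 591) (nat_lit 496) (nat_lit 6607) (.f (nat_lit 494) (nat_lit 462) (nat_lit 7630) (.f (nat_lit 623) (nat_lit 526) (nat_lit 7662) (.f (nat_lit 655) (nat_lit 560) (nat_lit 6671) (.d (nat_lit 656) (nat_lit 624) (nat_lit 4623) (nat_lit 688) (nat_lit 4655)))))))))) (.a (.p (nat_lit 464) (.a (.d (nat_lit 432) (nat_lit 463) (nat_lit 6575) (nat_lit 496) (nat_lit 5551)) (.a (.f (nat_lit 463) (nat_lit 432) (nat_lit 6575) (.d (nat_lit 560) (nat_lit 431) (nat_lit 4527) (nat_lit 592) (nat_lit 4559))) (.a (.d (nat_lit 496) (nat_lit 432) (nat_lit 5551) (nat_lit 591) (nat_lit 6607)) (.f (nat_lit 591) (nat_lit 496) (nat_lit 6607) (.f (nat_lit 592) (nat_lit 624) (nat_lit 4591) (.f (nat_lit 463) (nat_lit 560) (nat_lit 4559) (.f (nat_lit 558) (nat_lit 590) (nat_lit 5582) (.f (nat_lit 430) (nat_lit 462) (nat_lit 7598) (.d (nat_lit 431) (nat_lit 398) (nat_lit 7566) (nat_lit 526) (nat_lit 5550))))))))))) (.a (.p (nat_lit 591) (.a (.d (nat_lit 496) (nat_lit 464) (nat_lit 6607) (nat_lit 623) (nat_lit 6639)) (.a (.f (nat_lit 494) (nat_lit 462) (nat_lit 7630) (.f (nat_lit 623) (nat_lit 526) (nat_lit 7662) (.d (nat_lit 624) (nat_lit 592) (nat_lit 4591) (nat_lit 656) (nat_lit 4623)))) (.f (nat_lit 496) (nat_lit 464) (nat_lit 6607) (.f (nat_lit 494) (nat_lit 462) (nat_lit 7630) (.f (nat_lit 493) (nat_lit 492) (nat_lit 492) (.f (nat_lit 525) (nat_lit 524) (nat_lit 1516) (.f (nat_lit 526) (nat_lit 497) (nat_lit 2541) (.f (nat_lit 461) (nat_lit 460) (nat_lit 3532) (.d (nat_lit 429) (nat_lit 397) (nat_lit 4493) (nat_lit 558) (nat_lit 4525))))))))))) s27067)))))))))))))))))))))))))) (.a (.p (nat_lit 526) (.a (.p (nat_lit 529) (.a (.f (nat_lit 494) (nat_lit 493) (nat_lit 3565) (.f (nat_lit 558) (nat_lit 557) (nat_lit 1549) (.d (nat_lit 530) (nat_lit 495) (nat_lit 3566) (nat_lit 559) (nat_lit 1550)))) (.a (.f (nat_lit 497) (nat_lit 498) (nat_lit 2542) (.f (nat_lit 525) (nat_lit 496) (nat_lit 2541) (.d (nat_lit 493) (nat_lit 492) (nat_lit 3564) (nat_lit 494) (nat_lit 3565)))) (.f (nat_lit 497) (nat_lit 498) (nat_lit 2542) (.f (nat_lit 525) (nat_lit 496) (nat_lit 2541) (.d (nat_lit 557) (nat_lit 556) (nat_lit 1548) (nat_lit 558) (nat_lit 1549))))))) (.a s26229 (.a s26230 (.a s27083 (.a (.p (nat_lit 529) (.a (.f (nat_lit 497) (nat_lit 498) (nat_lit 2542) (.f (nat_lit 525) (nat_lit 496) (nat_lit 2541) (.d (nat_lit 493) (nat_lit 492) (nat_lit 3564) (nat_lit 494) (nat_lit 3565)))) (.a (.f (nat_lit 493) (nat_lit 494) (nat_lit 3565) (.f (nat_lit 525) (nat_lit 492) (nat_lit 3564) (.d (nat_lit 557) (nat_lit 556) (nat_lit 1548) (nat_lit 558) (nat_lit 1549)))) (.f (nat_lit 558) (nat_lit 557) (nat_lit 1549) (.f (nat_lit 530) (nat_lit 559) (nat_lit 1550) (.d (nat_lit 498) (nat_lit 497) (nat_lit 2542) (nat_lit 499) (nat_lit 2543))))))) (.a s27091 (.a s27092 (.a s27093 s26281))))))))) (.a (.p (nat_lit 526) (.a (.p (nat_lit 529) (.a (.f (nat_lit 497) (nat_lit 498) (nat_lit 2542) (.f (nat_lit 525) (nat_lit 496) (nat_lit 2541) (.d (nat_lit 493) (nat_lit 492) (nat_lit 3564) (nat_lit 494) (nat_lit 3565)))) (.a (.f (nat_lit 493) (nat_lit 494) (nat_lit 3565) (.f (nat_lit 525) (nat_lit 492) (nat_lit 3564) (.d (nat_lit 557) (nat_lit 556) (nat_lit 1548) (nat_lit 558) (nat_lit 1549)))) (.f (nat_lit 558) (nat_lit 557) (nat_lit 1549) (.f (nat_lit 530) (nat_lit 559) (nat_lit 1550) (.d (nat_lit 498) (nat_lit 497) (nat_lit 2542) (nat_lit 499) (nat_lit 2543))))))) (.a (.p (nat_lit 529) (.a (.f (nat_lit 493) (nat_lit 494) (nat_lit 3565) (.f (nat_lit 525) (nat_lit 492) (nat_lit 3564) (.d (nat_lit 557) (nat_lit 556) (nat_lit 1548) (nat_lit 558) (nat_lit 1549)))) (.a (.f (nat_lit 558) (nat_lit 557) (nat_lit 1549) (.f (nat_lit 530) (nat_lit 559) (nat_lit 1550) (.d (nat_lit 498) (nat_lit 497) (nat_lit 2542) (nat_lit 499) (nat_lit 2543)))) (.f (nat_lit 561) (nat_lit 562) (nat_lit 526) (.f (nat_lit 497) (nat_lit 498) (nat_lit 2542) (.f (nat_lit 560) (nat_lit 525) (nat_lit 525) (.d (nat_lit 465) (nat_lit 433) (nat_lit 5552) (nat_lit 592) (nat_lit 5584)))))))) (.a (.p (nat_lit 529) (.a (.f (nat_lit 497) (nat_lit 498) (nat_lit 2542) (.f (nat_lit 525) (nat_lit 496) (nat_lit 2541) (.d (nat_lit 493) (nat_lit 492) (nat_lit 3564) (nat_lit 494) (nat_lit 3565)))) (.a (.f (nat_lit 493) (nat_lit 494) (nat_lit 3565) (.f (nat_lit 525) (nat_lit 492) (nat_lit 3564) (.d (nat_lit 557) (nat_lit 556) (nat_lit 1548) (nat_lit 558) (nat_lit 1549)))) (.f (nat_lit 498) (nat_lit 497) (nat_lit 2542) (.f (nat_lit 530) (nat_lit 499) (nat_lit 2543) (.d (nat_lit 562) (nat_lit 561) (nat_lit 526) (nat_lit 563) (nat_lit 527))))))) (.a s27118 (.a s27126 (.a s26280 (.a (.p (nat_lit 529) (.a (.f (nat_lit 493) (nat_lit 494) (nat_lit 3565) (.f (nat_lit 525) (nat_lit 492) (nat_lit 3564) (.d (nat_lit 557) (nat_lit 556) (nat_lit 1548) (nat_lit 558) (nat_lit 1549)))) (.a (.f (nat_lit 558) (nat_lit 557) (nat_lit 1549) (.f (nat_lit 530) (nat_lit 559) (nat_lit 1550) (.d (nat_lit 562) (nat_lit 561) (nat_lit 526) (nat_lit 563) (nat_lit 527)))) (.f (nat_lit 561) (nat_lit 562) (nat_lit 526) (.f (nat_lit 525) (nat_lit 560) (nat_lit 525) (.d (nat_lit 493) (nat_lit 492) (nat_lit 3564) (nat_lit 494) (nat_lit 3565))))))) s27128)))))))) (.a (.p (nat_lit 529) (.a (.p (nat_lit 558) (.a (.f (nat_lit 530) (nat_lit 559) (nat_lit 1550) (.f (nat_lit 526) (nat_lit 557) (nat_lit 1549) (.d (nat_lit 494) (nat_lit 493) (nat_lit 3565) (nat_lit 495) (nat_lit 3566)))) (.a (.f (nat_lit 526) (nat_lit 557) (nat_lit 1549) (.f (nat_lit 494) (nat_lit 493) (nat_lit 3565) (.f (nat_lit 495) (nat_lit 530) (nat_lit 3566) (.d (nat_lit 463) (nat_lit 431) (nat_lit 5550) (nat_lit 590) (nat_lit 6606))))) (.a (.f (nat_lit 559) (nat_lit 530) (nat_lit 1550) (.d (nat_lit 557) (nat_lit 526) (nat_lit 1549) (nat_lit 556) (nat_lit 2572))) (.a (.f (nat_lit 530) (nat_lit 559) (nat_lit 1550) (.f (nat_lit 495) (nat_lit 494) (nat_lit 3566) (.f (nat_lit 531) (nat_lit 496) (nat_lit 3567) (.d (nat_lit 499) (nat_lit 498) (nat_lit 2543) (nat_lit 500) (nat_lit 2544))))) (.f (nat_lit 557) (nat_lit 526) (nat_lit 1549) (.d (nat_lit 559) (nat_lit 556) (nat_lit 2572) (nat_lit 560) (nat_lit 2573)))))))) (.a (.p (nat_lit 558) (.a (.f (nat_lit 530) (nat_lit 559) (nat_lit 1550) (.f (nat_lit 526) (nat_lit 557) (nat_lit 1549) (.d (nat_lit 494) (nat_lit 493) (nat_lit 3565) (nat_lit 495) (nat_lit 3566)))) (.a (.f (nat_lit 526) (nat_lit 557) (nat_lit 1549) (.f (nat_lit 494) (nat_lit 493) (nat_lit 3565) (.f (nat_lit 495) (nat_lit 530) (nat_lit 3566) (.d (nat_lit 463) (nat_lit 431) (nat_lit 5550) (nat_lit 590) (nat_lit 6606))))) (.a (.f (nat_lit 559) (nat_lit 530) (nat_lit 1550) (.d (nat_lit 557) (nat_lit 526) (nat_lit 1549) (nat_lit 556) (nat_lit 2572))) (.a (.f (nat_lit 530) (nat_lit 559) (nat_lit 1550) (.f (nat_lit 563) (nat_lit 562) (nat_lit 527) (.f (nat_lit 531) (nat_lit 564) (nat_lit 528) (.d (nat_lit 499) (nat_lit 498) (nat_lit 2543) (nat_lit 500) (nat_lit 2544))))) (.f (nat_lit 557) (nat_lit 526) (nat_lit 1549) (.d (nat_lit 559) (nat_lit 556) (nat_lit 2572) (nat_lit 560) (nat_lit 2573)))))))) (.a (.p (nat_lit 494) (.a (.f (nat_lit 495) (nat_lit 530) (nat_lit 3566) (.d (nat_lit 493) (nat_lit 492) (nat_lit 492) (nat_lit 496) (nat_lit 493))) (.a (.f (nat_lit 526) (nat_lit 493) (nat_lit 3565) (.f (nat_lit 558) (nat_lit 557) (nat_lit 1549) (.f (nat_lit 495) (nat_lit 530) (nat_lit 3566) (.d (nat_lit 463) (nat_lit 431) (nat_lit 5550) (nat_lit 590) (nat_lit 6606))))) (.a (.f (nat_lit 526) (nat_lit 493) (nat_lit 3565) (.f (nat_lit 498) (nat_lit 497) (nat_lit 2542) (.f (nat_lit 530) (nat_lit 499) (nat_lit 2543) (.d (nat_lit 562) (nat_lit 561) (nat_lit 526) (nat_lit 563) (nat_lit 527))))) (.a (.f (nat_lit 493) (nat_lit 526) (nat_lit 3565) (.d (nat_lit 495) (nat_lit 492) (nat_lit 492) (nat_lit 496) (nat_lit 493))) (.f (nat_lit 530) (nat_lit 495) (nat_lit 3566) (.f (nat_lit 498) (nat_lit 499) (nat_lit 2543) (.f (nat_lit 562) (nat_lit 563) (nat_lit 527) (.d (nat_lit 526) (nat_lit 497) (nat_lit 2542) (nat_lit 561) (nat_lit 526)))))))))) (.a (.p (nat_lit 558) (.a (.f (nat_lit 559) (nat_lit 530) (nat_lit 1550) (.d (nat_lit 557) (nat_lit 526) (nat_lit 1549) (nat_lit 556) (nat_lit 2572))) (.a (.f (nat_lit 526) (nat_lit 557) (nat_lit 1549) (.f (nat_lit 498) (nat_lit 497) (nat_lit 2542) (.f (nat_lit 530) (nat_lit 499) (nat_lit 2543) (.d (nat_lit 562) (nat_lit 561) (nat_lit 526) (nat_lit 563) (nat_lit 527))))) (.a (.f (nat_lit 530) (nat_lit 559) (nat_lit 1550) (.f (nat_lit 563) (nat_lit 562) (nat_lit 527) (.f (nat_lit 531) (nat_lit 564) (nat_lit 528) (.d (nat_lit 499) (nat_lit 498) (nat_lit 2543) (nat_lit 500) (nat_lit 2544))))) (.f (nat_lit 557) (nat_lit 526) (nat_lit 1549) (.d (nat_lit 559) (nat_lit 556) (nat_lit 2572) (nat_lit 560) (nat_lit 2573))))))) (.a (.p (nat_lit 560) (.a (.p (nat_lit 495) (.a (.f (nat_lit 530) (nat_lit 494) (nat_lit 3566) (.d (nat_lit 531) (nat_lit 496) (nat_lit 3567) (nat_lit 559) (nat_lit 1551))) (.a (.f (nat_lit 530) (nat_lit 494) (nat_lit 3566) (.f (nat_lit 496) (nat_lit 531) (nat_lit 3567) (.d (nat_lit 463) (nat_lit 431) (nat_lit 4527) (nat_lit 592) (nat_lit 7631)))) (.a (.f (nat_lit 530) (nat_lit 494) (nat_lit 3566) (.d (nat_lit 559) (nat_lit 531) (nat_lit 1551) (nat_lit 558) (nat_lit 1550))) (.f (nat_lit 592) (nat_lit 624) (nat_lit 7663) (.d (nat_lit 463) (nat_lit 431) (nat_lit 4527) (nat_lit 496) (nat_lit 7631))))))) (.a (.p (nat_lit 495) (.a (.f (nat_lit 530) (nat_lit 494) (nat_lit 3566) (.f (nat_lit 496) (nat_lit 531) (nat_lit 3567) (.d (nat_lit 463) (nat_lit 431) (nat_lit 4527) (nat_lit 592) (nat_lit 7631)))) (.a (.f (nat_lit 530) (nat_lit 494) (nat_lit 3566) (.f (nat_lit 563) (nat_lit 562) (nat_lit 527) (.f (nat_lit 531) (nat_lit 564) (nat_lit 528) (.d (nat_lit 499) (nat_lit 498) (nat_lit 2543) (nat_lit 500) (nat_lit 2544))))) (.f (nat_lit 592) (nat_lit 624) (nat_lit 7663) (.d (nat_lit 463) (nat_lit 431) (nat_lit 4527) (nat_lit 496) (nat_lit 7631)))))) (.a (.p (nat_lit 495) (.a (.f (nat_lit 530) (nat_lit 494) (nat_lit 3566) (.d (nat_lit 559) (nat_lit 531) (nat_lit 1551) (nat_lit 558) (nat_lit 1550))) (.a (.f (nat_lit 530) (nat_lit 494) (nat_lit 3566) (.f (nat_lit 563) (nat_lit 562) (nat_lit 527) (.f (nat_lit 531) (nat_lit 564) (nat_lit 528) (.d (nat_lit 499) (nat_lit 498) (nat_lit 2543) (nat_lit 500) (nat_lit 2544))))) (.f (nat_lit 592) (nat_lit 624) (nat_lit 7663) (.d (nat_lit 463) (nat_lit 431) (nat_lit 4527) (nat_lit 559) (nat_lit 4559)))))) (.a (.p (nat_lit 496) (.a (.p (nat_lit 559) (.a (.d (nat_lit 464) (nat_lit 432) (nat_lit 5551) (nat_lit 591) (nat_lit 5583)) (.d (nat_lit 530) (nat_lit 531) (nat_lit 1551) (nat_lit 558) (nat_lit 1550)))) (.a (.p (nat_lit 464) (.a (.d (nat_lit 561) (nat_lit 432) (nat_lit 4528) (nat_lit 593) (nat_lit 4560)) (.a (.f (nat_lit 433) (nat_lit 465) (nat_lit 6576) (.f (nat_lit 432) (nat_lit 401) (nat_lit 6544) (.d (nat_lit 431) (nat_lit 399) (nat_lit 7567) (nat_lit 463) (nat_lit 7599)))) (.f (nat_lit 465) (nat_lit 433) (nat_lit 6576) (.f (nat_lit 497) (nat_lit 592) (nat_lit 6608) (.f (nat_lit 498) (nat_lit 499) (nat_lit 1519) (.d (nat_lit 463) (nat_lit 431) (nat_lit 7599) (nat_lit 462) (nat_lit 462)))))))) (.p (nat_lit 592) (.a (.d (nat_lit 497) (nat_lit 465) (nat_lit 6608) (nat_lit 624) (nat_lit 6640)) (.a (.f (nat_lit 497) (nat_lit 465) (nat_lit 6608) (.f (nat_lit 498) (nat_lit 499) (nat_lit 1519) (.f (nat_lit 593) (nat_lit 625) (nat_lit 4592) (.f (nat_lit 561) (nat_lit 466) (nat_lit 6609) (.f (nat_lit 562) (nat_lit 563) (nat_lit 3599) (.d (nat_lit 591) (nat_lit 590) (nat_lit 2606) (nat_lit 623) (nat_lit 5615))))))) (.f (nat_lit 623) (nat_lit 591) (nat_lit 5615) (.f (nat_lit 624) (nat_lit 655) (nat_lit 5647) (.d (nat_lit 625) (nat_lit 593) (nat_lit 4592) (nat_lit 657) (nat_lit 4624)))))))))) (.a s27199 (.a (.p (nat_lit 496) (.a (.p (nat_lit 464) (.a (.d (nat_lit 561) (nat_lit 432) (nat_lit 4528) (nat_lit 593) (nat_lit 4560)) (.a (.f (nat_lit 433) (nat_lit 465) (nat_lit 6576) (.f (nat_lit 432) (nat_lit 401) (nat_lit 6544) (.d (nat_lit 431) (nat_lit 399) (nat_lit 7567) (nat_lit 463) (nat_lit 7599)))) (.f (nat_lit 465) (nat_lit 433) (nat_lit 6576) (.f (nat_lit 497) (nat_lit 592) (nat_lit 6608) (.f (nat_lit 498) (nat_lit 499) (nat_lit 1519) (.d (nat_lit 463) (nat_lit 431) (nat_lit 7599) (nat_lit 462) (nat_lit 462)))))))) (.a (.p (nat_lit 464) (.a (.d (nat_lit 561) (nat_lit 432) (nat_lit 4528) (nat_lit 593) (nat_lit 4560)) (.a (.f (nat_lit 433) (nat_lit 465) (nat_lit 6576) (.f (nat_lit 432) (nat_lit 401) (nat_lit 6544) (.d (nat_lit 431) (nat_lit 399) (nat_lit 7567) (nat_lit 463) (nat_lit 7599)))) (.f (nat_lit 559) (nat_lit 591) (nat_lit 5583) (.f (nat_lit 561) (nat_lit 593) (nat_lit 4560) (.f (nat_lit 558) (nat_lit 557) (nat_lit 2573) (.f (nat_lit 463) (nat_lit 431) (nat_lit 7599) (.d (nat_lit 590) (nat_lit 495) (nat_lit 5582) (nat_lit 589) (nat_lit 1581))))))))) (.a (.p (nat_lit 464) (.a (.f (nat_lit 433) (nat_lit 465) (nat_lit 6576) (.f (nat_lit 432) (nat_lit 401) (nat_lit 6544) (.d (nat_lit 431) (nat_lit 399) (nat_lit 7567) (nat_lit 463) (nat_lit 7599)))) (.a (.d (nat_lit 559) (nat_lit 432) (nat_lit 5551) (nat_lit 591) (nat_lit 5583)) (.f (nat_lit 465) (nat_lit 433) (nat_lit 6576) (.f (nat_lit 497) (nat_lit 592) (nat_lit 6608) (.f (nat_lit 498) (nat_lit 499) (nat_lit 1519) (.d (nat_lit 463) (nat_lit 431) (nat_lit 7599) (nat_lit 462) (nat_lit 462)))))))) (.a (.p (nat_lit 592) (.a (.d (nat_lit 497) (nat_lit 465) (nat_lit 6608) (nat_lit 624) (nat_lit 6640)) (.a (.f (nat_lit 497) (nat_lit 465) (nat_lit 6608) (.f (nat_lit 498) (nat_lit 499) (nat_lit 1519) (.f (nat_lit 593) (nat_lit 625) (nat_lit 4592) (.f (nat_lit 561) (nat_lit 466) (nat_lit 6609) (.f (nat_lit 562) (nat_lit 563) (nat_lit 3599) (.d (nat_lit 591) (nat_lit 590) (nat_lit 2606) (nat_lit 623) (nat_lit 5615))))))) (.f (nat_lit 623) (nat_lit 591) (nat_lit 5615) (.f (nat_lit 624) (nat_lit 655) (nat_lit 5647) (.d (nat_lit 625) (nat_lit 593) (nat_lit 4592) (nat_lit 657) (nat_lit 4624))))))) (.p (nat_lit 464) (.a (.d (nat_lit 561) (nat_lit 432) (nat_lit 4528) (nat_lit 593) (nat_lit 4560)) (.a (.d (nat_lit 559) (nat_lit 432) (nat_lit 5551) (nat_lit 591) (nat_lit 5583)) (.f (nat_lit 559) (nat_lit 591) (nat_lit 5583) (.f (nat_lit 561) (nat_lit 593) (nat_lit 4560) (.f (nat_lit 558) (nat_lit 557) (nat_lit 2573) (.f (nat_lit 463) (nat_lit 431) (nat_lit 7599) (.d (nat_lit 590) (nat_lit 495) (nat_lit 5582) (nat_lit 589) (nat_lit 1581)))))))))))))) (.p (nat_lit 496) (.a (.p (nat_lit 559) (.a (.d (nat_lit 464) (nat_lit 432) (nat_lit 5551) (nat_lit 591) (nat_lit 5583)) (.d (nat_lit 530) (nat_lit 531) (nat_lit 1551) (nat_lit 558) (nat_lit 1550)))) (.a (.p (nat_lit 592) (.a (.d (nat_lit 497) (nat_lit 465) (nat_lit 6608) (nat_lit 624) (nat_lit 6640)) (.a (.f (nat_lit 497) (nat_lit 465) (nat_lit 6608) (.f (nat_lit 498) (nat_lit 499) (nat_lit 1519) (.f (nat_lit 593) (nat_lit 625) (nat_lit 4592) (.f (nat_lit 561) (nat_lit 466) (nat_lit 6609) (.f (nat_lit 562) (nat_lit 563) (nat_lit 3599) (.d (nat_lit 591) (nat_lit 590) (nat_lit 2606) (nat_lit 623) (nat_lit 5615))))))) (.f (nat_lit 623) (nat_lit 591) (nat_lit 5615) (.f (nat_lit 624) (nat_lit 655) (nat_lit 5647) (.d (nat_lit 625) (nat_lit 593) (nat_lit 4592) (nat_lit 657) (nat_lit 4624))))))) (.p (nat_lit 495) (.a (.d (nat_lit 494) (nat_lit 493) (nat_lit 493) (nat_lit 530) (nat_lit 3566)) (.f (nat_lit 592) (nat_lit 624) (nat_lit 7663) (.f (nat_lit 593) (nat_lit 625) (nat_lit 4592) (.f (nat_lit 464) (nat_lit 561) (nat_lit 4560) (.d (nat_lit 432) (nat_lit 400) (nat_lit 5519) (nat_lit 559) (nat_lit 5551))))))))))))))))) (.a (.p (nat_lit 526) (.a s26272 (.a s26428 (.a s26464 (.a s27090 (.a s27125 (.a s27212 (.a s27215 (.a s27216 (.a s27232 (.a s27244 s27251))))))))))) (.a (.p (nat_lit 530) (.a (.f (nat_lit 495) (nat_lit 494) (nat_lit 3566) (.f (nat_lit 531) (nat_lit 496) (nat_lit 3567) (.d (nat_lit 499) (nat_lit 498) (nat_lit 2543) (nat_lit 500) (nat_lit 2544)))) (.a (.f (nat_lit 563) (nat_lit 562) (nat_lit 527) (.f (nat_lit 531) (nat_lit 564) (nat_lit 528) (.d (nat_lit 499) (nat_lit 498) (nat_lit 2543) (nat_lit 500) (nat_lit 2544)))) (.a (.f (nat_lit 498) (nat_lit 499) (nat_lit 2543) (.p (nat_lit 466) (.a (.f (nat_lit 562) (nat_lit 563) (nat_lit 527) (.d (nat_lit 561) (nat_lit 434) (nat_lit 5553) (nat_lit 593) (nat_lit 5585))) (.a (.f (nat_lit 562) (nat_lit 563) (nat_lit 527) (.f (nat_lit 433) (nat_lit 465) (nat_lit 7601) (.f (nat_lit 434) (nat_lit 401) (nat_lit 7569) (.d (nat_lit 435) (nat_lit 403) (nat_lit 6546) (nat_lit 467) (nat_lit 6578))))) (.a (.f (nat_lit 434) (nat_lit 561) (nat_lit 5553) (.f (nat_lit 402) (nat_lit 497) (nat_lit 5521) (.d (nat_lit 401) (nat_lit 369) (nat_lit 7537) (nat_lit 433) (nat_lit 7569)))) (.f (nat_lit 562) (nat_lit 563) (nat_lit 527) (.f (nat_lit 465) (nat_lit 433) (nat_lit 7601) (.f (nat_lit 467) (nat_lit 435) (nat_lit 6578) (.f (nat_lit 495) (nat_lit 494) (nat_lit 3566) (.d (nat_lit 496) (nat_lit 464) (nat_lit 1487) (nat_lit 497) (nat_lit 2511))))))))))) (.f (nat_lit 495) (nat_lit 494) (nat_lit 3566) (.f (nat_lit 531) (nat_lit 496) (nat_lit 3567) (.d (nat_lit 563) (nat_lit 562) (nat_lit 527) (nat_lit 564) (nat_lit 528)))))))) (.p (nat_lit 558) (.a (.f (nat_lit 530) (nat_lit 559) (nat_lit 1550) (.f (nat_lit 526) (nat_lit 557) (nat_lit 1549) (.d (nat_lit 494) (nat_lit 493) (nat_lit 3565) (nat_lit 495) (nat_lit 3566)))) (.a (.f (nat_lit 526) (nat_lit 557) (nat_lit 1549) (.f (nat_lit 494) (nat_lit 493) (nat_lit 3565) (.f (nat_lit 495) (nat_lit 530) (nat_lit 3566) (.d (nat_lit 463) (nat_lit 431) (nat_lit 5550) (nat_lit 590) (nat_lit 6606))))) (.a (.f (nat_lit 559) (nat_lit 530) (nat_lit 1550) (.d (nat_lit 557) (nat_lit 526) (nat_lit 1549) (nat_lit 556) (nat_lit 2572))) (.a (.f (nat_lit 559) (nat_lit 530) (nat_lit 1550) (.d (nat_lit 557) (nat_lit 556) (nat_lit 2572) (nat_lit 560) (nat_lit 2573))) (.a (.f (nat_lit 557) (nat_lit 526) (nat_lit 1549) (.d (nat_lit 559) (nat_lit 556) (nat_lit 2572) (nat_lit 560) (nat_lit 2573))) (.f (nat_lit 530) (nat_lit 559) (nat_lit 1550) (.f (nat_lit 495) (nat_lit 494) (nat_lit 3566) (.f (nat_lit 531) (nat_lit 496) (nat_lit 3567) (.d (nat_lit 563) (nat_lit 562) (nat_lit 527) (nat_lit 564) (nat_lit 528))))))))))))))))))) (.a (.p (nat_lit 496) (.a (.p (nat_lit 560) (.a (.p (nat_lit 464) (.a (.d (nat_lit 559) (nat_lit 432) (nat_lit 5551) (nat_lit 591) (nat_lit 5583)) (.f (nat_lit 463) (nat_lit 431) (nat_lit 7599) (.f (nat_lit 495) (nat_lit 592) (nat_lit 7631) (.f (nat_lit 465) (nat_lit 433) (nat_lit 6576) (.d (nat_lit 466) (nat_lit 467) (nat_lit 1487) (nat_lit 494) (nat_lit 1486))))))) (.a s27281 (.a (.p (nat_lit 464) (.a (.d (nat_lit 559) (nat_lit 432) (nat_lit 5551) (nat_lit 591) (nat_lit 5583)) (.a (.f (nat_lit 433) (nat_lit 465) (nat_lit 6576) (.f (nat_lit 432) (nat_lit 401) (nat_lit 6544) (.d (nat_lit 431) (nat_lit 399) (nat_lit 7567) (nat_lit 463) (nat_lit 7599)))) (.f (nat_lit 465) (nat_lit 433) (nat_lit 6576) (.f (nat_lit 497) (nat_lit 592) (nat_lit 6608) (.f (nat_lit 463) (nat_lit 431) (nat_lit 7599) (.d (nat_lit 462) (nat_lit 461) (nat_lit 461) (nat_lit 498) (nat_lit 462)))))))) (.a (.p (nat_lit 464) (.a (.d (nat_lit 559) (nat_lit 432) (nat_lit 5551) (nat_lit 591) (nat_lit 5583)) (.a (.f (nat_lit 433) (nat_lit 465) (nat_lit 6576) (.f (nat_lit 432) (nat_lit 401) (nat_lit 6544) (.d (nat_lit 431) (nat_lit 399) (nat_lit 7567) (nat_lit 463) (nat_lit 7599)))) (.f (nat_lit 559) (nat_lit 591) (nat_lit 5583) (.f (nat_lit 463) (nat_lit 431) (nat_lit 7599) (.f (nat_lit 561) (nat_lit 593) (nat_lit 4560) (.f (nat_lit 562) (nat_lit 563) (nat_lit 3599) (.f (nat_lit 530) (nat_lit 531) (nat_lit 2575) (.f (nat_lit 558) (nat_lit 529) (nat_lit 1550) (.d (nat_lit 590) (nat_lit 495) (nat_lit 5582) (nat_lit 589) (nat_lit 1581))))))))))) (.a s27297 (.a (.p (nat_lit 464) (.a (.d (nat_lit 559) (nat_lit 432) (nat_lit 5551) (nat_lit 591) (nat_lit 5583)) (.a (.f (nat_lit 561) (nat_lit 593) (nat_lit 4560) (.f (nat_lit 432) (nat_lit 529) (nat_lit 4528) (.d (nat_lit 433) (nat_lit 401) (nat_lit 6544) (nat_lit 465) (nat_lit 6576)))) (.f (nat_lit 559) (nat_lit 591) (nat_lit 5583) (.f (nat_lit 465) (nat_lit 433) (nat_lit 6576) (.f (nat_lit 592) (nat_lit 497) (nat_lit 6608) (.d (nat_lit 624) (nat_lit 495) (nat_lit 7663) (nat_lit 656) (nat_lit 7695)))))))) (.p (nat_lit 464) (.a (.d (nat_lit 559) (nat_lit 432) (nat_lit 5551) (nat_lit 591) (nat_lit 5583)) (.f (nat_lit 463) (nat_lit 431) (nat_lit 7599) (.f (nat_lit 592) (nat_lit 495) (nat_lit 7631) (.d (nat_lit 593) (nat_lit 561) (nat_lit 4560) (nat_lit 625) (nat_lit 4592))))))))))))) (.a (.p (nat_lit 497) (.a (.p (nat_lit 560) (.a (.f (nat_lit 592) (nat_lit 465) (nat_lit 6608) (.d (nat_lit 495) (nat_lit 463) (nat_lit 7631) (nat_lit 624) (nat_lit 7663))) (.a (.f (nat_lit 592) (nat_lit 465) (nat_lit 6608) (.f (nat_lit 529) (nat_lit 624) (nat_lit 6640) (.f (nat_lit 593) (nat_lit 625) (nat_lit 4592) (.f (nat_lit 561) (nat_lit 464) (nat_lit 4560) (.d (nat_lit 498) (nat_lit 466) (nat_lit 6609) (nat_lit 499) (nat_lit 1519)))))) (.a (.p (nat_lit 464) (.a (.f (nat_lit 465) (nat_lit 433) (nat_lit 6576) (.f (nat_lit 463) (nat_lit 431) (nat_lit 7599) (.d (nat_lit 462) (nat_lit 461) (nat_lit 461) (nat_lit 498) (nat_lit 462)))) (.a (.f (nat_lit 465) (nat_lit 433) (nat_lit 6576) (.f (nat_lit 561) (nat_lit 593) (nat_lit 4560) (.f (nat_lit 432) (nat_lit 529) (nat_lit 4528) (.d (nat_lit 400) (nat_lit 368) (nat_lit 4464) (nat_lit 495) (nat_lit 5519))))) (.f (nat_lit 463) (nat_lit 431) (nat_lit 7599) (.f (nat_lit 498) (nat_lit 499) (nat_lit 1519) (.d (nat_lit 462) (nat_lit 461) (nat_lit 461) (nat_lit 495) (nat_lit 3534))))))) (.p (nat_lit 495) (.a (.f (nat_lit 463) (nat_lit 431) (nat_lit 4527) (.d (nat_lit 498) (nat_lit 462) (nat_lit 3534) (nat_lit 499) (nat_lit 1519))) (.a (.f (nat_lit 592) (nat_lit 624) (nat_lit 7663) (.f (nat_lit 498) (nat_lit 499) (nat_lit 1519) (.f (nat_lit 530) (nat_lit 531) (nat_lit 495) (.f (nat_lit 529) (nat_lit 494) (nat_lit 3566) (.f (nat_lit 593) (nat_lit 625) (nat_lit 4592) (.d (nat_lit 466) (nat_lit 467) (nat_lit 2511) (nat_lit 561) (nat_lit 6609))))))) (.d (nat_lit 463) (nat_lit 431) (nat_lit 4527) (nat_lit 592) (nat_lit 7631))))))))) (.a (.p (nat_lit 560) (.a (.f (nat_lit 592) (nat_lit 465) (nat_lit 6608) (.d (nat_lit 495) (nat_lit 463) (nat_lit 7631) (nat_lit 624) (nat_lit 7663))) (.a (.f (nat_lit 592) (nat_lit 465) (nat_lit 6608) (.f (nat_lit 593) (nat_lit 625) (nat_lit 4592) (.f (nat_lit 561) (nat_lit 464) (nat_lit 4560) (.f (nat_lit 562) (nat_lit 563) (nat_lit 3599) (.d (nat_lit 591) (nat_lit 590) (nat_lit 2606) (nat_lit 623) (nat_lit 5615)))))) (.a s27325 (.p (nat_lit 495) (.a (.f (nat_lit 463) (nat_lit 431) (nat_lit 4527) (.d (nat_lit 498) (nat_lit 462) (nat_lit 3534) (nat_lit 499) (nat_lit 1519))) (.a (.f (nat_lit 498) (nat_lit 499) (nat_lit 1519) (.f (nat_lit 592) (nat_lit 624) (nat_lit 7663) (.f (nat_lit 593) (nat_lit 625) (nat_lit 4592) (.f (nat_lit 561) (nat_lit 464) (nat_lit 4560) (.f (nat_lit 562) (nat_lit 563) (nat_lit 3599) (.d (nat_lit 466) (nat_lit 467) (nat_lit 2511) (nat_lit 530) (nat_lit 5585))))))) (.d (nat_lit 463) (nat_lit 431) (nat_lit 4527) (nat_lit 592) (nat_lit 7631))))))))) (.a (.p (nat_lit 495) (.a (.f (nat_lit 498) (nat_lit 499) (nat_lit 1519) (.f (nat_lit 463) (nat_lit 462) (nat_lit 3534) (.f (nat_lit 431) (nat_lit 399) (nat_lit 4495) (.f (nat_lit 466) (nat_lit 467) (nat_lit 2511) (.f (nat_lit 465) (nat_lit 494) (nat_lit 2510) (.f (nat_lit 433) (nat_lit 401) (nat_lit 5520) (.d (nat_lit 430) (nat_lit 398) (nat_lit 7566) (nat_lit 432) (nat_lit 430)))))))) (.a (.f (nat_lit 498) (nat_lit 499) (nat_lit 1519) (.f (nat_lit 463) (nat_lit 462) (nat_lit 3534) (.f (nat_lit 431) (nat_lit 399) (nat_lit 4495) (.f (nat_lit 432) (nat_lit 400) (nat_lit 6543) (.f (nat_lit 430) (nat_lit 398) (nat_lit 7566) (.f (nat_lit 466) (nat_lit 467) (nat_lit 2511) (.d (nat_lit 465) (nat_lit 433) (nat_lit 430) (nat_lit 464) (nat_lit 3502)))))))) (.a (.f (nat_lit 498) (nat_lit 499) (nat_lit 1519) (.f (nat_lit 466) (nat_lit 467) (nat_lit 2511) (.f (nat_lit 465) (nat_lit 494) (nat_lit 2510) (.f (nat_lit 433) (nat_lit 401) (nat_lit 5520) (.d (nat_lit 530) (nat_lit 531) (nat_lit 495) (nat_lit 562) (nat_lit 7601)))))) (.a (.f (nat_lit 498) (nat_lit 499) (nat_lit 1519) (.f (nat_lit 530) (nat_lit 531) (nat_lit 495) (.f (nat_lit 529) (nat_lit 494) (nat_lit 3566) (.f (nat_lit 466) (nat_lit 467) (nat_lit 2511) (.d (nat_lit 434) (nat_lit 402) (nat_lit 5521) (nat_lit 561) (nat_lit 5553)))))) (.a (.p (nat_lit 494) (.a (.f (nat_lit 493) (nat_lit 492) (nat_lit 492) (.d (nat_lit 465) (nat_lit 464) (nat_lit 2509) (nat_lit 466) (nat_lit 2510))) (.a (.d (nat_lit 493) (nat_lit 492) (nat_lit 492) (nat_lit 529) (nat_lit 493)) (.f (nat_lit 529) (nat_lit 530) (nat_lit 3566) (.f (nat_lit 465) (nat_lit 466) (nat_lit 2510) (.f (nat_lit 433) (nat_lit 401) (nat_lit 5520) (.f (nat_lit 432) (nat_lit 400) (nat_lit 7568) (.f (nat_lit 464) (nat_lit 561) (nat_lit 4528) (.f (nat_lit 462) (nat_lit 461) (nat_lit 3533) (.d (nat_lit 434) (nat_lit 402) (nat_lit 6545) (nat_lit 463) (nat_lit 2478))))))))))) (.f (nat_lit 498) (nat_lit 499) (nat_lit 1519) (.f (nat_lit 530) (nat_lit 531) (nat_lit 495) (.f (nat_lit 494) (nat_lit 529) (nat_lit 3566) (.d (nat_lit 462) (nat_lit 461) (nat_lit 3533) (nat_lit 463) (nat_lit 3534))))))))))) (.a (.p (nat_lit 560) (.a (.f (nat_lit 592) (nat_lit 465) (nat_lit 6608) (.f (nat_lit 529) (nat_lit 624) (nat_lit 6640) (.f (nat_lit 593) (nat_lit 625) (nat_lit 4592) (.f (nat_lit 561) (nat_lit 464) (nat_lit 4560) (.d (nat_lit 498) (nat_lit 466) (nat_lit 6609) (nat_lit 499) (nat_lit 1519)))))) (.a (.f (nat_lit 592) (nat_lit 465) (nat_lit 6608) (.f (nat_lit 593) (nat_lit 625) (nat_lit 4592) (.f (nat_lit 561) (nat_lit 464) (nat_lit 4560) (.f (nat_lit 562) (nat_lit 563) (nat_lit 3599) (.d (nat_lit 591) (nat_lit 590) (nat_lit 2606) (nat_lit 623) (nat_lit 5615)))))) (.a (.p (nat_lit 464) (.a (.f (nat_lit 465) (nat_lit 433) (nat_lit 6576) (.f (nat_lit 463) (nat_lit 431) (nat_lit 7599) (.d (nat_lit 462) (nat_lit 461) (nat_lit 461) (nat_lit 498) (nat_lit 462)))) (.a (.f (nat_lit 561) (nat_lit 593) (nat_lit 4560) (.f (nat_lit 529) (nat_lit 432) (nat_lit 4528) (.f (nat_lit 465) (nat_lit 433) (nat_lit 5552) (.f (nat_lit 498) (nat_lit 499) (nat_lit 1519) (.f (nat_lit 466) (nat_lit 434) (nat_lit 6577) (.f (nat_lit 467) (nat_lit 468) (nat_lit 1488) (.f (nat_lit 562) (nat_lit 563) (nat_lit 3599) (.d (nat_lit 435) (nat_lit 436) (nat_lit 2480) (nat_lit 530) (nat_lit 6578))))))))) (.f (nat_lit 561) (nat_lit 593) (nat_lit 4560) (.f (nat_lit 432) (nat_lit 529) (nat_lit 4528) (.d (nat_lit 431) (nat_lit 399) (nat_lit 7567) (nat_lit 463) (nat_lit 7599))))))) (.a (.f (nat_lit 592) (nat_lit 465) (nat_lit 6608) (.f (nat_lit 624) (nat_lit 529) (nat_lit 6640) (.d (nat_lit 623) (nat_lit 591) (nat_lit 5615) (nat_lit 655) (nat_lit 5647)))) (.p (nat_lit 592) (.a (.f (nat_lit 529) (nat_lit 624) (nat_lit 6640) (.f (nat_lit 593) (nat_lit 625) (nat_lit 4592) (.f (nat_lit 561) (nat_lit 464) (nat_lit 4560) (.d (nat_lit 498) (nat_lit 466) (nat_lit 6609) (nat_lit 499) (nat_lit 1519))))) (.a (.f (nat_lit 593) (nat_lit 625) (nat_lit 4592) (.f (nat_lit 561) (nat_lit 464) (nat_lit 4560) (.f (nat_lit 562) (nat_lit 563) (nat_lit 3599) (.d (nat_lit 591) (nat_lit 590) (nat_lit 2606) (nat_lit 623) (nat_lit 5615))))) (.f (nat_lit 624) (nat_lit 529) (nat_lit 6640) (.d (nat_lit 623) (nat_lit 591) (nat_lit 5615) (nat_lit 655) (nat_lit 5647))))))))))) (.a (.p (nat_lit 560) (.a (.f (nat_lit 592) (nat_lit 465) (nat_lit 6608) (.d (nat_lit 495) (nat_lit 463) (nat_lit 7631) (nat_lit 624) (nat_lit 7663))) (.a (.f (nat_lit 592) (nat_lit 465) (nat_lit 6608) (.f (nat_lit 529) (nat_lit 624) (nat_lit 6640) (.f (nat_lit 593) (nat_lit 625) (nat_lit 4592) (.f (nat_lit 561) (nat_lit 464) (nat_lit 4560) (.d (nat_lit 498) (nat_lit 466) (nat_lit 6609) (nat_lit 499) (nat_lit 1519)))))) (.a (.p (nat_lit 464) (.a (.f (nat_lit 465) (nat_lit 433) (nat_lit 6576) (.f (nat_lit 463) (nat_lit 431) (nat_lit 7599) (.d (nat_lit 462) (nat_lit 461) (nat_lit 461) (nat_lit 498) (nat_lit 462)))) (.a (.f (nat_lit 465) (nat_lit 433) (nat_lit 6576) (.f (nat_lit 561) (nat_lit 593) (nat_lit 4560) (.f (nat_lit 432) (nat_lit 529) (nat_lit 4528) (.d (nat_lit 400) (nat_lit 368) (nat_lit 4464) (nat_lit 495) (nat_lit 5519))))) (.f (nat_lit 463) (nat_lit 431) (nat_lit 7599) (.f (nat_lit 498) (nat_lit 499) (nat_lit 1519) (.d (nat_lit 462) (nat_lit 461) (nat_lit 461) (nat_lit 495) (nat_lit 3534))))))) (.p (nat_lit 592) (.a (.f (nat_lit 529) (nat_lit 624) (nat_lit 6640) (.f (nat_lit 593) (nat_lit 625) (nat_lit 4592) (.f (nat_lit 561) (nat_lit 464) (nat_lit 4560) (.d (nat_lit 498) (nat_lit 466) (nat_lit 6609) (nat_lit 499) (nat_lit 1519))))) (.a (.f (nat_lit 593) (nat_lit 625) (nat_lit 4592) (.f (nat_lit 561) (nat_lit 464) (nat_lit 4560) (.f (nat_lit 562) (nat_lit 563) (nat_lit 3599) (.d (nat_lit 591) (nat_lit 590) (nat_lit 2606) (nat_lit 623) (nat_lit 5615))))) (.f (nat_lit 624) (nat_lit 529) (nat_lit 6640) (.d (nat_lit 623) (nat_lit 591) (nat_lit 5615) (nat_lit 655) (nat_lit 5647)))))))))) (.a (.p (nat_lit 560) (.a (.f (nat_lit 592) (nat_lit 465) (nat_lit 6608) (.d (nat_lit 495) (nat_lit 463) (nat_lit 7631) (nat_lit 624) (nat_lit 7663))) (.a (.f (nat_lit 592) (nat_lit 465) (nat_lit 6608) (.f (nat_lit 624) (nat_lit 529) (nat_lit 6640) (.d (nat_lit 623) (nat_lit 591) (nat_lit 5615) (nat_lit 655) (nat_lit 5647)))) (.a s27325 (.p (nat_lit 495) (.a (.f (nat_lit 463) (nat_lit 431) (nat_lit 4527) (.d (nat_lit 498) (nat_lit 462) (nat_lit 3534) (nat_lit 499) (nat_lit 1519))) (.a (.f (nat_lit 498) (nat_lit 499) (nat_lit 1519) (.f (nat_lit 530) (nat_lit 531) (nat_lit 495) (.f (nat_lit 494) (nat_lit 529) (nat_lit 3566) (.f (nat_lit 493) (nat_lit 492) (nat_lit 492) (.d (nat_lit 461) (nat_lit 460) (nat_lit 3532) (nat_lit 462) (nat_lit 3533)))))) (.d (nat_lit 463) (nat_lit 431) (nat_lit 4527) (nat_lit 592) (nat_lit 7631))))))))) (.a (.p (nat_lit 495) (.a (.f (nat_lit 498) (nat_lit 499) (nat_lit 1519) (.f (nat_lit 463) (nat_lit 462) (nat_lit 3534) (.d (nat_lit 431) (nat_lit 399) (nat_lit 4495) (nat_lit 560) (nat_lit 4527)))) (.a (.f (nat_lit 498) (nat_lit 499) (nat_lit 1519) (.f (nat_lit 463) (nat_lit 462) (nat_lit 3534) (.f (nat_lit 431) (nat_lit 399) (nat_lit 4495) (.f (nat_lit 466) (nat_lit 467) (nat_lit 2511) (.f (nat_lit 465) (nat_lit 494) (nat_lit 2510) (.f (nat_lit 433) (nat_lit 401) (nat_lit 5520) (.d (nat_lit 430) (nat_lit 398) (nat_lit 7566) (nat_lit 432) (nat_lit 430)))))))) (.a (.f (nat_lit 498) (nat_lit 499) (nat_lit 1519) (.f (nat_lit 466) (nat_lit 467) (nat_lit 2511) (.f (nat_lit 465) (nat_lit 494) (nat_lit 2510) (.f (nat_lit 433) (nat_lit 401) (nat_lit 5520) (.d (nat_lit 530) (nat_lit 531) (nat_lit 495) (nat_lit 562) (nat_lit 7601)))))) (.p (nat_lit 494) (.a (.d (nat_lit 493) (nat_lit 492) (nat_lit 492) (nat_lit 529) (nat_lit 493)) (.a (.f (nat_lit 493) (nat_lit 492) (nat_lit 492) (.d (nat_lit 461) (nat_lit 460) (nat_lit 3532) (nat_lit 462) (nat_lit 3533))) (.f (nat_lit 529) (nat_lit 530) (nat_lit 3566) (.f (nat_lit 465) (nat_lit 466) (nat_lit 2510) (.d (nat_lit 433) (nat_lit 401) (nat_lit 5520) (nat_lit 560) (nat_lit 5552))))))))))) (.a (.p (nat_lit 495) (.a (.f (nat_lit 498) (nat_lit 499) (nat_lit 1519) (.f (nat_lit 466) (nat_lit 467) (nat_lit 2511) (.f (nat_lit 465) (nat_lit 494) (nat_lit 2510) (.f (nat_lit 433) (nat_lit 401) (nat_lit 5520) (.d (nat_lit 530) (nat_lit 531) (nat_lit 495) (nat_lit 562) (nat_lit 7601)))))) (.a (.f (nat_lit 498) (nat_lit 499) (nat_lit 1519) (.f (nat_lit 466) (nat_lit 467) (nat_lit 2511) (.f (nat_lit 494) (nat_lit 465) (nat_lit 2510) (.d (nat_lit 493) (nat_lit 492) (nat_lit 492) (nat_lit 529) (nat_lit 493))))) (.a s27408 (.a (.f (nat_lit 498) (nat_lit 499) (nat_lit 1519) (.f (nat_lit 530) (nat_lit 531) (nat_lit 495) (.f (nat_lit 529) (nat_lit 494) (nat_lit 3566) (.f (nat_lit 466) (nat_lit 467) (nat_lit 2511) (.d (nat_lit 434) (nat_lit 402) (nat_lit 5521) (nat_lit 561) (nat_lit 5553)))))) (.a (.p (nat_lit 494) (.a (.d (nat_lit 493) (nat_lit 492) (nat_lit 492) (nat_lit 529) (nat_lit 493)) (.a (.f (nat_lit 493) (nat_lit 492) (nat_lit 492) (.d (nat_lit 461) (nat_lit 460) (nat_lit 3532) (nat_lit 462) (nat_lit 3533))) (.f (nat_lit 529) (nat_lit 530) (nat_lit 3566) (.f (nat_lit 465) (nat_lit 466) (nat_lit 2510) (.d (nat_lit 433) (nat_lit 401) (nat_lit 5520) (nat_lit 560) (nat_lit 5552))))))) (.f (nat_lit 498) (nat_lit 499) (nat_lit 1519) (.f (nat_lit 530) (nat_lit 531) (nat_lit 495) (.f (nat_lit 494) (nat_lit 529) (nat_lit 3566) (.f (nat_lit 493) (nat_lit 492) (nat_lit 492) (.d (nat_lit 461) (nat_lit 460) (nat_lit 3532) (nat_lit 462) (nat_lit 3533)))))))))))) (.a (.p (nat_lit 560) (.a (.p (nat_lit 495) (.a (.f (nat_lit 463) (nat_lit 431) (nat_lit 4527) (.d (nat_lit 498) (nat_lit 462) (nat_lit 3534) (nat_lit 499) (nat_lit 1519))) (.a (.f (nat_lit 592) (nat_lit 624) (nat_lit 7663) (.f (nat_lit 498) (nat_lit 499) (nat_lit 1519) (.f (nat_lit 530) (nat_lit 531) (nat_lit 495) (.f (nat_lit 529) (nat_lit 494) (nat_lit 3566) (.f (nat_lit 593) (nat_lit 625) (nat_lit 4592) (.d (nat_lit 466) (nat_lit 467) (nat_lit 2511) (nat_lit 561) (nat_lit 6609))))))) (.d (nat_lit 463) (nat_lit 431) (nat_lit 4527) (nat_lit 592) (nat_lit 7631))))) (.a (.p (nat_lit 495) (.a (.f (nat_lit 463) (nat_lit 431) (nat_lit 4527) (.d (nat_lit 498) (nat_lit 462) (nat_lit 3534) (nat_lit 499) (nat_lit 1519))) (.a (.f (nat_lit 498) (nat_lit 499) (nat_lit 1519) (.f (nat_lit 592) (nat_lit 624) (nat_lit 7663) (.f (nat_lit 593) (nat_lit 625) (nat_lit 4592) (.f (nat_lit 561) (nat_lit 464) (nat_lit 4560) (.f (nat_lit 562) (nat_lit 563) (nat_lit 3599) (.d (nat_lit 466) (nat_lit 467) (nat_lit 2511) (nat_lit 530) (nat_lit 5585))))))) (.d (nat_lit 463) (nat_lit 431) (nat_lit 4527) (nat_lit 592) (nat_lit 7631))))) (.a (.p (nat_lit 592) (.a (.f (nat_lit 529) (nat_lit 624) (nat_lit 6640) (.f (nat_lit 593) (nat_lit 625) (nat_lit 4592) (.f (nat_lit 561) (nat_lit 464) (nat_lit 4560) (.d (nat_lit 498) (nat_lit 466) (nat_lit 6609) (nat_lit 499) (nat_lit 1519))))) (.a (.f (nat_lit 593) (nat_lit 625) (nat_lit 4592) (.f (nat_lit 561) (nat_lit 464) (nat_lit 4560) (.f (nat_lit 562) (nat_lit 563) (nat_lit 3599) (.d (nat_lit 591) (nat_lit 590) (nat_lit 2606) (nat_lit 623) (nat_lit 5615))))) (.f (nat_lit 624) (nat_lit 529) (nat_lit 6640) (.d (nat_lit 623) (nat_lit 591) (nat_lit 5615) (nat_lit 655) (nat_lit 5647)))))) (.a (.p (nat_lit 464) (.a (.f (nat_lit 463) (nat_lit 431) (nat_lit 7599) (.f (nat_lit 498) (nat_lit 499) (nat_lit 1519) (.d (nat_lit 462) (nat_lit 461) (nat_lit 461) (nat_lit 495) (nat_lit 3534)))) (.a (.f (nat_lit 561) (nat_lit 593) (nat_lit 4560) (.f (nat_lit 432) (nat_lit 529) (nat_lit 4528) (.d (nat_lit 431) (nat_lit 399) (nat_lit 7567) (nat_lit 463) (nat_lit 7599)))) (.a (.f (nat_lit 561) (nat_lit 593) (nat_lit 4560) (.f (nat_lit 432) (nat_lit 529) (nat_lit 4528) (.f (nat_lit 400) (nat_lit 495) (nat_lit 5519) (.d (nat_lit 399) (nat_lit 367) (nat_lit 7535) (nat_lit 431) (nat_lit 7567))))) (.f (nat_lit 561) (nat_lit 593) (nat_lit 4560) (.f (nat_lit 432) (nat_lit 529) (nat_lit 4528) (.f (nat_lit 400) (nat_lit 495) (nat_lit 5519) (.d (nat_lit 401) (nat_lit 369) (nat_lit 6512) (nat_lit 433) (nat_lit 6544))))))))) (.a (.p (nat_lit 495) (.a (.f (nat_lit 463) (nat_lit 431) (nat_lit 4527) (.d (nat_lit 498) (nat_lit 462) (nat_lit 3534) (nat_lit 499) (nat_lit 1519))) (.a (.f (nat_lit 498) (nat_lit 499) (nat_lit 1519) (.f (nat_lit 530) (nat_lit 531) (nat_lit 495) (.f (nat_lit 494) (nat_lit 529) (nat_lit 3566) (.f (nat_lit 493) (nat_lit 492) (nat_lit 492) (.d (nat_lit 461) (nat_lit 460) (nat_lit 3532) (nat_lit 462) (nat_lit 3533)))))) (.d (nat_lit 463) (nat_lit 431) (nat_lit 4527) (nat_lit 592) (nat_lit 7631))))) s27426)))))) (.a (.p (nat_lit 560) (.a (.f (nat_lit 592) (nat_lit 465) (nat_lit 6608) (.d (nat_lit 495) (nat_lit 463) (nat_lit 7631) (nat_lit 624) (nat_lit 7663))) (.a (.f (nat_lit 592) (nat_lit 465) (nat_lit 6608) (.f (nat_lit 593) (nat_lit 625) (nat_lit 4592) (.f (nat_lit 561) (nat_lit 464) (nat_lit 4560) (.f (nat_lit 562) (nat_lit 563) (nat_lit 3599) (.d (nat_lit 591) (nat_lit 590) (nat_lit 2606) (nat_lit 623) (nat_lit 5615)))))) (.a (.p (nat_lit 464) (.a (.f (nat_lit 465) (nat_lit 433) (nat_lit 6576) (.f (nat_lit 561) (nat_lit 593) (nat_lit 4560) (.f (nat_lit 432) (nat_lit 529) (nat_lit 4528) (.d (nat_lit 400) (nat_lit 368) (nat_lit 4464) (nat_lit 495) (nat_lit 5519))))) (.a (.f (nat_lit 433) (nat_lit 465) (nat_lit 6576) (.f (nat_lit 432) (nat_lit 401) (nat_lit 6544) (.f (nat_lit 399) (nat_lit 431) (nat_lit 7567) (.d (nat_lit 400) (nat_lit 367) (nat_lit 7535) (nat_lit 495) (nat_lit 5519))))) (.a (.f (nat_lit 561) (nat_lit 593) (nat_lit 4560) (.f (nat_lit 432) (nat_lit 529) (nat_lit 4528) (.d (nat_lit 431) (nat_lit 399) (nat_lit 7567) (nat_lit 463) (nat_lit 7599)))) (.f (nat_lit 465) (nat_lit 433) (nat_lit 6576) (.f (nat_lit 463) (nat_lit 431) (nat_lit 7599) (.f (nat_lit 462) (nat_lit 461) (nat_lit 461) (.f (nat_lit 494) (nat_lit 493) (nat_lit 1485) (.f (nat_lit 495) (nat_lit 466) (nat_lit 2510) (.d (nat_lit 430) (nat_lit 398) (nat_lit 4494) (nat_lit 429) (nat_lit 3501))))))))))) s27426)))) (.a (.p (nat_lit 495) (.a (.f (nat_lit 498) (nat_lit 499) (nat_lit 1519) (.f (nat_lit 466) (nat_lit 467) (nat_lit 2511) (.f (nat_lit 465) (nat_lit 494) (nat_lit 2510) (.f (nat_lit 433) (nat_lit 401) (nat_lit 5520) (.d (nat_lit 530) (nat_lit 531) (nat_lit 495) (nat_lit 562) (nat_lit 7601)))))) (.a (.f (nat_lit 498) (nat_lit 499) (nat_lit 1519) (.f (nat_lit 466) (nat_lit 467) (nat_lit 2511) (.f (nat_lit 494) (nat_lit 465) (nat_lit 2510) (.d (nat_lit 493) (nat_lit 492) (nat_lit 492) (nat_lit 529) (nat_lit 493))))) (.a s27408 (.a (.f (nat_lit 498) (nat_lit 499) (nat_lit 1519) (.f (nat_lit 530) (nat_lit 531) (nat_lit 495) (.f (nat_lit 529) (nat_lit 494) (nat_lit 3566) (.f (nat_lit 466) (nat_lit 467) (nat_lit 2511) (.d (nat_lit 434) (nat_lit 402) (nat_lit 5521) (nat_lit 561) (nat_lit 5553)))))) (.a (.p (nat_lit 494) (.a (.f (nat_lit 493) (nat_lit 492) (nat_lit 492) (.d (nat_lit 465) (nat_lit 464) (nat_lit 2509) (nat_lit 466) (nat_lit 2510))) (.a (.d (nat_lit 493) (nat_lit 492) (nat_lit 492) (nat_lit 529) (nat_lit 493)) (.f (nat_lit 465) (nat_lit 466) (nat_lit 2510) (.f (nat_lit 560) (nat_lit 592) (nat_lit 6608) (.d (nat_lit 433) (nat_lit 401) (nat_lit 5520) (nat_lit 464) (nat_lit 6576))))))) (.f (nat_lit 498) (nat_lit 499) (nat_lit 1519) (.f (nat_lit 530) (nat_lit 531) (nat_lit 495) (.f (nat_lit 494) (nat_lit 529) (nat_lit 3566) (.f (nat_lit 493) (nat_lit 492) (nat_lit 492) (.f (nat_lit 464) (nat_lit 465) (nat_lit 2509) (.f (nat_lit 432) (nat_lit 400) (nat_lit 5519) (.f (nat_lit 431) (nat_lit 399) (nat_lit 7567) (.f (nat_lit 560) (nat_lit 463) (nat_lit 4527) (.f (nat_lit 592) (nat_lit 624) (nat_lit 7663) (.d (nat_lit 593) (nat_lit 561) (nat_lit 4560) (nat_lit 625) (nat_lit 4592))))))))))))))))) (.a (.p (nat_lit 560) (.a (.f (nat_lit 592) (nat_lit 465) (nat_lit 6608) (.d (nat_lit 495) (nat_lit 463) (nat_lit 7631) (nat_lit 624) (nat_lit 7663))) (.a (.f (nat_lit 592) (nat_lit 465) (nat_lit 6608) (.f (nat_lit 529) (nat_lit 624) (nat_lit 6640) (.f (nat_lit 593) (nat_lit 625) (nat_lit 4592) (.f (nat_lit 561) (nat_lit 464) (nat_lit 4560) (.d (nat_lit 498) (nat_lit 466) (nat_lit 6609) (nat_lit 499) (nat_lit 1519)))))) (.a (.p (nat_lit 464) (.a (.f (nat_lit 463) (nat_lit 431) (nat_lit 7599) (.f (nat_lit 498) (nat_lit 499) (nat_lit 1519) (.d (nat_lit 462) (nat_lit 461) (nat_lit 461) (nat_lit 495) (nat_lit 3534)))) (.a (.f (nat_lit 561) (nat_lit 593) (nat_lit 4560) (.f (nat_lit 432) (nat_lit 529) (nat_lit 4528) (.d (nat_lit 431) (nat_lit 399) (nat_lit 7567) (nat_lit 463) (nat_lit 7599)))) (.a (.f (nat_lit 561) (nat_lit 593) (nat_lit 4560) (.f (nat_lit 432) (nat_lit 529) (nat_lit 4528) (.f (nat_lit 400) (nat_lit 495) (nat_lit 5519) (.d (nat_lit 399) (nat_lit 367) (nat_lit 7535) (nat_lit 431) (nat_lit 7567))))) (.f (nat_lit 498) (nat_lit 499) (nat_lit 1519) (.f (nat_lit 561) (nat_lit 593) (nat_lit 4560) (.f (nat_lit 432) (nat_lit 529) (nat_lit 4528) (.f (nat_lit 495) (nat_lit 400) (nat_lit 5519) (.f (nat_lit 462) (nat_lit 463) (nat_lit 3534) (.f (nat_lit 494) (nat_lit 461) (nat_lit 3533) (.d (nat_lit 465) (nat_lit 466) (nat_lit 2510) (nat_lit 493) (nat_lit 2509)))))))))))) (.p (nat_lit 495) (.a (.f (nat_lit 463) (nat_lit 431) (nat_lit 4527) (.d (nat_lit 498) (nat_lit 462) (nat_lit 3534) (nat_lit 499) (nat_lit 1519))) (.a (.f (nat_lit 592) (nat_lit 624) (nat_lit 7663) (.f (nat_lit 498) (nat_lit 499) (nat_lit 1519) (.f (nat_lit 530) (nat_lit 531) (nat_lit 495) (.f (nat_lit 529) (nat_lit 494) (nat_lit 3566) (.f (nat_lit 593) (nat_lit 625) (nat_lit 4592) (.d (nat_lit 466) (nat_lit 467) (nat_lit 2511) (nat_lit 561) (nat_lit 6609))))))) (.d (nat_lit 463) (nat_lit 431) (nat_lit 4527) (nat_lit 592) (nat_lit 7631))))))))) (.p (nat_lit 560) (.a (.f (nat_lit 592) (nat_lit 465) (nat_lit 6608) (.d (nat_lit 495) (nat_lit 463) (nat_lit 7631) (nat_lit 624) (nat_lit 7663))) (.a (.f (nat_lit 592) (nat_lit 465) (nat_lit 6608) (.f (nat_lit 593) (nat_lit 625) (nat_lit 4592) (.f (nat_lit 561) (nat_lit 464) (nat_lit 4560) (.f (nat_lit 562) (nat_lit 563) (nat_lit 3599) (.d (nat_lit 591) (nat_lit 590) (nat_lit 2606) (nat_lit 623) (nat_lit 5615)))))) (.a (.p (nat_lit 464) (.a (.f (nat_lit 465) (nat_lit 433) (nat_lit 6576) (.f (nat_lit 463) (nat_lit 431) (nat_lit 7599) (.d (nat_lit 462) (nat_lit 461) (nat_lit 461) (nat_lit 498) (nat_lit 462)))) (.a (.f (nat_lit 465) (nat_lit 433) (nat_lit 6576) (.f (nat_lit 561) (nat_lit 593) (nat_lit 4560) (.f (nat_lit 432) (nat_lit 529) (nat_lit 4528) (.d (nat_lit 400) (nat_lit 368) (nat_lit 4464) (nat_lit 495) (nat_lit 5519))))) (.f (nat_lit 463) (nat_lit 431) (nat_lit 7599) (.f (nat_lit 498) (nat_lit 499) (nat_lit 1519) (.d (nat_lit 462) (nat_lit 461) (nat_lit 461) (nat_lit 495) (nat_lit 3534))))))) (.p (nat_lit 495) (.a (.f (nat_lit 463) (nat_lit 431) (nat_lit 4527) (.d (nat_lit 498) (nat_lit 462) (nat_lit 3534) (nat_lit 499) (nat_lit 1519))) (.a (.f (nat_lit 498) (nat_lit 499) (nat_lit 1519) (.f (nat_lit 530) (nat_lit 531) (nat_lit 495) (.f (nat_lit 494) (nat_lit 529) (nat_lit 3566) (.f (nat_lit 493) (nat_lit 492) (nat_lit 492) (.d (nat_lit 461) (nat_lit 460) (nat_lit 3532) (nat_lit 462) (nat_lit 3533)))))) (.d (nat_lit 463) (nat_lit 431) (nat_lit 4527) (nat_lit 592) (nat_lit 7631)))))))))))))))))))))) (.a (.p (nat_lit 560) (.a (.p (nat_lit 464) (.a (.d (nat_lit 559) (nat_lit 432) (nat_lit 5551) (nat_lit 591) (nat_lit 5583)) (.f (nat_lit 463) (nat_lit 431) (nat_lit 7599) (.f (nat_lit 495) (nat_lit 592) (nat_lit 7631) (.f (nat_lit 465) (nat_lit 433) (nat_lit 6576) (.d (nat_lit 466) (nat_lit 467) (nat_lit 1487) (nat_lit 494) (nat_lit 1486))))))) (.a s27460 (.a (.p (nat_lit 464) (.a (.d (nat_lit 559) (nat_lit 432) (nat_lit 5551) (nat_lit 591) (nat_lit 5583)) (.a (.f (nat_lit 433) (nat_lit 465) (nat_lit 6576) (.f (nat_lit 432) (nat_lit 401) (nat_lit 6544) (.d (nat_lit 431) (nat_lit 399) (nat_lit 7567) (nat_lit 463) (nat_lit 7599)))) (.f (nat_lit 465) (nat_lit 433) (nat_lit 6576) (.f (nat_lit 497) (nat_lit 592) (nat_lit 6608) (.f (nat_lit 463) (nat_lit 431) (nat_lit 7599) (.d (nat_lit 462) (nat_lit 461) (nat_lit 461) (nat_lit 498) (nat_lit 462)))))))) (.a s27473 (.a s27475 (.a (.p (nat_lit 464) (.a (.d (nat_lit 559) (nat_lit 432) (nat_lit 5551) (nat_lit 591) (nat_lit 5583)) (.f (nat_lit 465) (nat_lit 433) (nat_lit 6576) (.f (nat_lit 592) (nat_lit 497) (nat_lit 6608) (.d (nat_lit 593) (nat_lit 561) (nat_lit 4560) (nat_lit 625) (nat_lit 4592)))))) (.p (nat_lit 464) (.a (.d (nat_lit 559) (nat_lit 432) (nat_lit 5551) (nat_lit 591) (nat_lit 5583)) (.f (nat_lit 463) (nat_lit 431) (nat_lit 7599) (.f (nat_lit 592) (nat_lit 495) (nat_lit 7631) (.d (nat_lit 593) (nat_lit 561) (nat_lit 4560) (nat_lit 625) (nat_lit 4592))))))))))))) (.a (.p (nat_lit 495) (.a s27479 (.a s27505 (.a s27517 (.a s27519 (.a s27520 (.a s27538 s27540))))))) (.a (.p (nat_lit 464) (.a (.f (nat_lit 432) (nat_lit 559) (nat_lit 5551) (.f (nat_lit 433) (nat_lit 401) (nat_lit 6544) (.f (nat_lit 431) (nat_lit 399) (nat_lit 7567) (.d (nat_lit 560) (nat_lit 463) (nat_lit 7599) (nat_lit 465) (nat_lit 6576))))) (.a (.p (nat_lit 560) (.a (.f (nat_lit 433) (nat_lit 465) (nat_lit 6576) (.f (nat_lit 432) (nat_lit 401) (nat_lit 6544) (.d (nat_lit 431) (nat_lit 399) (nat_lit 7567) (nat_lit 463) (nat_lit 7599)))) (.a (.f (nat_lit 561) (nat_lit 593) (nat_lit 4560) (.f (nat_lit 432) (nat_lit 529) (nat_lit 4528) (.d (nat_lit 433) (nat_lit 401) (nat_lit 6544) (nat_lit 465) (nat_lit 6576)))) (.a (.f (nat_lit 465) (nat_lit 433) (nat_lit 6576) (.f (nat_lit 497) (nat_lit 592) (nat_lit 6608) (.f (nat_lit 463) (nat_lit 431) (nat_lit 7599) (.d (nat_lit 462) (nat_lit 461) (nat_lit 461) (nat_lit 498) (nat_lit 462))))) (.f (nat_lit 561) (nat_lit 593) (nat_lit 4560) (.f (nat_lit 432) (nat_lit 529) (nat_lit 4528) (.d (nat_lit 431) (nat_lit 399) (nat_lit 7567) (nat_lit 463) (nat_lit 7599)))))))) (.a (.f (nat_lit 432) (nat_lit 559) (nat_lit 5551) (.f (nat_lit 529) (nat_lit 561) (nat_lit 4528) (.f (nat_lit 400) (nat_lit 497) (nat_lit 4496) (.d (nat_lit 399) (nat_lit 367) (nat_lit 7535) (nat_lit 431) (nat_lit 7567))))) (.a (.p (nat_lit 560) (.a (.f (nat_lit 465) (nat_lit 433) (nat_lit 6576) (.f (nat_lit 497) (nat_lit 592) (nat_lit 6608) (.f (nat_lit 463) (nat_lit 431) (nat_lit 7599) (.d (nat_lit 462) (nat_lit 461) (nat_lit 461) (nat_lit 498) (nat_lit 462))))) (.f (nat_lit 559) (nat_lit 591) (nat_lit 5583) (.f (nat_lit 561) (nat_lit 593) (nat_lit 4560) (.f (nat_lit 562) (nat_lit 563) (nat_lit 3599) (.f (nat_lit 530) (nat_lit 531) (nat_lit 2575) (.f (nat_lit 558) (nat_lit 529) (nat_lit 1550) (.f (nat_lit 557) (nat_lit 556) (nat_lit 2572) (.d (nat_lit 589) (nat_lit 588) (nat_lit 1580) (nat_lit 590) (nat_lit 1581)))))))))) (.f (nat_lit 432) (nat_lit 559) (nat_lit 5551) (.f (nat_lit 433) (nat_lit 401) (nat_lit 6544) (.f (nat_lit 529) (nat_lit 561) (nat_lit 4528) (.f (nat_lit 497) (nat_lit 400) (nat_lit 4496) (.f (nat_lit 465) (nat_lit 560) (nat_lit 5552) (.f (nat_lit 434) (nat_lit 402) (nat_lit 6545) (.d (nat_lit 435) (nat_lit 436) (nat_lit 1456) (nat_lit 463) (nat_lit 1455))))))))))))) (.a (.p (nat_lit 495) (.a s27479 (.a s27505 (.a s27560 (.a s27519 (.a s27520 (.a s27538 s27540))))))) (.a (.p (nat_lit 560) (.a (.p (nat_lit 464) (.a (.d (nat_lit 559) (nat_lit 432) (nat_lit 5551) (nat_lit 591) (nat_lit 5583)) (.f (nat_lit 463) (nat_lit 431) (nat_lit 7599) (.f (nat_lit 495) (nat_lit 592) (nat_lit 7631) (.f (nat_lit 465) (nat_lit 433) (nat_lit 6576) (.d (nat_lit 466) (nat_lit 467) (nat_lit 1487) (nat_lit 494) (nat_lit 1486))))))) (.a s27281 (.a (.p (nat_lit 464) (.a (.d (nat_lit 559) (nat_lit 432) (nat_lit 5551) (nat_lit 591) (nat_lit 5583)) (.a (.f (nat_lit 433) (nat_lit 465) (nat_lit 6576) (.f (nat_lit 432) (nat_lit 401) (nat_lit 6544) (.d (nat_lit 431) (nat_lit 399) (nat_lit 7567) (nat_lit 463) (nat_lit 7599)))) (.f (nat_lit 465) (nat_lit 433) (nat_lit 6576) (.f (nat_lit 497) (nat_lit 592) (nat_lit 6608) (.f (nat_lit 463) (nat_lit 431) (nat_lit 7599) (.d (nat_lit 462) (nat_lit 461) (nat_lit 461) (nat_lit 498) (nat_lit 462)))))))) (.a s27473 (.a s13834 (.a (.p (nat_lit 464) (.a (.d (nat_lit 559) (nat_lit 432) (nat_lit 5551) (nat_lit 591) (nat_lit 5583)) (.a (.f (nat_lit 561) (nat_lit 593) (nat_lit 4560) (.f (nat_lit 432) (nat_lit 529) (nat_lit 4528) (.d (nat_lit 433) (nat_lit 401) (nat_lit 6544) (nat_lit 465) (nat_lit 6576)))) (.f (nat_lit 559) (nat_lit 591) (nat_lit 5583) (.f (nat_lit 465) (nat_lit 433) (nat_lit 6576) (.f (nat_lit 592) (nat_lit 497) (nat_lit 6608) (.d (nat_lit 624) (nat_lit 495) (nat_lit 7663) (nat_lit 656) (nat_lit 7695)))))))) (.p (nat_lit 464) (.a (.d (nat_lit 559) (nat_lit 432) (nat_lit 5551) (nat_lit 591) (nat_lit 5583)) (.f (nat_lit 463) (nat_lit 431) (nat_lit 7599) (.f (nat_lit 592) (nat_lit 495) (nat_lit 7631) (.d (nat_lit 593) (nat_lit 561) (nat_lit 4560) (nat_lit 625) (nat_lit 4592))))))))))))) (.a (.p (nat_lit 529) (.a (.p (nat_lit 559) (.a (.f (nat_lit 464) (nat_lit 432) (nat_lit 5551) (.d (nat_lit 591) (nat_lit 560) (nat_lit 5583) (nat_lit 623) (nat_lit 6639))) (.f (nat_lit 530) (nat_lit 558) (nat_lit 1550) (.f (nat_lit 499) (nat_lit 498) (nat_lit 2543) (.f (nat_lit 531) (nat_lit 500) (nat_lit 2544) (.d (nat_lit 563) (nat_lit 562) (nat_lit 527) (nat_lit 564) (nat_lit 528))))))) (.a (.p (nat_lit 560) (.a (.p (nat_lit 495) (.a (.d (nat_lit 463) (nat_lit 431) (nat_lit 4527) (nat_lit 592) (nat_lit 7631)) (.d (nat_lit 494) (nat_lit 493) (nat_lit 493) (nat_lit 530) (nat_lit 3566)))) (.a s27575 (.a s27583 s27594)))) (.a (.p (nat_lit 559) (.a (.f (nat_lit 530) (nat_lit 558) (nat_lit 1550) (.f (nat_lit 499) (nat_lit 498) (nat_lit 2543) (.f (nat_lit 531) (nat_lit 500) (nat_lit 2544) (.d (nat_lit 563) (nat_lit 562) (nat_lit 527) (nat_lit 564) (nat_lit 528))))) (.f (nat_lit 464) (nat_lit 432) (nat_lit 5551) (.d (nat_lit 591) (nat_lit 495) (nat_lit 6607) (nat_lit 623) (nat_lit 6639))))) (.a s27605 (.a s27617 (.a (.p (nat_lit 560) (.a (.p (nat_lit 495) (.a (.d (nat_lit 463) (nat_lit 431) (nat_lit 4527) (nat_lit 592) (nat_lit 7631)) (.d (nat_lit 494) (nat_lit 493) (nat_lit 493) (nat_lit 530) (nat_lit 3566)))) (.a (.p (nat_lit 464) (.a (.f (nat_lit 433) (nat_lit 465) (nat_lit 6576) (.f (nat_lit 432) (nat_lit 401) (nat_lit 6544) (.d (nat_lit 431) (nat_lit 399) (nat_lit 7567) (nat_lit 463) (nat_lit 7599)))) (.a (.f (nat_lit 433) (nat_lit 465) (nat_lit 6576) (.f (nat_lit 432) (nat_lit 401) (nat_lit 6544) (.f (nat_lit 399) (nat_lit 431) (nat_lit 7567) (.d (nat_lit 400) (nat_lit 367) (nat_lit 7535) (nat_lit 497) (nat_lit 4496))))) (.a (.f (nat_lit 465) (nat_lit 433) (nat_lit 6576) (.f (nat_lit 497) (nat_lit 592) (nat_lit 6608) (.f (nat_lit 498) (nat_lit 499) (nat_lit 1519) (.d (nat_lit 463) (nat_lit 431) (nat_lit 7599) (nat_lit 462) (nat_lit 462))))) (.a (.f (nat_lit 431) (nat_lit 463) (nat_lit 7599) (.f (nat_lit 432) (nat_lit 399) (nat_lit 7567) (.f (nat_lit 400) (nat_lit 497) (nat_lit 4496) (.d (nat_lit 401) (nat_lit 369) (nat_lit 6512) (nat_lit 433) (nat_lit 6544))))) (.f (nat_lit 559) (nat_lit 432) (nat_lit 5551) (.d (nat_lit 530) (nat_lit 531) (nat_lit 1551) (nat_lit 558) (nat_lit 1550)))))))) (.a s27583 (.a s27603 s27594))))) (.p (nat_lit 559) (.a (.f (nat_lit 464) (nat_lit 432) (nat_lit 5551) (.d (nat_lit 591) (nat_lit 560) (nat_lit 5583) (nat_lit 623) (nat_lit 6639))) (.a (.f (nat_lit 464) (nat_lit 432) (nat_lit 5551) (.d (nat_lit 591) (nat_lit 495) (nat_lit 6607) (nat_lit 623) (nat_lit 6639))) (.f (nat_lit 530) (nat_lit 558) (nat_lit 1550) (.d (nat_lit 495) (nat_lit 494) (nat_lit 3566) (nat_lit 531) (nat_lit 3567))))))))))))) (.a (.p (nat_lit 495) (.a (.p (nat_lit 529) (.a (.d (nat_lit 494) (nat_lit 493) (nat_lit 493) (nat_lit 530) (nat_lit 3566)) (.a (.p (nat_lit 497) (.a (.f (nat_lit 498) (nat_lit 499) (nat_lit 1519) (.f (nat_lit 466) (nat_lit 467) (nat_lit 2511) (.d (nat_lit 494) (nat_lit 465) (nat_lit 2510) (nat_lit 493) (nat_lit 493)))) (.a (.f (nat_lit 498) (nat_lit 499) (nat_lit 1519) (.f (nat_lit 463) (nat_lit 462) (nat_lit 3534) (.d (nat_lit 431) (nat_lit 399) (nat_lit 4495) (nat_lit 560) (nat_lit 4527)))) (.f (nat_lit 494) (nat_lit 493) (nat_lit 493) (.f (nat_lit 465) (nat_lit 466) (nat_lit 2510) (.d (nat_lit 433) (nat_lit 401) (nat_lit 5520) (nat_lit 560) (nat_lit 5552))))))) (.p (nat_lit 560) (.a (.d (nat_lit 463) (nat_lit 431) (nat_lit 4527) (nat_lit 592) (nat_lit 7631)) (.a (.f (nat_lit 463) (nat_lit 431) (nat_lit 4527) (.f (nat_lit 530) (nat_lit 531) (nat_lit 3567) (.f (nat_lit 498) (nat_lit 499) (nat_lit 2543) (.f (nat_lit 497) (nat_lit 462) (nat_lit 3534) (.f (nat_lit 433) (nat_lit 465) (nat_lit 5552) (.f (nat_lit 466) (nat_lit 467) (nat_lit 2511) (.d (nat_lit 434) (nat_lit 401) (nat_lit 7569) (nat_lit 402) (nat_lit 5521)))))))) (.f (nat_lit 592) (nat_lit 624) (nat_lit 7663) (.f (nat_lit 497) (nat_lit 465) (nat_lit 6608) (.f (nat_lit 498) (nat_lit 499) (nat_lit 1519) (.f (nat_lit 530) (nat_lit 531) (nat_lit 3567) (.f (nat_lit 466) (nat_lit 467) (nat_lit 2511) (.d (nat_lit 434) (nat_lit 402) (nat_lit 5521) (nat_lit 561) (nat_lit 5553))))))))))))) (.a (.p (nat_lit 560) (.a (.d (nat_lit 463) (nat_lit 431) (nat_lit 4527) (nat_lit 592) (nat_lit 7631)) (.a s27464 (.f (nat_lit 592) (nat_lit 624) (nat_lit 7663) (.f (nat_lit 591) (nat_lit 623) (nat_lit 5615) (.f (nat_lit 497) (nat_lit 465) (nat_lit 6608) (.f (nat_lit 498) (nat_lit 499) (nat_lit 1519) (.f (nat_lit 593) (nat_lit 625) (nat_lit 4592) (.f (nat_lit 466) (nat_lit 467) (nat_lit 2511) (.f (nat_lit 530) (nat_lit 531) (nat_lit 495) (.f (nat_lit 561) (nat_lit 562) (nat_lit 5585) (.f (nat_lit 590) (nat_lit 589) (nat_lit 2605) (.d (nat_lit 622) (nat_lit 559) (nat_lit 5614) (nat_lit 621) (nat_lit 1613)))))))))))))) (.a s27517 (.a s27560 (.a (.p (nat_lit 560) (.a (.d (nat_lit 463) (nat_lit 431) (nat_lit 4527) (nat_lit 592) (nat_lit 7631)) (.a s27464 (.f (nat_lit 592) (nat_lit 624) (nat_lit 7663) (.f (nat_lit 497) (nat_lit 465) (nat_lit 6608) (.f (nat_lit 591) (nat_lit 623) (nat_lit 5615) (.f (nat_lit 593) (nat_lit 625) (nat_lit 4592) (.f (nat_lit 498) (nat_lit 499) (nat_lit 1519) (.f (nat_lit 466) (nat_lit 467) (nat_lit 2511) (.f (nat_lit 561) (nat_lit 529) (nat_lit 6609) (.d (nat_lit 562) (nat_lit 563) (nat_lit 1583) (nat_lit 590) (nat_lit 2606)))))))))))) (.a (.p (nat_lit 529) (.a (.d (nat_lit 494) (nat_lit 493) (nat_lit 493) (nat_lit 530) (nat_lit 3566)) (.a (.p (nat_lit 497) (.a (.f (nat_lit 498) (nat_lit 499) (nat_lit 1519) (.f (nat_lit 466) (nat_lit 467) (nat_lit 2511) (.d (nat_lit 494) (nat_lit 465) (nat_lit 2510) (nat_lit 493) (nat_lit 493)))) (.a (.f (nat_lit 498) (nat_lit 499) (nat_lit 1519) (.f (nat_lit 463) (nat_lit 462) (nat_lit 3534) (.d (nat_lit 431) (nat_lit 399) (nat_lit 4495) (nat_lit 560) (nat_lit 4527)))) (.f (nat_lit 494) (nat_lit 493) (nat_lit 493) (.f (nat_lit 465) (nat_lit 466) (nat_lit 2510) (.d (nat_lit 433) (nat_lit 401) (nat_lit 5520) (nat_lit 560) (nat_lit 5552))))))) (.f (nat_lit 530) (nat_lit 531) (nat_lit 3567) (.f (nat_lit 559) (nat_lit 558) (nat_lit 1550) (.f (nat_lit 591) (nat_lit 623) (nat_lit 6639) (.f (nat_lit 592) (nat_lit 624) (nat_lit 4591) (.f (nat_lit 463) (nat_lit 560) (nat_lit 7631) (.f (nat_lit 498) (nat_lit 499) (nat_lit 2543) (.d (nat_lit 462) (nat_lit 430) (nat_lit 7598) (nat_lit 497) (nat_lit 3534))))))))))) (.a (.p (nat_lit 559) (.a (.f (nat_lit 591) (nat_lit 623) (nat_lit 6639) (.f (nat_lit 590) (nat_lit 622) (nat_lit 5614) (.f (nat_lit 463) (nat_lit 558) (nat_lit 5582) (.f (nat_lit 431) (nat_lit 399) (nat_lit 4495) (.d (nat_lit 430) (nat_lit 398) (nat_lit 7566) (nat_lit 462) (nat_lit 7598)))))) (.a (.f (nat_lit 591) (nat_lit 623) (nat_lit 6639) (.f (nat_lit 592) (nat_lit 624) (nat_lit 4591) (.f (nat_lit 560) (nat_lit 463) (nat_lit 7631) (.f (nat_lit 590) (nat_lit 622) (nat_lit 5614) (.d (nat_lit 561) (nat_lit 562) (nat_lit 1582) (nat_lit 589) (nat_lit 2605)))))) (.a s27644 (.a (.p (nat_lit 560) (.a (.f (nat_lit 592) (nat_lit 624) (nat_lit 7663) (.f (nat_lit 497) (nat_lit 465) (nat_lit 6608) (.f (nat_lit 498) (nat_lit 499) (nat_lit 1519) (.f (nat_lit 530) (nat_lit 531) (nat_lit 495) (.f (nat_lit 558) (nat_lit 529) (nat_lit 1550) (.d (nat_lit 557) (nat_lit 556) (nat_lit 2572) (nat_lit 593) (nat_lit 557))))))) (.a (.d (nat_lit 463) (nat_lit 431) (nat_lit 4527) (nat_lit 592) (nat_lit 7631)) (.f (nat_lit 463) (nat_lit 431) (nat_lit 4527) (.f (nat_lit 558) (nat_lit 590) (nat_lit 5582) (.d (nat_lit 529) (nat_lit 530) (nat_lit 1550) (nat_lit 557) (nat_lit 2573))))))) (.f (nat_lit 591) (nat_lit 623) (nat_lit 6639) (.f (nat_lit 592) (nat_lit 624) (nat_lit 4591) (.f (nat_lit 560) (nat_lit 463) (nat_lit 7631) (.f (nat_lit 497) (nat_lit 465) (nat_lit 6608) (.f (nat_lit 498) (nat_lit 499) (nat_lit 1519) (.f (nat_lit 530) (nat_lit 531) (nat_lit 495) (.f (nat_lit 558) (nat_lit 529) (nat_lit 1550) (.d (nat_lit 557) (nat_lit 556) (nat_lit 556) (nat_lit 593) (nat_lit 557)))))))))))))) (.a (.p (nat_lit 560) (.a (.d (nat_lit 463) (nat_lit 431) (nat_lit 4527) (nat_lit 592) (nat_lit 7631)) (.a (.p (nat_lit 559) (.a (.f (nat_lit 591) (nat_lit 623) (nat_lit 6639) (.f (nat_lit 590) (nat_lit 622) (nat_lit 5614) (.f (nat_lit 561) (nat_lit 562) (nat_lit 1582) (.d (nat_lit 589) (nat_lit 558) (nat_lit 1581) (nat_lit 588) (nat_lit 2604))))) (.a (.f (nat_lit 463) (nat_lit 431) (nat_lit 4527) (.f (nat_lit 462) (nat_lit 430) (nat_lit 7598) (.d (nat_lit 591) (nat_lit 494) (nat_lit 7630) (nat_lit 623) (nat_lit 6639)))) (.f (nat_lit 463) (nat_lit 431) (nat_lit 4527) (.f (nat_lit 558) (nat_lit 590) (nat_lit 5582) (.d (nat_lit 529) (nat_lit 530) (nat_lit 1550) (nat_lit 557) (nat_lit 2573))))))) (.p (nat_lit 529) (.a (.d (nat_lit 494) (nat_lit 493) (nat_lit 493) (nat_lit 530) (nat_lit 3566)) (.a (.f (nat_lit 592) (nat_lit 624) (nat_lit 7663) (.f (nat_lit 591) (nat_lit 623) (nat_lit 5615) (.f (nat_lit 593) (nat_lit 625) (nat_lit 4592) (.f (nat_lit 494) (nat_lit 493) (nat_lit 493) (.f (nat_lit 559) (nat_lit 462) (nat_lit 7630) (.f (nat_lit 558) (nat_lit 557) (nat_lit 2573) (.f (nat_lit 590) (nat_lit 622) (nat_lit 5614) (.d (nat_lit 561) (nat_lit 562) (nat_lit 2606) (nat_lit 589) (nat_lit 1581))))))))) (.f (nat_lit 530) (nat_lit 531) (nat_lit 3567) (.f (nat_lit 559) (nat_lit 558) (nat_lit 1550) (.f (nat_lit 591) (nat_lit 623) (nat_lit 6639) (.f (nat_lit 592) (nat_lit 624) (nat_lit 7663) (.f (nat_lit 590) (nat_lit 622) (nat_lit 5614) (.d (nat_lit 561) (nat_lit 562) (nat_lit 1582) (nat_lit 589) (nat_lit 2605))))))))))))) (.a (.p (nat_lit 494) (.a (.f (nat_lit 493) (nat_lit 492) (nat_lit 492) (.f (nat_lit 461) (nat_lit 460) (nat_lit 3532) (.f (nat_lit 497) (nat_lit 462) (nat_lit 3533) (.f (nat_lit 498) (nat_lit 499) (nat_lit 1519) (.d (nat_lit 466) (nat_lit 465) (nat_lit 2510) (nat_lit 467) (nat_lit 2511)))))) (.a (.d (nat_lit 493) (nat_lit 492) (nat_lit 492) (nat_lit 529) (nat_lit 493)) (.p (nat_lit 497) (.a (.f (nat_lit 498) (nat_lit 499) (nat_lit 1519) (.d (nat_lit 466) (nat_lit 465) (nat_lit 2510) (nat_lit 467) (nat_lit 2511))) (.a (.f (nat_lit 530) (nat_lit 529) (nat_lit 3566) (.d (nat_lit 498) (nat_lit 499) (nat_lit 1519) (nat_lit 531) (nat_lit 495))) (.f (nat_lit 529) (nat_lit 530) (nat_lit 3566) (.f (nat_lit 465) (nat_lit 466) (nat_lit 2510) (.d (nat_lit 433) (nat_lit 401) (nat_lit 5520) (nat_lit 560) (nat_lit 5552)))))))))) (.p (nat_lit 559) (.a (.f (nat_lit 591) (nat_lit 623) (nat_lit 6639) (.f (nat_lit 590) (nat_lit 622) (nat_lit 5614) (.f (nat_lit 558) (nat_lit 463) (nat_lit 5582) (.f (nat_lit 557) (nat_lit 556) (nat_lit 2572) (.d (nat_lit 592) (nat_lit 593) (nat_lit 3629) (nat_lit 624) (nat_lit 4591)))))) (.a (.f (nat_lit 591) (nat_lit 623) (nat_lit 6639) (.f (nat_lit 590) (nat_lit 622) (nat_lit 5614) (.f (nat_lit 558) (nat_lit 463) (nat_lit 5582) (.f (nat_lit 529) (nat_lit 530) (nat_lit 1550) (.d (nat_lit 557) (nat_lit 556) (nat_lit 2572) (nat_lit 560) (nat_lit 2573)))))) (.a (.f (nat_lit 591) (nat_lit 623) (nat_lit 6639) (.f (nat_lit 592) (nat_lit 624) (nat_lit 4591) (.f (nat_lit 560) (nat_lit 463) (nat_lit 7631) (.f (nat_lit 590) (nat_lit 622) (nat_lit 5614) (.d (nat_lit 561) (nat_lit 562) (nat_lit 1582) (nat_lit 589) (nat_lit 2605)))))) (.a s27644 (.a (.p (nat_lit 560) (.a (.f (nat_lit 592) (nat_lit 624) (nat_lit 7663) (.f (nat_lit 497) (nat_lit 465) (nat_lit 6608) (.f (nat_lit 498) (nat_lit 499) (nat_lit 1519) (.f (nat_lit 530) (nat_lit 531) (nat_lit 495) (.f (nat_lit 558) (nat_lit 529) (nat_lit 1550) (.d (nat_lit 557) (nat_lit 556) (nat_lit 2572) (nat_lit 593) (nat_lit 557))))))) (.a (.d (nat_lit 463) (nat_lit 431) (nat_lit 4527) (nat_lit 592) (nat_lit 7631)) (.f (nat_lit 463) (nat_lit 431) (nat_lit 4527) (.f (nat_lit 558) (nat_lit 590) (nat_lit 5582) (.d (nat_lit 529) (nat_lit 530) (nat_lit 1550) (nat_lit 557) (nat_lit 2573))))))) (.f (nat_lit 591) (nat_lit 623) (nat_lit 6639) (.f (nat_lit 592) (nat_lit 624) (nat_lit 4591) (.f (nat_lit 560) (nat_lit 463) (nat_lit 7631) (.f (nat_lit 497) (nat_lit 465) (nat_lit 6608) (.f (nat_lit 498) (nat_lit 499) (nat_lit 1519) (.f (nat_lit 530) (nat_lit 531) (nat_lit 495) (.f (nat_lit 558) (nat_lit 529) (nat_lit 1550) (.d (nat_lit 557) (nat_lit 556) (nat_lit 556) (nat_lit 593) (nat_lit 557))))))))))))))))))))))))) (.a (.p (nat_lit 464) (.a (.f (nat_lit 432) (nat_lit 559) (nat_lit 5551) (.f (nat_lit 400) (nat_lit 495) (nat_lit 5519) (.d (nat_lit 399) (nat_lit 367) (nat_lit 7535) (nat_lit 431) (nat_lit 7567)))) (.a (.p (nat_lit 560) (.a (.f (nat_lit 463) (nat_lit 431) (nat_lit 7599) (.f (nat_lit 495) (nat_lit 592) (nat_lit 7631) (.f (nat_lit 465) (nat_lit 433) (nat_lit 6576) (.d (nat_lit 466) (nat_lit 467) (nat_lit 1487) (nat_lit 494) (nat_lit 1486))))) (.a (.f (nat_lit 433) (nat_lit 465) (nat_lit 6576) (.f (nat_lit 432) (nat_lit 401) (nat_lit 6544) (.d (nat_lit 431) (nat_lit 399) (nat_lit 7567) (nat_lit 463) (nat_lit 7599)))) (.a (.f (nat_lit 561) (nat_lit 593) (nat_lit 4560) (.f (nat_lit 432) (nat_lit 529) (nat_lit 4528) (.d (nat_lit 433) (nat_lit 401) (nat_lit 6544) (nat_lit 465) (nat_lit 6576)))) (.f (nat_lit 463) (nat_lit 431) (nat_lit 7599) (.f (nat_lit 592) (nat_lit 495) (nat_lit 7631) (.d (nat_lit 593) (nat_lit 561) (nat_lit 4560) (nat_lit 625) (nat_lit 4592)))))))) (.a (.f (nat_lit 432) (nat_lit 559) (nat_lit 5551) (.f (nat_lit 433) (nat_lit 401) (nat_lit 6544) (.f (nat_lit 431) (nat_lit 399) (nat_lit 7567) (.d (nat_lit 560) (nat_lit 463) (nat_lit 7599) (nat_lit 465) (nat_lit 6576))))) (.a (.p (nat_lit 560) (.a (.f (nat_lit 463) (nat_lit 431) (nat_lit 7599) (.f (nat_lit 495) (nat_lit 592) (nat_lit 7631) (.f (nat_lit 465) (nat_lit 433) (nat_lit 6576) (.d (nat_lit 466) (nat_lit 467) (nat_lit 1487) (nat_lit 494) (nat_lit 1486))))) (.f (nat_lit 559) (nat_lit 591) (nat_lit 5583) (.f (nat_lit 561) (nat_lit 593) (nat_lit 4560) (.f (nat_lit 562) (nat_lit 563) (nat_lit 3599) (.f (nat_lit 530) (nat_lit 531) (nat_lit 2575) (.f (nat_lit 558) (nat_lit 529) (nat_lit 1550) (.f (nat_lit 557) (nat_lit 556) (nat_lit 2572) (.d (nat_lit 589) (nat_lit 588) (nat_lit 1580) (nat_lit 590) (nat_lit 1581)))))))))) (.f (nat_lit 432) (nat_lit 559) (nat_lit 5551) (.f (nat_lit 400) (nat_lit 495) (nat_lit 5519) (.d (nat_lit 401) (nat_lit 369) (nat_lit 6512) (nat_lit 433) (nat_lit 6544))))))))) (.a (.p (nat_lit 464) (.a (.f (nat_lit 432) (nat_lit 559) (nat_lit 5551) (.f (nat_lit 400) (nat_lit 495) (nat_lit 5519) (.d (nat_lit 399) (nat_lit 367) (nat_lit 7535) (nat_lit 431) (nat_lit 7567)))) (.a (.p (nat_lit 560) (.a (.f (nat_lit 561) (nat_lit 593) (nat_lit 4560) (.f (nat_lit 432) (nat_lit 529) (nat_lit 4528) (.d (nat_lit 433) (nat_lit 401) (nat_lit 6544) (nat_lit 465) (nat_lit 6576)))) (.a (.f (nat_lit 465) (nat_lit 433) (nat_lit 6576) (.f (nat_lit 592) (nat_lit 497) (nat_lit 6608) (.d (nat_lit 593) (nat_lit 561) (nat_lit 4560) (nat_lit 625) (nat_lit 4592)))) (.a (.f (nat_lit 465) (nat_lit 433) (nat_lit 6576) (.f (nat_lit 592) (nat_lit 497) (nat_lit 6608) (.f (nat_lit 624) (nat_lit 495) (nat_lit 7663) (.d (nat_lit 623) (nat_lit 591) (nat_lit 5615) (nat_lit 655) (nat_lit 5647))))) (.f (nat_lit 561) (nat_lit 593) (nat_lit 4560) (.f (nat_lit 432) (nat_lit 529) (nat_lit 4528) (.f (nat_lit 400) (nat_lit 495) (nat_lit 5519) (.d (nat_lit 399) (nat_lit 367) (nat_lit 7535) (nat_lit 431) (nat_lit 7567))))))))) (.a (.f (nat_lit 432) (nat_lit 559) (nat_lit 5551) (.f (nat_lit 529) (nat_lit 561) (nat_lit 4528) (.f (nat_lit 400) (nat_lit 497) (nat_lit 4496) (.d (nat_lit 399) (nat_lit 367) (nat_lit 7535) (nat_lit 431) (nat_lit 7567))))) (.p (nat_lit 560) (.a (.f (nat_lit 559) (nat_lit 591) (nat_lit 5583) (.f (nat_lit 465) (nat_lit 433) (nat_lit 6576) (.f (nat_lit 592) (nat_lit 497) (nat_lit 6608) (.d (nat_lit 624) (nat_lit 495) (nat_lit 7663) (nat_lit 656) (nat_lit 7695))))) (.a (.f (nat_lit 465) (nat_lit 433) (nat_lit 6576) (.f (nat_lit 592) (nat_lit 497) (nat_lit 6608) (.d (nat_lit 593) (nat_lit 561) (nat_lit 4560) (nat_lit 625) (nat_lit 4592)))) (.f (nat_lit 559) (nat_lit 591) (nat_lit 5583) (.f (nat_lit 561) (nat_lit 593) (nat_lit 4560) (.f (nat_lit 562) (nat_lit 563) (nat_lit 3599) (.f (nat_lit 530) (nat_lit 531) (nat_lit 2575) (.f (nat_lit 558) (nat_lit 529) (nat_lit 1550) (.f (nat_lit 557) (nat_lit 556) (nat_lit 2572) (.d (nat_lit 589) (nat_lit 588) (nat_lit 1580) (nat_lit 590) (nat_lit 1581))))))))))))))) (.a (.p (nat_lit 560) (.a s27281 (.a s27460 (.a (.p (nat_lit 464) (.a (.f (nat_lit 433) (nat_lit 465) (nat_lit 6576) (.f (nat_lit 432) (nat_lit 401) (nat_lit 6544) (.d (nat_lit 431) (nat_lit 399) (nat_lit 7567) (nat_lit 463) (nat_lit 7599)))) (.a (.f (nat_lit 561) (nat_lit 593) (nat_lit 4560) (.f (nat_lit 432) (nat_lit 529) (nat_lit 4528) (.d (nat_lit 433) (nat_lit 401) (nat_lit 6544) (nat_lit 465) (nat_lit 6576)))) (.a (.f (nat_lit 465) (nat_lit 433) (nat_lit 6576) (.f (nat_lit 497) (nat_lit 592) (nat_lit 6608) (.f (nat_lit 463) (nat_lit 431) (nat_lit 7599) (.d (nat_lit 462) (nat_lit 461) (nat_lit 461) (nat_lit 498) (nat_lit 462))))) (.f (nat_lit 561) (nat_lit 593) (nat_lit 4560) (.f (nat_lit 432) (nat_lit 529) (nat_lit 4528) (.d (nat_lit 431) (nat_lit 399) (nat_lit 7567) (nat_lit 463) (nat_lit 7599)))))))) (.a (.p (nat_lit 464) (.a (.f (nat_lit 433) (nat_lit 465) (nat_lit 6576) (.f (nat_lit 432) (nat_lit 401) (nat_lit 6544) (.d (nat_lit 431) (nat_lit 399) (nat_lit 7567) (nat_lit 463) (nat_lit 7599)))) (.a (.f (nat_lit 561) (nat_lit 593) (nat_lit 4560) (.f (nat_lit 432) (nat_lit 529) (nat_lit 4528) (.d (nat_lit 433) (nat_lit 401) (nat_lit 6544) (nat_lit 465) (nat_lit 6576)))) (.a (.p (nat_lit 498) (.a (.f (nat_lit 497) (nat_lit 499) (nat_lit 1519) (.f (nat_lit 465) (nat_lit 433) (nat_lit 6576) (.d (nat_lit 463) (nat_lit 431) (nat_lit 7599) (nat_lit 462) (nat_lit 462)))) (.a (.f (nat_lit 463) (nat_lit 431) (nat_lit 7599) (.f (nat_lit 465) (nat_lit 433) (nat_lit 6576) (.f (nat_lit 466) (nat_lit 499) (nat_lit 463) (.d (nat_lit 495) (nat_lit 467) (nat_lit 1487) (nat_lit 494) (nat_lit 1486))))) (.a (.f (nat_lit 499) (nat_lit 497) (nat_lit 1519) (.f (nat_lit 530) (nat_lit 529) (nat_lit 2543) (.f (nat_lit 465) (nat_lit 433) (nat_lit 6576) (.f (nat_lit 561) (nat_lit 593) (nat_lit 4560) (.f (nat_lit 562) (nat_lit 563) (nat_lit 3599) (.f (nat_lit 531) (nat_lit 559) (nat_lit 2575) (.f (nat_lit 467) (nat_lit 435) (nat_lit 5554) (.d (nat_lit 466) (nat_lit 495) (nat_lit 1487) (nat_lit 500) (nat_lit 464))))))))) (.a (.f (nat_lit 497) (nat_lit 499) (nat_lit 1519) (.f (nat_lit 463) (nat_lit 431) (nat_lit 7599) (.d (nat_lit 462) (nat_lit 461) (nat_lit 461) (nat_lit 495) (nat_lit 3534)))) (.f (nat_lit 463) (nat_lit 431) (nat_lit 7599) (.f (nat_lit 465) (nat_lit 433) (nat_lit 6576) (.f (nat_lit 462) (nat_lit 497) (nat_lit 462) (.f (nat_lit 494) (nat_lit 493) (nat_lit 1485) (.f (nat_lit 495) (nat_lit 466) (nat_lit 1486) (.d (nat_lit 430) (nat_lit 398) (nat_lit 4494) (nat_lit 429) (nat_lit 3501)))))))))))) (.f (nat_lit 561) (nat_lit 593) (nat_lit 4560) (.f (nat_lit 432) (nat_lit 529) (nat_lit 4528) (.d (nat_lit 431) (nat_lit 399) (nat_lit 7567) (nat_lit 463) (nat_lit 7599)))))))) (.a s27707 (.a s27708 (.a (.p (nat_lit 464) (.a (.f (nat_lit 561) (nat_lit 593) (nat_lit 4560) (.f (nat_lit 432) (nat_lit 529) (nat_lit 4528) (.d (nat_lit 433) (nat_lit 401) (nat_lit 6544) (nat_lit 465) (nat_lit 6576)))) (.a (.f (nat_lit 465) (nat_lit 433) (nat_lit 6576) (.f (nat_lit 592) (nat_lit 497) (nat_lit 6608) (.d (nat_lit 593) (nat_lit 561) (nat_lit 4560) (nat_lit 625) (nat_lit 4592)))) (.a (.f (nat_lit 432) (nat_lit 559) (nat_lit 5551) (.d (nat_lit 433) (nat_lit 401) (nat_lit 6544) (nat_lit 465) (nat_lit 6576))) (.f (nat_lit 561) (nat_lit 593) (nat_lit 4560) (.f (nat_lit 432) (nat_lit 529) (nat_lit 4528) (.f (nat_lit 400) (nat_lit 495) (nat_lit 5519) (.d (nat_lit 399) (nat_lit 367) (nat_lit 7535) (nat_lit 431) (nat_lit 7567))))))))) (.p (nat_lit 464) (.a (.f (nat_lit 463) (nat_lit 431) (nat_lit 7599) (.f (nat_lit 592) (nat_lit 495) (nat_lit 7631) (.d (nat_lit 593) (nat_lit 561) (nat_lit 4560) (nat_lit 625) (nat_lit 4592)))) (.a (.f (nat_lit 561) (nat_lit 593) (nat_lit 4560) (.f (nat_lit 432) (nat_lit 529) (nat_lit 4528) (.d (nat_lit 431) (nat_lit 399) (nat_lit 7567) (nat_lit 463) (nat_lit 7599)))) (.a (.f (nat_lit 432) (nat_lit 559) (nat_lit 5551) (.d (nat_lit 431) (nat_lit 399) (nat_lit 7567) (nat_lit 463) (nat_lit 7599))) (.a (.f (nat_lit 561) (nat_lit 593) (nat_lit 4560) (.f (nat_lit 432) (nat_lit 529) (nat_lit 4528) (.f (nat_lit 400) (nat_lit 495) (nat_lit 5519) (.d (nat_lit 399) (nat_lit 367) (nat_lit 7535) (nat_lit 431) (nat_lit 7567))))) (.f (nat_lit 432) (nat_lit 559) (nat_lit 5551) (.d (nat_lit 561) (nat_lit 529) (nat_lit 4528) (nat_lit 593) (nat_lit 4560)))))))))))))))) (.a (.p (nat_lit 464) (.a (.f (nat_lit 432) (nat_lit 559) (nat_lit 5551) (.f (nat_lit 400) (nat_lit 495) (nat_lit 5519) (.d (nat_lit 399) (nat_lit 367) (nat_lit 7535) (nat_lit 431) (nat_lit 7567)))) (.a (.p (nat_lit 560) (.a (.f (nat_lit 463) (nat_lit 431) (nat_lit 7599) (.f (nat_lit 592) (nat_lit 495) (nat_lit 7631) (.d (nat_lit 593) (nat_lit 561) (nat_lit 4560) (nat_lit 625) (nat_lit 4592)))) (.a (.f (nat_lit 561) (nat_lit 593) (nat_lit 4560) (.f (nat_lit 432) (nat_lit 529) (nat_lit 4528) (.d (nat_lit 431) (nat_lit 399) (nat_lit 7567) (nat_lit 463) (nat_lit 7599)))) (.a (.f (nat_lit 463) (nat_lit 431) (nat_lit 7599) (.f (nat_lit 592) (nat_lit 495) (nat_lit 7631) (.f (nat_lit 623) (nat_lit 591) (nat_lit 5615) (.f (nat_lit 624) (nat_lit 655) (nat_lit 5647) (.d (nat_lit 625) (nat_lit 593) (nat_lit 4592) (nat_lit 657) (nat_lit 4624)))))) (.a (.f (nat_lit 561) (nat_lit 593) (nat_lit 4560) (.f (nat_lit 432) (nat_lit 529) (nat_lit 4528) (.f (nat_lit 400) (nat_lit 495) (nat_lit 5519) (.d (nat_lit 399) (nat_lit 367) (nat_lit 7535) (nat_lit 431) (nat_lit 7567))))) (.a (.f (nat_lit 561) (nat_lit 593) (nat_lit 4560) (.f (nat_lit 432) (nat_lit 529) (nat_lit 4528) (.f (nat_lit 400) (nat_lit 495) (nat_lit 5519) (.d (nat_lit 401) (nat_lit 369) (nat_lit 6512) (nat_lit 433) (nat_lit 6544))))) (.f (nat_lit 463) (nat_lit 431) (nat_lit 7599) (.f (nat_lit 495) (nat_lit 592) (nat_lit 7631) (.f (nat_lit 432) (nat_lit 400) (nat_lit 5519) (.f (nat_lit 529) (nat_lit 561) (nat_lit 4528) (.d (nat_lit 494) (nat_lit 493) (nat_lit 493) (nat_lit 530) (nat_lit 3566)))))))))))) (.a (.f (nat_lit 432) (nat_lit 559) (nat_lit 5551) (.f (nat_lit 529) (nat_lit 561) (nat_lit 4528) (.f (nat_lit 400) (nat_lit 497) (nat_lit 4496) (.d (nat_lit 399) (nat_lit 367) (nat_lit 7535) (nat_lit 431) (nat_lit 7567))))) (.a (.p (nat_lit 560) (.a (.f (nat_lit 463) (nat_lit 431) (nat_lit 7599) (.f (nat_lit 592) (nat_lit 495) (nat_lit 7631) (.d (nat_lit 593) (nat_lit 561) (nat_lit 4560) (nat_lit 625) (nat_lit 4592)))) (.a (.f (nat_lit 559) (nat_lit 591) (nat_lit 5583) (.f (nat_lit 561) (nat_lit 593) (nat_lit 4560) (.f (nat_lit 562) (nat_lit 563) (nat_lit 3599) (.f (nat_lit 530) (nat_lit 531) (nat_lit 2575) (.f (nat_lit 558) (nat_lit 529) (nat_lit 1550) (.f (nat_lit 557) (nat_lit 556) (nat_lit 2572) (.d (nat_lit 589) (nat_lit 588) (nat_lit 1580) (nat_lit 590) (nat_lit 1581)))))))) (.a (.f (nat_lit 463) (nat_lit 431) (nat_lit 7599) (.f (nat_lit 592) (nat_lit 495) (nat_lit 7631) (.f (nat_lit 623) (nat_lit 591) (nat_lit 5615) (.f (nat_lit 624) (nat_lit 655) (nat_lit 5647) (.d (nat_lit 625) (nat_lit 593) (nat_lit 4592) (nat_lit 657) (nat_lit 4624)))))) (.f (nat_lit 559) (nat_lit 591) (nat_lit 5583) (.f (nat_lit 463) (nat_lit 431) (nat_lit 7599) (.f (nat_lit 495) (nat_lit 592) (nat_lit 7631) (.f (nat_lit 462) (nat_lit 430) (nat_lit 7598) (.d (nat_lit 461) (nat_lit 460) (nat_lit 460) (nat_lit 497) (nat_lit 461)))))))))) (.f (nat_lit 432) (nat_lit 559) (nat_lit 5551) (.f (nat_lit 400) (nat_lit 495) (nat_lit 5519) (.d (nat_lit 401) (nat_lit 369) (nat_lit 6512) (nat_lit 433) (nat_lit 6544))))))))) (.a (.p (nat_lit 560) (.a s27297 (.a s27475 (.a (.p (nat_lit 464) (.a (.d (nat_lit 559) (nat_lit 432) (nat_lit 5551) (nat_lit 591) (nat_lit 5583)) (.f (nat_lit 465) (nat_lit 433) (nat_lit 6576) (.f (nat_lit 592) (nat_lit 497) (nat_lit 6608) (.d (nat_lit 593) (nat_lit 561) (nat_lit 4560) (nat_lit 625) (nat_lit 4592)))))) (.a (.p (nat_lit 464) (.a (.d (nat_lit 559) (nat_lit 432) (nat_lit 5551) (nat_lit 591) (nat_lit 5583)) (.a (.f (nat_lit 561) (nat_lit 593) (nat_lit 4560) (.f (nat_lit 432) (nat_lit 529) (nat_lit 4528) (.d (nat_lit 433) (nat_lit 401) (nat_lit 6544) (nat_lit 465) (nat_lit 6576)))) (.f (nat_lit 559) (nat_lit 591) (nat_lit 5583) (.f (nat_lit 561) (nat_lit 593) (nat_lit 4560) (.f (nat_lit 562) (nat_lit 563) (nat_lit 3599) (.f (nat_lit 530) (nat_lit 531) (nat_lit 2575) (.f (nat_lit 558) (nat_lit 529) (nat_lit 1550) (.f (nat_lit 557) (nat_lit 556) (nat_lit 2572) (.d (nat_lit 589) (nat_lit 588) (nat_lit 1580) (nat_lit 590) (nat_lit 1581))))))))))) (.a (.p (nat_lit 464) (.a (.d (nat_lit 559) (nat_lit 432) (nat_lit 5551) (nat_lit 591) (nat_lit 5583)) (.a (.f (nat_lit 465) (nat_lit 433) (nat_lit 6576) (.f (nat_lit 592) (nat_lit 497) (nat_lit 6608) (.f (nat_lit 624) (nat_lit 495) (nat_lit 7663) (.d (nat_lit 623) (nat_lit 591) (nat_lit 5615) (nat_lit 655) (nat_lit 5647))))) (.f (nat_lit 432) (nat_lit 559) (nat_lit 5551) (.d (nat_lit 433) (nat_lit 401) (nat_lit 6544) (nat_lit 465) (nat_lit 6576)))))) (.a s27708 (.p (nat_lit 464) (.a (.d (nat_lit 559) (nat_lit 432) (nat_lit 5551) (nat_lit 591) (nat_lit 5583)) (.a (.f (nat_lit 561) (nat_lit 593) (nat_lit 4560) (.f (nat_lit 432) (nat_lit 529) (nat_lit 4528) (.f (nat_lit 400) (nat_lit 495) (nat_lit 5519) (.d (nat_lit 401) (nat_lit 369) (nat_lit 6512) (nat_lit 433) (nat_lit 6544))))) (.f (nat_lit 559) (nat_lit 591) (nat_lit 5583) (.f (nat_lit 561) (nat_lit 593) (nat_lit 4560) (.f (nat_lit 562) (nat_lit 563) (nat_lit 3599) (.f (nat_lit 530) (nat_lit 531) (nat_lit 2575) (.f (nat_lit 558) (nat_lit 529) (nat_lit 1550) (.f (nat_lit 557) (nat_lit 556) (nat_lit 2572) (.d (nat_lit 589) (nat_lit 588) (nat_lit 1580) (nat_lit 590) (nat_lit 1581)))))))))))))))))) (.a (.p (nat_lit 529) (.a (.p (nat_lit 495) (.a (.d (nat_lit 494) (nat_lit 493) (nat_lit 493) (nat_lit 530) (nat_lit 3566)) (.a s27482 s27504))) (.a (.p (nat_lit 559) (.a (.f (nat_lit 464) (nat_lit 432) (nat_lit 5551) (.d (nat_lit 591) (nat_lit 560) (nat_lit 5583) (nat_lit 623) (nat_lit 6639))) (.f (nat_lit 530) (nat_lit 558) (nat_lit 1550) (.f (nat_lit 499) (nat_lit 498) (nat_lit 2543) (.f (nat_lit 531) (nat_lit 500) (nat_lit 2544) (.f (nat_lit 532) (nat_lit 497) (nat_lit 3568) (.d (nat_lit 564) (nat_lit 563) (nat_lit 528) (nat_lit 565) (nat_lit 529)))))))) (.a s27605 (.a (.p (nat_lit 530) (.a (.f (nat_lit 499) (nat_lit 498) (nat_lit 2543) (.f (nat_lit 531) (nat_lit 500) (nat_lit 2544) (.f (nat_lit 532) (nat_lit 497) (nat_lit 3568) (.d (nat_lit 564) (nat_lit 563) (nat_lit 528) (nat_lit 565) (nat_lit 529))))) (.a (.d (nat_lit 495) (nat_lit 494) (nat_lit 3566) (nat_lit 531) (nat_lit 3567)) (.f (nat_lit 495) (nat_lit 494) (nat_lit 3566) (.f (nat_lit 559) (nat_lit 558) (nat_lit 1550) (.f (nat_lit 591) (nat_lit 623) (nat_lit 6639) (.f (nat_lit 592) (nat_lit 624) (nat_lit 4591) (.f (nat_lit 463) (nat_lit 560) (nat_lit 7631) (.f (nat_lit 498) (nat_lit 499) (nat_lit 2543) (.d (nat_lit 462) (nat_lit 430) (nat_lit 7598) (nat_lit 497) (nat_lit 3534))))))))))) (.p (nat_lit 559) (.a (.f (nat_lit 464) (nat_lit 432) (nat_lit 5551) (.d (nat_lit 591) (nat_lit 560) (nat_lit 5583) (nat_lit 623) (nat_lit 6639))) (.a (.f (nat_lit 464) (nat_lit 432) (nat_lit 5551) (.d (nat_lit 591) (nat_lit 495) (nat_lit 6607) (nat_lit 623) (nat_lit 6639))) (.f (nat_lit 530) (nat_lit 558) (nat_lit 1550) (.d (nat_lit 495) (nat_lit 494) (nat_lit 3566) (nat_lit 531) (nat_lit 3567))))))))))) (.a (.p (nat_lit 560) (.a (.p (nat_lit 464) (.a (.d (nat_lit 559) (nat_lit 432) (nat_lit 5551) (nat_lit 591) (nat_lit 5583)) (.f (nat_lit 463) (nat_lit 431) (nat_lit 7599) (.f (nat_lit 592) (nat_lit 495) (nat_lit 7631) (.d (nat_lit 593) (nat_lit 561) (nat_lit 4560) (nat_lit 625) (nat_lit 4592)))))) (.a s27297 (.a s14066 (.a (.p (nat_lit 464) (.a (.d (nat_lit 559) (nat_lit 432) (nat_lit 5551) (nat_lit 591) (nat_lit 5583)) (.a (.f (nat_lit 463) (nat_lit 431) (nat_lit 7599) (.f (nat_lit 592) (nat_lit 495) (nat_lit 7631) (.f (nat_lit 623) (nat_lit 591) (nat_lit 5615) (.f (nat_lit 624) (nat_lit 655) (nat_lit 5647) (.d (nat_lit 625) (nat_lit 593) (nat_lit 4592) (nat_lit 657) (nat_lit 4624)))))) (.f (nat_lit 432) (nat_lit 559) (nat_lit 5551) (.d (nat_lit 431) (nat_lit 399) (nat_lit 7567) (nat_lit 463) (nat_lit 7599)))))) (.a s14073 (.a s27708 (.p (nat_lit 464) (.a (.d (nat_lit 559) (nat_lit 432) (nat_lit 5551) (nat_lit 591) (nat_lit 5583)) (.a (.f (nat_lit 463) (nat_lit 431) (nat_lit 7599) (.f (nat_lit 495) (nat_lit 592) (nat_lit 7631) (.f (nat_lit 432) (nat_lit 400) (nat_lit 5519) (.f (nat_lit 529) (nat_lit 561) (nat_lit 4528) (.d (nat_lit 494) (nat_lit 493) (nat_lit 493) (nat_lit 530) (nat_lit 3566)))))) (.f (nat_lit 559) (nat_lit 591) (nat_lit 5583) (.f (nat_lit 463) (nat_lit 431) (nat_lit 7599) (.f (nat_lit 495) (nat_lit 592) (nat_lit 7631) (.f (nat_lit 462) (nat_lit 430) (nat_lit 7598) (.d (nat_lit 461) (nat_lit 460) (nat_lit 460) (nat_lit 497) (nat_lit 461)))))))))))))))) (.p (nat_lit 529) (.a (.p (nat_lit 559) (.a (.f (nat_lit 464) (nat_lit 432) (nat_lit 5551) (.d (nat_lit 591) (nat_lit 560) (nat_lit 5583) (nat_lit 623) (nat_lit 6639))) (.f (nat_lit 530) (nat_lit 558) (nat_lit 1550) (.f (nat_lit 499) (nat_lit 498) (nat_lit 2543) (.f (nat_lit 531) (nat_lit 500) (nat_lit 2544) (.d (nat_lit 563) (nat_lit 562) (nat_lit 527) (nat_lit 564) (nat_lit 528))))))) (.a (.p (nat_lit 560) (.a (.p (nat_lit 530) (.a (.d (nat_lit 495) (nat_lit 494) (nat_lit 3566) (nat_lit 531) (nat_lit 3567)) (.a (.f (nat_lit 499) (nat_lit 498) (nat_lit 2543) (.f (nat_lit 531) (nat_lit 500) (nat_lit 2544) (.d (nat_lit 532) (nat_lit 497) (nat_lit 3568) (nat_lit 561) (nat_lit 1552)))) (.f (nat_lit 495) (nat_lit 494) (nat_lit 3566) (.f (nat_lit 463) (nat_lit 431) (nat_lit 4527) (.f (nat_lit 498) (nat_lit 499) (nat_lit 2543) (.f (nat_lit 497) (nat_lit 462) (nat_lit 3534) (.f (nat_lit 466) (nat_lit 467) (nat_lit 2511) (.d (nat_lit 434) (nat_lit 402) (nat_lit 5521) (nat_lit 561) (nat_lit 5553)))))))))) (.a s27740 (.a (.p (nat_lit 495) (.a (.d (nat_lit 463) (nat_lit 431) (nat_lit 4527) (nat_lit 592) (nat_lit 7631)) (.d (nat_lit 494) (nat_lit 493) (nat_lit 493) (nat_lit 530) (nat_lit 3566)))) s27594)))) (.a (.p (nat_lit 559) (.a (.f (nat_lit 530) (nat_lit 558) (nat_lit 1550) (.f (nat_lit 499) (nat_lit 498) (nat_lit 2543) (.f (nat_lit 531) (nat_lit 500) (nat_lit 2544) (.d (nat_lit 563) (nat_lit 562) (nat_lit 527) (nat_lit 564) (nat_lit 528))))) (.f (nat_lit 464) (nat_lit 432) (nat_lit 5551) (.d (nat_lit 591) (nat_lit 495) (nat_lit 6607) (nat_lit 623) (nat_lit 6639))))) (.a (.p (nat_lit 560) (.a (.p (nat_lit 464) (.a (.f (nat_lit 433) (nat_lit 465) (nat_lit 6576) (.f (nat_lit 432) (nat_lit 401) (nat_lit 6544) (.d (nat_lit 431) (nat_lit 399) (nat_lit 7567) (nat_lit 463) (nat_lit 7599)))) (.a (.d (nat_lit 559) (nat_lit 432) (nat_lit 5551) (nat_lit 591) (nat_lit 5583)) (.f (nat_lit 465) (nat_lit 433) (nat_lit 6576) (.f (nat_lit 497) (nat_lit 592) (nat_lit 6608) (.f (nat_lit 498) (nat_lit 499) (nat_lit 1519) (.d (nat_lit 463) (nat_lit 431) (nat_lit 7599) (nat_lit 462) (nat_lit 462)))))))) (.a s27740 (.a (.p (nat_lit 464) (.a (.f (nat_lit 433) (nat_lit 465) (nat_lit 6576) (.f (nat_lit 432) (nat_lit 401) (nat_lit 6544) (.d (nat_lit 431) (nat_lit 399) (nat_lit 7567) (nat_lit 463) (nat_lit 7599)))) (.a (.d (nat_lit 559) (nat_lit 432) (nat_lit 5551) (nat_lit 591) (nat_lit 5583)) (.f (nat_lit 559) (nat_lit 591) (nat_lit 5583) (.f (nat_lit 463) (nat_lit 431) (nat_lit 7599) (.f (nat_lit 465) (nat_lit 433) (nat_lit 6576) (.f (nat_lit 558) (nat_lit 557) (nat_lit 2573) (.f (nat_lit 495) (nat_lit 590) (nat_lit 5582) (.d (nat_lit 466) (nat_lit 467) (nat_lit 1487) (nat_lit 494) (nat_lit 1486)))))))))) (.a (.p (nat_lit 592) (.a (.d (nat_lit 497) (nat_lit 465) (nat_lit 6608) (nat_lit 624) (nat_lit 6640)) (.a (.d (nat_lit 495) (nat_lit 463) (nat_lit 7631) (nat_lit 624) (nat_lit 7663)) (.f (nat_lit 495) (nat_lit 463) (nat_lit 7631) (.f (nat_lit 497) (nat_lit 465) (nat_lit 6608) (.f (nat_lit 494) (nat_lit 493) (nat_lit 493) (.f (nat_lit 591) (nat_lit 623) (nat_lit 5615) (.d (nat_lit 462) (nat_lit 461) (nat_lit 3533) (nat_lit 559) (nat_lit 7630))))))))) (.a (.p (nat_lit 464) (.a (.d (nat_lit 559) (nat_lit 432) (nat_lit 5551) (nat_lit 591) (nat_lit 5583)) (.a (.f (nat_lit 433) (nat_lit 465) (nat_lit 6576) (.f (nat_lit 432) (nat_lit 401) (nat_lit 6544) (.f (nat_lit 399) (nat_lit 431) (nat_lit 7567) (.d (nat_lit 400) (nat_lit 367) (nat_lit 7535) (nat_lit 497) (nat_lit 4496))))) (.f (nat_lit 559) (nat_lit 591) (nat_lit 5583) (.f (nat_lit 465) (nat_lit 433) (nat_lit 6576) (.f (nat_lit 592) (nat_lit 497) (nat_lit 6608) (.d (nat_lit 624) (nat_lit 495) (nat_lit 7663) (nat_lit 656) (nat_lit 7695)))))))) (.p (nat_lit 464) (.a (.d (nat_lit 559) (nat_lit 432) (nat_lit 5551) (nat_lit 591) (nat_lit 5583)) (.a (.f (nat_lit 431) (nat_lit 463) (nat_lit 7599) (.f (nat_lit 432) (nat_lit 399) (nat_lit 7567) (.f (nat_lit 400) (nat_lit 497) (nat_lit 4496) (.d (nat_lit 401) (nat_lit 369) (nat_lit 6512) (nat_lit 433) (nat_lit 6544))))) (.f (nat_lit 559) (nat_lit 591) (nat_lit 5583) (.f (nat_lit 463) (nat_lit 431) (nat_lit 7599) (.f (nat_lit 495) (nat_lit 592) (nat_lit 7631) (.d (nat_lit 558) (nat_lit 557) (nat_lit 2573) (nat_lit 590) (nat_lit 5582)))))))))))))) (.a s27617 (.p (nat_lit 559) (.a (.f (nat_lit 464) (nat_lit 432) (nat_lit 5551) (.d (nat_lit 591) (nat_lit 560) (nat_lit 5583) (nat_lit 623) (nat_lit 6639))) (.a (.f (nat_lit 464) (nat_lit 432) (nat_lit 5551) (.d (nat_lit 591) (nat_lit 495) (nat_lit 6607) (nat_lit 623) (nat_lit 6639))) (.f (nat_lit 530) (nat_lit 558) (nat_lit 1550) (.d (nat_lit 495) (nat_lit 494) (nat_lit 3566) (nat_lit 531) (nat_lit 3567))))))))))))))))))))))))))))) (.a (.p (nat_lit 526) (.a (.p (nat_lit 529) (.a (.f (nat_lit 494) (nat_lit 493) (nat_lit 3565) (.f (nat_lit 558) (nat_lit 557) (nat_lit 1549) (.d (nat_lit 530) (nat_lit 495) (nat_lit 3566) (nat_lit 559) (nat_lit 1550)))) (.a (.f (nat_lit 497) (nat_lit 498) (nat_lit 2542) (.f (nat_lit 525) (nat_lit 496) (nat_lit 2541) (.d (nat_lit 493) (nat_lit 492) (nat_lit 3564) (nat_lit 494) (nat_lit 3565)))) (.f (nat_lit 497) (nat_lit 498) (nat_lit 2542) (.f (nat_lit 525) (nat_lit 496) (nat_lit 2541) (.d (nat_lit 557) (nat_lit 556) (nat_lit 1548) (nat_lit 558) (nat_lit 1549))))))) (.a s26229 (.a s26230 (.a s27118 (.a s27091 (.a s26280 (.a s26281 s27092)))))))) (.a (.p (nat_lit 526) (.a s26263 (.a s26425 (.a s26461 (.a s27083 (.a s27118 (.a (.p (nat_lit 529) (.a s26272 (.a s26428 (.a s26464 (.a s27090 (.a s27125 (.a s27212 (.a s27215 (.a s27216 (.a s27232 (.a s27244 s27251))))))))))) (.a (.p (nat_lit 525) (.a (.f (nat_lit 496) (nat_lit 497) (nat_lit 2541) (.f (nat_lit 560) (nat_lit 561) (nat_lit 525) (.d (nat_lit 524) (nat_lit 495) (nat_lit 2540) (nat_lit 559) (nat_lit 524)))) (.a (.f (nat_lit 560) (nat_lit 561) (nat_lit 525) (.f (nat_lit 524) (nat_lit 559) (nat_lit 524) (.d (nat_lit 492) (nat_lit 491) (nat_lit 3563) (nat_lit 493) (nat_lit 3564)))) (.a (.f (nat_lit 492) (nat_lit 493) (nat_lit 3564) (.f (nat_lit 524) (nat_lit 491) (nat_lit 3563) (.d (nat_lit 496) (nat_lit 495) (nat_lit 2540) (nat_lit 497) (nat_lit 2541)))) (.f (nat_lit 493) (nat_lit 492) (nat_lit 3564) (.f (nat_lit 557) (nat_lit 556) (nat_lit 1548) (.d (nat_lit 529) (nat_lit 494) (nat_lit 3565) (nat_lit 558) (nat_lit 1549)))))))) s27757)))))))) (.a (.p (nat_lit 526) (.a (.p (nat_lit 529) (.a (.f (nat_lit 494) (nat_lit 493) (nat_lit 3565) (.f (nat_lit 558) (nat_lit 557) (nat_lit 1549) (.d (nat_lit 530) (nat_lit 495) (nat_lit 3566) (nat_lit 559) (nat_lit 1550)))) (.a (.f (nat_lit 497) (nat_lit 498) (nat_lit 2542) (.f (nat_lit 525) (nat_lit 496) (nat_lit 2541) (.d (nat_lit 493) (nat_lit 492) (nat_lit 3564) (nat_lit 494) (nat_lit 3565)))) (.f (nat_lit 497) (nat_lit 498) (nat_lit 2542) (.f (nat_lit 525) (nat_lit 496) (nat_lit 2541) (.d (nat_lit 557) (nat_lit 556) (nat_lit 1548) (nat_lit 558) (nat_lit 1549))))))) (.a s26229 (.a s26230 (.a s27083 (.a (.p (nat_lit 529) (.a (.f (nat_lit 497) (nat_lit 498) (nat_lit 2542) (.f (nat_lit 525) (nat_lit 496) (nat_lit 2541) (.d (nat_lit 493) (nat_lit 492) (nat_lit 3564) (nat_lit 494) (nat_lit 3565)))) (.a (.f (nat_lit 493) (nat_lit 494) (nat_lit 3565) (.f (nat_lit 525) (nat_lit 492) (nat_lit 3564) (.d (nat_lit 557) (nat_lit 556) (nat_lit 1548) (nat_lit 558) (nat_lit 1549)))) (.f (nat_lit 558) (nat_lit 557) (nat_lit 1549) (.f (nat_lit 530) (nat_lit 559) (nat_lit 1550) (.d (nat_lit 498) (nat_lit 497) (nat_lit 2542) (nat_lit 499) (nat_lit 2543))))))) (.a s27759 (.a s27780 (.a s27799 (.a s27800 (.a s27806 (.a s27807 s27808)))))))))))) (.a (.p (nat_lit 526) (.a s26263 (.a (.p (nat_lit 529) (.a (.f (nat_lit 494) (nat_lit 493) (nat_lit 3565) (.f (nat_lit 530) (nat_lit 495) (nat_lit 3566) (.d (nat_lit 498) (nat_lit 497) (nat_lit 2542) (nat_lit 499) (nat_lit 2543)))) (.a (.f (nat_lit 561) (nat_lit 562) (nat_lit 526) (.f (nat_lit 497) (nat_lit 498) (nat_lit 2542) (.f (nat_lit 560) (nat_lit 525) (nat_lit 525) (.d (nat_lit 465) (nat_lit 433) (nat_lit 5552) (nat_lit 592) (nat_lit 5584))))) (.f (nat_lit 494) (nat_lit 493) (nat_lit 3565) (.f (nat_lit 530) (nat_lit 495) (nat_lit 3566) (.d (nat_lit 562) (nat_lit 561) (nat_lit 526) (nat_lit 563) (nat_lit 527))))))) (.a s27092 (.a s27118 (.a s27810 (.a s27780 (.a s27816 (.a s27830 (.p (nat_lit 529) (.a (.f (nat_lit 497) (nat_lit 498) (nat_lit 2542) (.f (nat_lit 525) (nat_lit 496) (nat_lit 2541) (.d (nat_lit 561) (nat_lit 560) (nat_lit 525) (nat_lit 562) (nat_lit 526)))) (.a (.f (nat_lit 561) (nat_lit 562) (nat_lit 526) (.f (nat_lit 497) (nat_lit 498) (nat_lit 2542) (.f (nat_lit 560) (nat_lit 525) (nat_lit 525) (.d (nat_lit 465) (nat_lit 433) (nat_lit 5552) (nat_lit 592) (nat_lit 5584))))) (.a (.f (nat_lit 498) (nat_lit 497) (nat_lit 2542) (.f (nat_lit 530) (nat_lit 499) (nat_lit 2543) (.d (nat_lit 562) (nat_lit 561) (nat_lit 526) (nat_lit 563) (nat_lit 527)))) (.a (.f (nat_lit 498) (nat_lit 497) (nat_lit 2542) (.f (nat_lit 530) (nat_lit 499) (nat_lit 2543) (.f (nat_lit 563) (nat_lit 562) (nat_lit 527) (.f (nat_lit 531) (nat_lit 564) (nat_lit 528) (.d (nat_lit 495) (nat_lit 494) (nat_lit 3566) (nat_lit 496) (nat_lit 3567)))))) (.a (.f (nat_lit 561) (nat_lit 562) (nat_lit 526) (.f (nat_lit 525) (nat_lit 560) (nat_lit 525) (.f (nat_lit 556) (nat_lit 557) (nat_lit 1548) (.f (nat_lit 524) (nat_lit 555) (nat_lit 1547) (.f (nat_lit 491) (nat_lit 492) (nat_lit 3563) (.f (nat_lit 523) (nat_lit 490) (nat_lit 3562) (.d (nat_lit 495) (nat_lit 494) (nat_lit 2539) (nat_lit 496) (nat_lit 2540)))))))) (.f (nat_lit 497) (nat_lit 498) (nat_lit 2542) (.f (nat_lit 525) (nat_lit 496) (nat_lit 2541) (.f (nat_lit 560) (nat_lit 561) (nat_lit 525) (.f (nat_lit 524) (nat_lit 559) (nat_lit 524) (.d (nat_lit 556) (nat_lit 555) (nat_lit 1547) (nat_lit 557) (nat_lit 1548))))))))))))))))))))) (.a (.p (nat_lit 526) (.a (.p (nat_lit 529) (.a (.f (nat_lit 494) (nat_lit 493) (nat_lit 3565) (.f (nat_lit 558) (nat_lit 557) (nat_lit 1549) (.d (nat_lit 530) (nat_lit 495) (nat_lit 3566) (nat_lit 559) (nat_lit 1550)))) (.a (.f (nat_lit 497) (nat_lit 498) (nat_lit 2542) (.f (nat_lit 525) (nat_lit 496) (nat_lit 2541) (.d (nat_lit 493) (nat_lit 492) (nat_lit 3564) (nat_lit 494) (nat_lit 3565)))) (.f (nat_lit 497) (nat_lit 498) (nat_lit 2542) (.f (nat_lit 525) (nat_lit 496) (nat_lit 2541) (.d (nat_lit 557) (nat_lit 556) (nat_lit 1548) (nat_lit 558) (nat_lit 1549))))))) (.a s26229 (.a s26230 (.a (.p (nat_lit 495) (.a (.p (nat_lit 560) (.a (.f (nat_lit 525) (nat_lit 561) (nat_lit 525) (.d (nat_lit 496) (nat_lit 497) (nat_lit 2541) (nat_lit 524) (nat_lit 2540))) (.a (.f (nat_lit 525) (nat_lit 561) (nat_lit 525) (.f (nat_lit 492) (nat_lit 493) (nat_lit 3564) (.f (nat_lit 524) (nat_lit 491) (nat_lit 3563) (.d (nat_lit 556) (nat_lit 555) (nat_lit 1547) (nat_lit 557) (nat_lit 1548))))) (.f (nat_lit 463) (nat_lit 431) (nat_lit 4527) (.d (nat_lit 592) (nat_lit 496) (nat_lit 7631) (nat_lit 624) (nat_lit 7663)))))) (.a (.p (nat_lit 560) (.a (.f (nat_lit 525) (nat_lit 561) (nat_lit 525) (.f (nat_lit 492) (nat_lit 493) (nat_lit 3564) (.f (nat_lit 524) (nat_lit 491) (nat_lit 3563) (.d (nat_lit 556) (nat_lit 555) (nat_lit 1547) (nat_lit 557) (nat_lit 1548))))) (.f (nat_lit 463) (nat_lit 431) (nat_lit 4527) (.d (nat_lit 592) (nat_lit 559) (nat_lit 4559) (nat_lit 624) (nat_lit 7663))))) (.a s26335 (.a (.p (nat_lit 559) (.a (.p (nat_lit 592) (.a (.d (nat_lit 560) (nat_lit 463) (nat_lit 4559) (nat_lit 624) (nat_lit 7663)) (.a (.f (nat_lit 591) (nat_lit 624) (nat_lit 4591) (.d (nat_lit 494) (nat_lit 462) (nat_lit 7630) (nat_lit 623) (nat_lit 7662))) (.f (nat_lit 463) (nat_lit 560) (nat_lit 4559) (.d (nat_lit 558) (nat_lit 431) (nat_lit 5550) (nat_lit 590) (nat_lit 5582)))))) (.a (.p (nat_lit 591) (.a (.d (nat_lit 494) (nat_lit 462) (nat_lit 7630) (nat_lit 623) (nat_lit 7662)) (.a (.f (nat_lit 622) (nat_lit 590) (nat_lit 5614) (.f (nat_lit 623) (nat_lit 654) (nat_lit 5646) (.d (nat_lit 624) (nat_lit 592) (nat_lit 4591) (nat_lit 656) (nat_lit 4623)))) (.f (nat_lit 494) (nat_lit 462) (nat_lit 7630) (.f (nat_lit 590) (nat_lit 622) (nat_lit 5614) (.f (nat_lit 592) (nat_lit 624) (nat_lit 4591) (.f (nat_lit 493) (nat_lit 492) (nat_lit 492) (.f (nat_lit 558) (nat_lit 461) (nat_lit 7629) (.d (nat_lit 557) (nat_lit 556) (nat_lit 556) (nat_lit 593) (nat_lit 3629)))))))))) (.a s1979 (.a (.p (nat_lit 592) (.a (.d (nat_lit 560) (nat_lit 463) (nat_lit 4559) (nat_lit 624) (nat_lit 7663)) (.a (.f (nat_lit 591) (nat_lit 624) (nat_lit 4591) (.d (nat_lit 494) (nat_lit 462) (nat_lit 7630) (nat_lit 623) (nat_lit 7662))) (.f (nat_lit 463) (nat_lit 560) (nat_lit 4559) (.f (nat_lit 462) (nat_lit 430) (nat_lit 7598) (.f (nat_lit 591) (nat_lit 494) (nat_lit 7630) (.f (nat_lit 622) (nat_lit 590) (nat_lit 5614) (.d (nat_lit 623) (nat_lit 496) (nat_lit 6639) (nat_lit 654) (nat_lit 5646))))))))) (.a (.p (nat_lit 592) (.a (.d (nat_lit 560) (nat_lit 463) (nat_lit 4559) (nat_lit 624) (nat_lit 7663)) (.a (.f (nat_lit 591) (nat_lit 624) (nat_lit 4591) (.f (nat_lit 590) (nat_lit 622) (nat_lit 5614) (.f (nat_lit 558) (nat_lit 463) (nat_lit 5582) (.d (nat_lit 557) (nat_lit 556) (nat_lit 556) (nat_lit 593) (nat_lit 3629))))) (.a (.f (nat_lit 463) (nat_lit 560) (nat_lit 4559) (.d (nat_lit 558) (nat_lit 431) (nat_lit 5550) (nat_lit 590) (nat_lit 5582))) (.d (nat_lit 624) (nat_lit 560) (nat_lit 7663) (nat_lit 591) (nat_lit 4591)))))) (.a (.p (nat_lit 463) (.a (.d (nat_lit 558) (nat_lit 431) (nat_lit 5550) (nat_lit 590) (nat_lit 5582)) (.a (.f (nat_lit 430) (nat_lit 462) (nat_lit 7598) (.f (nat_lit 431) (nat_lit 398) (nat_lit 7566) (.f (nat_lit 399) (nat_lit 494) (nat_lit 5518) (.d (nat_lit 400) (nat_lit 368) (nat_lit 6511) (nat_lit 432) (nat_lit 6543))))) (.f (nat_lit 558) (nat_lit 590) (nat_lit 5582) (.f (nat_lit 560) (nat_lit 592) (nat_lit 4559) (.f (nat_lit 557) (nat_lit 556) (nat_lit 2572) (.f (nat_lit 462) (nat_lit 430) (nat_lit 7598) (.d (nat_lit 589) (nat_lit 494) (nat_lit 5581) (nat_lit 588) (nat_lit 1580))))))))) (.p (nat_lit 592) (.a (.d (nat_lit 560) (nat_lit 463) (nat_lit 4559) (nat_lit 624) (nat_lit 7663)) (.a (.f (nat_lit 591) (nat_lit 624) (nat_lit 4591) (.d (nat_lit 494) (nat_lit 462) (nat_lit 7630) (nat_lit 623) (nat_lit 7662))) (.f (nat_lit 463) (nat_lit 560) (nat_lit 4559) (.f (nat_lit 431) (nat_lit 558) (nat_lit 5550) (.d (nat_lit 399) (nat_lit 494) (nat_lit 5518) (nat_lit 496) (nat_lit 4495)))))))))))))) (.a s26379 (.a (.p (nat_lit 560) (.a (.f (nat_lit 463) (nat_lit 431) (nat_lit 4527) (.d (nat_lit 592) (nat_lit 559) (nat_lit 4559) (nat_lit 624) (nat_lit 7663))) (.f (nat_lit 525) (nat_lit 561) (nat_lit 525) (.f (nat_lit 492) (nat_lit 493) (nat_lit 3564) (.f (nat_lit 524) (nat_lit 491) (nat_lit 3563) (.f (nat_lit 523) (nat_lit 494) (nat_lit 2539) (.d (nat_lit 555) (nat_lit 554) (nat_lit 1546) (nat_lit 556) (nat_lit 1547)))))))) (.a (.p (nat_lit 560) (.a (.f (nat_lit 463) (nat_lit 431) (nat_lit 4527) (.d (nat_lit 592) (nat_lit 559) (nat_lit 4559) (nat_lit 624) (nat_lit 7663))) (.f (nat_lit 525) (nat_lit 561) (nat_lit 525) (.f (nat_lit 556) (nat_lit 557) (nat_lit 1548) (.f (nat_lit 524) (nat_lit 555) (nat_lit 1547) (.f (nat_lit 491) (nat_lit 492) (nat_lit 3563) (.d (nat_lit 523) (nat_lit 490) (nat_lit 3562) (nat_lit 494) (nat_lit 2539)))))))) (.a s26406 s26424))))))))) (.a (.p (nat_lit 529) (.a (.f (nat_lit 497) (nat_lit 498) (nat_lit 2542) (.f (nat_lit 525) (nat_lit 496) (nat_lit 2541) (.d (nat_lit 493) (nat_lit 492) (nat_lit 3564) (nat_lit 494) (nat_lit 3565)))) (.a (.f (nat_lit 493) (nat_lit 494) (nat_lit 3565) (.f (nat_lit 525) (nat_lit 492) (nat_lit 3564) (.d (nat_lit 557) (nat_lit 556) (nat_lit 1548) (nat_lit 558) (nat_lit 1549)))) (.f (nat_lit 558) (nat_lit 557) (nat_lit 1549) (.f (nat_lit 530) (nat_lit 559) (nat_lit 1550) (.d (nat_lit 498) (nat_lit 497) (nat_lit 2542) (nat_lit 499) (nat_lit 2543))))))) (.a (.p (nat_lit 529) (.a (.f (nat_lit 494) (nat_lit 493) (nat_lit 3565) (.f (nat_lit 558) (nat_lit 557) (nat_lit 1549) (.d (nat_lit 530) (nat_lit 495) (nat_lit 3566) (nat_lit 559) (nat_lit 1550)))) (.a (.f (nat_lit 494) (nat_lit 493) (nat_lit 3565) (.f (nat_lit 495) (nat_lit 530) (nat_lit 3566) (.f (nat_lit 558) (nat_lit 557) (nat_lit 1549) (.d (nat_lit 463) (nat_lit 431) (nat_lit 5550) (nat_lit 590) (nat_lit 6606))))) (.a (.f (nat_lit 558) (nat_lit 557) (nat_lit 1549) (.f (nat_lit 530) (nat_lit 559) (nat_lit 1550) (.d (nat_lit 498) (nat_lit 497) (nat_lit 2542) (nat_lit 499) (nat_lit 2543)))) (.a s27216 (.f (nat_lit 494) (nat_lit 493) (nat_lit 3565) (.f (nat_lit 530) (nat_lit 495) (nat_lit 3566) (.d (nat_lit 498) (nat_lit 497) (nat_lit 2542) (nat_lit 499) (nat_lit 2543))))))))) (.a (.p (nat_lit 529) (.a (.f (nat_lit 494) (nat_lit 493) (nat_lit 3565) (.f (nat_lit 530) (nat_lit 495) (nat_lit 3566) (.d (nat_lit 498) (nat_lit 497) (nat_lit 2542) (nat_lit 499) (nat_lit 2543)))) (.a (.f (nat_lit 561) (nat_lit 562) (nat_lit 526) (.f (nat_lit 497) (nat_lit 498) (nat_lit 2542) (.f (nat_lit 560) (nat_lit 525) (nat_lit 525) (.d (nat_lit 465) (nat_lit 433) (nat_lit 5552) (nat_lit 592) (nat_lit 5584))))) (.f (nat_lit 494) (nat_lit 493) (nat_lit 3565) (.f (nat_lit 530) (nat_lit 495) (nat_lit 3566) (.d (nat_lit 562) (nat_lit 561) (nat_lit 526) (nat_lit 563) (nat_lit 527))))))) (.a s26280 s26281))))))))) (.a (.p (nat_lit 526) (.a s26280 (.a (.p (nat_lit 529) (.a (.f (nat_lit 558) (nat_lit 557) (nat_lit 1549) (.f (nat_lit 530) (nat_lit 559) (nat_lit 1550) (.d (nat_lit 498) (nat_lit 497) (nat_lit 2542) (nat_lit 499) (nat_lit 2543)))) (.a (.f (nat_lit 561) (nat_lit 562) (nat_lit 526) (.f (nat_lit 497) (nat_lit 498) (nat_lit 2542) (.f (nat_lit 560) (nat_lit 525) (nat_lit 525) (.d (nat_lit 465) (nat_lit 433) (nat_lit 5552) (nat_lit 592) (nat_lit 5584))))) (.f (nat_lit 558) (nat_lit 557) (nat_lit 1549) (.f (nat_lit 530) (nat_lit 559) (nat_lit 1550) (.d (nat_lit 562) (nat_lit 561) (nat_lit 526) (nat_lit 563) (nat_lit 527))))))) (.a s26461 (.a s27093 (.a s27838 (.a s27799 (.a s27816 (.a s27849 s27853))))))))) (.a (.p (nat_lit 526) (.a s26281 (.a s26469 (.a s26425 (.a (.p (nat_lit 529) (.a (.f (nat_lit 493) (nat_lit 494) (nat_lit 3565) (.f (nat_lit 525) (nat_lit 492) (nat_lit 3564) (.d (nat_lit 557) (nat_lit 556) (nat_lit 1548) (nat_lit 558) (nat_lit 1549)))) (.a (.f (nat_lit 558) (nat_lit 557) (nat_lit 1549) (.f (nat_lit 530) (nat_lit 559) (nat_lit 1550) (.d (nat_lit 562) (nat_lit 561) (nat_lit 526) (nat_lit 563) (nat_lit 527)))) (.f (nat_lit 561) (nat_lit 562) (nat_lit 526) (.f (nat_lit 525) (nat_lit 560) (nat_lit 525) (.d (nat_lit 493) (nat_lit 492) (nat_lit 3564) (nat_lit 494) (nat_lit 3565))))))) (.a s27855 (.a s27800 (.a s27830 (.a s27849 (.a s27856 (.a s27862 s27863))))))))))) (.a (.p (nat_lit 526) (.a (.p (nat_lit 529) (.a (.f (nat_lit 494) (nat_lit 493) (nat_lit 3565) (.f (nat_lit 558) (nat_lit 557) (nat_lit 1549) (.d (nat_lit 530) (nat_lit 495) (nat_lit 3566) (nat_lit 559) (nat_lit 1550)))) (.a (.f (nat_lit 497) (nat_lit 498) (nat_lit 2542) (.f (nat_lit 525) (nat_lit 496) (nat_lit 2541) (.d (nat_lit 493) (nat_lit 492) (nat_lit 3564) (nat_lit 494) (nat_lit 3565)))) (.f (nat_lit 497) (nat_lit 498) (nat_lit 2542) (.f (nat_lit 525) (nat_lit 496) (nat_lit 2541) (.d (nat_lit 557) (nat_lit 556) (nat_lit 1548) (nat_lit 558) (nat_lit 1549))))))) (.a s26229 (.a (.p (nat_lit 529) (.a (.f (nat_lit 494) (nat_lit 493) (nat_lit 3565) (.f (nat_lit 530) (nat_lit 495) (nat_lit 3566) (.d (nat_lit 498) (nat_lit 497) (nat_lit 2542) (nat_lit 499) (nat_lit 2543)))) (.a (.f (nat_lit 561) (nat_lit 562) (nat_lit 526) (.f (nat_lit 497) (nat_lit 498) (nat_lit 2542) (.f (nat_lit 560) (nat_lit 525) (nat_lit 525) (.d (nat_lit 465) (nat_lit 433) (nat_lit 5552) (nat_lit 592) (nat_lit 5584))))) (.f (nat_lit 494) (nat_lit 493) (nat_lit 3565) (.f (nat_lit 530) (nat_lit 495) (nat_lit 3566) (.d (nat_lit 562) (nat_lit 561) (nat_lit 526) (nat_lit 563) (nat_lit 527))))))) (.a (.p (nat_lit 560) (.a (.f (nat_lit 525) (nat_lit 561) (nat_lit 525) (.f (nat_lit 496) (nat_lit 497) (nat_lit 2541) (.d (nat_lit 524) (nat_lit 495) (nat_lit 2540) (nat_lit 559) (nat_lit 524)))) (.a (.f (nat_lit 525) (nat_lit 561) (nat_lit 525) (.f (nat_lit 524) (nat_lit 559) (nat_lit 524) (.d (nat_lit 492) (nat_lit 491) (nat_lit 3563) (nat_lit 493) (nat_lit 3564)))) (.a (.f (nat_lit 525) (nat_lit 561) (nat_lit 525) (.f (nat_lit 492) (nat_lit 493) (nat_lit 3564) (.f (nat_lit 524) (nat_lit 491) (nat_lit 3563) (.d (nat_lit 556) (nat_lit 555) (nat_lit 1547) (nat_lit 557) (nat_lit 1548))))) (.a (.p (nat_lit 496) (.a (.p (nat_lit 464) (.a (.d (nat_lit 559) (nat_lit 432) (nat_lit 5551) (nat_lit 591) (nat_lit 5583)) (.f (nat_lit 465) (nat_lit 433) (nat_lit 6576) (.f (nat_lit 592) (nat_lit 497) (nat_lit 6608) (.d (nat_lit 593) (nat_lit 561) (nat_lit 4560) (nat_lit 625) (nat_lit 4592)))))) (.a (.p (nat_lit 464) (.a (.f (nat_lit 465) (nat_lit 433) (nat_lit 6576) (.f (nat_lit 592) (nat_lit 497) (nat_lit 6608) (.d (nat_lit 593) (nat_lit 561) (nat_lit 4560) (nat_lit 625) (nat_lit 4592)))) (.a (.f (nat_lit 433) (nat_lit 465) (nat_lit 6576) (.f (nat_lit 432) (nat_lit 401) (nat_lit 6544) (.f (nat_lit 399) (nat_lit 431) (nat_lit 7567) (.d (nat_lit 400) (nat_lit 367) (nat_lit 7535) (nat_lit 495) (nat_lit 5519))))) (.f (nat_lit 593) (nat_lit 561) (nat_lit 4560) (.f (nat_lit 592) (nat_lit 625) (nat_lit 4592) (.f (nat_lit 624) (nat_lit 495) (nat_lit 7663) (.d (nat_lit 623) (nat_lit 591) (nat_lit 5615) (nat_lit 655) (nat_lit 5647)))))))) (.a (.p (nat_lit 464) (.a (.d (nat_lit 559) (nat_lit 432) (nat_lit 5551) (nat_lit 591) (nat_lit 5583)) (.a (.f (nat_lit 433) (nat_lit 465) (nat_lit 6576) (.f (nat_lit 432) (nat_lit 401) (nat_lit 6544) (.f (nat_lit 399) (nat_lit 431) (nat_lit 7567) (.d (nat_lit 400) (nat_lit 367) (nat_lit 7535) (nat_lit 495) (nat_lit 5519))))) (.f (nat_lit 559) (nat_lit 591) (nat_lit 5583) (.d (nat_lit 561) (nat_lit 562) (nat_lit 3598) (nat_lit 593) (nat_lit 4560)))))) (.a (.p (nat_lit 464) (.a (.d (nat_lit 559) (nat_lit 432) (nat_lit 5551) (nat_lit 591) (nat_lit 5583)) (.a (.f (nat_lit 433) (nat_lit 465) (nat_lit 6576) (.f (nat_lit 432) (nat_lit 401) (nat_lit 6544) (.f (nat_lit 399) (nat_lit 431) (nat_lit 7567) (.d (nat_lit 400) (nat_lit 367) (nat_lit 7535) (nat_lit 495) (nat_lit 5519))))) (.f (nat_lit 559) (nat_lit 591) (nat_lit 5583) (.f (nat_lit 465) (nat_lit 433) (nat_lit 6576) (.f (nat_lit 592) (nat_lit 497) (nat_lit 6608) (.d (nat_lit 624) (nat_lit 495) (nat_lit 7663) (nat_lit 656) (nat_lit 7695)))))))) (.a (.p (nat_lit 592) (.a (.f (nat_lit 623) (nat_lit 591) (nat_lit 5615) (.f (nat_lit 624) (nat_lit 655) (nat_lit 5647) (.d (nat_lit 625) (nat_lit 593) (nat_lit 4592) (nat_lit 657) (nat_lit 4624)))) (.f (nat_lit 497) (nat_lit 465) (nat_lit 6608) (.d (nat_lit 498) (nat_lit 495) (nat_lit 1518) (nat_lit 499) (nat_lit 1519))))) (.a (.p (nat_lit 464) (.a (.f (nat_lit 465) (nat_lit 433) (nat_lit 6576) (.f (nat_lit 592) (nat_lit 497) (nat_lit 6608) (.d (nat_lit 593) (nat_lit 561) (nat_lit 4560) (nat_lit 625) (nat_lit 4592)))) (.a (.f (nat_lit 433) (nat_lit 465) (nat_lit 6576) (.f (nat_lit 432) (nat_lit 401) (nat_lit 6544) (.f (nat_lit 399) (nat_lit 431) (nat_lit 7567) (.d (nat_lit 400) (nat_lit 367) (nat_lit 7535) (nat_lit 495) (nat_lit 5519))))) (.f (nat_lit 432) (nat_lit 559) (nat_lit 5551) (.f (nat_lit 400) (nat_lit 495) (nat_lit 5519) (.d (nat_lit 399) (nat_lit 367) (nat_lit 7535) (nat_lit 431) (nat_lit 7567))))))) (.p (nat_lit 464) (.a (.d (nat_lit 559) (nat_lit 432) (nat_lit 5551) (nat_lit 591) (nat_lit 5583)) (.a (.f (nat_lit 593) (nat_lit 561) (nat_lit 4560) (.f (nat_lit 592) (nat_lit 625) (nat_lit 4592) (.f (nat_lit 624) (nat_lit 495) (nat_lit 7663) (.d (nat_lit 623) (nat_lit 591) (nat_lit 5615) (nat_lit 655) (nat_lit 5647))))) (.f (nat_lit 432) (nat_lit 559) (nat_lit 5551) (.f (nat_lit 400) (nat_lit 495) (nat_lit 5519) (.d (nat_lit 399) (nat_lit 367) (nat_lit 7535) (nat_lit 431) (nat_lit 7567)))))))))))))) (.p (nat_lit 496) (.a (.f (nat_lit 525) (nat_lit 497) (nat_lit 2541) (.f (nat_lit 559) (nat_lit 524) (nat_lit 524) (.d (nat_lit 464) (nat_lit 432) (nat_lit 5551) (nat_lit 591) (nat_lit 5583)))) (.a (.p (nat_lit 592) (.a (.f (nat_lit 623) (nat_lit 591) (nat_lit 5615) (.f (nat_lit 624) (nat_lit 655) (nat_lit 5647) (.d (nat_lit 625) (nat_lit 593) (nat_lit 4592) (nat_lit 657) (nat_lit 4624)))) (.f (nat_lit 497) (nat_lit 465) (nat_lit 6608) (.d (nat_lit 498) (nat_lit 495) (nat_lit 1518) (nat_lit 499) (nat_lit 1519))))) (.a (.p (nat_lit 464) (.a (.d (nat_lit 559) (nat_lit 432) (nat_lit 5551) (nat_lit 591) (nat_lit 5583)) (.a (.f (nat_lit 433) (nat_lit 465) (nat_lit 6576) (.f (nat_lit 432) (nat_lit 401) (nat_lit 6544) (.f (nat_lit 399) (nat_lit 431) (nat_lit 7567) (.d (nat_lit 400) (nat_lit 367) (nat_lit 7535) (nat_lit 495) (nat_lit 5519))))) (.f (nat_lit 559) (nat_lit 591) (nat_lit 5583) (.f (nat_lit 525) (nat_lit 524) (nat_lit 524) (.f (nat_lit 557) (nat_lit 556) (nat_lit 1548) (.f (nat_lit 493) (nat_lit 492) (nat_lit 3564) (.f (nat_lit 465) (nat_lit 433) (nat_lit 6576) (.f (nat_lit 494) (nat_lit 495) (nat_lit 2509) (.d (nat_lit 462) (nat_lit 430) (nat_lit 5549) (nat_lit 589) (nat_lit 6605))))))))))) (.f (nat_lit 525) (nat_lit 497) (nat_lit 2541) (.d (nat_lit 524) (nat_lit 495) (nat_lit 2540) (nat_lit 559) (nat_lit 524)))))))))))) (.a (.p (nat_lit 529) (.a (.f (nat_lit 497) (nat_lit 498) (nat_lit 2542) (.f (nat_lit 525) (nat_lit 496) (nat_lit 2541) (.d (nat_lit 493) (nat_lit 492) (nat_lit 3564) (nat_lit 494) (nat_lit 3565)))) (.a (.f (nat_lit 493) (nat_lit 494) (nat_lit 3565) (.f (nat_lit 525) (nat_lit 492) (nat_lit 3564) (.d (nat_lit 557) (nat_lit 556) (nat_lit 1548) (nat_lit 558) (nat_lit 1549)))) (.f (nat_lit 558) (nat_lit 557) (nat_lit 1549) (.f (nat_lit 530) (nat_lit 559) (nat_lit 1550) (.d (nat_lit 498) (nat_lit 497) (nat_lit 2542) (nat_lit 499) (nat_lit 2543))))))) (.a (.p (nat_lit 529) (.a (.f (nat_lit 494) (nat_lit 493) (nat_lit 3565) (.f (nat_lit 558) (nat_lit 557) (nat_lit 1549) (.d (nat_lit 530) (nat_lit 495) (nat_lit 3566) (nat_lit 559) (nat_lit 1550)))) (.a (.f (nat_lit 494) (nat_lit 493) (nat_lit 3565) (.f (nat_lit 530) (nat_lit 495) (nat_lit 3566) (.d (nat_lit 498) (nat_lit 497) (nat_lit 2542) (nat_lit 499) (nat_lit 2543)))) (.a (.f (nat_lit 558) (nat_lit 557) (nat_lit 1549) (.f (nat_lit 530) (nat_lit 559) (nat_lit 1550) (.d (nat_lit 498) (nat_lit 497) (nat_lit 2542) (nat_lit 499) (nat_lit 2543)))) s27251)))) (.a s26280 s26281)))))))) (.a (.p (nat_lit 526) (.a (.p (nat_lit 529) (.a (.f (nat_lit 494) (nat_lit 493) (nat_lit 3565) (.f (nat_lit 558) (nat_lit 557) (nat_lit 1549) (.d (nat_lit 530) (nat_lit 495) (nat_lit 3566) (nat_lit 559) (nat_lit 1550)))) (.a (.f (nat_lit 497) (nat_lit 498) (nat_lit 2542) (.f (nat_lit 525) (nat_lit 496) (nat_lit 2541) (.d (nat_lit 493) (nat_lit 492) (nat_lit 3564) (nat_lit 494) (nat_lit 3565)))) (.f (nat_lit 497) (nat_lit 498) (nat_lit 2542) (.f (nat_lit 525) (nat_lit 496) (nat_lit 2541) (.d (nat_lit 557) (nat_lit 556) (nat_lit 1548) (nat_lit 558) (nat_lit 1549))))))) (.a s26229 (.a s26230 (.a (.p (nat_lit 560) (.a (.f (nat_lit 525) (nat_lit 561) (nat_lit 525) (.f (nat_lit 496) (nat_lit 497) (nat_lit 2541) (.d (nat_lit 524) (nat_lit 495) (nat_lit 2540) (nat_lit 559) (nat_lit 524)))) (.a (.f (nat_lit 525) (nat_lit 561) (nat_lit 525) (.f (nat_lit 524) (nat_lit 559) (nat_lit 524) (.d (nat_lit 492) (nat_lit 491) (nat_lit 3563) (nat_lit 493) (nat_lit 3564)))) (.a (.f (nat_lit 525) (nat_lit 561) (nat_lit 525) (.f (nat_lit 496) (nat_lit 497) (nat_lit 2541) (.f (nat_lit 495) (nat_lit 524) (nat_lit 2540) (.d (nat_lit 463) (nat_lit 431) (nat_lit 4527) (nat_lit 592) (nat_lit 7631))))) (.a (.p (nat_lit 496) (.a s26246 (.a (.p (nat_lit 464) (.a (.f (nat_lit 433) (nat_lit 465) (nat_lit 6576) (.f (nat_lit 432) (nat_lit 401) (nat_lit 6544) (.d (nat_lit 431) (nat_lit 399) (nat_lit 7567) (nat_lit 463) (nat_lit 7599)))) (.a (.f (nat_lit 465) (nat_lit 433) (nat_lit 6576) (.f (nat_lit 592) (nat_lit 497) (nat_lit 6608) (.d (nat_lit 593) (nat_lit 561) (nat_lit 4560) (nat_lit 625) (nat_lit 4592)))) (.f (nat_lit 432) (nat_lit 559) (nat_lit 5551) (.d (nat_lit 431) (nat_lit 399) (nat_lit 7567) (nat_lit 463) (nat_lit 7599)))))) (.a (.p (nat_lit 464) (.a (.f (nat_lit 433) (nat_lit 465) (nat_lit 6576) (.f (nat_lit 432) (nat_lit 401) (nat_lit 6544) (.d (nat_lit 431) (nat_lit 399) (nat_lit 7567) (nat_lit 463) (nat_lit 7599)))) (.a (.f (nat_lit 433) (nat_lit 465) (nat_lit 6576) (.f (nat_lit 432) (nat_lit 401) (nat_lit 6544) (.f (nat_lit 399) (nat_lit 431) (nat_lit 7567) (.d (nat_lit 400) (nat_lit 367) (nat_lit 7535) (nat_lit 495) (nat_lit 5519))))) (.f (nat_lit 561) (nat_lit 593) (nat_lit 4560) (.d (nat_lit 562) (nat_lit 559) (nat_lit 3598) (nat_lit 563) (nat_lit 3599)))))) (.a s27902 (.a (.p (nat_lit 592) (.a (.d (nat_lit 495) (nat_lit 463) (nat_lit 7631) (nat_lit 624) (nat_lit 7663)) (.a (.f (nat_lit 625) (nat_lit 593) (nat_lit 4592) (.f (nat_lit 624) (nat_lit 657) (nat_lit 4624) (.f (nat_lit 655) (nat_lit 623) (nat_lit 5647) (.d (nat_lit 656) (nat_lit 559) (nat_lit 7695) (nat_lit 687) (nat_lit 5679))))) (.f (nat_lit 495) (nat_lit 463) (nat_lit 7631) (.d (nat_lit 497) (nat_lit 465) (nat_lit 6608) (nat_lit 498) (nat_lit 1518)))))) (.a (.p (nat_lit 464) (.a (.f (nat_lit 465) (nat_lit 433) (nat_lit 6576) (.f (nat_lit 592) (nat_lit 497) (nat_lit 6608) (.d (nat_lit 593) (nat_lit 561) (nat_lit 4560) (nat_lit 625) (nat_lit 4592)))) (.a (.f (nat_lit 433) (nat_lit 465) (nat_lit 6576) (.f (nat_lit 432) (nat_lit 401) (nat_lit 6544) (.f (nat_lit 399) (nat_lit 431) (nat_lit 7567) (.d (nat_lit 400) (nat_lit 367) (nat_lit 7535) (nat_lit 495) (nat_lit 5519))))) (.f (nat_lit 432) (nat_lit 559) (nat_lit 5551) (.f (nat_lit 400) (nat_lit 495) (nat_lit 5519) (.d (nat_lit 399) (nat_lit 367) (nat_lit 7535) (nat_lit 431) (nat_lit 7567))))))) (.p (nat_lit 464) (.a (.f (nat_lit 463) (nat_lit 431) (nat_lit 7599) (.f (nat_lit 592) (nat_lit 495) (nat_lit 7631) (.d (nat_lit 593) (nat_lit 561) (nat_lit 4560) (nat_lit 625) (nat_lit 4592)))) (.a (.f (nat_lit 432) (nat_lit 559) (nat_lit 5551) (.d (nat_lit 431) (nat_lit 399) (nat_lit 7567) (nat_lit 463) (nat_lit 7599))) (.a (.f (nat_lit 432) (nat_lit 559) (nat_lit 5551) (.f (nat_lit 400) (nat_lit 495) (nat_lit 5519) (.d (nat_lit 399) (nat_lit 367) (nat_lit 7535) (nat_lit 431) (nat_lit 7567)))) (.f (nat_lit 561) (nat_lit 593) (nat_lit 4560) (.d (nat_lit 562) (nat_lit 559) (nat_lit 3598) (nat_lit 563) (nat_lit 3599)))))))))))))) (.p (nat_lit 496) (.a (.f (nat_lit 525) (nat_lit 497) (nat_lit 2541) (.d (nat_lit 524) (nat_lit 495) (nat_lit 2540) (nat_lit 559) (nat_lit 524))) (.a (.f (nat_lit 525) (nat_lit 497) (nat_lit 2541) (.f (nat_lit 495) (nat_lit 524) (nat_lit 2540) (.d (nat_lit 463) (nat_lit 431) (nat_lit 4527) (nat_lit 592) (nat_lit 7631)))) (.a (.f (nat_lit 525) (nat_lit 497) (nat_lit 2541) (.f (nat_lit 524) (nat_lit 559) (nat_lit 524) (.d (nat_lit 492) (nat_lit 491) (nat_lit 3563) (nat_lit 493) (nat_lit 3564)))) s27902))))))))) (.a (.p (nat_lit 529) (.a (.f (nat_lit 497) (nat_lit 498) (nat_lit 2542) (.f (nat_lit 525) (nat_lit 496) (nat_lit 2541) (.d (nat_lit 493) (nat_lit 492) (nat_lit 3564) (nat_lit 494) (nat_lit 3565)))) (.a (.f (nat_lit 493) (nat_lit 494) (nat_lit 3565) (.f (nat_lit 525) (nat_lit 492) (nat_lit 3564) (.d (nat_lit 557) (nat_lit 556) (nat_lit 1548) (nat_lit 558) (nat_lit 1549)))) (.f (nat_lit 558) (nat_lit 557) (nat_lit 1549) (.f (nat_lit 530) (nat_lit 559) (nat_lit 1550) (.d (nat_lit 498) (nat_lit 497) (nat_lit 2542) (nat_lit 499) (nat_lit 2543))))))) (.a s26273 (.a s26280 s26281)))))))) (.a (.p (nat_lit 526) (.a s26263 (.a (.p (nat_lit 529) (.a (.f (nat_lit 494) (nat_lit 493) (nat_lit 3565) (.f (nat_lit 530) (nat_lit 495) (nat_lit 3566) (.d (nat_lit 498) (nat_lit 497) (nat_lit 2542) (nat_lit 499) (nat_lit 2543)))) (.a (.f (nat_lit 561) (nat_lit 562) (nat_lit 526) (.f (nat_lit 497) (nat_lit 498) (nat_lit 2542) (.f (nat_lit 560) (nat_lit 525) (nat_lit 525) (.d (nat_lit 465) (nat_lit 433) (nat_lit 5552) (nat_lit 592) (nat_lit 5584))))) (.f (nat_lit 494) (nat_lit 493) (nat_lit 3565) (.f (nat_lit 530) (nat_lit 495) (nat_lit 3566) (.d (nat_lit 562) (nat_lit 561) (nat_lit 526) (nat_lit 563) (nat_lit 527))))))) (.a s27092 (.a s27128 (.a s27810 (.a s27806 (.a s27853 (.a s27856 (.a s27927 (.a s27928 s27929))))))))))) (.a (.p (nat_lit 526) (.a (.p (nat_lit 529) (.a (.f (nat_lit 494) (nat_lit 493) (nat_lit 3565) (.f (nat_lit 558) (nat_lit 557) (nat_lit 1549) (.d (nat_lit 530) (nat_lit 495) (nat_lit 3566) (nat_lit 559) (nat_lit 1550)))) (.a (.f (nat_lit 497) (nat_lit 498) (nat_lit 2542) (.f (nat_lit 525) (nat_lit 496) (nat_lit 2541) (.d (nat_lit 493) (nat_lit 492) (nat_lit 3564) (nat_lit 494) (nat_lit 3565)))) (.f (nat_lit 497) (nat_lit 498) (nat_lit 2542) (.f (nat_lit 525) (nat_lit 496) (nat_lit 2541) (.d (nat_lit 557) (nat_lit 556) (nat_lit 1548) (nat_lit 558) (nat_lit 1549))))))) (.a s26229 (.a s26230 (.a (.p (nat_lit 560) (.a (.f (nat_lit 525) (nat_lit 561) (nat_lit 525) (.f (nat_lit 496) (nat_lit 497) (nat_lit 2541) (.d (nat_lit 524) (nat_lit 495) (nat_lit 2540) (nat_lit 559) (nat_lit 524)))) (.a (.f (nat_lit 525) (nat_lit 561) (nat_lit 525) (.f (nat_lit 524) (nat_lit 559) (nat_lit 524) (.d (nat_lit 492) (nat_lit 491) (nat_lit 3563) (nat_lit 493) (nat_lit 3564)))) (.a (.f (nat_lit 525) (nat_lit 561) (nat_lit 525) (.f (nat_lit 496) (nat_lit 497) (nat_lit 2541) (.f (nat_lit 495) (nat_lit 524) (nat_lit 2540) (.d (nat_lit 463) (nat_lit 431) (nat_lit 4527) (nat_lit 592) (nat_lit 7631))))) (.a (.p (nat_lit 592) (.a (.f (nat_lit 495) (nat_lit 624) (nat_lit 7663) (.d (nat_lit 463) (nat_lit 431) (nat_lit 4527) (nat_lit 496) (nat_lit 7631))) (.a (.f (nat_lit 624) (nat_lit 495) (nat_lit 7663) (.f (nat_lit 657) (nat_lit 625) (nat_lit 4624) (.f (nat_lit 656) (nat_lit 689) (nat_lit 4656) (.d (nat_lit 655) (nat_lit 623) (nat_lit 5647) (nat_lit 687) (nat_lit 5679))))) (.a s27950 (.p (nat_lit 496) (.a (.f (nat_lit 495) (nat_lit 463) (nat_lit 7631) (.d (nat_lit 497) (nat_lit 465) (nat_lit 6608) (nat_lit 498) (nat_lit 1518))) (.f (nat_lit 591) (nat_lit 623) (nat_lit 5615) (.f (nat_lit 559) (nat_lit 464) (nat_lit 5583) (.f (nat_lit 561) (nat_lit 562) (nat_lit 3598) (.f (nat_lit 590) (nat_lit 589) (nat_lit 2605) (.f (nat_lit 593) (nat_lit 625) (nat_lit 4592) (.f (nat_lit 558) (nat_lit 557) (nat_lit 557) (.d (nat_lit 622) (nat_lit 621) (nat_lit 1613) (nat_lit 654) (nat_lit 6670)))))))))))))) (.p (nat_lit 496) (.a (.p (nat_lit 592) (.a (.d (nat_lit 495) (nat_lit 463) (nat_lit 7631) (nat_lit 624) (nat_lit 7663)) (.a (.f (nat_lit 623) (nat_lit 591) (nat_lit 5615) (.f (nat_lit 624) (nat_lit 655) (nat_lit 5647) (.d (nat_lit 625) (nat_lit 593) (nat_lit 4592) (nat_lit 657) (nat_lit 4624)))) (.f (nat_lit 495) (nat_lit 463) (nat_lit 7631) (.d (nat_lit 497) (nat_lit 465) (nat_lit 6608) (nat_lit 498) (nat_lit 1518)))))) (.a (.f (nat_lit 525) (nat_lit 497) (nat_lit 2541) (.f (nat_lit 524) (nat_lit 559) (nat_lit 524) (.d (nat_lit 492) (nat_lit 491) (nat_lit 3563) (nat_lit 493) (nat_lit 3564)))) (.p (nat_lit 464) (.a (.f (nat_lit 463) (nat_lit 431) (nat_lit 7599) (.f (nat_lit 495) (nat_lit 592) (nat_lit 7631) (.f (nat_lit 465) (nat_lit 433) (nat_lit 6576) (.d (nat_lit 466) (nat_lit 467) (nat_lit 1487) (nat_lit 494) (nat_lit 1486))))) (.a (.f (nat_lit 559) (nat_lit 591) (nat_lit 5583) (.f (nat_lit 525) (nat_lit 524) (nat_lit 524) (.f (nat_lit 557) (nat_lit 556) (nat_lit 1548) (.f (nat_lit 493) (nat_lit 492) (nat_lit 3564) (.f (nat_lit 463) (nat_lit 431) (nat_lit 7599) (.f (nat_lit 465) (nat_lit 433) (nat_lit 6576) (.f (nat_lit 462) (nat_lit 494) (nat_lit 1485) (.d (nat_lit 430) (nat_lit 429) (nat_lit 3501) (nat_lit 461) (nat_lit 6573))))))))) (.a (.f (nat_lit 559) (nat_lit 591) (nat_lit 5583) (.f (nat_lit 463) (nat_lit 431) (nat_lit 7599) (.f (nat_lit 495) (nat_lit 592) (nat_lit 7631) (.f (nat_lit 525) (nat_lit 524) (nat_lit 524) (.f (nat_lit 558) (nat_lit 590) (nat_lit 5582) (.f (nat_lit 462) (nat_lit 430) (nat_lit 7598) (.f (nat_lit 461) (nat_lit 460) (nat_lit 460) (.d (nat_lit 429) (nat_lit 428) (nat_lit 3500) (nat_lit 493) (nat_lit 4525))))))))) (.f (nat_lit 559) (nat_lit 591) (nat_lit 5583) (.f (nat_lit 525) (nat_lit 524) (nat_lit 524) (.f (nat_lit 557) (nat_lit 556) (nat_lit 1548) (.f (nat_lit 493) (nat_lit 492) (nat_lit 3564) (.f (nat_lit 465) (nat_lit 433) (nat_lit 6576) (.f (nat_lit 494) (nat_lit 495) (nat_lit 2509) (.d (nat_lit 462) (nat_lit 430) (nat_lit 5549) (nat_lit 589) (nat_lit 6605)))))))))))))))))))) (.a (.p (nat_lit 529) (.a (.f (nat_lit 497) (nat_lit 498) (nat_lit 2542) (.f (nat_lit 525) (nat_lit 496) (nat_lit 2541) (.d (nat_lit 493) (nat_lit 492) (nat_lit 3564) (nat_lit 494) (nat_lit 3565)))) (.a (.f (nat_lit 493) (nat_lit 494) (nat_lit 3565) (.f (nat_lit 525) (nat_lit 492) (nat_lit 3564) (.d (nat_lit 557) (nat_lit 556) (nat_lit 1548) (nat_lit 558) (nat_lit 1549)))) (.f (nat_lit 558) (nat_lit 557) (nat_lit 1549) (.f (nat_lit 530) (nat_lit 559) (nat_lit 1550) (.d (nat_lit 498) (nat_lit 497) (nat_lit 2542) (nat_lit 499) (nat_lit 2543))))))) (.a s27759 (.a (.p (nat_lit 529) (.a (.f (nat_lit 494) (nat_lit 493) (nat_lit 3565) (.f (nat_lit 530) (nat_lit 495) (nat_lit 3566) (.d (nat_lit 498) (nat_lit 497) (nat_lit 2542) (nat_lit 499) (nat_lit 2543)))) (.a (.f (nat_lit 561) (nat_lit 562) (nat_lit 526) (.f (nat_lit 497) (nat_lit 498) (nat_lit 2542) (.f (nat_lit 560) (nat_lit 525) (nat_lit 525) (.d (nat_lit 465) (nat_lit 433) (nat_lit 5552) (nat_lit 592) (nat_lit 5584))))) (.f (nat_lit 494) (nat_lit 493) (nat_lit 3565) (.f (nat_lit 530) (nat_lit 495) (nat_lit 3566) (.d (nat_lit 562) (nat_lit 561) (nat_lit 526) (nat_lit 563) (nat_lit 527))))))) (.a s26280 s26281))))))))) (.a (.p (nat_lit 526) (.a (.p (nat_lit 529) (.a (.f (nat_lit 494) (nat_lit 493) (nat_lit 3565) (.f (nat_lit 558) (nat_lit 557) (nat_lit 1549) (.d (nat_lit 530) (nat_lit 495) (nat_lit 3566) (nat_lit 559) (nat_lit 1550)))) (.a (.f (nat_lit 497) (nat_lit 498) (nat_lit 2542) (.f (nat_lit 525) (nat_lit 496) (nat_lit 2541) (.d (nat_lit 493) (nat_lit 492) (nat_lit 3564) (nat_lit 494) (nat_lit 3565)))) (.f (nat_lit 497) (nat_lit 498) (nat_lit 2542) (.f (nat_lit 525) (nat_lit 496) (nat_lit 2541) (.d (nat_lit 557) (nat_lit 556) (nat_lit 1548) (nat_lit 558) (nat_lit 1549))))))) (.a s26229 (.a (.p (nat_lit 529) (.a (.f (nat_lit 494) (nat_lit 493) (nat_lit 3565) (.f (nat_lit 530) (nat_lit 495) (nat_lit 3566) (.d (nat_lit 498) (nat_lit 497) (nat_lit 2542) (nat_lit 499) (nat_lit 2543)))) (.a (.f (nat_lit 561) (nat_lit 562) (nat_lit 526) (.f (nat_lit 497) (nat_lit 498) (nat_lit 2542) (.f (nat_lit 560) (nat_lit 525) (nat_lit 525) (.d (nat_lit 465) (nat_lit 433) (nat_lit 5552) (nat_lit 592) (nat_lit 5584))))) (.f (nat_lit 494) (nat_lit 493) (nat_lit 3565) (.f (nat_lit 530) (nat_lit 495) (nat_lit 3566) (.d (nat_lit 562) (nat_lit 561) (nat_lit 526) (nat_lit 563) (nat_lit 527))))))) (.a (.p (nat_lit 560) (.a (.f (nat_lit 525) (nat_lit 561) (nat_lit 525) (.f (nat_lit 496) (nat_lit 497) (nat_lit 2541) (.d (nat_lit 524) (nat_lit 495) (nat_lit 2540) (nat_lit 559) (nat_lit 524)))) (.a (.f (nat_lit 525) (nat_lit 561) (nat_lit 525) (.f (nat_lit 524) (nat_lit 559) (nat_lit 524) (.d (nat_lit 492) (nat_lit 491) (nat_lit 3563) (nat_lit 493) (nat_lit 3564)))) (.a (.f (nat_lit 525) (nat_lit 561) (nat_lit 525) (.f (nat_lit 492) (nat_lit 493) (nat_lit 3564) (.f (nat_lit 524) (nat_lit 491) (nat_lit 3563) (.d (nat_lit 556) (nat_lit 555) (nat_lit 1547) (nat_lit 557) (nat_lit 1548))))) (.a (.p (nat_lit 592) (.a (.f (nat_lit 624) (nat_lit 495) (nat_lit 7663) (.f (nat_lit 657) (nat_lit 625) (nat_lit 4624) (.f (nat_lit 656) (nat_lit 689) (nat_lit 4656) (.d (nat_lit 655) (nat_lit 623) (nat_lit 5647) (nat_lit 687) (nat_lit 5679))))) (.a s27950 (.a (.p (nat_lit 496) (.a (.f (nat_lit 495) (nat_lit 463) (nat_lit 7631) (.d (nat_lit 497) (nat_lit 465) (nat_lit 6608) (nat_lit 498) (nat_lit 1518))) (.f (nat_lit 591) (nat_lit 623) (nat_lit 5615) (.f (nat_lit 559) (nat_lit 464) (nat_lit 5583) (.f (nat_lit 561) (nat_lit 562) (nat_lit 3598) (.f (nat_lit 590) (nat_lit 589) (nat_lit 2605) (.f (nat_lit 593) (nat_lit 625) (nat_lit 4592) (.f (nat_lit 558) (nat_lit 557) (nat_lit 557) (.d (nat_lit 622) (nat_lit 621) (nat_lit 1613) (nat_lit 654) (nat_lit 6670)))))))))) (.f (nat_lit 495) (nat_lit 624) (nat_lit 7663) (.d (nat_lit 463) (nat_lit 496) (nat_lit 7631) (nat_lit 559) (nat_lit 4559))))))) (.p (nat_lit 496) (.a (.p (nat_lit 592) (.a (.d (nat_lit 495) (nat_lit 463) (nat_lit 7631) (nat_lit 624) (nat_lit 7663)) (.a (.f (nat_lit 623) (nat_lit 591) (nat_lit 5615) (.f (nat_lit 624) (nat_lit 655) (nat_lit 5647) (.d (nat_lit 625) (nat_lit 593) (nat_lit 4592) (nat_lit 657) (nat_lit 4624)))) (.f (nat_lit 495) (nat_lit 463) (nat_lit 7631) (.d (nat_lit 497) (nat_lit 465) (nat_lit 6608) (nat_lit 498) (nat_lit 1518)))))) (.a (.f (nat_lit 525) (nat_lit 497) (nat_lit 2541) (.f (nat_lit 559) (nat_lit 524) (nat_lit 524) (.d (nat_lit 464) (nat_lit 432) (nat_lit 5551) (nat_lit 591) (nat_lit 5583)))) (.a (.p (nat_lit 464) (.a (.d (nat_lit 559) (nat_lit 432) (nat_lit 5551) (nat_lit 591) (nat_lit 5583)) (.a (.f (nat_lit 433) (nat_lit 465) (nat_lit 6576) (.f (nat_lit 432) (nat_lit 401) (nat_lit 6544) (.f (nat_lit 495) (nat_lit 400) (nat_lit 5519) (.d (nat_lit 592) (nat_lit 463) (nat_lit 7631) (nat_lit 624) (nat_lit 7663))))) (.f (nat_lit 559) (nat_lit 591) (nat_lit 5583) (.f (nat_lit 525) (nat_lit 524) (nat_lit 524) (.f (nat_lit 557) (nat_lit 556) (nat_lit 1548) (.f (nat_lit 493) (nat_lit 492) (nat_lit 3564) (.f (nat_lit 465) (nat_lit 433) (nat_lit 6576) (.f (nat_lit 494) (nat_lit 495) (nat_lit 2509) (.d (nat_lit 462) (nat_lit 430) (nat_lit 5549) (nat_lit 589) (nat_lit 6605))))))))))) (.f (nat_lit 525) (nat_lit 497) (nat_lit 2541) (.d (nat_lit 524) (nat_lit 495) (nat_lit 2540) (nat_lit 559) (nat_lit 524)))))))))))) (.a (.p (nat_lit 529) (.a (.f (nat_lit 497) (nat_lit 498) (nat_lit 2542) (.f (nat_lit 525) (nat_lit 496) (nat_lit 2541) (.d (nat_lit 493) (nat_lit 492) (nat_lit 3564) (nat_lit 494) (nat_lit 3565)))) (.a (.f (nat_lit 493) (nat_lit 494) (nat_lit 3565) (.f (nat_lit 525) (nat_lit 492) (nat_lit 3564) (.d (nat_lit 557) (nat_lit 556) (nat_lit 1548) (nat_lit 558) (nat_lit 1549)))) (.f (nat_lit 558) (nat_lit 557) (nat_lit 1549) (.f (nat_lit 530) (nat_lit 559) (nat_lit 1550) (.d (nat_lit 498) (nat_lit 497) (nat_lit 2542) (nat_lit 499) (nat_lit 2543))))))) (.a s27126 (.a s26280 s26281)))))))) (.a (.p (nat_lit 526) (.a s26281 (.a s26461 (.a s27118 (.a s27855 (.a s27807 (.a s27927 s27989))))))) (.a (.p (nat_lit 526) (.a s26280 (.a (.p (nat_lit 529) (.a (.f (nat_lit 558) (nat_lit 557) (nat_lit 1549) (.f (nat_lit 530) (nat_lit 559) (nat_lit 1550) (.d (nat_lit 498) (nat_lit 497) (nat_lit 2542) (nat_lit 499) (nat_lit 2543)))) (.a (.f (nat_lit 561) (nat_lit 562) (nat_lit 526) (.f (nat_lit 497) (nat_lit 498) (nat_lit 2542) (.f (nat_lit 560) (nat_lit 525) (nat_lit 525) (.d (nat_lit 465) (nat_lit 433) (nat_lit 5552) (nat_lit 592) (nat_lit 5584))))) (.f (nat_lit 558) (nat_lit 557) (nat_lit 1549) (.f (nat_lit 530) (nat_lit 559) (nat_lit 1550) (.d (nat_lit 562) (nat_lit 561) (nat_lit 526) (nat_lit 563) (nat_lit 527))))))) (.a s26470 (.a s27992 (.a s27093 (.a s27838 (.a s27808 (.a s27862 (.a s27928 (.a s27989 s27757))))))))))) (.a (.p (nat_lit 526) (.a (.p (nat_lit 529) (.a (.f (nat_lit 494) (nat_lit 493) (nat_lit 3565) (.f (nat_lit 558) (nat_lit 557) (nat_lit 1549) (.d (nat_lit 530) (nat_lit 495) (nat_lit 3566) (nat_lit 559) (nat_lit 1550)))) (.a (.f (nat_lit 497) (nat_lit 498) (nat_lit 2542) (.f (nat_lit 525) (nat_lit 496) (nat_lit 2541) (.d (nat_lit 493) (nat_lit 492) (nat_lit 3564) (nat_lit 494) (nat_lit 3565)))) (.f (nat_lit 497) (nat_lit 498) (nat_lit 2542) (.f (nat_lit 525) (nat_lit 496) (nat_lit 2541) (.d (nat_lit 557) (nat_lit 556) (nat_lit 1548) (nat_lit 558) (nat_lit 1549))))))) (.a s26229 (.a s26230 (.a s27118 (.a s26273 (.a s26280 (.a s26281 (.p (nat_lit 529) (.a (.f (nat_lit 494) (nat_lit 493) (nat_lit 3565) (.f (nat_lit 530) (nat_lit 495) (nat_lit 3566) (.d (nat_lit 498) (nat_lit 497) (nat_lit 2542) (nat_lit 499) (nat_lit 2543)))) (.a (.f (nat_lit 561) (nat_lit 562) (nat_lit 526) (.f (nat_lit 497) (nat_lit 498) (nat_lit 2542) (.f (nat_lit 560) (nat_lit 525) (nat_lit 525) (.d (nat_lit 465) (nat_lit 433) (nat_lit 5552) (nat_lit 592) (nat_lit 5584))))) (.f (nat_lit 494) (nat_lit 493) (nat_lit 3565) (.f (nat_lit 530) (nat_lit 495) (nat_lit 3566) (.d (nat_lit 562) (nat_lit 561) (nat_lit 526) (nat_lit 563) (nat_lit 527))))))))))))))) (.a (.p (nat_lit 526) (.a (.p (nat_lit 529) (.a (.f (nat_lit 494) (nat_lit 493) (nat_lit 3565) (.f (nat_lit 558) (nat_lit 557) (nat_lit 1549) (.d (nat_lit 530) (nat_lit 495) (nat_lit 3566) (nat_lit 559) (nat_lit 1550)))) (.a (.f (nat_lit 497) (nat_lit 498) (nat_lit 2542) (.f (nat_lit 525) (nat_lit 496) (nat_lit 2541) (.d (nat_lit 493) (nat_lit 492) (nat_lit 3564) (nat_lit 494) (nat_lit 3565)))) (.f (nat_lit 497) (nat_lit 498) (nat_lit 2542) (.f (nat_lit 525) (nat_lit 496) (nat_lit 2541) (.d (nat_lit 557) (nat_lit 556) (nat_lit 1548) (nat_lit 558) (nat_lit 1549))))))) (.a s26229 (.a s26230 (.a s26461 (.a (.p (nat_lit 529) (.a (.f (nat_lit 497) (nat_lit 498) (nat_lit 2542) (.f (nat_lit 525) (nat_lit 496) (nat_lit 2541) (.d (nat_lit 493) (nat_lit 492) (nat_lit 3564) (nat_lit 494) (nat_lit 3565)))) (.a (.f (nat_lit 493) (nat_lit 494) (nat_lit 3565) (.f (nat_lit 525) (nat_lit 492) (nat_lit 3564) (.d (nat_lit 557) (nat_lit 556) (nat_lit 1548) (nat_lit 558) (nat_lit 1549)))) (.f (nat_lit 558) (nat_lit 557) (nat_lit 1549) (.f (nat_lit 530) (nat_lit 559) (nat_lit 1550) (.d (nat_lit 498) (nat_lit 497) (nat_lit 2542) (nat_lit 499) (nat_lit 2543))))))) (.a s27759 (.a s27118 (.a s27863 (.a s27929 s27757)))))))))) (.a (.p (nat_lit 526) (.a (.p (nat_lit 529) (.a (.f (nat_lit 494) (nat_lit 493) (nat_lit 3565) (.f (nat_lit 558) (nat_lit 557) (nat_lit 1549) (.d (nat_lit 530) (nat_lit 495) (nat_lit 3566) (nat_lit 559) (nat_lit 1550)))) (.a (.f (nat_lit 497) (nat_lit 498) (nat_lit 2542) (.f (nat_lit 525) (nat_lit 496) (nat_lit 2541) (.d (nat_lit 493) (nat_lit 492) (nat_lit 3564) (nat_lit 494) (nat_lit 3565)))) (.f (nat_lit 497) (nat_lit 498) (nat_lit 2542) (.f (nat_lit 525) (nat_lit 496) (nat_lit 2541) (.d (nat_lit 557) (nat_lit 556) (nat_lit 1548) (nat_lit 558) (nat_lit 1549))))))) (.a s26229 (.a s26230 (.a s27118 (.a s26429 (.a s26280 (.a s26281 (.p (nat_lit 529) (.a (.f (nat_lit 494) (nat_lit 493) (nat_lit 3565) (.f (nat_lit 530) (nat_lit 495) (nat_lit 3566) (.d (nat_lit 498) (nat_lit 497) (nat_lit 2542) (nat_lit 499) (nat_lit 2543)))) (.a (.f (nat_lit 561) (nat_lit 562) (nat_lit 526) (.f (nat_lit 497) (nat_lit 498) (nat_lit 2542) (.f (nat_lit 560) (nat_lit 525) (nat_lit 525) (.d (nat_lit 465) (nat_lit 433) (nat_lit 5552) (nat_lit 592) (nat_lit 5584))))) (.f (nat_lit 494) (nat_lit 493) (nat_lit 3565) (.f (nat_lit 530) (nat_lit 495) (nat_lit 3566) (.d (nat_lit 562) (nat_lit 561) (nat_lit 526) (nat_lit 563) (nat_lit 527))))))))))))))) (.a (.p (nat_lit 526) (.a s26263 (.a s26429 (.a (.p (nat_lit 529) (.a (.f (nat_lit 494) (nat_lit 493) (nat_lit 3565) (.f (nat_lit 530) (nat_lit 495) (nat_lit 3566) (.d (nat_lit 498) (nat_lit 497) (nat_lit 2542) (nat_lit 499) (nat_lit 2543)))) (.a (.f (nat_lit 561) (nat_lit 562) (nat_lit 526) (.f (nat_lit 497) (nat_lit 498) (nat_lit 2542) (.f (nat_lit 560) (nat_lit 525) (nat_lit 525) (.d (nat_lit 465) (nat_lit 433) (nat_lit 5552) (nat_lit 592) (nat_lit 5584))))) (.f (nat_lit 494) (nat_lit 493) (nat_lit 3565) (.f (nat_lit 530) (nat_lit 495) (nat_lit 3566) (.d (nat_lit 562) (nat_lit 561) (nat_lit 526) (nat_lit 563) (nat_lit 527))))))) (.a s27091 (.a (.p (nat_lit 529) (.a (.f (nat_lit 558) (nat_lit 557) (nat_lit 1549) (.f (nat_lit 530) (nat_lit 559) (nat_lit 1550) (.d (nat_lit 498) (nat_lit 497) (nat_lit 2542) (nat_lit 499) (nat_lit 2543)))) (.a (.f (nat_lit 561) (nat_lit 562) (nat_lit 526) (.f (nat_lit 497) (nat_lit 498) (nat_lit 2542) (.f (nat_lit 560) (nat_lit 525) (nat_lit 525) (.d (nat_lit 465) (nat_lit 433) (nat_lit 5552) (nat_lit 592) (nat_lit 5584))))) (.f (nat_lit 558) (nat_lit 557) (nat_lit 1549) (.f (nat_lit 530) (nat_lit 559) (nat_lit 1550) (.d (nat_lit 562) (nat_lit 561) (nat_lit 526) (nat_lit 563) (nat_lit 527))))))) (.a s27759 s27855))))))) (.p (nat_lit 526) (.a s26273 (.a s26429 (.a (.p (nat_lit 529) (.a (.f (nat_lit 494) (nat_lit 493) (nat_lit 3565) (.f (nat_lit 530) (nat_lit 495) (nat_lit 3566) (.d (nat_lit 498) (nat_lit 497) (nat_lit 2542) (nat_lit 499) (nat_lit 2543)))) (.a (.f (nat_lit 561) (nat_lit 562) (nat_lit 526) (.f (nat_lit 497) (nat_lit 498) (nat_lit 2542) (.f (nat_lit 560) (nat_lit 525) (nat_lit 525) (.d (nat_lit 465) (nat_lit 433) (nat_lit 5552) (nat_lit 592) (nat_lit 5584))))) (.f (nat_lit 494) (nat_lit 493) (nat_lit 3565) (.f (nat_lit 530) (nat_lit 495) (nat_lit 3566) (.d (nat_lit 562) (nat_lit 561) (nat_lit 526) (nat_lit 563) (nat_lit 527))))))) (.a s27992 (.a s27091 (.a s26280 (.a s27759 s27855)))))))))))))))))))))))))))))))))))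
end Vale.Agent.Lib.P062.Part3
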