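import Vale.Agent.Lib.P062.Part3.A4_0

set_option maxRecDepth 100000
set_option linter.all false

namespace Vale.Agent.Lib.P062.Part3
open Vale.Agent.Lib.P062 Vale.Agent.Lib.P062.V2

theorem alt4 : WinsOutside 4815798252081939020088865855502101593192626739080949217617606233640195856564420310655673562041659321225818910705160263977215023110745990311604991563525350948395833556350406289627910674899598307026471032455168 :=
  winsOutside_of_chk (t := s14355) (by decide +kernel)

end Vale.Agent.Lib.P062.Part3
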